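import Crest.Agent.T170.EllC_61
import Crest.Agent.T170.DescFine_74
import Crest.Agent.T170.LogB_89
import Crest.Agent.T170.W3_90

-- ▼ part T170/EllD_61
section

/-!
# Row 170, module D (helper61), part D: invariance of the Gauss valuation under translations

* `GaussX.add_pt` : `x(ξ + T)` has the Gauss property if `x(ξ)` has and `T` is algebraic over `K`.
* `GaussX.val_map` : a semilinear translation preserves the Gauss valuation.
* `GaussX.val_deriv_le` : derivations killing `x, y` are bounded.
* `exists_gaussX` : existence of the Gauss valuation on `K(E)`.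
-/

set_option autoImplicit false

namespace Crest.Agent.T170.Ell

open WeierstrassCurve WeierstrassCurve.Affine Polynomial Place

namespace Place

variable {K L Om : Type*} [Field K] [Field L] [Field Om]

/-- The field of values of a place. -/
def resField (P : Place K Om) : Subfield Om where
  carrier := {a | ∃ c, P.Sp c a}
  mul_mem' := fun ⟨_, h⟩ ⟨_, h'⟩ => ⟨_, h.mul h'⟩
  one_mem' := ⟨_, sp_one⟩
  add_mem' := fun ⟨_, h⟩ ⟨_, h'⟩ => ⟨_, h.add h'⟩
  zero_mem' := ⟨_, sp_zero⟩
  neg_mem' := fun ⟨_, h⟩ => ⟨_, h.neg⟩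
  inv_mem' := fun a ⟨_, h⟩ => by
    rcases eq_or_ne a 0 with rfl | ha
    exacts [⟨_, by simpa using sp_zero⟩, ⟨_, h.inv ha⟩]


/-- Every place is a surjective place onto its field of values. -/
theorem exists_onto (P : Place K Om) : ∃ P' : Place K P.resField,
    (∀ c d, P'.Sp c d ↔ P.Sp c (d : Om)) ∧ ∀ d, ∃ c, P'.Sp c d := by
  obtain ⟨P', h⟩ := P.exists_codRestrict P.resField.subtype fun x b hb => ⟨⟨b, x, hb⟩, rfl⟩
  exact ⟨P', h, fun ⟨_, c, hc⟩ => ⟨c, (h _ _).mpr hc⟩⟩

/-- Values of algebraic elements are algebraic. -/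
theorem isAlgebraic_sp {κ : Type*} [Field κ] [Algebra K L] [Algebra κ Om] {P : Place K κ}
    {Q : Place L Om} (hPQ : ∀ c d, P.Sp c d → Q.Sp (algebraMap K L c) (algebraMap κ Om d))
    {t : L} {a : Om} (ht : IsAlgebraic K t) (h : Q.Sp t a) : IsAlgebraic κ a := by
  obtain ⟨f, hf, e⟩ := ht
  obtain ⟨c, p, pb, rfl, hp, h0⟩ := P.exists_polySp_content f
  have hc : c ≠ 0 := by
    rintro rfl
    exact hf (by simp)
  have e' : aeval t p = 0 := by simpa [hc] using e
  have h1 : Q.Sp (aeval t p) (aeval a pb) := hp.sp_eval₂ hPQ h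
  rw [e'] at h1
  exact ⟨pb, h0, h1.unique sp_zero⟩

/-- The structure map to the values of a place that is finite on `R`. -/
noncomputable def valHom (P : Place L Om) {R : Type*} [CommRing R] (i : R →+* L)
    (h : ∀ r, i r ∈ P.A) : R →+* Om :=
  P.φ.comp (i.codRestrict P.A.toSubring h)

theorem sp_valHom (P : Place L Om) {R : Type*} [CommRing R] (i : R →+* L) (h : ∀ r, i r ∈ P.A)
    (r : R) : P.Sp (i r) (P.valHom i h r) := ⟨h r, rfl⟩

end Place

variable {R K L : Type*} [CommRing R] [Field K] [Field L] [Algebra R K] [Algebra R L]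
  [Algebra K L] [IsScalarTower R K L] {Γ : Type*} [LinearOrderedCommGroupWithZero Γ]
  {v : Valuation L Γ} {W : Affine R} {x y : L}

theorem red_mem_algPts [W.IsElliptic] [DecidableEq L] {κ Om : Type*} [Field κ] [Field Om]
    [DecidableEq Om] [Algebra κ Om] [Algebra R κ] [Algebra R Om] [IsScalarTower R κ Om]
    {P : Place K κ} {Q : Place L Om} (hQ : Q.Over R)
    (hPQ : ∀ c d, P.Sp c d → Q.Sp (algebraMap K L c) (algebraMap κ Om d)) {T : (W⁄L).Point}
    (hT : T ∈ algPts W K L) : red W hQ T ∈ algPts W κ Om := by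
  rcases T with _ | ⟨s, t, hst⟩
  · rw [← Point.zero_def, map_zero]; exact zero_mem _
  by_cases hs : s ∈ Q.A
  · rw [red_some_of_sp hQ hst (sp_val hs) (sp_val (y_mem hQ hst.1 hs)), some_mem_algPts_iff]
    exact isAlgebraic_sp hPQ ((some_mem_algPts_iff _).mp hT) (sp_val hs)
  · rw [red_some_of_not_mem hQ hst hs]; exact zero_mem _

/-- Translating the generic point by an algebraic point preserves the Gauss property. -/
theorem GaussX.add_pt [W.IsElliptic] [DecidableEq L] (hg : GaussX v K x)
    (hR : ∀ r : R, v (algebraMap R L r) ≤ 1) (ns : (W⁄L).Nonsingular x y) {T : (W⁄L).Point}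
    (hT : T ∈ algPts W K L) {x' y' : L} {ns' : (W⁄L).Nonsingular x' y'}
    (e : Point.some x' y' ns' = Point.some x y ns + T) : GaussX v K x' := by
  classical
  let Q := Place.ofValuationSubring v.valuationSubring
  have hQ : Q.IsOf v := isOf_ofValuationSubring v
  obtain ⟨P, hP, hs⟩ := (Q.comap (algebraMap K L)).exists_onto
  have hPQ : ∀ c d, P.Sp c d → Q.Sp (algebraMap K L c) (algebraMap _ _ d) := fun c d h =>
    (hP c d).mp h
  have hm : ∀ r, algebraMap R K r ∈ P.A := fun r => (mem_iff_of_sp hPQ _).mp (by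
    rw [← IsScalarTower.algebraMap_apply]; exact hR r)
  let _ := (P.valHom _ hm).toAlgebra
  let _ := ((Q.comap (algebraMap K L)).resField.subtype.comp (P.valHom _ hm)).toAlgebra
  have : IsScalarTower R (Q.comap (algebraMap K L)).resField
      (IsLocalRing.ResidueField v.valuationSubring) := .of_algebraMap_eq fun _ => rfl
  have hQR : Q.Over R := fun r => by
    rw [IsScalarTower.algebraMap_apply R K L]
    exact hPQ _ _ (P.sp_valHom _ hm r)
  have hx := sp_val ((hQ x).mpr hg.le_one)
  have hy := sp_val (y_mem hQR ns.1 hx.mem)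
  have h1 : red W hQR (.some x y ns) ∉ algPts W (Q.comap (algebraMap K L)).resField _ := by
    rw [red_some_of_sp hQR ns hx hy, some_mem_algPts_iff]
    exact hg.transcendental_sp hQ hPQ hs hx
  have h2 : red W hQR (.some x' y' ns') ∉ algPts W (Q.comap (algebraMap K L)).resField _ := by
    intro hm
    rw [e, map_add] at hm
    exact h1 (by simpa using sub_mem hm (red_mem_algPts hQR hPQ hT))
  have hx' : x' ∈ Q.A := by
    by_contra hn
    rw [red_some_of_not_mem hQR ns' hn] at h2
    exact h2 (zero_mem _)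
  rw [red_some_of_sp hQR ns' (sp_val hx') (sp_val (y_mem hQR ns'.1 hx')),
    some_mem_algPts_iff] at h2
  exact gaussX_of_transcendental hQ hPQ (sp_val hx') h2

omit [Algebra R K] [Algebra R L] [IsScalarTower R K L] in
theorem GaussX.comap {K' L' : Type*} [Field K'] [Field L'] [Algebra K' L'] {τ : L' →+* L}
    {σ : K' →+* K} (hτ : ∀ c, τ (algebraMap K' L' c) = algebraMap K L (σ c)) {x' : L'}
    (hg : GaussX v K (τ x')) : GaussX (v.comap τ) K' x' := fun f γ => by
  have e : τ (aeval x' f) = aeval (τ x') (f.map σ) := by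
    rw [aeval_def, aeval_def, hom_eval₂, eval₂_map]
    congr 1
    exact RingHom.ext hτ
  rw [Valuation.comap_apply, e, hg]
  simp only [coeff_map, Valuation.comap_apply, hτ]

/-- **A semilinear translation preserves the Gauss valuation.** -/
theorem GaussX.val_map [W.IsElliptic] [DecidableEq L] (hg : GaussX v K x)
    (hR : ∀ r : R, v (algebraMap R L r) ≤ 1) (ns : (W⁄L).Nonsingular x y)
    (hgen : IntermediateField.adjoin K {x, y} = ⊤) {S : Type*} [CommRing S] [Algebra R S]
    [Algebra S L] [IsScalarTower R S L] (τ : L →ₐ[S] L) (σ : K →+* K)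
    (hτ : ∀ c, τ (algebraMap K L c) = algebraMap K L (σ c))
    (hσ : ∀ c, v (algebraMap K L (σ c)) = v (algebraMap K L c)) {T : (W⁄L).Point}
    (hT : T ∈ algPts W K L) (e : Point.map τ (.some x y ns) = Point.some x y ns + T) (z : L) :
    v (τ z) = v z := by
  rw [Point.map_some] at e
  have h1 : GaussX (v.comap (τ : L →+* L)) K x := GaussX.comap (σ := σ) hτ (hg.add_pt hR ns hT e)
  have h2 := hg.valuation_ext h1 hR ⟨ns.1, hg.transcendental, hgen⟩ fun c => by
    rw [Valuation.comap_apply, RingHom.coe_coe, hτ, hσ]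
  exact (congrArg (fun w : Valuation L Γ => w z) h2).symm

omit [Algebra R K] [IsScalarTower R K L] in
/-- Points defined over a field `C` of elements algebraic over `K` are algebraic points. -/
theorem baseChange_mem_algPts' [DecidableEq L] [Algebra R K] [IsScalarTower R K L] {C : Type*}
    [Field C] [DecidableEq C] [Algebra R C] [Algebra C L] [IsScalarTower R C L]
    (hC : ∀ c : C, IsAlgebraic K (algebraMap C L c)) (T : (W⁄C).Point) :
    Point.baseChange C L T ∈ algPts W K L := by
  rcases T with _ | ⟨a, b, h⟩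
  · exact zero_mem _
  · exact (some_mem_algPts_iff _).mpr (hC a)



end Crest.Agent.T170.Ell
end

-- ▼ part T170/DescCore_74

/-!
# Row 170, descent (helper74): `CoreData` from `World`, part 1

`X : World`, abstract fields `K ⊆ E ⊆ N` with an embedding `j : N →ₐ[X.C] U` (structure `Emb`).

* `Emb.exists_const` : `j K ⊆ ℂ`;  `Emb.exists_der` : the derivations restrict to `N` and `K`;
* `Emb.exists_restrict` : `γ` restricts to `K` and `E`;
* `Emb.coreData_of` : all fields of `CoreData` except the logarithmic ones.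
-/

set_option autoImplicit false
set_option linter.unusedSectionVars false

namespace Crest.Agent.T170.Desc74

open scoped NNReal Polynomial Classical
open WeierstrassCurve WeierstrassCurve.Affine Crest.Agent.T170.Fr Crest.Agent.T170.Ret
open IntermediateField

/-- restriction of an automorphism of finite order to a stable subfield -/
theorem exists_restrict_aut {C S N : Type*} [Field C] [Field S] [Field N] [Algebra C S]
    [Algebra C N] [Algebra S N] [IsScalarTower C S N] (γ : N ≃ₐ[C] N) (hfin : IsOfFinOrder γ)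
    (h : ∀ s : S, ∃ s' : S, γ (algebraMap S N s) = algebraMap S N s') :
    ∃ γ' : S ≃ₐ[C] S, ∀ s, γ (algebraMap S N s) = algebraMap S N (γ' s) := by
  choose f hf using h
  have hi := (algebraMap S N).injective
  let φ : S →ₐ[C] S :=
    { toFun := f
      map_one' := hi (by rw [← hf]; simp)
      map_mul' := fun a b => hi (by rw [← hf, map_mul, map_mul, map_mul, hf, hf])
      map_zero' := hi (by rw [← hf]; simp)
      map_add' := fun a b => hi (by rw [← hf, map_add, map_add, map_add, hf, hf])
      commutes' := fun c => hi (by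
        rw [← hf, ← IsScalarTower.algebraMap_apply, AlgEquiv.commutes]) }
  have hpow : ∀ (m : ℕ) (s : S), (γ ^ m) (algebraMap S N s) = algebraMap S N (f^[m] s) := by
    intro m
    induction m with
    | zero => intro s; simp
    | succ m ih =>
      intro s
      rw [pow_succ', AlgEquiv.mul_apply, ih, hf, Function.iterate_succ_apply']
  obtain ⟨m, hm, hγ⟩ := isOfFinOrder_iff_pow_eq_one.1 hfin
  have hsurj : Function.Surjective φ := fun s => by
    obtain ⟨k, rfl⟩ : ∃ k, m = k + 1 := ⟨m - 1, by omega⟩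
    refine ⟨f^[k] s, hi ?_⟩
    have := hpow (k + 1) s
    rw [hγ, Function.iterate_succ_apply'] at this
    exact this.symm
  exact ⟨AlgEquiv.ofBijective φ ⟨φ.toRingHom.injective, hsurj⟩, hf⟩

variable {p n : ℕ} [NeZero n] {U : Type} [Field U] [Algebra ℂ U] (X : World p n U)
  (K E N : Type) [Field K] [Field E] [Field N] [Algebra X.C K] [Algebra K E] [Algebra E N]
  [Algebra X.C E] [Algebra X.C N] [Algebra K N] [IsScalarTower X.C K E] [IsScalarTower K E N]
  [IsScalarTower X.C E N] [IsScalarTower X.C K N] [Algebra X.F K]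

/-- an embedding of the tower `F ⊆ K ⊆ E = K(x, y) ⊆ N` into `U` -/
structure Emb where
  j : N →ₐ[X.C] U
  jF : ∀ z : X.F, j (algebraMap K N (algebraMap X.F K z)) = algebraMap X.F U z
  x : E
  y : E
  jx : j (algebraMap E N x) = X.x
  jy : j (algebraMap E N y) = X.y
  gen : IntermediateField.adjoin K {x, y} = ⊤

namespace Emb

variable {X K E N} (J : Emb X K E N)

/-- the embedding of `E` -/
noncomputable def jE : E →ₐ[X.C] U := J.j.comp (IsScalarTower.toAlgHom X.C E N)

theorem jE_apply (z : E) : J.jE z = J.j (algebraMap E N z) := rfl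

/-- the embedding of `K` -/
noncomputable def jK : K →ₐ[X.C] U := J.j.comp (IsScalarTower.toAlgHom X.C K N)

theorem jK_apply (z : K) : J.jK z = J.j (algebraMap K N z) := rfl

theorem jE_algebraMap (z : K) : J.jE (algebraMap K E z) = J.jK z := by
  rw [jE_apply, jK_apply, ← IsScalarTower.algebraMap_apply]

theorem jK_F (z : X.F) : J.jK (algebraMap X.F K z) = algebraMap X.F U z := J.jF z


theorem charZero_of (S : Type) [Field S] [Algebra X.C S] : CharZero S :=
  charZero_of_injective_algebraMap (algebraMap X.C S).injective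

/-- the constants `K` lie in `ℂ` -/
theorem exists_const [Algebra.IsAlgebraic X.F K] (k : K) :
    ∃ c : ℂ, J.jK k = algebraMap ℂ U c := by
  let _ : Algebra K U := J.jK.toRingHom.toAlgebra
  have : IsScalarTower X.F K U := IsScalarTower.of_algebraMap_eq fun z => (J.jK_F z).symm
  have h1 : IsIntegral X.F (algebraMap K U k) := (Algebra.IsIntegral.isIntegral k).algebraMap
  have h2 : IsIntegral ℂ (algebraMap K U k) := h1.tower_top
  have h3 := minpoly.mem_range_of_degree_eq_one ℂ _
    (IsAlgClosed.degree_eq_one_of_irreducible ℂ (minpoly.irreducible h2))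
  obtain ⟨c, hc⟩ := h3
  exact ⟨c, hc.symm⟩

/-- the embedding of `K` into `ℂ` -/
theorem exists_emb [Algebra.IsAlgebraic X.F K] :
    ∃ ι : K →+* ℂ, ∀ k, algebraMap ℂ U (ι k) = J.jK k := by
  choose f hf using J.exists_const
  have hi := (algebraMap ℂ U).injective
  exact ⟨{ toFun := f
           map_one' := hi (by rw [← hf]; simp)
           map_mul' := fun a b => hi (by rw [← hf, map_mul, map_mul, hf, hf])
           map_zero' := hi (by rw [← hf]; simp)
           map_add' := fun a b => hi (by rw [← hf, map_add, map_add, hf, hf]) },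
    fun k => (hf k).symm⟩

theorem der_K [Algebra.IsAlgebraic X.F K] (i : Fin n) (k : K) :
    ∃ k' : K, X.D i (J.jK k) = J.jK k' := by
  have := charZero_of (X := X) K
  let _ : Algebra K U := J.jK.toRingHom.toAlgebra
  have : IsScalarTower X.F K U := IsScalarTower.of_algebraMap_eq fun z => (J.jK_F z).symm
  have h := Log.deriv_mem (X.D i) (IsScalarTower.toAlgHom X.F K U).fieldRange
    (fun a => by
      obtain ⟨a', ha⟩ := X.DF i a
      rw [ha]; exact IntermediateField.algebraMap_mem _ _)
    (z := J.jK k) ⟨k, rfl⟩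
    ((Algebra.IsSeparable.isSeparable X.F k).map (IsScalarTower.toAlgHom X.F K U)
      (algebraMap K U).injective)
  obtain ⟨k', hk'⟩ := h
  exact ⟨k', hk'.symm⟩

theorem der_E [Algebra.IsAlgebraic X.F K] (i : Fin n) (z : E) :
    ∃ z' : E, X.D i (J.jE z) = J.jE z' := by
  have hz : z ∈ IntermediateField.adjoin K {J.x, J.y} := by rw [J.gen]; trivial
  induction hz using IntermediateField.adjoin_induction with
  | mem x hx =>
    rcases hx with rfl | rfl
    · exact ⟨0, by rw [jE_apply, J.jx, X.Dx, map_zero]⟩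
    · exact ⟨0, by rw [jE_apply, J.jy, X.Dy, map_zero]⟩
  | algebraMap k =>
    obtain ⟨k', hk'⟩ := J.der_K i k
    exact ⟨algebraMap K E k', by rw [jE_algebraMap, jE_algebraMap, hk']⟩
  | add a b _ _ ha hb =>
    obtain ⟨a', ha⟩ := ha
    obtain ⟨b', hb⟩ := hb
    exact ⟨a' + b', by rw [map_add, map_add, map_add, ha, hb]⟩
  | inv a _ ha =>
    obtain ⟨a', ha⟩ := ha
    exact ⟨-a⁻¹ ^ 2 * a', by
      rw [map_inv₀, Derivation.leibniz_inv, ha]; simp⟩
  | mul a b _ _ ha hb =>
    obtain ⟨a', ha⟩ := ha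
    obtain ⟨b', hb⟩ := hb
    exact ⟨a * b' + b * a', by rw [map_mul, Derivation.leibniz, ha, hb]; simp⟩

theorem der_N [Algebra.IsAlgebraic X.F K] [Algebra.IsSeparable E N] (i : Fin n) (z : N) :
    ∃ z' : N, X.D i (J.j z) = J.j z' := by
  let _ : Algebra E U := J.jE.toRingHom.toAlgebra
  let j' : N →ₐ[E] U := { J.j.toRingHom with commutes' := fun _ => rfl }
  have h := Log.deriv_mem (X.D i) j'.fieldRange
    (fun a => by
      obtain ⟨a', ha⟩ := J.der_E i a
      exact ⟨algebraMap E N a', ha.symm⟩)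
    (z := J.j z) ⟨z, rfl⟩
    ((Algebra.IsSeparable.isSeparable E z).map j' j'.toRingHom.injective)
  obtain ⟨z', hz'⟩ := h
  exact ⟨z', hz'.symm⟩

/-- the derivations restrict to `N` and `K` -/
theorem exists_der [Algebra.IsAlgebraic X.F K] [Algebra.IsSeparable E N] :
    ∃ (D : Fin n → Derivation X.C N N) (d : Fin n → K → K),
      (∀ i z, J.j (D i z) = X.D i (J.j z)) ∧
      ∀ i z, D i (algebraMap K N z) = algebraMap K N (d i z) := by
  choose D hD using fun i => Log.exists_restrictDer' (X.D i) J.j J.j.toRingHom.injective (J.der_N i)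
  choose d hd using J.der_K
  exact ⟨D, d, hD, fun i z => J.j.toRingHom.injective (by
    change J.j _ = J.j _
    rw [hD]; exact hd i z)⟩

theorem ns : (X.W⁄E).Nonsingular J.x J.y := by
  have h := X.ns
  rw [← J.jx, ← J.jy, ← jE_apply, ← jE_apply] at h
  exact (baseChange_nonsingular X.W J.jE.toRingHom.injective (f := J.jE) J.x J.y).1 h

/-- the valuation on `E` -/
noncomputable def vE : Valuation E ℝ≥0 := X.v.comap J.jE.toRingHom

theorem vE_apply (z : E) : J.vE z = X.v (J.jE z) := rfl

theorem vE_K (z : K) : J.vE (algebraMap K E z) = X.v (J.jK z) := by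
  rw [vE_apply, jE_algebraMap]

theorem vE_C (z : X.C) : J.vE (algebraMap X.C E z) = X.v (algebraMap X.C U z) := by
  rw [vE_apply, AlgHom.commutes]

theorem vE_F (z : X.F) :
    J.vE (algebraMap K E (algebraMap X.F K z)) = X.v (algebraMap X.F U z) := by
  rw [vE_K, jK_F]

theorem vE_R (r : X.R) : J.vE (algebraMap X.R E r) ≤ 1 := by
  rw [IsScalarTower.algebraMap_apply X.R X.C E, vE_C]; exact X.vR r

theorem gaussX [Algebra.IsAlgebraic X.F K] : Ell.GaussX J.vE K J.x := by
  obtain ⟨ι, hι⟩ := J.exists_emb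
  let _ : Algebra K U := J.jK.toRingHom.toAlgebra
  let _ : Algebra K ℂ := ι.toAlgebra
  have : IsScalarTower K ℂ U := IsScalarTower.of_algebraMap_eq fun k => (hι k).symm
  have h : Ell.GaussX X.v K X.x := (Ell.gaussX_of_isAlgClosed X.vx X.gauss).of_tower
  let j' : E →ₐ[K] U := { J.jE.toRingHom with commutes' := J.jE_algebraMap }
  intro f γ
  have e : J.vE (Polynomial.aeval J.x f) = X.v (Polynomial.aeval X.x f) := by
    change X.v (j' (Polynomial.aeval J.x f)) = _
    rw [← Polynomial.aeval_algHom_apply, show j' J.x = X.x from J.jx]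
  rw [e, h]
  simp only [vE_K]
  rfl

theorem nontriv (hp : p ≠ 0) : ∃ z : X.F, z ≠ 0 ∧
    (J.vE.comap (algebraMap K E)) (algebraMap X.F K z) ≠ 1 :=
  ⟨(p : X.F), Nat.cast_ne_zero.2 hp, by
    rw [Valuation.comap_apply, vE_F, map_natCast]; exact X.vp.ne⟩

theorem cplF : Gal.Cpl ((J.vE.comap (algebraMap K E)).comap (algebraMap X.F K)) := by
  have e : (J.vE.comap (algebraMap K E)).comap (algebraMap X.F K) =
      X.v.comap (algebraMap X.F U) := Valuation.ext fun z => J.vE_F z
  rw [e]; exact X.cpl

/-- `γ` maps `E` into `E` -/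
theorem aut_E (γ : N ≃ₐ[X.C] N) (hx : J.j (γ (algebraMap E N J.x)) = X.g X.x)
    (hy : J.j (γ (algebraMap E N J.y)) = X.g X.y)
    (hK : ∀ k : K, ∃ k' : K, γ (algebraMap K N k) = algebraMap K N k') (z : E) :
    ∃ z' : E, γ (algebraMap E N z) = algebraMap E N z' := by
  have := X.ell
  have hc := W3.coord_mem X.W X.ns X.P J.jE.fieldRange ⟨J.x, J.jx⟩ ⟨J.y, J.jy⟩ X.gξ
  have hi := J.j.toRingHom.injective
  have hz : z ∈ IntermediateField.adjoin K {J.x, J.y} := by rw [J.gen]; trivial
  induction hz using IntermediateField.adjoin_induction with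
  | mem x hx' =>
    rcases hx' with rfl | rfl
    · obtain ⟨t, ht⟩ := hc.1
      exact ⟨t, hi (hx.trans ht.symm)⟩
    · obtain ⟨t, ht⟩ := hc.2
      exact ⟨t, hi (hy.trans ht.symm)⟩
  | algebraMap k =>
    obtain ⟨k', hk'⟩ := hK k
    exact ⟨algebraMap K E k', by
      rw [← IsScalarTower.algebraMap_apply, ← IsScalarTower.algebraMap_apply, hk']⟩
  | add a b _ _ ha hb =>
    obtain ⟨a', ha⟩ := ha
    obtain ⟨b', hb⟩ := hb
    exact ⟨a' + b', by rw [map_add, map_add, map_add, ha, hb]⟩
  | inv a _ ha =>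
    obtain ⟨a', ha⟩ := ha
    exact ⟨a'⁻¹, by rw [map_inv₀, map_inv₀, map_inv₀, ha]⟩
  | mul a b _ _ ha hb =>
    obtain ⟨a', ha⟩ := ha
    obtain ⟨b', hb⟩ := hb
    exact ⟨a' * b', by rw [map_mul, map_mul, map_mul, ha, hb]⟩

/-- `γ` rotates the derivations -/
theorem aut_der [Algebra.IsAlgebraic X.F K] [Algebra.IsAlgebraic E N] (γ : N ≃ₐ[X.C] N)
    (hF : ∀ z : X.F, γ (algebraMap K N (algebraMap X.F K z)) =
      algebraMap K N (algebraMap X.F K (X.σ z)))
    (hx : J.j (γ (algebraMap E N J.x)) = X.g X.x)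
    (D : Fin n → Derivation X.C N N) (hD : ∀ i z, J.j (D i z) = X.D i (J.j z)) (i : Fin n)
    (z : N) : γ (D i z) = D (i + 1) (γ z) := by
  have := charZero_of (X := X) N
  let _ : Algebra X.F N := ((algebraMap K N).comp (algebraMap X.F K)).toAlgebra
  let jF : N →ₐ[X.F] U := { J.j.toRingHom with commutes' := J.jF }
  have hi := J.j.toRingHom.injective
  have htr : Transcendental X.F (algebraMap E N J.x) := by
    have h1 : Transcendental X.F X.x := X.trans.restrictScalars (algebraMap X.F ℂ).injective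
    rw [← J.jx] at h1
    exact fun h => h1 (h.algHom jF)
  have halg : Algebra.IsAlgebraic X.F⟮algebraMap E N J.x⟯ N := by
    have h1 : Algebra.IsAlgebraic X.F⟮X.x⟯ U := W3.alg_adjoin X.algF X.alg
    have e : (X.F⟮algebraMap E N J.x⟯).map jF = X.F⟮X.x⟯ := by
      rw [IntermediateField.adjoin_map, Set.image_singleton]
      exact congrArg (fun t => X.F⟮t⟯) J.jx
    let ψ : X.F⟮algebraMap E N J.x⟯ ≃ₐ[X.F] X.F⟮X.x⟯ :=
      (IntermediateField.equivMap _ jF).trans (IntermediateField.equivOfEq e)
    refine ⟨fun t => ?_⟩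
    refine (h1.isAlgebraic (J.j t)).of_ringHom_of_comp_eq (f := (ψ : _ →+* _))
      (g := J.j.toRingHom) ψ.surjective hi ?_
    ext s
    rfl
  have key := W3.leib_zero htr halg (γ : N →+* N)
    (((γ : N →+* N) : N →+ N).comp (D i).toLinearMap.toAddMonoidHom -
      (D (i + 1)).toLinearMap.toAddMonoidHom.comp ((γ : N →+* N) : N →+ N))
    (fun a b => by
      simp only [AddMonoidHom.sub_apply, AddMonoidHom.comp_apply, AddMonoidHom.coe_coe,
        LinearMap.toAddMonoidHom_coe, Derivation.coeFn_coe, Derivation.leibniz, map_mul, map_add,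
        smul_eq_mul]
      ring)
    (fun c => by
      change γ (D i (algebraMap K N (algebraMap X.F K c))) -
        D (i + 1) (γ (algebraMap K N (algebraMap X.F K c))) = 0
      obtain ⟨c', hc'⟩ := X.DF i c
      have e : D i (algebraMap K N (algebraMap X.F K c)) =
          algebraMap K N (algebraMap X.F K c') := hi (by
        change J.j _ = J.j _
        rw [hD, J.jF, J.jF, hc'])
      rw [e, hF, hF, sub_eq_zero]
      refine hi ?_
      change J.j _ = J.j _
      rw [hD, J.jF, J.jF, ← X.gσ, ← X.gσ, ← X.gD, hc'])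
    (by
      change γ (D i (algebraMap E N J.x)) - D (i + 1) (γ (algebraMap E N J.x)) = 0
      have e : D i (algebraMap E N J.x) = 0 := hi (by
        change J.j _ = J.j _
        rw [hD, J.jx, X.Dx, map_zero])
      rw [e, map_zero, zero_sub, neg_eq_zero]
      refine hi ?_
      change J.j _ = J.j _
      rw [hD, hx, ← X.gD, X.Dx, map_zero, map_zero]) z
  exact sub_eq_zero.1 key

/-- all fields of `CoreData` except the logarithmic ones -/
theorem coreData_of (hp : p ≠ 0) [Algebra.IsAlgebraic X.F K] [Algebra.IsAlgebraic E N]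
    (cpl : Cpl (J.vE.comap (algebraMap K E)))
    (hvd : ∀ i (k : K), X.v (X.D i (J.jK k)) ≤ X.v (J.jK k))
    (γ : N ≃ₐ[X.C] N)
    (hF : ∀ z : X.F, γ (algebraMap K N (algebraMap X.F K z)) =
      algebraMap K N (algebraMap X.F K (X.σ z)))
    (hx : J.j (γ (algebraMap E N J.x)) = X.g X.x) (hy : J.j (γ (algebraMap E N J.y)) = X.g X.y)
    (hK : ∀ k : K, ∃ k' : K, γ (algebraMap K N k) = algebraMap K N k') (hfin : IsOfFinOrder γ)
    (V : ValuationSubring K) (fine : Fine (C := X.C) (J.vE.comap (algebraMap K E)) V)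
    (hV : ∀ k k' : K, γ (algebraMap K N k) = algebraMap K N k' → (k' ∈ V ↔ k ∈ V))
    (D : Fin n → Derivation X.C N N) (d : Fin n → K → K)
    (hD : ∀ i z, J.j (D i z) = X.D i (J.j z))
    (Dd : ∀ i z, D i (algebraMap K N z) = algebraMap K N (d i z))
    (pres₀ : ∀ i, ∀ h ∈ ({J.x - algebraMap K E (algebraMap X.F K (X.a i)),
        J.y - algebraMap K E (algebraMap X.F K (X.b i))} : Set E), ∀ z : N,
      IsIntegral (Algebra.adjoin K {algebraMap E N J.x}) z →
      IsIntegral (Algebra.adjoin K {algebraMap E N J.x}) (h • D i z))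
    (pres₁ : ∀ i, ∀ h ∈ ({1 - algebraMap K E (algebraMap X.F K (X.a i)) / J.x,
        (J.y - algebraMap K E (algebraMap X.F K (X.b i))) / J.x ^ 2} : Set E), ∀ z : N,
      IsIntegral (Algebra.adjoin K {(algebraMap E N J.x)⁻¹}) z →
      IsIntegral (Algebra.adjoin K {(algebraMap E N J.x)⁻¹}) (h • D i z))
    (i₀ : Fin n) (u : AV N) (n₀ : ℕ) (n₀pos : 0 < n₀)
    (uK : ∀ z : K, z ≠ 0 → u (algebraMap K N z) = 0)
    (uh : u (algebraMap E N (J.x - algebraMap K E (algebraMap X.F K (X.a i₀)))) =
      ((n₀ : ℤ) : WithTop ℤ))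
    (logd : ∀ (z : N) (k : ℤ), u z = (k : WithTop ℤ) →
      (k : WithTop ℤ) < u ((J.x - algebraMap K E (algebraMap X.F K (X.a i₀))) • D i₀ z +
        (((k : ℚ) / n₀ : ℚ) : N) * algebraMap K N (d i₀ (algebraMap X.F K (X.a i₀))) * z))
    (wild : ∃ (z : N) (k : ℤ), u z = (k : WithTop ℤ) ∧ p ∣ ((k : ℚ) / n₀).den) :
    Nonempty (CoreData p n X.R X.C K E N) := by
  have := X.ell
  have hi := J.j.toRingHom.injective
  obtain ⟨γK, hγK⟩ := exists_restrict_aut (S := K) γ hfin hK
  obtain ⟨γE, hγE⟩ := exists_restrict_aut (S := E) γ hfin (J.aut_E γ hx hy hK)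
  have hd : ∀ i k, J.jK (d i k) = X.D i (J.jK k) := fun i k => by
    rw [jK_apply, ← Dd, hD, jK_apply]
  have γEK : ∀ z, γE (algebraMap K E z) = algebraMap K E (γK z) := fun z =>
    (algebraMap E N).injective (by
      rw [← hγE, ← IsScalarTower.algebraMap_apply, ← IsScalarTower.algebraMap_apply, hγK])
  have vK : ∀ k, J.vE (algebraMap K E (γK k)) = J.vE (algebraMap K E k) := fun k =>
    Gal.val_equiv _ (J.nontriv hp) J.cplF (J.vE.comap (algebraMap K E)) (fun _ => rfl)
      (γK : K →+* K) (fun a => by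
        have e : γK (algebraMap X.F K a) = algebraMap X.F K (X.σ a) :=
          (algebraMap K N).injective (by rw [← hγK, hF])
        change J.vE (algebraMap K E (γK (algebraMap X.F K a))) =
          J.vE (algebraMap K E (algebraMap X.F K a))
        rw [e, vE_F, vE_F, X.vσ]) k
  have γξ : Point.map (γE : E →ₐ[X.C] E) (Point.some _ _ J.ns) =
      Point.some _ _ J.ns - Point.baseChange X.C E X.P := by
    apply Point.map_injective (f := J.jE)
    rw [map_sub, Point.map_baseChange, Point.map_map]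
    have e1 : Point.map J.jE (Point.some _ _ J.ns) = Point.some _ _ X.ns := by
      rw [Point.map_some]
      simp only [Point.some.injEq]
      exact ⟨J.jx, J.jy⟩
    rw [e1, ← X.gξ, Point.map_some, Point.map_some]
    simp only [Point.some.injEq]
    exact ⟨(congrArg J.j (hγE J.x)).symm.trans hx, (congrArg J.j (hγE J.y)).symm.trans hy⟩
  let _ : Algebra X.R K := ((algebraMap X.C K).comp (algebraMap X.R X.C)).toAlgebra
  have : IsScalarTower X.R K E := IsScalarTower.of_algebraMap_eq fun r =>
    (IsScalarTower.algebraMap_apply X.R X.C E r).trans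
      (IsScalarTower.algebraMap_apply X.C K E _)
  have vγ : ∀ z, J.vE (γE z) = J.vE z := fun z =>
    J.gaussX.val_map J.vE_R J.ns J.gen (γE : E →ₐ[X.C] E) (γK : K →+* K) γEK vK
      (T := -Point.baseChange X.C E X.P)
      (neg_mem (Ell.baseChange_mem_algPts' (fun c => by
        rw [IsScalarTower.algebraMap_apply X.C K E]; exact isAlgebraic_algebraMap _) X.P))
      (by rw [γξ, sub_eq_add_neg]) z
  have hdec : (fun a b : X.C => a.instDecidableEq b) =
      fun a b => Classical.propDecidable (a = b) := Subsingleton.elim _ _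
  exact ⟨{
    v := J.vE
    vp := by rw [vE_apply, map_natCast]; exact X.vp
    vgrp := fun z => by
      obtain ⟨c, hc⟩ := J.exists_const z
      obtain ⟨c', hc'⟩ := X.vgrp c
      exact ⟨c', by rw [vE_C, vE_K, hc, hc']⟩
    cpl := cpl
    vR := J.vE_R
    W := X.W
    ell := X.ell
    x := J.x
    y := J.y
    ns := J.ns
    gauss := Ell.gaussX_iff_sup.1 J.gaussX
    gen := J.gen
    P := X.P
    nP := by rw [← hdec]; exact X.nP
    Pint := fun j hj => by
      obtain ⟨s, t, h, h1, h2⟩ := X.Pint j hj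
      exact ⟨s, t, h, by rw [← hdec]; exact h1, by rw [vE_C]; exact h2⟩
    a := fun i => algebraMap X.F K (X.a i)
    b := fun i => algebraMap X.F K (X.b i)
    a' := X.a'
    b' := X.b'
    va' := fun i => by rw [vE_C]; exact X.va' i
    vaa' := fun i => by
      rw [vE_apply, map_sub, jE_algebraMap, jK_F, AlgHom.commutes]; exact X.vaa' i
    vbb' := fun i => by
      rw [vE_apply, map_sub, jE_algebraMap, jK_F, AlgHom.commutes]; exact X.vbb' i
    ns' := X.ns'
    O' := by rw [← hdec]; exact X.O'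
    D := D
    d := d
    Dd := Dd
    vd := fun i z => by rw [vE_K, vE_K, hd]; exact hvd i z
    Dx := fun i => hi (by
      change J.j _ = J.j _
      rw [hD, J.jx, X.Dx, map_zero])
    Dy := fun i => hi (by
      change J.j _ = J.j _
      rw [hD, J.jy, X.Dy, map_zero])
    Dcomm := fun i j z => hi (by
      change J.j _ = J.j _
      rw [hD, hD, hD, hD, X.Dcomm])
    pres₀ := pres₀
    pres₁ := pres₁
    i₀ := i₀
    u := u
    n₀ := n₀
    n₀pos := n₀pos
    uK := uK
    uh := uh
    logd := logd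
    wild := wild
    big := by
      rw [vE_K, hd, jK_F, vE_apply, map_natCast]; exact X.big i₀
    γ := γ
    γE := γE
    γK := γK
    γγE := hγE
    γEK := γEK
    γfin := hfin
    vγ := vγ
    γD := J.aut_der γ hF hx D hD
    γξ := by rw [← hdec]; exact γξ
    V := V
    fine := fine
    γV := fun z => hV z _ (hγK z) }⟩



end Emb

end Crest.Agent.T170.Desc74
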