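import Crest.Agent.T170.Fr_20

/-!
# Row 170, module F (helper6): the descent.  Definitions and leaf statements (Props only)

Everything happens inside the field `U` of a `Fr.World`.
-/

set_option autoImplicit false

noncomputable section

namespace Crest.Agent.T170.Ds

open scoped NNReal Polynomial Classical
open WeierstrassCurve WeierstrassCurve.Affine Crest.Agent.R170 Crest.Agent.T170.Ret
open Crest.Agent.T170.Fr

section Defs

variable {p n : ℕ} [NeZero n] {U : Type} [Field U] [Algebra ℂ U]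

/-- the automorphisms of `U` over the constants -/
abbrev Aut (X : World p n U) : Type := U ≃ₐ[X.C] U

/-- `B = ℂ(x, y)` -/
def B (X : World p n U) : IntermediateField ℂ U := IntermediateField.adjoin ℂ {X.x, X.y}

/-- `x` in `B` -/
def xB (X : World p n U) : B X := ⟨X.x, IntermediateField.subset_adjoin _ _ (by simp)⟩

/-- `y` in `B` -/
def yB (X : World p n U) : B X := ⟨X.y, IntermediateField.subset_adjoin _ _ (by simp)⟩

/-- the abscissae of the punctures, as complex numbers -/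
def aC (X : World p n U) (i : Fin n) : ℂ := X.a i

/-- the ordinates of the punctures, as complex numbers -/
def bC (X : World p n U) (i : Fin n) : ℂ := X.b i

/-- `z` is a complex constant -/
def IsC (z : U) : Prop := ∃ c : ℂ, algebraMap ℂ U c = z

/-- `φ` agrees with `g ^ j` on `F(x, y)` -/
structure Lift (X : World p n U) (φ : Aut X) (j : ℕ) : Prop where
  F : ∀ z : X.F, φ (algebraMap X.F U z) = (X.g ^ j) (algebraMap X.F U z)
  x : φ X.x = (X.g ^ j) X.x
  y : φ X.y = (X.g ^ j) X.y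

/-- `φ` fixes `ℂ`, `x`, `y` -/
structure Geo (X : World p n U) (φ : Aut X) : Prop where
  C : ∀ c : ℂ, φ (algebraMap ℂ U c) = algebraMap ℂ U c
  x : φ X.x = X.x
  y : φ X.y = X.y

end Defs








/-- **the geometric claim**: construction of the `CoreData` from subfields of `U` -/
def GeoStmt (p : ℕ) : Prop :=
  CoreStmt p →
  ∀ (n : ℕ) [NeZero n] (U : Type) [Field U] [Algebra ℂ U] [IsAlgClosed U] (X : World p n U)
    (M : IntermediateField (B X) U) [FiniteDimensional (B X) M] [IsGalois (B X) M],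
    UnrE M (xB X) (yB X) (aC X) (bC X) →
    ∀ K : IntermediateField X.C U, (∀ z : X.F, algebraMap X.F U z ∈ K) → (∀ z ∈ K, IsC z) →
    Cpl (X.v.comap (algebraMap K U)) → (∀ i, ∀ z ∈ K, X.v (X.D i z) ≤ X.v z) →
    ∀ (N : IntermediateField (IntermediateField.adjoin K {X.x, X.y}) U)
      [FiniteDimensional (IntermediateField.adjoin K {X.x, X.y}) N]
      [IsGalois (IntermediateField.adjoin K {X.x, X.y}) N], (∀ z ∈ N, z ∈ M) →
    ∀ φ : Aut X, Lift X φ 1 → (∀ z, z ∈ K ↔ φ z ∈ K) → (∀ z, z ∈ N ↔ φ z ∈ N) →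
    (∃ r : ℕ, 0 < r ∧ ∀ z ∈ N, (φ ^ r) z = z) →
    ∀ V : ValuationSubring K, Fine (C := X.C) (X.v.comap (algebraMap K U)) V →
    (∀ z z' : K, (z' : U) = φ z → (z' ∈ V ↔ z ∈ V)) →
    ∀ (i₀ : Fin n) (n₀ : ℕ) (ζ : ℂ) (u : AV (B X)) (γ : M ≃ₐ[B X] M)
      (g₀ : N ≃ₐ[IntermediateField.adjoin K {X.x, X.y}] N), 0 < n₀ → IsPrimitiveRoot ζ n₀ →
    AtPt u (xB X) (yB X) (aC X i₀) (bC X i₀) n₀ → GenOver u (algebraMap ℂ (B X) ζ) γ →
    (∀ (z : N) (z' : M), (z' : U) = z → ((γ z' : M) : U) = ((g₀ z : N) : U)) →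
    p ∣ orderOf g₀ →
    Module.finrank (IntermediateField.adjoin K {X.x, X.y}) N *
      (4 * Module.finrank (IntermediateField.adjoin K {X.x, X.y}) N + 1) + 1 < n →
    ∃ Q : Subgroup (N ≃ₐ[IntermediateField.adjoin K {X.x, X.y}] N),
      Q.Normal ∧ Q ≠ ⊥ ∧ IsPGroup p Q

/-- the basic properties of lifts (proved in `DsLift_6`) -/
structure LiftApi {p n : ℕ} [NeZero n] {U : Type} [Field U] [Algebra ℂ U] (X : World p n U) :
    Prop where
  one : Lift X 1 0
  g : Lift X X.g 1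
  mul : ∀ φ ψ i j, Lift X φ i → Lift X ψ j → Lift X (φ * ψ) (i + j)
  mod : ∀ φ i j, Lift X φ i → i ≡ j [MOD n] → Lift X φ j
  inv : ∀ φ j, Lift X φ j → Lift X φ⁻¹ ((n - 1) * j)
  geo : ∀ φ, Geo X φ → Lift X φ 0
  isC : ∀ φ j, Lift X φ j → ∀ z, IsC (φ z) ↔ IsC z
  memB : ∀ φ j, Lift X φ j → ∀ z, φ z ∈ B X ↔ z ∈ B X
  val : ∀ φ j, Lift X φ j → ∀ z, IsC z → X.v (φ z) = X.v z
  der : ∀ φ, Lift X φ 1 → ∀ i z, φ (X.D i z) = X.D (i + 1) (φ z)
  derC : ∀ i z, IsC z → IsC (X.D i z)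
  pt : ∀ φ j, Lift X φ j → Point.map (φ : U →ₐ[X.C] U) (Point.some _ _ X.ns) =
    Point.some _ _ X.ns - j • Point.baseChange X.C U X.P
  ptO : ∀ φ j, Lift X φ j → ∀ i, ∃ i', Point.map (φ : U →ₐ[X.C] U) (Point.some _ _ (X.nsO i)) +
    j • Point.baseChange X.C U X.P = Point.some _ _ (X.nsO i')
  root : ∀ (ζ : ℂ) (m : ℕ), 0 < m → ζ ^ m = 1 → ζ ∈ X.C
  alg : Algebra.IsAlgebraic (B X) U
  inj : Function.Injective (aC X)

end Crest.Agent.T170.Ds
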