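import Crest.Agent.T170.Sl_79
import Crest.Agent.T170.GalVal_6
import Crest.Agent.T170.DsDef_6
import Mathlib
import Crest.Agent.T170.DsLift_6
import Crest.Agent.T170.GalConj_6

-- ▼ part T170/DescT_79
section

/-!
# Row 170 (helper79): admissible automorphisms of the world

* `X.B = ℂ(x, y)`, `X.xB`, `X.yB`, `X.Wc`, `X.aC`, `X.bC` and the hypotheses of `RetE`;
* `X.Adm k h` : `h` agrees with `g ^ k` on `F(x, y)`; `Adm.τ`, `Adm.gB`, `Adm.ξ`, `Adm.O`,
  `Adm.mov`;
* `X.RD G` : the output of `RetE`; `Adm.stable`, `Adm.cj`, `Adm.isConj_cj`;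
* `RD.sum_T`, `RD.cnt_of_gamma` : reduction of the counting statement to a finite group `Γ`.
-/

set_option autoImplicit false

namespace Crest.Agent.T170.Pl

/-- an element algebraic over an algebraically closed field belongs to it -/
theorem mem_range_of_isAlgebraic {A U : Type*} [Field A] [Field U] [Algebra A U] [IsAlgClosed A]
    {z : U} (hz : IsAlgebraic A z) : ∃ c : A, algebraMap A U c = z :=
  minpoly.mem_range_of_degree_eq_one A z
    (IsAlgClosed.degree_eq_one_of_irreducible A (minpoly.irreducible hz.isIntegral))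

/-- restriction of an automorphism along an embedding -/
theorem exists_restrict {A U : Type*} [Field A] [Field U] (i : A →+* U) (h : U ≃+* U)
    (h1 : ∀ a, ∃ a', i a' = h (i a)) (h2 : ∀ a, ∃ a', i a' = h.symm (i a)) :
    ∃ τ : A ≃+* A, ∀ a, h (i a) = i (τ a) := by
  choose f hf using h1
  choose f' hf' using h2
  exact ⟨{ toFun := f, invFun := f'
           left_inv := fun a => i.injective (by rw [hf', hf, h.symm_apply_apply])
           right_inv := fun a => i.injective (by rw [hf, hf', h.apply_symm_apply])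
           map_mul' := fun a b => i.injective (by simp only [hf, map_mul])
           map_add' := fun a b => i.injective (by simp only [hf, map_add]) },
    fun a => (hf a).symm⟩

end Crest.Agent.T170.Pl

noncomputable section

namespace Crest.Agent.T170.Fr.World

open scoped Classical NNReal
open WeierstrassCurve WeierstrassCurve.Affine Crest.Agent.R170
open Crest.Agent.T170.Ret (AV Ctr GenOver Rot ResW)
open Crest.Agent.T170.Pl Crest.Agent.T170.Smith13

variable {p n : ℕ} [NeZero n] {U : Type} [Field U] [Algebra ℂ U] (X : World p n U)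

/-! ### The function field over `ℂ` -/

/-- `B = ℂ(x, y)` -/
abbrev B : IntermediateField ℂ U := IntermediateField.adjoin ℂ {X.x, X.y}

theorem x_mem_B : X.x ∈ X.B := IntermediateField.subset_adjoin _ _ (Set.mem_insert _ _)

theorem y_mem_B : X.y ∈ X.B :=
  IntermediateField.subset_adjoin _ _ (Set.mem_insert_of_mem _ (Set.mem_singleton _))

/-- `x` in `B` -/
def xB : X.B := ⟨X.x, X.x_mem_B⟩

/-- `y` in `B` -/
def yB : X.B := ⟨X.y, X.y_mem_B⟩

@[simp] theorem coe_xB : (X.xB : U) = X.x := rfl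

@[simp] theorem coe_yB : (X.yB : U) = X.y := rfl

/-- the curve over `ℂ` -/
abbrev Wc : Affine ℂ := X.W⁄ℂ

instance ellW : X.W.IsElliptic := X.ell

instance ellWc : X.Wc.IsElliptic := Ell.isElliptic_baseChange ℂ

/-- the punctures in `ℂ` -/
def aC (i : Fin n) : ℂ := X.a i

/-- the punctures in `ℂ` -/
def bC (i : Fin n) : ℂ := X.b i

theorem algebraMap_aC (i : Fin n) : algebraMap ℂ U (X.aC i) = algebraMap X.F U (X.a i) := rfl


theorem Wc_baseChange (A : Type*) [CommRing A] [Algebra ℂ A] : X.Wc⁄A = X.W⁄A :=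
  WeierstrassCurve.map_map _ _ _

theorem nsB : (X.W⁄X.B).Nonsingular X.xB X.yB :=
  (baseChange_nonsingular (W := X.W) (f := X.B.val) X.B.val.injective X.xB X.yB).1 X.ns

theorem eqnB : (X.Wc⁄X.B).Equation X.xB X.yB := by
  rw [Wc_baseChange]; exact X.nsB.1

theorem transB : Transcendental ℂ X.xB := fun h => X.trans (h.algHom X.B.val)

theorem genB : IntermediateField.adjoin ℂ {X.xB, X.yB} = ⊤ := by
  apply IntermediateField.lift_injective X.B
  rw [IntermediateField.lift_top, IntermediateField.lift_adjoin, Set.image_pair]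
  rfl

theorem isGenB : Ell.IsGen X.W ℂ X.xB X.yB := ⟨X.nsB.1, X.transB, X.genB⟩


instance algB : Algebra.IsAlgebraic X.B U := by
  have := X.alg
  have hle : IntermediateField.adjoin ℂ {X.x} ≤ X.B :=
    IntermediateField.adjoin_simple_le_iff.2 X.x_mem_B
  exact ⟨fun z => (Algebra.IsAlgebraic.isAlgebraic (R := IntermediateField.adjoin ℂ {X.x}) z
    ).ringHom_of_comp_eq (IntermediateField.inclusion hle).toRingHom (RingHom.id U)
    (IntermediateField.inclusion hle).injective (RingHom.ext fun _ => rfl)⟩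

instance algClosureB [IsAlgClosed U] : IsAlgClosure X.B U := ⟨inferInstance, inferInstance⟩

theorem nsC (i : Fin n) : X.Wc.Nonsingular (X.aC i) (X.bC i) :=
  (baseChange_nonsingular (W := X.W) (f := Algebra.ofId ℂ U) (algebraMap ℂ U).injective _ _).1
    (X.nsO i)

theorem bC_ne (i : Fin n) : X.bC i ≠ X.Wc.negY (X.aC i) (X.bC i) := by
  intro h
  have h1 := X.vW i
  have h2 := baseChange_negY (W' := X.W) (Algebra.ofId ℂ U) (X.aC i) (X.bC i)
  rw [← h] at h2
  exact zero_ne_one (((congrArg X.v (sub_eq_zero.2 h2.symm)).trans X.v.map_zero).symm.trans h1)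

theorem aC_injective : Function.Injective X.aC := fun i j h => by
  by_contra hij
  have h1 := X.big i
  rw [← algebraMap_aC, h, algebraMap_aC, X.Da j i hij, map_zero] at h1
  exact not_lt_bot h1

/-! ### Admissible automorphisms -/

/-- the generic point -/
abbrev ξ : (X.W⁄U).Point := Point.some _ _ X.ns

/-- the punctures -/
abbrev O (i : Fin n) : (X.W⁄U).Point := Point.some _ _ (X.nsO i)

/-- the torsion point in `U` -/
abbrev PU : (X.W⁄U).Point := Point.baseChange X.C U X.P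

theorem nPU : n • X.PU = 0 := by rw [← map_nsmul, X.nP, map_zero]

/-- `i + k` -/
def sh (k : ℕ) (i : Fin n) : Fin n := (fun j => j + 1)^[k] i


theorem sh_succ (k : ℕ) (i : Fin n) : sh (k + 1) i = sh k i + 1 :=
  Function.iterate_succ_apply' _ _ _

theorem g_pow_F (k : ℕ) (z : X.F) :
    (X.g ^ k) (algebraMap X.F U z) = algebraMap X.F U ((X.σ ^ k) z) := by
  induction k with
  | zero => rfl
  | succ k ih => rw [pow_succ', pow_succ', AlgEquiv.mul_apply, ih, X.gσ]; rfl

theorem σ_C (k : ℕ) (c : X.C) :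
    (X.σ ^ k) (Subfield.inclusion X.CF c) = Subfield.inclusion X.CF c :=
  (algebraMap X.F U).injective (by rw [← g_pow_F]; exact (X.g ^ k).commutes c)


theorem nontriv (hp : p ≠ 0) : ∃ z : X.F, z ≠ 0 ∧ X.v.comap (algebraMap X.F U) z ≠ 1 :=
  ⟨p, Nat.cast_ne_zero.2 hp, by rw [Valuation.comap_apply, map_natCast]; exact X.vp.ne⟩

theorem g_pow_ξ (k : ℕ) :
    Point.map ((X.g ^ k : U ≃ₐ[X.C] U) : U →ₐ[X.C] U) X.ξ = X.ξ - k • X.PU := by
  induction k with
  | zero => rw [zero_smul, sub_zero]; rfl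
  | succ k ih =>
    have h1 : Point.map ((X.g ^ (k + 1) : U ≃ₐ[X.C] U) : U →ₐ[X.C] U) X.ξ =
        Point.map (X.g : U →ₐ[X.C] U)
          (Point.map ((X.g ^ k : U ≃ₐ[X.C] U) : U →ₐ[X.C] U) X.ξ) := by
      rw [pow_succ']; rfl
    rw [h1, ih, map_sub, map_nsmul, X.gξ, Point.map_baseChange, succ_nsmul]
    abel

theorem g_pow_O (k : ℕ) (i : Fin n) :
    Point.map ((X.g ^ k : U ≃ₐ[X.C] U) : U →ₐ[X.C] U) (X.O i) + k • X.PU = X.O (sh k i) := by
  induction k with
  | zero => rw [zero_smul, add_zero]; rfl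
  | succ k ih =>
    have h1 : Point.map ((X.g ^ (k + 1) : U ≃ₐ[X.C] U) : U →ₐ[X.C] U) (X.O i) =
        Point.map (X.g : U →ₐ[X.C] U)
          (Point.map ((X.g ^ k : U ≃ₐ[X.C] U) : U →ₐ[X.C] U) (X.O i)) := by
      rw [pow_succ']; rfl
    rw [h1, sh_succ]
    change _ = Point.some _ _ (X.nsO (sh k i + 1))
    rw [← X.gO]
    change _ = Point.map _ (X.O _) + _
    rw [← ih, map_add, map_nsmul, Point.map_baseChange, succ_nsmul, add_assoc]

/-- `h` agrees with `g ^ k` on `F(x, y)` -/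
structure Adm (k : ℕ) (h : U ≃+* U) : Prop where
  hF : ∀ z : X.F, h (algebraMap X.F U z) = algebraMap X.F U ((X.σ ^ k) z)
  hx : h X.x = (X.g ^ k) X.x
  hy : h X.y = (X.g ^ k) X.y

variable {X}

theorem adm_zero {h : U ≃+* U} (hF : ∀ z : X.F, h (algebraMap X.F U z) = algebraMap X.F U z)
    (hx : h X.x = X.x) (hy : h X.y = X.y) : X.Adm 0 h := ⟨hF, hx, hy⟩




theorem adm_refl : X.Adm 0 (1 : U ≃+* U) := adm_zero (fun _ => rfl) rfl rfl

namespace Adm

variable {k l : ℕ} {h h' : U ≃+* U}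

theorem hC (H : X.Adm k h) (c : X.C) : h (algebraMap X.C U c) = algebraMap X.C U c := by
  have h1 := H.hF (Subfield.inclusion X.CF c)
  rw [σ_C] at h1
  exact h1

/-- `h` as an algebra automorphism over the constants -/
def alg (H : X.Adm k h) : U ≃ₐ[X.C] U := AlgEquiv.ofRingEquiv (f := h) H.hC

@[simp] theorem alg_apply (H : X.Adm k h) (z : U) : H.alg z = h z := rfl

theorem ξ (H : X.Adm k h) : Point.map (H.alg : U →ₐ[X.C] U) X.ξ = X.ξ - k • X.PU := by
  rw [← g_pow_ξ, Point.map_some, Point.map_some, Point.some.injEq]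
  exact ⟨H.hx, H.hy⟩

theorem O (H : X.Adm k h) (i : Fin n) :
    Point.map (H.alg : U →ₐ[X.C] U) (X.O i) + k • X.PU = X.O (sh k i) := by
  rw [← g_pow_O, add_left_inj, Point.map_some, Point.map_some, Point.some.injEq]
  exact ⟨(H.hF _).trans (X.g_pow_F _ _).symm, (H.hF _).trans (X.g_pow_F _ _).symm⟩

theorem of_ξ {f : U ≃ₐ[X.C] U}
    (hF : ∀ z : X.F, f (algebraMap X.F U z) = algebraMap X.F U ((X.σ ^ k) z))
    (hξ : Point.map (f : U →ₐ[X.C] U) X.ξ = X.ξ - k • X.PU) : X.Adm k (f : U ≃+* U) := by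
  rw [← g_pow_ξ, Point.map_some, Point.map_some, Point.some.injEq] at hξ
  exact ⟨hF, hξ.1, hξ.2⟩

theorem mul (H : X.Adm k h) (H' : X.Adm l h') : X.Adm (k + l) (h * h') := by
  refine of_ξ (f := H.alg * H'.alg) (fun z => ?_) ?_
  · rw [AlgEquiv.mul_apply, alg_apply, alg_apply, H'.hF, H.hF, pow_add]; rfl
  · have h1 : Point.map ((H.alg * H'.alg : U ≃ₐ[X.C] U) : U →ₐ[X.C] U) X.ξ =
        Point.map (H.alg : U →ₐ[X.C] U) (Point.map (H'.alg : U →ₐ[X.C] U) X.ξ) := rfl
    rw [h1, H'.ξ, map_sub, map_nsmul, H.ξ, Point.map_baseChange, add_nsmul]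
    abel

theorem pow (H : X.Adm k h) (m : ℕ) : X.Adm (k * m) (h ^ m) := by
  induction m with
  | zero => exact adm_refl
  | succ m ih => rw [pow_succ, Nat.mul_succ]; exact ih.mul H


theorem symm (H : X.Adm k h) : X.Adm (k * (n - 1)) h.symm := by
  have hn : k * (n - 1) + k = n * k := by
    obtain ⟨m, hm⟩ := Nat.exists_eq_succ_of_ne_zero (NeZero.ne n)
    rw [hm, Nat.succ_sub_one, Nat.succ_eq_add_one]; ring
  refine of_ξ (f := H.alg.symm) (fun z => ?_) ?_
  · rw [AlgEquiv.symm_apply_eq, alg_apply, H.hF]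
    change _ = algebraMap X.F U ((X.σ ^ k * X.σ ^ (k * (n - 1))) z)
    rw [← pow_add, add_comm, hn, pow_mul, X.σn, one_pow]; rfl
  · refine Point.map_injective (W' := X.W) (H.alg : U →ₐ[X.C] U) ?_
    have h1 : Point.map (H.alg : U →ₐ[X.C] U)
        (Point.map (H.alg.symm : U →ₐ[X.C] U) X.ξ) = X.ξ := by
      rw [Point.map_some, Point.map_some, Point.some.injEq]
      exact ⟨H.alg.apply_symm_apply _, H.alg.apply_symm_apply _⟩
    rw [h1, map_sub, map_nsmul, H.ξ, Point.map_baseChange, sub_sub, ← add_nsmul, add_comm, hn,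
      mul_nsmul, X.nPU, nsmul_zero, sub_zero]

theorem inv (H : X.Adm k h) : X.Adm (k * (n - 1)) h⁻¹ := H.symm

theorem exists_const (H : X.Adm k h) (c : ℂ) : ∃ c', algebraMap ℂ U c' = h (algebraMap ℂ U c) := by
  have h1 : IsAlgebraic X.F (h (algebraMap ℂ U c)) :=
    ((X.algF c).algebraMap (A := U)).ringHom_of_comp_eq
      ((X.σ ^ k : X.F ≃+* X.F) : X.F →+* X.F) (h : U →+* U) (X.σ ^ k).injective
      (RingHom.ext fun z => (H.hF z).symm)
  exact mem_range_of_isAlgebraic (h1.tower_top ℂ)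

/-- the restriction to `ℂ` -/
def τ (H : X.Adm k h) : ℂ ≃+* ℂ :=
  (exists_restrict (algebraMap ℂ U) h H.exists_const H.symm.exists_const).choose

theorem hτ (H : X.Adm k h) (c : ℂ) : h (algebraMap ℂ U c) = algebraMap ℂ U (H.τ c) :=
  (exists_restrict (algebraMap ℂ U) h H.exists_const H.symm.exists_const).choose_spec c


theorem τ_C (H : X.Adm k h) (c : X.C) : H.τ c = c :=
  (algebraMap ℂ U).injective (by rw [← H.hτ]; exact H.hC c)

theorem τ_root (H : X.Adm k h) {ζ : ℂ} {m : ℕ} (hm : 0 < m) (hζ : ζ ^ m = 1) : H.τ ζ = ζ := by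
  have := X.Cac
  have h1 : IsAlgebraic X.C ζ := IsAlgebraic.of_pow hm (by rw [hζ]; exact isAlgebraic_one)
  obtain ⟨c, rfl⟩ := mem_range_of_isAlgebraic h1
  exact H.τ_C c



theorem coord_mem (H : X.Adm k h) : h X.x ∈ X.B ∧ h X.y ∈ X.B := by
  have h1 : Point.map ((X.B.val).restrictScalars X.C)
      (Point.some _ _ X.nsB - k • Point.baseChange X.C X.B X.P) = X.ξ - k • X.PU := by
    rw [map_sub, map_nsmul, Point.map_baseChange]; rfl
  rw [← H.ξ, Point.map_some] at h1
  generalize Point.some _ _ X.nsB - k • Point.baseChange X.C X.B X.P = T at h1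
  rcases T with _ | ⟨s, t, hst⟩
  · exact absurd h1.symm (Point.some_ne_zero _)
  · rw [Point.map_some, Point.some.injEq] at h1
    exact ⟨h1.1 ▸ s.2, h1.2 ▸ t.2⟩

theorem map_mem_B (H : X.Adm k h) {z : U} (hz : z ∈ X.B) : h z ∈ X.B := by
  have h1 : X.B ≤ (X.B.toSubfield.comap (h : U →+* U)).toIntermediateField fun c => by
      change h _ ∈ X.B
      rw [H.hτ]
      exact X.B.algebraMap_mem _ := by
    rw [IntermediateField.adjoin_le_iff, Set.insert_subset_iff, Set.singleton_subset_iff]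
    exact H.coord_mem
  exact h1 hz

theorem mem_B (H : X.Adm k h) (z : U) : h z ∈ X.B ↔ z ∈ X.B :=
  ⟨fun hz => by simpa using H.symm.map_mem_B hz, H.map_mem_B⟩

/-- the restriction to `B` -/
def gB (H : X.Adm k h) : X.B ≃+* X.B := resE' h H.mem_B

@[simp] theorem coe_gB (H : X.Adm k h) (f : X.B) : (H.gB f : U) = h f := rfl

theorem hgB (H : X.Adm k h) (f : X.B) : h (algebraMap X.B U f) = algebraMap X.B U (H.gB f) := rfl

theorem gB_const (H : X.Adm k h) (c : ℂ) :
    H.gB (algebraMap ℂ X.B c) = algebraMap ℂ X.B (H.τ c) := Subtype.ext (H.hτ c)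

/-- `h` moves the place at `O i` to the place at `O (i + k)` -/
theorem mov (H : X.Adm k h) (i : Fin n) :
    Mov H.gB X.xB X.yB (X.aC i) (X.bC i) (X.aC (sh k i)) (X.bC (sh k i)) := by
  have hQ : Point.baseChange ℂ U (k • Point.baseChange X.C ℂ X.P) = k • X.PU := by
    rw [map_nsmul]
    exact congrArg _ (Point.map_baseChange (W' := X.W) (IsScalarTower.toAlgHom X.C ℂ U) X.P)
  have h1 := H.ξ
  have h2 := H.O i
  rw [Point.map_some, eq_sub_iff_add_eq, ← hQ] at h1
  rw [Point.map_some, ← hQ] at h2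
  refine mov_of_add' (W := X.W) (U := U) H.gB_const h1 (hab := ?_) (hab' := X.nsO _) ?_
  · rw [← H.hτ, ← H.hτ]
    exact (baseChange_nonsingular (W := X.W) (f := (H.alg : U →ₐ[X.C] U)) H.alg.injective _ _).2
      (X.nsO i)
  · refine Eq.trans ?_ h2
    rw [add_left_inj, Point.some.injEq]
    exact ⟨(H.hτ _).symm, (H.hτ _).symm⟩

end Adm

/-! ### The output of `RetE` -/

variable (X) in
/-- the output of `RetE` for the world `X` -/
structure RD (G : Type) [Group G] where
  n₀ : ℕ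
  ζ : ℂ
  M : IntermediateField X.B U
  pos : 0 < n₀
  prim : IsPrimitiveRoot ζ n₀
  fin : FiniteDimensional X.B M
  gal : IsGalois X.B M
  res : ResW (M ≃ₐ[X.B] M) G
  unr : UnrE M X.xB X.yB X.aC X.bC
  max : ∀ N : IntermediateField X.B U, FiniteDimensional X.B N → IsGalois X.B N →
    ResW (N ≃ₐ[X.B] N) G → UnrE N X.xB X.yB X.aC X.bC → N ≤ M
  γ : Fin n → (M ≃ₐ[X.B] M)
  gen : ∀ i, ∃ u : AV X.B, AtPt u X.xB X.yB (X.aC i) (X.bC i) n₀ ∧
    GenOver u (algebraMap ℂ X.B ζ) (γ i)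
  cnt : ∀ (A : Subgroup G) (c : G),
    Nat.card {ρ : (M ≃ₐ[X.B] M) →* G // (∀ i, IsConj (ρ (γ i)) c) ∧ ρ.range ≤ A} =
      Nat.card (Tup A fun (_ : Fin n) (h : A) => IsConj (h : G) c)

attribute [instance] RD.fin RD.gal

variable (X) in
theorem exists_RD [IsAlgClosed U] (hR : RetE) (G : Type) [Group G] [Finite G] :
    Nonempty (X.RD G) := by
  obtain ⟨n₀, ζ, M, h1, h2, h3, h4, h5, h6, h7, γ, h8, h9⟩ :=
    hR X.B U X.Wc X.xB X.yB X.transB X.eqnB X.genB n X.aC X.bC X.aC_injective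
      (fun i => (X.nsC i).1) X.bC_ne G
  exact ⟨⟨n₀, ζ, M, h1, h2, h3, h4, h5, h6, h7, γ, h8, h9⟩⟩

variable {G : Type} [Group G]


namespace Adm

variable {k : ℕ} {h : U ≃+* U}

/-- **`M` is stable** -/
theorem stable (H : X.Adm k h) (Y : X.RD G) (z : U) : h z ∈ Y.M ↔ z ∈ Y.M :=
  stable_of_max H.gB_const H.hgB (fun i => ⟨_, H.mov i⟩) Y.res Y.unr Y.max z

/-- the restriction to `M` -/
def jM (H : X.Adm k h) (Y : X.RD G) : Y.M ≃+* Y.M := resE' h (H.stable Y)

@[simp] theorem coe_jM (H : X.Adm k h) (Y : X.RD G) (z : Y.M) : (H.jM Y z : U) = h z := rfl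

theorem jM_algebraMap (H : X.Adm k h) (Y : X.RD G) (f : X.B) :
    H.jM Y (algebraMap X.B Y.M f) = algebraMap X.B Y.M (H.gB f) := rfl

/-- conjugation by `h` on `Gal(M/B)` -/
def cj (H : X.Adm k h) (Y : X.RD G) : (Y.M ≃ₐ[X.B] Y.M) ≃* (Y.M ≃ₐ[X.B] Y.M) :=
  conjE (H.jM_algebraMap Y)

theorem cj_jM (H : X.Adm k h) (Y : X.RD G) (δ : Y.M ≃ₐ[X.B] Y.M) (z : Y.M) :
    H.cj Y δ (H.jM Y z) = H.jM Y (δ z) := conjE_map _ δ z

/-- **conjugation permutes the classes of the canonical generators** -/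
theorem isConj_cj (H : X.Adm k h) (Y : X.RD G) (i : Fin n) :
    IsConj (H.cj Y (Y.γ i)) (Y.γ (sh k i)) :=
  isConj_transport X.isGenB H.gB_const (H.jM_algebraMap Y) (H.mov i) (X.bC_ne _) (X.bC_ne _)
    Y.pos (Y.prim.ne_zero Y.pos.ne') (H.τ_root Y.pos Y.prim.pow_eq_one) (H.cj_jM Y _)
    (Y.gen i) (Y.gen _)

end Adm



end Crest.Agent.T170.Fr.World
end
namespace Crest.Agent.T170.Fr.World.RD
end Crest.Agent.T170.Fr.World.RD
end

-- ▼ part T170/DsCan_79
section

/-!
# Row 170, task F1 (helper79): `CanStmt` and `LabStmt`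
-/

set_option autoImplicit false

namespace Crest.Agent.T170.Ds79

open Crest.Agent.T170.Fr Crest.Agent.T170.Pl Crest.Agent.T170.Ds

variable {p n : ℕ} [NeZero n] {U : Type} [Field U] [Algebra ℂ U] {X : World p n U}

theorem adm_of_lift {φ : Aut X} {j : ℕ} (h : Lift X φ j) : X.Adm j (φ : U ≃+* U) :=
  ⟨fun z => (h.F z).trans (X.g_pow_F j z), h.x, h.y⟩






end Crest.Agent.T170.Ds79
end

-- ▼ part T170/DescFin_64
section

/-!
# Row 170, descent (helper64): the finite level, generic part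

`U / E₀` Galois, `E₀ ⊆ B ⊆ M ⊆ U`, `M / B` finite Galois and stable under `Gal(U / E₀)`,
`B = E₀(Cs)` with `Cs` stable.  Then there is a finite Galois extension `M₁ / E₀` inside `M` such
that `Gal(M / B)` is the pointwise fixer of `M₁ ∩ Cs` in `Gal(M₁ / E₀)` (`exists_fin`).
`fixedField_eq_adjoin` : the fixed field of a subgroup containing this fixer.
-/

set_option autoImplicit false

namespace Crest.Agent.T170.Desc64

open IntermediateField Polynomial

section Generic

variable {E₀ U : Type*} [Field E₀] [Field U] [Algebra E₀ U]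

theorem eq_on_adjoin {V : Type*} [Field V] (f g : U →+* V)
    (h0 : ∀ c : E₀, f (algebraMap E₀ U c) = g (algebraMap E₀ U c)) {s : Set U}
    (hs : ∀ x ∈ s, f x = g x) {z : U} (hz : z ∈ adjoin E₀ s) : f z = g z := by
  induction hz using adjoin_induction with
  | mem x hx => exact hs x hx
  | algebraMap c => exact h0 c
  | add x y _ _ hx hy => rw [map_add, map_add, hx, hy]
  | inv x _ hx => rw [map_inv₀, map_inv₀, hx]
  | mul x y _ _ hx hy => rw [map_mul, map_mul, hx, hy]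

theorem finite_orbit {x : U} (hx : IsIntegral E₀ x) :
    (Set.range fun h : U ≃ₐ[E₀] U => h x).Finite := by
  refine ((minpoly E₀ x).rootSet_finite U).subset ?_
  rintro _ ⟨h, rfl⟩
  rw [mem_rootSet]
  refine ⟨minpoly.ne_zero hx, ?_⟩
  rw [aeval_algHom_apply, minpoly.aeval, map_zero]

theorem exists_finite_adjoin {Cs t : Set U} (ht : t.Finite) (h : ∀ z ∈ t, z ∈ adjoin E₀ Cs) :
    ∃ s : Set U, s.Finite ∧ s ⊆ Cs ∧ ∀ z ∈ t, z ∈ adjoin E₀ s := by
  choose! T hT using fun z (hz : z ∈ t) => exists_finset_of_mem_adjoin (h z hz)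
  refine ⟨⋃ z ∈ t, (T z : Set U), ht.biUnion fun z _ => (T z).finite_toSet,
    Set.iUnion₂_subset fun z hz => (hT z hz).1, fun z hz => ?_⟩
  exact adjoin.mono E₀ _ _ (Set.subset_biUnion_of_mem (u := fun z => (T z : Set U)) hz) (hT z hz).2

variable {B : Type*} [Field B] [Algebra E₀ B] [Algebra B U] [IsScalarTower E₀ B U]

/-- **The finite level.** -/
theorem exists_fin [IsGalois E₀ U] (M : IntermediateField B U) [FiniteDimensional B M]
    [IsGalois B M] (hM : ∀ (h : U ≃ₐ[E₀] U), ∀ z ∈ M, h z ∈ M)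
    (Cs : Set U) (hCs : ∀ (h : U ≃ₐ[E₀] U), ∀ c ∈ Cs, h c ∈ Cs)
    (hCB : ∀ c ∈ Cs, ∃ b : B, algebraMap B U b = c)
    (hB : ∀ b : B, algebraMap B U b ∈ adjoin E₀ Cs)
    (E₁ : IntermediateField E₀ U) [FiniteDimensional E₀ E₁]
    (hE₁ : ∀ z ∈ E₁, ∃ b : B, algebraMap B U b = z) :
    ∃ (M₁ : IntermediateField E₀ U) (hle : ∀ z : M₁, (z : U) ∈ M),
      FiniteDimensional E₀ M₁ ∧ IsGalois E₀ M₁ ∧ E₁ ≤ M₁ ∧
      ∃ r : (M ≃ₐ[B] M) →* (M₁ ≃ₐ[E₀] M₁), Function.Injective r ∧
        (∀ γ (z : M₁), (r γ z : U) = γ ⟨z, hle z⟩) ∧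
        ∀ δ, δ ∈ r.range ↔ ∀ z : M₁, (z : U) ∈ Cs → δ z = z := by
  classical
  have hint : ∀ z : U, IsIntegral E₀ z := fun z => Algebra.IsIntegral.isIntegral z
  have : Normal B U := Normal.tower_top_of_normal E₀ B U
  let pb := Field.powerBasisOfFiniteOfSeparable B M
  set θ : U := (pb.gen : U) with hθ
  -- the conjugates of `θ` as polynomials in `θ`
  have hq : ∀ w : U, w ∈ M → ∃ q : B[X], w = aeval θ q := by
    intro w hw
    obtain ⟨q, hq⟩ := pb.exists_eq_aeval' ⟨w, hw⟩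
    refine ⟨q, ?_⟩
    have := congrArg M.val hq
    rwa [← aeval_algHom_apply] at this
  choose! q hq using hq
  obtain ⟨e, he⟩ : ∃ e : Finset U, adjoin E₀ (e : Set U) = E₁ := by
    obtain ⟨α, hα⟩ := Field.exists_primitive_element E₀ E₁
    refine ⟨{(α : U)}, ?_⟩
    rw [Finset.coe_singleton, ← lift_adjoin_simple, hα, lift_top]
  let cf : B[X] → Set U := fun f => algebraMap B U '' (f.coeffs : Set B)
  have hcf : ∀ f, (cf f).Finite := fun f => f.coeffs.finite_toSet.image _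
  let t : Set U := (⋃ w ∈ Set.range fun h : U ≃ₐ[E₀] U => h θ, cf (q w)) ∪ cf (minpoly B pb.gen) ∪ e
  have ht : t.Finite :=
    (((finite_orbit (hint θ)).biUnion fun w _ => hcf _).union (hcf _)).union e.finite_toSet
  have htB : ∀ z ∈ t, ∃ b : B, algebraMap B U b = z := by
    rintro z ((hz | hz) | hz)
    · obtain ⟨w, -, b, -, hb⟩ := Set.mem_iUnion₂.1 hz
      exact ⟨b, hb⟩
    · obtain ⟨b, -, hb⟩ := hz
      exact ⟨b, hb⟩
    · exact hE₁ z (he ▸ subset_adjoin E₀ _ hz)
  obtain ⟨s, hs, hsC, hts⟩ := exists_finite_adjoin (E₀ := E₀) (Cs := Cs) ht fun z hz => by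
    obtain ⟨b, rfl⟩ := htB z hz
    exact hB b
  let s' : Set U := ⋃ c ∈ s, Set.range fun h : U ≃ₐ[E₀] U => h c
  have hs' : s'.Finite := hs.biUnion fun c _ => finite_orbit (hint c)
  have hss' : s ⊆ s' := fun c hc => Set.mem_iUnion₂.2 ⟨c, hc, 1, rfl⟩
  have hs'C : s' ⊆ Cs := by
    intro z hz
    obtain ⟨c, hc, h, rfl⟩ := Set.mem_iUnion₂.1 hz
    exact hCs h c (hsC hc)
  have hs'h : ∀ (h : U ≃ₐ[E₀] U), ∀ z ∈ s', h z ∈ s' := by
    intro h z hz
    obtain ⟨c, hc, h', rfl⟩ := Set.mem_iUnion₂.1 hz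
    exact Set.mem_iUnion₂.2 ⟨c, hc, h * h', rfl⟩
  have hts' : ∀ z ∈ t, z ∈ adjoin E₀ s' := fun z hz => adjoin.mono E₀ _ _ hss' (hts z hz)
  let M₁ : IntermediateField E₀ U := adjoin E₀ (insert θ s')
  have hB₁ : adjoin E₀ s' ≤ M₁ := adjoin.mono E₀ _ _ (Set.subset_insert _ _)
  have hθM₁ : θ ∈ M₁ := subset_adjoin E₀ _ (Set.mem_insert _ _)
  have hle : M₁ ≤ M.restrictScalars E₀ := by
    rw [adjoin_le_iff]
    rintro z (rfl | hz)
    · exact pb.gen.2
    · obtain ⟨b, rfl⟩ := hCB z (hs'C hz)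
      exact M.algebraMap_mem b
  have haev : ∀ f : B[X], cf f ⊆ t → aeval θ f ∈ M₁ := by
    intro f hf
    rw [aeval_eq_sum_range]
    refine sum_mem fun i _ => ?_
    rw [Algebra.smul_def]
    refine mul_mem ?_ (pow_mem hθM₁ i)
    by_cases h0 : f.coeff i = 0
    · rw [h0, map_zero]; exact zero_mem _
    · exact hB₁ (hts' _ (hf ⟨_, coeff_mem_coeffs h0, rfl⟩))
  have hnormal : Normal E₀ M₁ := by
    rw [normal_iff_forall_map_le']
    intro h
    rw [adjoin_map, adjoin_le_iff]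
    rintro _ ⟨z, (rfl | hz), rfl⟩
    · change h θ ∈ M₁
      rw [hq (h θ) (hM h θ pb.gen.2)]
      refine haev _ fun z hz => Or.inl (Or.inl ?_)
      exact Set.mem_iUnion₂.2 ⟨h θ, ⟨h, rfl⟩, hz⟩
    · exact subset_adjoin E₀ _ (Set.mem_insert_of_mem _ (hs'h h z hz))
  have hfin : FiniteDimensional E₀ M₁ :=
    have : Finite (insert θ s' : Set U) := (hs'.insert θ).to_subtype
    finiteDimensional_adjoin fun x _ => hint x
  let r₀ : (M ≃ₐ[B] M) → (M₁ ≃ₐ[E₀] M₁) := fun γ =>
    ((γ.liftNormal U).restrictScalars E₀).restrictNormal M₁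
  have hr₀ : ∀ γ (z : M₁), (r₀ γ z : U) = γ ⟨z, hle z.2⟩ := by
    intro γ z
    rw [AlgEquiv.restrictNormal_apply]
    exact γ.liftNormal_commutes U ⟨z, hle z.2⟩
  let r : (M ≃ₐ[B] M) →* (M₁ ≃ₐ[E₀] M₁) := MonoidHom.mk' r₀ fun γ γ' => by
    ext z
    rw [hr₀, AlgEquiv.mul_apply, AlgEquiv.mul_apply, hr₀]
    congr 2
    exact Subtype.ext (hr₀ γ' z).symm
  refine ⟨M₁, fun z => hle z.2, hfin, ⟨⟩, ?_, r, ?_, hr₀, fun δ => ⟨?_, fun hδ => ?_⟩⟩
  · rw [← he, adjoin_le_iff]
    exact fun z hz => hB₁ (hts' z (Or.inr hz))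
  · rw [injective_iff_map_eq_one]
    intro γ hγ
    have h1 := hr₀ γ ⟨θ, hθM₁⟩
    change (r γ ⟨θ, hθM₁⟩ : U) = _ at h1
    rw [hγ] at h1
    have h2 : γ pb.gen = pb.gen := Subtype.ext h1.symm
    exact AlgEquiv.coe_toAlgHom_injective (pb.algHom_ext h2)
  · rintro ⟨γ, rfl⟩ z hz
    obtain ⟨b, hb⟩ := hCB z hz
    apply Subtype.ext
    have h1 : (⟨z, hle z.2⟩ : M) = algebraMap B M b := Subtype.ext hb.symm
    refine (hr₀ γ z).trans ?_
    rw [h1, AlgEquiv.commutes, ← hb]
    rfl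
  · let h : U ≃ₐ[E₀] U := δ.liftNormal U
    have hh : ∀ z : M₁, h z = δ z := fun z => δ.liftNormal_commutes U z
    have hfix : ∀ z ∈ adjoin E₀ s', h z = z := fun z hz =>
      eq_on_adjoin (h : U →+* U) (RingHom.id U) h.commutes (fun x hx => by
        have hx' : x ∈ M₁ := hB₁ (subset_adjoin E₀ _ hx)
        exact (hh ⟨x, hx'⟩).trans (congrArg Subtype.val (hδ ⟨x, hx'⟩ (hs'C hx)))) hz
    have hroot : aeval (⟨h θ, hM h θ pb.gen.2⟩ : M) (minpoly B pb.gen) = 0 := by
      apply M.val.injective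
      have h0 : aeval θ (minpoly B pb.gen) = 0 := by
        have := congrArg M.val (minpoly.aeval B pb.gen)
        rwa [← aeval_algHom_apply, map_zero] at this
      change M.val _ = M.val 0
      rw [← aeval_algHom_apply, map_zero, ← map_zero h, ← h0, aeval_eq_sum_range,
        aeval_eq_sum_range, map_sum]
      refine Finset.sum_congr rfl fun i _ => ?_
      rw [Algebra.smul_def, Algebra.smul_def, map_mul, map_pow]
      congr 1
      by_cases h0 : (minpoly B pb.gen).coeff i = 0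
      · rw [h0, map_zero, map_zero]
      · exact (hfix _ (hts' _ (Or.inl (Or.inr ⟨_, coeff_mem_coeffs h0, rfl⟩)))).symm
    obtain ⟨γ, hγ⟩ := minpoly.exists_algEquiv_of_root'
      (Algebra.IsAlgebraic.isAlgebraic (R := B) pb.gen) hroot
    refine ⟨γ, ?_⟩
    ext z
    rw [← hh]
    change (r₀ γ z : U) = _
    rw [AlgEquiv.restrictNormal_apply]
    refine eq_on_adjoin (E₀ := E₀) ((γ.liftNormal U).restrictScalars E₀ : U →+* U) (h : U →+* U)
      (fun c => ((γ.liftNormal U).restrictScalars E₀).commutes c |>.trans (h.commutes c).symm)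
      ?_ z.2
    rintro x (rfl | hx)
    · exact (γ.liftNormal_commutes U pb.gen).trans (congrArg Subtype.val hγ)
    · obtain ⟨b, rfl⟩ := hCB x (hs'C hx)
      exact ((γ.liftNormal U).commutes b).trans (hfix _ (subset_adjoin E₀ _ hx)).symm

end Generic

section Fixed

variable {E₀ M : Type*} [Field E₀] [Field M] [Algebra E₀ M] [FiniteDimensional E₀ M]

/-- Artin for a stable subfield `L`: an automorphism fixing `L ^ H` agrees on `L` with an element
of `H`. -/
theorem exists_mem_eq_on (L : Subfield M) (H : Subgroup (M ≃ₐ[E₀] M))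
    (hL : ∀ h ∈ H, ∀ z ∈ L, h z ∈ L) (δ : M ≃ₐ[E₀] M) (hδL : ∀ z, δ z ∈ L ↔ z ∈ L)
    (hδ : ∀ z ∈ L, (∀ h ∈ H, h z = z) → δ z = z) : ∃ η ∈ H, ∀ z ∈ L, δ z = η z := by
  let : MulSemiringAction H L :=
    { smul := fun h z => ⟨(h : M ≃ₐ[E₀] M) z, hL h h.2 z z.2⟩
      one_smul := fun z => rfl
      mul_smul := fun h h' z => rfl
      smul_zero := fun h => Subtype.ext (map_zero (h : M ≃ₐ[E₀] M))
      smul_add := fun h z z' => Subtype.ext (map_add (h : M ≃ₐ[E₀] M) _ _)
      smul_one := fun h => Subtype.ext (map_one (h : M ≃ₐ[E₀] M))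
      smul_mul := fun h z z' => Subtype.ext (map_mul (h : M ≃ₐ[E₀] M) _ _) }
  let δ' : L ≃ₐ[FixedPoints.subfield H L] L :=
    { toFun := fun z => ⟨δ z, (hδL z).2 z.2⟩
      invFun := fun z => ⟨δ.symm z, (hδL _).1 (by simp)⟩
      left_inv := fun z => Subtype.ext (by simp)
      right_inv := fun z => Subtype.ext (by simp)
      map_mul' := fun z z' => Subtype.ext (map_mul δ _ _)
      map_add' := fun z z' => Subtype.ext (map_add δ _ _)
      commutes' := fun z => Subtype.ext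
        (hδ _ (z : L).2 fun h hh => congrArg Subtype.val (z.2 ⟨h, hh⟩)) }
  obtain ⟨η, hη⟩ := FixedPoints.toAlgAut_surjective H L δ'
  refine ⟨η, η.2, fun z hz => ?_⟩
  exact (congrArg Subtype.val (congrArg (fun e => e (⟨z, hz⟩ : L)) hη)).symm

/-- if `H` contains the pointwise fixer of the stable subfield `L`, then `H` is the pointwise fixer
of `L ^ H` -/
theorem mem_of_fix (L : Subfield M) (hL : ∀ (δ : M ≃ₐ[E₀] M), ∀ z ∈ L, δ z ∈ L)
    (H : Subgroup (M ≃ₐ[E₀] M)) (hH : ∀ δ : M ≃ₐ[E₀] M, (∀ z ∈ L, δ z = z) → δ ∈ H)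
    (δ : M ≃ₐ[E₀] M) (hδ : ∀ z ∈ L, (∀ h ∈ H, h z = z) → δ z = z) : δ ∈ H := by
  obtain ⟨η, hη, he⟩ := exists_mem_eq_on L H (fun h _ => hL h) δ
    (fun z => ⟨fun hz => by simpa using hL δ.symm _ hz, hL δ z⟩) hδ
  have h1 : η⁻¹ * δ ∈ H := hH _ fun z hz => by
    rw [AlgEquiv.mul_apply, he z hz]
    exact η.symm_apply_apply z
  simpa using H.mul_mem hη h1

/-- the fixed field of such an `H` is generated by `L ^ H` -/
theorem fixedField_eq_adjoin [IsGalois E₀ M] (L : Subfield M)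
    (hL : ∀ (δ : M ≃ₐ[E₀] M), ∀ z ∈ L, δ z ∈ L)
    (H : Subgroup (M ≃ₐ[E₀] M)) (hH : ∀ δ : M ≃ₐ[E₀] M, (∀ z ∈ L, δ z = z) → δ ∈ H) :
    fixedField H = adjoin E₀ {z | z ∈ L ∧ ∀ h ∈ H, h z = z} := by
  rw [← IsGalois.fixedField_fixingSubgroup (adjoin E₀ _)]
  congr 1
  ext δ
  rw [IntermediateField.mem_fixingSubgroup_iff]
  constructor
  · intro hδ z hz
    exact eq_on_adjoin (δ : M →+* M) (RingHom.id M) δ.commutes (fun x hx => hx.2 δ hδ) hz
  · intro hδ
    exact mem_of_fix L hL H hH δ fun z hz hz' => hδ z (subset_adjoin E₀ _ ⟨hz, hz'⟩)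

end Fixed

end Crest.Agent.T170.Desc64
end

-- ▼ part T170/DescAsmA_64
section

/-!
# Row 170, descent (helper64): the finite level of a world

`FL X M` : a finite group `Γ` acting faithfully on a field `M₁ ⊆ M`, all elements induced by lifts,
containing `Gal(M / B)` as the pointwise fixer of the constants.  `exists_FL`.
-/

set_option autoImplicit false

noncomputable section

namespace Crest.Agent.T170.Desc64

open scoped NNReal Classical
open Crest.Agent.T170.Fr Crest.Agent.T170.Ds IntermediateField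

theorem finite_of_fixed {Q F L : Type*} [Group Q] [Finite Q] [Field L] [MulSemiringAction Q L]
    [Field F] [Algebra F L] (h : ∀ z : L, (∀ q : Q, q • z = z) → ∃ c : F, algebraMap F L c = z) :
    FiniteDimensional F L := by
  obtain ⟨s, hs⟩ := Module.Finite.fg_top (R := FixedPoints.subfield Q L) (M := L)
  refine ⟨s, eq_top_iff.2 fun z hz => ?_⟩
  clear hz
  have hz : z ∈ Submodule.span (FixedPoints.subfield Q L) (s : Set L) := by rw [hs]; trivial
  induction hz using Submodule.span_induction with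
  | mem x hx => exact Submodule.subset_span hx
  | zero => exact zero_mem _
  | add x y _ _ hx hy => exact add_mem hx hy
  | smul c x _ hx =>
    obtain ⟨f, hf⟩ := h c c.2
    have : c • x = f • x := by rw [Algebra.smul_def f, hf]; rfl
    rw [this]
    exact Submodule.smul_mem _ f hx

variable {p n : ℕ} [NeZero n] {U : Type} [Field U] [Algebra ℂ U] {X : World p n U}

theorem lift_zero_of_fix {φ : Aut X} {j : ℕ} (h : Lift X φ j)
    (hF : ∀ z : X.F, X.v (algebraMap X.F U z) ≤ 1 →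
      X.v (φ (algebraMap X.F U z) - algebraMap X.F U z) < 1) : Lift X φ 0 := by
  by_cases hj : n ∣ j
  · exact h.mod ((Nat.modEq_zero_iff_dvd).2 hj)
  · obtain ⟨z, hz, h1⟩ := X.faith j hj
    have h2 := hF z hz
    rw [h.map_F, ← map_sub, h1] at h2
    exact absurd h2 (lt_irrefl _)

variable (X) in
/-- `E₀ = F(x, y) ^ g` -/
def E0 : Subfield U := (EF X).toSubfield ⊓ (X.g : U →+* U).eqLocusField (RingHom.id U)

theorem mem_E0 {z : U} : z ∈ E0 X ↔ z ∈ EF X ∧ X.g z = z := Iff.rfl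

theorem Lift.fix_E0 {φ : Aut X} {j : ℕ} (h : Lift X φ j) {z : U} (hz : z ∈ E0 X) : φ z = z := by
  rw [h.eq_on hz.1]
  clear h
  induction j with
  | zero => rfl
  | succ j ih => rw [pow_succ, AlgEquiv.mul_apply, (mem_E0.1 hz).2, ih]

/-- a lift as an automorphism over `E₀` -/
def ofLift {φ : Aut X} {j : ℕ} (h : Lift X φ j) : U ≃ₐ[E0 X] U :=
  AlgEquiv.ofRingEquiv (f := (φ : U ≃+* U)) fun c => Lift.fix_E0 h c.2

/-- an automorphism over `E₀` as an automorphism over `C` -/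
def toAut (h : U ≃ₐ[E0 X] U) : Aut X :=
  AlgEquiv.ofRingEquiv (f := (h : U ≃+* U)) fun c =>
    h.commutes ⟨algebraMap X.C U c, (EF X).algebraMap_mem c, X.g.commutes c⟩

variable (X) in
/-- `F(x, y)` over `E₀` -/
def E1 : IntermediateField (E0 X) U := (EF X).toSubfield.toIntermediateField fun c => c.2.1


variable (X) in
/-- the restriction of `g` -/
def g1 : E1 X ≃ₐ[E0 X] E1 X where
  toFun z := ⟨X.g z, g_mem_EF X z.2⟩
  invFun z := ⟨X.g.symm z, (liftApi X).g.inv.mem_EF z.2⟩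
  left_inv z := Subtype.ext (X.g.symm_apply_apply z)
  right_inv z := Subtype.ext (X.g.apply_symm_apply z)
  map_mul' z z' := Subtype.ext (map_mul X.g _ _)
  map_add' z z' := Subtype.ext (map_add X.g _ _)
  commutes' c := Subtype.ext c.2.2

theorem g1_pow (j : ℕ) (z : E1 X) : (((g1 X ^ j) z : E1 X) : U) = (X.g ^ j) z := by
  induction j with
  | zero => rfl
  | succ j ih => rw [pow_succ', pow_succ', AlgEquiv.mul_apply, AlgEquiv.mul_apply, ← ih]; rfl

variable (X) in
theorem g1_fin : IsOfFinOrder (g1 X) :=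
  isOfFinOrder_iff_pow_eq_one.2 ⟨n, Nat.pos_of_ne_zero (NeZero.ne n), by
    ext z
    rw [g1_pow, g_pow_n X z.2]; rfl⟩

theorem mem_bot_of_g1 (z : E1 X) (hz : g1 X z = z) : ∃ c : E0 X, algebraMap (E0 X) (E1 X) c = z :=
  ⟨⟨z, z.2, congrArg Subtype.val hz⟩, rfl⟩

instance finE1 : FiniteDimensional (E0 X) (E1 X) := by
  have : Finite (Subgroup.zpowers (g1 X)) := (g1_fin X).finite_zpowers
  exact finite_of_fixed (Q := Subgroup.zpowers (g1 X)) fun z hz =>
    mem_bot_of_g1 z (hz ⟨g1 X, Subgroup.mem_zpowers _⟩)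

instance galE1 : IsGalois (E0 X) (E1 X) := by
  refine IsGalois.of_fixedField_eq_bot _ _ (eq_bot_iff.2 fun z hz => ?_)
  exact IntermediateField.mem_bot.2 (mem_bot_of_g1 z (hz ⟨g1 X, trivial⟩))

theorem exists_eq_g1_pow (a : E1 X ≃ₐ[E0 X] E1 X) : ∃ j : ℕ, a = g1 X ^ j := by
  have h1 : a ∈ Subgroup.zpowers (g1 X) := by
    rw [← fixingSubgroup_fixedField (Subgroup.zpowers (g1 X)),
      IntermediateField.mem_fixingSubgroup_iff]
    intro z hz
    obtain ⟨c, rfl⟩ := mem_bot_of_g1 z (hz ⟨g1 X, Subgroup.mem_zpowers _⟩)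
    exact a.commutes c
  obtain ⟨j, hj⟩ := ((g1_fin X).mem_powers_iff_mem_zpowers).2 h1
  exact ⟨j, hj.symm⟩

theorem exists_lift (h : U ≃ₐ[E0 X] U) : ∃ j, Lift X (toAut h) j := by
  obtain ⟨j, hj⟩ := exists_eq_g1_pow (h.restrictNormal (E1 X))
  refine ⟨j, Lift.of_eq_on fun z hz => ?_⟩
  have h1 := AlgEquiv.restrictNormal_apply (E1 X) h ⟨z, hz⟩
  rw [hj, g1_pow] at h1
  exact h1.symm

variable (X) in
theorem gal_U [IsAlgClosed U] : IsGalois (E0 X) U := by
  have := charZero_U U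
  have h1 : Algebra.IsAlgebraic (E1 X) U := alg_EF X
  have h2 : Algebra.IsAlgebraic (E0 X) U := Algebra.IsAlgebraic.trans (E0 X) (E1 X) U
  have h3 : IsAlgClosure (E0 X) U := ⟨inferInstance, h2⟩
  exact ⟨⟩

theorem mem_adjoin_const {z : U} (hz : z ∈ EF X) : z ∈ adjoin (E0 X) {w : U | IsC w} := by
  let S : IntermediateField (E0 X) (E1 X) := (adjoin (E0 X) {w : U | IsC w}).comap (E1 X).val
  have hS : S = ⊤ := by
    rw [← IsGalois.fixedField_fixingSubgroup S, ← IntermediateField.fixedField_bot]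
    congr 1
    rw [eq_bot_iff]
    intro a ha
    rw [IntermediateField.mem_fixingSubgroup_iff] at ha
    obtain ⟨j, rfl⟩ := exists_eq_g1_pow a
    have h0 : Lift X (X.g ^ j) 0 := lift_zero_of_fix (lift_pow X j) fun c _ => by
      have h1 := ha ⟨algebraMap X.F U c, F_mem_EF X c⟩ (subset_adjoin _ _ ⟨c, rfl⟩)
      have h2 := congrArg Subtype.val h1
      rw [g1_pow] at h2
      rw [h2]
      simp
    rw [Subgroup.mem_bot]
    ext w
    rw [g1_pow, h0.fix w.2]; rfl
  have : (⟨z, hz⟩ : E1 X) ∈ S := by rw [hS]; trivial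
  exact this

variable (X) in
/-- the finite level -/
structure FL (M : IntermediateField X.B U) where
  Γ : Type
  M₁ : Type
  [grp : Group Γ]
  [fin : Finite Γ]
  [fld : Field M₁]
  [act : MulSemiringAction Γ M₁]
  [faith : FaithfulSMul Γ M₁]
  ι : M₁ →+* U
  le : ∀ z, ι z ∈ M
  memE : ∀ u ∈ EF X, ∃ z, ι z = u
  lift : ∀ δ : Γ, ∃ φ j, Lift X φ j ∧ ∀ z, φ (ι z) = ι (δ • z)
  g : Γ
  hg : ∀ z, X.g (ι z) = ι (g • z)
  r : (M ≃ₐ[X.B] M) →* Γ
  inj : Function.Injective r
  r_apply : ∀ γ z, ι (r γ • z) = γ ⟨ι z, le z⟩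
  r_range : ∀ δ, δ ∈ r.range ↔ ∀ z, IsC (ι z) → δ • z = z
  gen : ∀ H : Subgroup Γ, r.range ≤ H → ∀ S : Subfield U, (∀ u ∈ EF X, u ∈ S) →
    (∀ w, IsC (ι w) → (∀ δ ∈ H, δ • w = w) → ι w ∈ S) → ∀ z, (∀ δ ∈ H, δ • z = z) → ι z ∈ S
  fixE : ∀ z, (∀ δ : Γ, (∀ w, ι w ∈ EF X → δ • w = w) → δ • z = z) → ι z ∈ EF X

attribute [instance] FL.grp FL.fin FL.fld FL.act FL.faith

theorem exists_FL [IsAlgClosed U] {G : Type} [Group G] (Y : X.RD G) : Nonempty (FL X Y.M) := by
  have := gal_U X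
  have := Y.fin
  have := Y.gal
  let : Algebra (E0 X) X.B :=
    ((E0 X).subtype.codRestrict X.B fun z => EF_le_B X z.2.1).toAlgebra
  have : IsScalarTower (E0 X) X.B U := IsScalarTower.of_algebraMap_eq' rfl
  obtain ⟨M₁, hle, hfin, hgal, hE, r, hr, hra, hrr⟩ := exists_fin (E₀ := E0 X) Y.M
    (fun h z hz => by
      obtain ⟨j, hj⟩ := exists_lift h
      exact ((Ds79.adm_of_lift hj).stable Y z).2 hz)
    {w : U | IsC w} (fun h c hc => by
      obtain ⟨j, hj⟩ := exists_lift h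
      exact hj.isC hc)
    (fun c hc => ⟨⟨c, IsC.mem_B X hc⟩, rfl⟩)
    (fun b => B_le X (S := (adjoin (E0 X) {w : U | IsC w}).toSubfield)
      (fun c => subset_adjoin _ _ ⟨c, rfl⟩) (mem_adjoin_const (x_mem_EF X))
      (mem_adjoin_const (y_mem_EF X)) b.2)
    (E1 X) (fun z hz => ⟨⟨z, EF_le_B X hz⟩, rfl⟩)
  have hlift : ∀ δ : M₁ ≃ₐ[E0 X] M₁, ∃ φ j, Lift X φ j ∧ ∀ z : M₁, φ z = δ z := by
    intro δ
    obtain ⟨j, hj⟩ := exists_lift (δ.liftNormal U)
    exact ⟨_, j, hj, fun z => δ.liftNormal_commutes U z⟩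
  refine ⟨
    { Γ := M₁ ≃ₐ[E0 X] M₁
      M₁ := M₁
      ι := algebraMap M₁ U
      le := hle
      memE := fun u hu => ⟨⟨u, hE hu⟩, rfl⟩
      lift := hlift
      g := (ofLift (liftApi X).g).restrictNormal M₁
      hg := fun z => (AlgEquiv.restrictNormal_apply M₁ (ofLift (liftApi X).g) z).symm
      r := r
      inj := hr
      r_apply := hra
      r_range := hrr
      gen := fun H hH S hS hS' z hz => ?_
      fixE := fun z hz => ?_ }⟩
  · let L : Subfield M₁ := (algebraMap ℂ U).fieldRange.comap (algebraMap M₁ U)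
    have h1 := fixedField_eq_adjoin L (fun δ w hw => by
      obtain ⟨φ, j, hφ, h⟩ := hlift δ
      have h2 : IsC (φ w) := hφ.isC hw
      rw [h] at h2
      exact h2) H fun δ hδ => hH ((hrr δ).2 hδ)
    have h2 : z ∈ fixedField H := fun δ => hz δ δ.2
    rw [h1] at h2
    have h3 : adjoin (E0 X) {z | z ∈ L ∧ ∀ h ∈ H, h z = z} ≤
        (S.toIntermediateField fun c : E0 X => hS c c.2.1).comap M₁.val :=
      adjoin_le_iff.2 fun w hw => hS' w hw.1 hw.2
    exact h3 h2
  · have h1 : z ∈ fixedField (((E1 X).comap M₁.val).fixingSubgroup) := fun δ =>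
      hz δ fun w hw => (IntermediateField.mem_fixingSubgroup_iff _ _).1 δ.2 w hw
    rw [IsGalois.fixedField_fixingSubgroup] at h1
    exact h1

end Crest.Agent.T170.Desc64
end
end

-- ▼ part T170/GalEt_6
section

/-!
# Row 170, module F (helper6): inertia is a `p`-group; the étale lemma

* `eq_one_of_inert`   : an automorphism of finite order prime to the residue characteristic which
  acts trivially on the graded pieces is trivial; `exists_pow_eq_one_of_inert`;
* `exists_unit_sub`   : the quotient by a `p`-group of inert elements acts faithfully on the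
  residue field of the fixed field;
* `exists_sep`        : an integral element whose conjugates are pairwise incongruent;
* `der_le_one`        : a derivation which is integral on the invariants is integral.
-/

set_option autoImplicit false

open Polynomial

namespace Crest.Agent.T170.Gal

variable {L Γ : Type*} [Field L] [LinearOrderedCommGroupWithZero Γ]

lemma val_natCast_le (w : Valuation L Γ) (m : ℕ) : w (m : L) ≤ 1 := by
  induction m with
  | zero => simp
  | succ m ih =>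
    rw [Nat.cast_succ]
    exact w.map_add_le ih (by simp)

lemma val_intCast_le (w : Valuation L Γ) (m : ℤ) : w (m : L) ≤ 1 := by
  obtain ⟨m, rfl | rfl⟩ := m.eq_nat_or_neg
  · simpa using val_natCast_le w m
  · simpa using val_natCast_le w m

lemma val_natCast_of_coprime (w : Valuation L Γ) {p m : ℕ} (hp : w (p : L) < 1)
    (h : Nat.Coprime m p) : w (m : L) = 1 := by
  refine le_antisymm (val_natCast_le w m) (not_lt.1 fun hm => ?_)
  obtain ⟨a, b, hab⟩ := Nat.isCoprime_iff_coprime.2 h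
  have h1 : (a : L) * (m : L) + (b : L) * (p : L) = 1 := by exact_mod_cast congrArg (Int.cast : ℤ → L) hab
  have h2 : w ((a : L) * (m : L) + (b : L) * (p : L)) < 1 := by
    refine w.map_add_lt ?_ ?_
    · rw [map_mul]
      exact mul_lt_one_of_nonneg_of_lt_one_right (val_intCast_le w a) zero_le hm
    · rw [map_mul]
      exact mul_lt_one_of_nonneg_of_lt_one_right (val_intCast_le w b) zero_le hp
  rw [h1, map_one] at h2
  exact lt_irrefl _ h2

section Inert

variable {Q : Type*} [Group Q] [MulSemiringAction Q L]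

lemma val_smul_of_inert (w : Valuation L Γ) {g : Q}
    (hg : ∀ z : L, z ≠ 0 → w (g • z - z) < w z) (z : L) : w (g • z) = w z := by
  by_cases h0 : z = 0
  · simp [h0]
  have : g • z = z + (g • z - z) := by ring
  rw [this, w.map_add_eq_of_lt_left (hg z h0)]

lemma pow_inert (w : Valuation L Γ) {g : Q}
    (hg : ∀ z : L, z ≠ 0 → w (g • z - z) < w z) (j : ℕ) (z : L) (hz : z ≠ 0) :
    w ((g ^ j) • z - z) < w z := by
  induction j with
  | zero =>
    simp only [pow_zero, one_smul, sub_self, map_zero]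
    exact zero_lt_iff.2 (by simpa using hz)
  | succ j ih =>
    have : (g ^ (j + 1)) • z - z = g • ((g ^ j) • z - z) + (g • z - z) := by
      rw [pow_succ', mul_smul, smul_sub]
      ring
    rw [this]
    refine w.map_add_lt ?_ (hg z hz)
    rwa [val_smul_of_inert w hg]

/-- tame inert elements act trivially -/
theorem eq_one_of_inert (w : Valuation L Γ) {g : Q} {r : ℕ} (hr : g ^ r = 1)
    (hw : w (r : L) = 1) (hg : ∀ z : L, z ≠ 0 → w (g • z - z) < w z) (z : L) : g • z = z := by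
  by_contra hne
  have hb : g • z - z ≠ 0 := sub_ne_zero.2 hne
  set b := g • z - z with hbdef
  have h1 : ∑ j ∈ Finset.range r, (g ^ j) • b = 0 := by
    have : ∀ j, (g ^ j) • b = (g ^ (j + 1)) • z - (g ^ j) • z := by
      intro j
      rw [hbdef, smul_sub, pow_succ, mul_smul]
    simp only [this]
    rw [Finset.sum_range_sub (fun j => (g ^ j) • z), hr, pow_zero, sub_self]
  have h2 : ∑ j ∈ Finset.range r, (g ^ j) • b =
      (r : L) * b + ∑ j ∈ Finset.range r, ((g ^ j) • b - b) := by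
    rw [Finset.sum_sub_distrib, Finset.sum_const, Finset.card_range, nsmul_eq_mul]
    ring
  have hwb : w b ≠ 0 := by simpa using hb
  have h3 : w (∑ j ∈ Finset.range r, ((g ^ j) • b - b)) < w ((r : L) * b) := by
    rw [map_mul, hw, one_mul]
    exact w.map_sum_lt hwb fun j _ => pow_inert w hg j b hb
  have h4 := w.map_add_eq_of_lt_left h3
  rw [← h2, h1, map_zero, map_mul, hw, one_mul] at h4
  exact hwb h4.symm

/-- inert elements of finite order have `p`-power order -/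
theorem exists_pow_eq_one_of_inert [FaithfulSMul Q L] (w : Valuation L Γ) {p : ℕ} (hp : p.Prime)
    (hwp : w (p : L) < 1) {g : Q} (hfin : IsOfFinOrder g)
    (hg : ∀ z : L, z ≠ 0 → w (g • z - z) < w z) : ∃ k : ℕ, g ^ p ^ k = 1 := by
  obtain ⟨k, m, hm, he⟩ := Nat.exists_eq_pow_mul_and_not_dvd hfin.orderOf_pos.ne' p hp.ne_one
  refine ⟨k, eq_of_smul_eq_smul (α := L) fun z => ?_⟩
  rw [one_smul]
  refine eq_one_of_inert w (r := m) ?_ ?_ (pow_inert w hg _) z
  · rw [← pow_mul, ← he, pow_orderOf_eq_one]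
  · exact val_natCast_of_coprime w hwp ((Nat.Prime.coprime_iff_not_dvd hp).2 hm).symm

/-- from the residue field to the graded pieces, if every value is the value of an invariant -/
lemma inert_of_res (w : Valuation L Γ) {g : Q}
    (hv : ∀ z : L, ∃ c : L, g • c = c ∧ w z = w c)
    (hg : ∀ z : L, w z ≤ 1 → w (g • z - z) < 1) (z : L) (hz : z ≠ 0) : w (g • z - z) < w z := by
  obtain ⟨c, hc, he⟩ := hv z
  have hwz : w z ≠ 0 := by simpa using hz
  have hc0 : c ≠ 0 := by
    rintro rfl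
    exact hwz (by simpa using he)
  have h1 := hg (z / c) (by rw [map_div₀, ← he, div_self hwz])
  have h2 : g • (z / c) - z / c = (g • z - z) / c := by
    rw [div_eq_mul_inv, smul_mul', smul_inv'', hc]
    field_simp
  rw [h2, map_div₀, ← he] at h1
  exact (div_lt_one₀ (zero_lt_iff.2 hwz)).1 h1

lemma val_prod_sub_pow_lt (w : Valuation L Γ) {ι : Type*} (s : Finset ι) (f : ι → L) {z : L}
    (hz : w z ≤ 1) (hf : ∀ i ∈ s, w (f i - z) < 1) : w (∏ i ∈ s, f i - z ^ s.card) < 1 := by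
  classical
  induction s using Finset.induction_on with
  | empty => simp
  | insert a s ha ih =>
    rw [Finset.prod_insert ha, Finset.card_insert_of_notMem ha]
    have h1 := ih fun i hi => hf i (Finset.mem_insert_of_mem hi)
    have h2 := hf a (Finset.mem_insert_self _ _)
    have h3 : f a * ∏ i ∈ s, f i - z ^ (s.card + 1) =
        f a * (∏ i ∈ s, f i - z ^ s.card) + (f a - z) * z ^ s.card := by ring
    have h4 : w (f a) ≤ 1 := by
      have : f a = (f a - z) + z := by ring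
      rw [this]
      exact w.map_add_le h2.le hz
    rw [h3]
    refine w.map_add_lt ?_ ?_
    · rw [map_mul]
      exact mul_lt_one_of_nonneg_of_lt_one_right h4 zero_le h1
    · rw [map_mul, map_pow]
      exact mul_lt_one_of_nonneg_of_lt_one_left zero_le h2 (pow_le_one₀ zero_le hz)

lemma val_pow_sub_pow (w : Valuation L Γ) {p : ℕ} (hp : p.Prime) (hwp : w (p : L) < 1)
    {a b : L} (hb : w b ≤ 1) (hab : w (a - b) = 1) (k : ℕ) :
    w (a ^ p ^ k - b ^ p ^ k) = 1 := by
  obtain ⟨r, hr⟩ := exists_add_pow_prime_pow_eq hp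
    (⟨a - b, hab.le⟩ : w.integer) (⟨b, hb⟩ : w.integer) k
  have h1 : a ^ p ^ k = (a - b) ^ p ^ k + b ^ p ^ k + p * (a - b) * b * (r : L) := by
    have := congrArg (fun x : w.integer => (x : L)) hr
    simpa using this
  have h2 : a ^ p ^ k - b ^ p ^ k = (a - b) ^ p ^ k + p * (a - b) * b * (r : L) := by
    rw [h1]; ring
  have h3 : w ((a - b) ^ p ^ k) = 1 := by rw [map_pow, hab, one_pow]
  rw [h2, w.map_add_eq_of_lt_left, h3]
  rw [h3, map_mul, map_mul, map_mul, hab, mul_one]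
  exact mul_lt_one_of_nonneg_of_lt_one_left zero_le
    (mul_lt_one_of_nonneg_of_lt_one_left zero_le hwp hb) r.2

/-- if `I` is a finite `p`-group of inert elements and `q` moves a residue, it moves the residue of
an `I`-invariant element -/
theorem exists_unit_sub (w : Valuation L Γ) {p : ℕ} (hp : p.Prime) (hwp : w (p : L) < 1)
    (I : Subgroup Q) [Finite I] (hI : IsPGroup p I)
    (hin : ∀ g ∈ I, ∀ z : L, w z ≤ 1 → w (g • z - z) < 1)
    {q : Q} (hq : ∀ z : L, w (q • z) = w z) {z : L} (hz : w z ≤ 1) (hqz : w (q • z - z) = 1) :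
    ∃ u : L, (∀ g ∈ I, g • u = u) ∧ w u ≤ 1 ∧ w (q • u - u) = 1 := by
  classical
  have := Fintype.ofFinite I
  have : Fact p.Prime := ⟨hp⟩
  obtain ⟨k, hk⟩ := IsPGroup.iff_card.1 hI
  set u : L := ∏ g : I, (g : Q) • z with hu
  have h1 : w (u - z ^ p ^ k) < 1 := by
    have := val_prod_sub_pow_lt w (Finset.univ : Finset I) (fun g => (g : Q) • z) hz
      fun g _ => hin g g.2 z hz
    rwa [Finset.card_univ, ← Nat.card_eq_fintype_card, hk] at this
  have h2 : w (z ^ p ^ k) ≤ 1 := by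
    rw [map_pow]
    exact pow_le_one₀ zero_le hz
  refine ⟨u, fun g hg => ?_, ?_, ?_⟩
  · rw [hu, Finset.smul_prod']
    refine Fintype.prod_equiv (Equiv.mulLeft (⟨g, hg⟩ : I)) _ _ fun h => ?_
    simp [mul_smul]
  · have : u = (u - z ^ p ^ k) + z ^ p ^ k := by ring
    rw [this]
    exact w.map_add_le h1.le h2
  · have h3 := val_pow_sub_pow w hp hwp hz hqz k
    have h4 : q • u - u = ((q • z) ^ p ^ k - z ^ p ^ k) +
        (q • (u - z ^ p ^ k) - (u - z ^ p ^ k)) := by
      rw [smul_sub, smul_pow']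
      ring
    rw [h4, w.map_add_eq_of_lt_left, h3]
    rw [h3]
    exact w.map_sub_lt (by rwa [hq]) h1

/-- an integral element which is moved modulo the maximal ideal by finitely many given elements -/
theorem exists_sep (w : Valuation L Γ) (c : ℕ → L) (hc1 : ∀ i, w (c i) ≤ 1)
    (hc2 : ∀ i j, i ≠ j → w (c i - c j) = 1) (hc3 : ∀ (q : Q) i, q • c i = c i)
    (hiso : ∀ (q : Q) (z : L), w (q • z) = w z) (s : Finset Q)
    (hs : ∀ q ∈ s, ∃ z : L, w z ≤ 1 ∧ w (q • z - z) = 1) :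
    ∃ α : L, w α ≤ 1 ∧ ∀ q ∈ s, w (q • α - α) = 1 := by
  classical
  have hle : ∀ (q : Q) (z : L), w z ≤ 1 → w (q • z - z) ≤ 1 := fun q z hz =>
    w.map_sub_le (by rwa [hiso]) hz
  induction s using Finset.induction_on with
  | empty => exact ⟨0, by simp, by simp⟩
  | insert q s hq ih =>
    obtain ⟨α, hα, hαs⟩ := ih fun q' hq' => hs q' (Finset.mem_insert_of_mem hq')
    obtain ⟨z, hz, hqz⟩ := hs q (Finset.mem_insert_self _ _)
    have hexp : ∀ (q' : Q) i, q' • (α + c i * z) - (α + c i * z) =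
        (q' • α - α) + c i * (q' • z - z) := by
      intro q' i
      rw [smul_add, smul_mul', hc3]
      ring
    have hint : ∀ i, w (α + c i * z) ≤ 1 := fun i =>
      w.map_add_le hα (by rw [map_mul]; exact mul_le_one' (hc1 i) hz)
    have hsub : ∀ q' ∈ insert q s,
        {i | w (q' • (α + c i * z) - (α + c i * z)) ≠ 1}.Subsingleton := by
      intro q' hq' i hi j hj
      by_contra hij
      have hi' : w (q' • (α + c i * z) - (α + c i * z)) < 1 :=
        lt_of_le_of_ne (hle q' _ (hint i)) hi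
      have hj' : w (q' • (α + c j * z) - (α + c j * z)) < 1 :=
        lt_of_le_of_ne (hle q' _ (hint j)) hj
      have h1 := w.map_sub_lt hi' hj'
      rw [hexp, hexp, add_sub_add_left_eq_sub, ← sub_mul, map_mul, hc2 i j hij, one_mul] at h1
      rcases Finset.mem_insert.1 hq' with rfl | h2
      · exact absurd hqz h1.ne
      · rw [hexp] at hi'
        have h3 : w (c i * (q' • z - z)) < 1 := by
          rw [map_mul]
          exact mul_lt_one_of_nonneg_of_lt_one_right (hc1 i) zero_le h1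
        have h4 := w.map_sub_lt hi' h3
        rw [add_sub_cancel_right] at h4
        exact absurd (hαs q' h2) h4.ne
    have hfin : (⋃ q' ∈ insert q s,
        {i | w (q' • (α + c i * z) - (α + c i * z)) ≠ 1}).Finite :=
      Set.Finite.biUnion (Finset.finite_toSet _) fun q' hq' => (hsub q' hq').finite
    obtain ⟨i, hi⟩ := hfin.exists_notMem
    refine ⟨α + c i * z, hint i, fun q' hq' => ?_⟩
    by_contra h
    exact hi (Set.mem_biUnion (Finset.mem_coe.2 hq') h)

end Inert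

section Der

variable (w : Valuation L Γ) (D : L →+ L) (hD : ∀ a b, D (a * b) = a * D b + b * D a)

include hD in
lemma der_one : D 1 = 0 := by
  have := hD 1 1
  simp only [mul_one, one_mul] at this
  exact left_eq_add.1 this

include hD in
lemma der_pow (a : L) (j : ℕ) : D (a ^ (j + 1)) = ((j : L) + 1) * a ^ j * D a := by
  induction j with
  | zero => simp
  | succ j ih =>
    rw [pow_succ, hD, ih]
    push_cast
    ring

/-- integral elements with integral derivative -/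
def dRing : Subring L where
  carrier := {z | w z ≤ 1 ∧ w (D z) ≤ 1}
  mul_mem' {a b} ha hb := ⟨by rw [map_mul]; exact mul_le_one' ha.1 hb.1, by
    rw [hD]
    exact w.map_add_le (by rw [map_mul]; exact mul_le_one' ha.1 hb.2)
      (by rw [map_mul]; exact mul_le_one' hb.1 ha.2)⟩
  one_mem' := ⟨by simp, by simp [der_one D hD]⟩
  add_mem' ha hb := ⟨w.map_add_le ha.1 hb.1, by rw [map_add]; exact w.map_add_le ha.2 hb.2⟩
  zero_mem' := ⟨by simp, by simp⟩
  neg_mem' ha := ⟨by simpa using ha.1, by simpa using ha.2⟩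


lemma mem_dRing_of_mul {u z : L} (hu : u ∈ dRing w D hD) (hu1 : w u = 1) (hz : w z ≤ 1)
    (h : u * z ∈ dRing w D hD) : z ∈ dRing w D hD := by
  refine ⟨hz, ?_⟩
  have h1 : u * D z = D (u * z) - z * D u := by rw [hD]; ring
  have h2 : w (u * D z) ≤ 1 := by
    rw [h1]
    exact w.map_sub_le h.2 (by rw [map_mul]; exact mul_le_one' hz hu.2)
  rwa [map_mul, hu1, one_mul] at h2

lemma eval_mem_subring (R : Subring L) {f : L[X]} (hf : ∀ j, f.coeff j ∈ R) {a : L}
    (ha : a ∈ R) : f.eval a ∈ R := by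
  rw [eval_eq_sum_range]
  exact R.sum_mem fun j _ => R.mul_mem (hf j) (R.pow_mem ha j)

include hD in
lemma der_eval_sub (f : L[X]) (a : L) :
    D (f.eval a) = f.derivative.eval a * D a + f.sum fun j c => D c * a ^ j := by
  induction f using Polynomial.induction_on' with
  | add f g hf hg =>
    rw [eval_add, map_add, hf, hg, derivative_add, eval_add, Polynomial.sum_add_index]
    · ring
    · simp
    · intro j b c
      rw [map_add, add_mul]
  | monomial j c =>
    rw [Polynomial.sum_monomial_index _ _ (by simp), eval_monomial, derivative_monomial,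
      eval_monomial, hD]
    cases j with
    | zero => simp [der_one D hD]
    | succ j =>
      rw [der_pow D hD]
      simp only [Nat.add_sub_cancel]
      push_cast
      ring

/-- a simple root of an integral polynomial has an integral derivative -/
lemma root_mem_dRing {f : L[X]} (hf : ∀ j, f.coeff j ∈ dRing w D hD) {a : L} (ha : w a ≤ 1)
    (h0 : f.eval a = 0) (h1 : w (f.derivative.eval a) = 1) : a ∈ dRing w D hD := by
  refine ⟨ha, ?_⟩
  have h2 := der_eval_sub D hD f a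
  rw [h0, map_zero] at h2
  have h3 : w (f.derivative.eval a * D a) ≤ 1 := by
    rw [eq_neg_of_add_eq_zero_left h2.symm, Valuation.map_neg, Polynomial.sum_def]
    refine w.map_sum_le fun j _ => ?_
    rw [map_mul, map_pow]
    exact mul_le_one' (hf j).2 (pow_le_one₀ zero_le ha)
  rwa [map_mul, h1, one_mul] at h3

lemma coeff_le_one_of_lifts {f : L[X]} (hf : f ∈ lifts w.integer.subtype) (j : ℕ) :
    w (f.coeff j) ≤ 1 := by
  obtain ⟨c, hc⟩ := (lifts_iff_coeff_lifts f).1 hf j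
  rw [← hc]
  exact c.2

variable {Q : Type*} [Group Q] [Fintype Q] [MulSemiringAction Q L]

include hD in
/-- **the étale lemma** -/
theorem der_le_one (hiso : ∀ (q : Q) (z : L), w (q • z) = w z)
    (hF : ∀ z : L, (∀ q : Q, q • z = z) → w z ≤ 1 → w (D z) ≤ 1)
    {α : L} (hα : w α ≤ 1) (hsep : ∀ q : Q, q ≠ 1 → w (q • α - α) = 1)
    {z : L} (hz : w z ≤ 1) : w (D z) ≤ 1 := by
  classical
  have hlin : ∀ q : Q, (X - C (q • α) : L[X]) ∈ lifts w.integer.subtype := fun q =>
    ⟨X - C ⟨q • α, by rw [Valuation.mem_integer_iff, hiso]; exact hα⟩, by simp⟩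
  have hinv : ∀ f : L[X], f ∈ lifts w.integer.subtype → (∀ q : Q, q • f = f) →
      ∀ j, f.coeff j ∈ dRing w D hD := by
    intro f hf hq j
    refine ⟨coeff_le_one_of_lifts w hf j, hF _ (fun q => ?_) (coeff_le_one_of_lifts w hf j)⟩
    rw [← Polynomial.coeff_smul, hq]
  -- the polynomials `G u`
  let G : L → L[X] := fun u => ∑ q : Q, C (q • u) * ∏ q' ∈ Finset.univ.erase q, (X - C (q' • α))
  have hG1 : ∀ u, w u ≤ 1 → G u ∈ lifts w.integer.subtype := by
    intro u hu
    refine Subsemiring.sum_mem _ fun q _ => Subsemiring.mul_mem _ ?_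
      (Subsemiring.prod_mem _ fun q' _ => hlin q')
    exact ⟨C ⟨q • u, by rw [Valuation.mem_integer_iff, hiso]; exact hu⟩, by simp⟩
  have hG2 : ∀ u (g : Q), g • G u = G u := by
    intro u g
    simp only [G, Finset.smul_sum, smul_mul', Finset.smul_prod', smul_sub, Polynomial.smul_C,
      Polynomial.smul_X, ← mul_smul]
    refine Fintype.sum_equiv (Equiv.mulLeft g) _ _ fun q => ?_
    simp only [Equiv.coe_mulLeft]
    congr 1
    refine Finset.prod_equiv (Equiv.mulLeft g) (fun q' => ?_) fun q' _ => rfl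
    simp
  set e : L := ∏ q' ∈ Finset.univ.erase (1 : Q), (α - q' • α) with he
  have hG3 : ∀ u, (G u).eval α = u * e := by
    intro u
    simp only [G, eval_finsetSum, eval_mul, eval_C, eval_prod, eval_sub, eval_X]
    rw [Finset.sum_eq_single 1]
    · simp [he]
    · intro q _ hq
      rw [Finset.prod_eq_zero (i := 1) (by simp [hq.symm]) (by simp), mul_zero]
    · simp
  have he1 : w e = 1 := by
    rw [he, map_prod]
    refine Finset.prod_eq_one fun q hq => ?_
    rw [Valuation.map_sub_swap]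
    exact hsep q (Finset.ne_of_mem_erase hq)
  -- `α` has an integral derivative
  set f : L[X] := ∏ q : Q, (X - C (q • α)) with hf
  have hf1 : f ∈ lifts w.integer.subtype := Subsemiring.prod_mem _ fun q _ => hlin q
  have hf2 : ∀ g : Q, g • f = f := by
    intro g
    simp only [hf, Finset.smul_prod', smul_sub, Polynomial.smul_C, Polynomial.smul_X, ← mul_smul]
    exact Fintype.prod_equiv (Equiv.mulLeft g) _ _ fun q => rfl
  have hf3 : f.eval α = 0 := by
    rw [hf, eval_prod]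
    exact Finset.prod_eq_zero (Finset.mem_univ 1) (by simp)
  have hf4 : f.derivative = G 1 := by
    rw [hf, derivative_prod_finset]
    simp [G]
  have hαR : α ∈ dRing w D hD :=
    root_mem_dRing w D hD (hinv f hf1 hf2) hα hf3 (by rw [hf4, hG3, one_mul, he1])
  have hR : ∀ u, w u ≤ 1 → u * e ∈ dRing w D hD := fun u hu => by
    rw [← hG3]
    exact eval_mem_subring _ (hinv _ (hG1 u hu) (hG2 u)) hαR
  have heR : e ∈ dRing w D hD := by simpa using hR 1 (by simp)
  exact (mem_dRing_of_mul w D hD heR he1 hz (by rw [mul_comm]; exact hR z hz)).2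

end Der

end Crest.Agent.T170.Gal
end

-- ▼ part T170/DescIn_86

/-!
# Row 170, descent (helper86): the inertia group, its fixed field, stabilised valuation rings

A group `Γ` acts on a field `M` (not necessarily faithfully, `Γ` not necessarily finite);
`L` is a subfield of `M` on which the subgroup `G` acts through a finite quotient.
-/

set_option autoImplicit false

open Polynomial

namespace Crest.Agent.T170.Desc86

open Crest.Agent.T170.Gal

/-- infinitely many pairwise incongruent integral constants -/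
theorem exists_seq {C Δ : Type*} [Field C] [IsAlgClosed C] [LinearOrderedCommGroupWithZero Δ]
    (w : Valuation C Δ) :
    ∃ c : ℕ → C, (∀ i, w (c i) ≤ 1) ∧ ∀ i j, i ≠ j → w (c i - c j) = 1 := by
  classical
  have key : ∀ s : Finset C, (∀ x ∈ s, w x ≤ 1) → ∃ y, w y ≤ 1 ∧ ∀ x ∈ s, w (x - y) = 1 := by
    intro s hs
    rcases s.eq_empty_or_nonempty with rfl | hne
    · exact ⟨0, by simp, by simp⟩
    have hdeg : (∏ x ∈ s, (X - Polynomial.C x) : C[X]).degree = s.card := by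
      rw [degree_prod]
      simp
    have hpos : (0 : WithBot ℕ) < (∏ x ∈ s, (X - Polynomial.C x) : C[X]).degree := by
      rw [hdeg]
      exact_mod_cast hne.card_pos
    obtain ⟨y, hy⟩ := IsAlgClosed.exists_root ((∏ x ∈ s, (X - Polynomial.C x) : C[X]) - Polynomial.C 1)
      (by rw [degree_sub_C hpos]; exact hpos.ne')
    have h1 : ∏ x ∈ s, w (y - x) = 1 := by
      rw [IsRoot.def, eval_sub, eval_C, eval_prod, sub_eq_zero] at hy
      simp only [eval_sub, eval_X, eval_C] at hy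
      rw [← map_prod, hy, map_one]
    have hy1 : w y ≤ 1 := by
      by_contra h
      push Not at h
      have h2 : ∀ x ∈ s, w (y - x) = w y := fun x hx =>
        w.map_sub_eq_of_lt_left ((hs x hx).trans_lt h)
      rw [Finset.prod_congr rfl h2, Finset.prod_const] at h1
      exact (one_lt_pow₀ h hne.card_pos.ne').ne' h1
    refine ⟨y, hy1, fun x hx => ?_⟩
    have hle : ∀ x ∈ s, w (y - x) ≤ 1 := fun x hx => w.map_sub_le hy1 (hs x hx)
    rw [Valuation.map_sub_swap]
    refine le_antisymm (hle x hx) (not_lt.1 fun hlt => ?_)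
    rw [← Finset.mul_prod_erase _ _ hx] at h1
    have h3 : ∏ x ∈ s.erase x, w (y - x) ≤ 1 :=
      Finset.prod_le_one' fun x hx => hle x (Finset.mem_of_mem_erase hx)
    exact (mul_lt_one_of_nonneg_of_lt_one_left zero_le hlt h3).ne h1
  obtain ⟨f, hf1, hf2⟩ := exists_seq_of_forall_finset_exists (fun x => w x ≤ 1)
    (fun x y => w (x - y) = 1) key
  refine ⟨f, hf1, fun i j hij => ?_⟩
  rcases lt_or_gt_of_ne hij with h | h
  · exact hf2 i j h
  · rw [Valuation.map_sub_swap]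
    exact hf2 j i h

variable {Γ M Δ : Type*} [Group Γ] [Field M] [MulSemiringAction Γ M]
  [LinearOrderedCommGroupWithZero Δ]

/-- restriction of the action to a stable subfield -/
def resAut (G : Subgroup Γ) (S : Subfield M) (h : ∀ g ∈ G, ∀ z ∈ S, g • z ∈ S) :
    G →* RingAut S where
  toFun g :=
    { toFun := fun z => ⟨g.1 • z.1, h _ g.2 _ z.2⟩
      invFun := fun z => ⟨g.1⁻¹ • z.1, h _ (G.inv_mem g.2) _ z.2⟩
      left_inv := fun _ => Subtype.ext (inv_smul_smul _ _)
      right_inv := fun _ => Subtype.ext (smul_inv_smul _ _)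
      map_mul' := fun _ _ => Subtype.ext (smul_mul' _ _ _)
      map_add' := fun _ _ => Subtype.ext (smul_add _ _ _) }
  map_one' := RingEquiv.ext fun _ => Subtype.ext (one_smul _ _)
  map_mul' _ _ := RingEquiv.ext fun _ => Subtype.ext (mul_smul _ _ _)

@[simp] lemma coe_resAut (G : Subgroup Γ) (S : Subfield M) (h : ∀ g ∈ G, ∀ z ∈ S, g • z ∈ S)
    (g : G) (z : S) : ((resAut G S h g z : S) : M) = (g : Γ) • (z : M) := rfl

/-- `G` acts on `L` through a finite quotient -/
def FinOn (G : Subgroup Γ) (L : Subfield M) : Prop :=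
  (Set.range fun g : G => fun z : L => (g : Γ) • (z : M)).Finite

lemma finOn_of_finite (G : Subgroup Γ) [Finite G] (L : Subfield M) : FinOn G L :=
  Set.finite_range _


lemma FinOn.mono {G : Subgroup Γ} {L : Subfield M} (h : FinOn G L) {K : Subfield M}
    (hK : K ≤ L) : FinOn G K := by
  refine (h.image fun f (z : K) => f ⟨z.1, hK z.2⟩).subset ?_
  rintro _ ⟨g, rfl⟩
  exact ⟨_, ⟨g, rfl⟩, rfl⟩

lemma FinOn.finite_range {G : Subgroup Γ} {L : Subfield M} (h : FinOn G L)
    (hL : ∀ g ∈ G, ∀ z ∈ L, g • z ∈ L) : Finite (resAut G L hL).range := by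
  have : Finite (Set.range fun g : G => fun z : L => (g : Γ) • (z : M)) := h
  refine Finite.of_injective (fun q : (resAut G L hL).range =>
    (⟨fun z : L => ((q.1 z : L) : M), by
      obtain ⟨g, hg⟩ := q.2
      exact ⟨g, by rw [← hg]; rfl⟩⟩ :
      Set.range fun g : G => fun z : L => (g : Γ) • (z : M))) fun q q' hq => ?_
  exact Subtype.ext (RingEquiv.ext fun z => Subtype.ext (congrFun (congrArg Subtype.val hq) z))

/-- **the inertia group** of `w` on `L` inside `G` -/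
def inert (w : Valuation M Δ) (G : Subgroup Γ) (L : Subfield M)
    (hL : ∀ g ∈ G, ∀ z ∈ L, g • z ∈ L) (hiso : ∀ g ∈ G, ∀ z ∈ L, w (g • z) = w z) :
    Subgroup Γ where
  carrier := {g | g ∈ G ∧ ∀ z ∈ L, w z ≤ 1 → w (g • z - z) < 1}
  one_mem' := ⟨G.one_mem, fun z _ _ => by simp⟩
  mul_mem' {g g'} hg hg' := ⟨G.mul_mem hg.1 hg'.1, fun z hz h1 => by
    have : (g * g') • z - z = (g • (g' • z) - g' • z) + (g' • z - z) := by
      rw [mul_smul]; ring
    rw [this]
    exact w.map_add_lt (hg.2 _ (hL _ hg'.1 _ hz) (by rwa [hiso _ hg'.1 _ hz])) (hg'.2 z hz h1)⟩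
  inv_mem' {g} hg := ⟨G.inv_mem hg.1, fun z hz h1 => by
    have h2 := hg.2 _ (hL _ (G.inv_mem hg.1) _ hz) (by rwa [hiso _ (G.inv_mem hg.1) _ hz])
    rwa [smul_inv_smul, Valuation.map_sub_swap] at h2⟩

section Inert

variable {w : Valuation M Δ} {G : Subgroup Γ} {L : Subfield M}
  {hL : ∀ g ∈ G, ∀ z ∈ L, g • z ∈ L} {hiso : ∀ g ∈ G, ∀ z ∈ L, w (g • z) = w z}


lemma inert_le : inert w G L hL hiso ≤ G := fun _ h => h.1

lemma mem_inert_of_fix {g : Γ} (hg : g ∈ G) (h : ∀ z ∈ L, g • z = z) :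
    g ∈ inert w G L hL hiso := ⟨hg, fun z hz _ => by simp [h z hz]⟩

/-- conjugation by an isometry of `L` which normalises `G` -/
lemma conj_mem_inert {t g : Γ} (hg : g ∈ inert w G L hL hiso) (hG : t * g * t⁻¹ ∈ G)
    (ht : ∀ z ∈ L, t⁻¹ • z ∈ L) (htw : ∀ z ∈ L, w (t • z) = w z) :
    t * g * t⁻¹ ∈ inert w G L hL hiso := by
  refine ⟨hG, fun z hz h1 => ?_⟩
  have h2 : w (t⁻¹ • z) ≤ 1 := by rwa [← htw _ (ht z hz), smul_inv_smul]
  have h3 : (t * g * t⁻¹) • z - z = t • (g • t⁻¹ • z - t⁻¹ • z) := by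
    rw [smul_sub, smul_inv_smul, mul_smul, mul_smul]
  rw [h3, htw _ (L.sub_mem (hL _ hg.1 _ (ht z hz)) (ht z hz))]
  exact hg.2 _ (ht z hz) h2

lemma inert_normal [hG : G.Normal] (h1 : ∀ (t : Γ), ∀ z ∈ L, t • z ∈ L)
    (h2 : ∀ (t : Γ), ∀ z ∈ L, w (t • z) = w z) : (inert w G L hL hiso).Normal :=
  ⟨fun g hg t => conj_mem_inert hg (hG.conj_mem g hg.1 t) (h1 _) (h2 _)⟩

/-- the image of the inertia group in the automorphisms of `L` is a `p`-group -/
lemma pow_eq_one_of_mem (hfin : FinOn G L) {p : ℕ} (hp : p.Prime) (hwp : w (p : M) < 1)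
    (hv : ∀ z ∈ L, ∃ c ∈ L, (∀ g ∈ G, g • c = c) ∧ w z = w c) {g : G}
    (hg : (g : Γ) ∈ inert w G L hL hiso) : ∃ k : ℕ, resAut G L hL g ^ p ^ k = 1 := by
  have := hfin.finite_range hL
  have hfo : IsOfFinOrder (resAut G L hL g) := by
    have := isOfFinOrder_of_finite (⟨resAut G L hL g, g, rfl⟩ : (resAut G L hL).range)
    exact (resAut G L hL).range.subtype.isOfFinOrder this
  refine exists_pow_eq_one_of_inert (Q := RingAut L) (L := L) (w.comap L.subtype) hp
    (by simpa using hwp) hfo (inert_of_res _ (fun z => ?_) fun z hz => hg.2 z z.2 hz)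
  obtain ⟨c, hc, h1, h2⟩ := hv z z.2
  exact ⟨⟨c, hc⟩, Subtype.ext (h1 g g.2), h2⟩

/-- **inertia acts on `L` through a `p`-group** -/
theorem inert_pow (hfin : FinOn G L) {p : ℕ} (hp : p.Prime) (hwp : w (p : M) < 1)
    (hv : ∀ z ∈ L, ∃ c ∈ L, (∀ g ∈ G, g • c = c) ∧ w z = w c) {g : Γ}
    (hg : g ∈ inert w G L hL hiso) : ∃ k : ℕ, ∀ z ∈ L, (g ^ p ^ k) • z = z := by
  obtain ⟨k, hk⟩ := pow_eq_one_of_mem hfin hp hwp hv (g := ⟨g, hg.1⟩) hg
  refine ⟨k, fun z hz => ?_⟩
  rw [← map_pow] at hk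
  exact congrArg Subtype.val (RingEquiv.congr_fun hk ⟨z, hz⟩)

/-- an element outside the inertia group moves the residue of an invariant of inertia -/
lemma exists_unit_fix (hfin : FinOn G L) {p : ℕ} (hp : p.Prime) (hwp : w (p : M) < 1)
    (hv : ∀ z ∈ L, ∃ c ∈ L, (∀ g ∈ G, g • c = c) ∧ w z = w c) {q : Γ} (hq : q ∈ G)
    (hqI : q ∉ inert w G L hL hiso) :
    ∃ u ∈ L, (∀ g ∈ inert w G L hL hiso, g • u = u) ∧ w u ≤ 1 ∧ w (q • u - u) = 1 := by
  have := hfin.finite_range hL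
  let I : Subgroup (RingAut L) := ((inert w G L hL hiso).subgroupOf G).map (resAut G L hL)
  have hIle : I ≤ (resAut G L hL).range := Subgroup.map_le_range _ _
  have : Finite I := Finite.of_injective _ (Subgroup.inclusion_injective hIle)
  have hI : IsPGroup p I := by
    rintro ⟨_, g, hg, rfl⟩
    obtain ⟨k, hk⟩ := pow_eq_one_of_mem (hL := hL) (hiso := hiso) hfin hp hwp hv (g := g) hg
    exact ⟨k, Subtype.ext hk⟩
  obtain ⟨z, hz, hz1, hz2⟩ : ∃ z ∈ L, w z ≤ 1 ∧ w (q • z - z) = 1 := by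
    by_contra hcon
    push Not at hcon
    refine hqI ⟨hq, fun z hz h1 => lt_of_le_of_ne ?_ (hcon z hz h1)⟩
    exact w.map_sub_le (by rwa [hiso q hq z hz]) h1
  obtain ⟨u, hu1, hu2, hu3⟩ := exists_unit_sub (Q := RingAut L) (L := L) (w.comap L.subtype) hp
    (by simpa using hwp) I hI
    (by
      rintro _ ⟨g, hg, rfl⟩ y hy
      exact hg.2 y y.2 hy)
    (q := resAut G L hL ⟨q, hq⟩) (fun y => hiso q hq y y.2) (z := ⟨z, hz⟩) hz1 hz2
  exact ⟨u, u.2, fun g hg =>
    congrArg Subtype.val (hu1 _ ⟨⟨g, hg.1⟩, hg, rfl⟩), hu2, hu3⟩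

end Inert

/-- the elements of `L` fixed by `I` -/
def fixIn (I : Subgroup Γ) (L : Subfield M) : Subfield M where
  carrier := {z | z ∈ L ∧ ∀ g ∈ I, g • z = z}
  mul_mem' ha hb := ⟨L.mul_mem ha.1 hb.1, fun g hg => by rw [smul_mul', ha.2 g hg, hb.2 g hg]⟩
  one_mem' := ⟨L.one_mem, fun g _ => smul_one g⟩
  add_mem' ha hb := ⟨L.add_mem ha.1 hb.1, fun g hg => by rw [smul_add, ha.2 g hg, hb.2 g hg]⟩
  zero_mem' := ⟨L.zero_mem, fun g _ => smul_zero g⟩
  neg_mem' ha := ⟨L.neg_mem ha.1, fun g hg => by rw [smul_neg, ha.2 g hg]⟩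
  inv_mem' a ha := ⟨L.inv_mem ha.1, fun g hg => by rw [smul_inv'', ha.2 g hg]⟩

lemma mem_fixIn {I : Subgroup Γ} {L : Subfield M} {z : M} :
    z ∈ fixIn I L ↔ z ∈ L ∧ ∀ g ∈ I, g • z = z := Iff.rfl

lemma fixIn_le (I : Subgroup Γ) (L : Subfield M) : fixIn I L ≤ L := fun _ h => h.1

/-- an element normalising `I` and preserving `L` preserves the fixed field -/
lemma smul_mem_fixIn {I : Subgroup Γ} {L : Subfield M} {t : Γ}
    (h1 : ∀ g ∈ I, t⁻¹ * g * t ∈ I) (h2 : ∀ z ∈ L, t • z ∈ L) {z : M} (hz : z ∈ fixIn I L) :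
    t • z ∈ fixIn I L := by
  refine ⟨h2 z hz.1, fun g hg => ?_⟩
  have := hz.2 _ (h1 g hg)
  rw [mul_smul, mul_smul, inv_smul_eq_iff] at this
  exact this

section Der

variable {U : Type*} [Field U]

/-- a derivation which maps the invariants into `K` maps `K` into `K` -/
lemma der_mem {K Q : Type*} [Field K] [Group Q] [Finite Q] [MulSemiringAction Q K]
    (κ : K →+* U) (D : U →+ U) (hD : ∀ a b, D (a * b) = a * D b + b * D a)
    (hF : ∀ z : K, (∀ q : Q, q • z = z) → ∃ z', D (κ z) = κ z') (z : K) :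
    ∃ z', D (κ z) = κ z' := by
  let F := FixedPoints.subfield Q K
  have hsep : IsSeparable F z := Algebra.IsSeparable.isSeparable F z
  have h0 : aeval z (minpoly F z) = 0 := minpoly.aeval F z
  have h1 : aeval z (derivative (minpoly F z)) ≠ 0 :=
    Polynomial.Separable.aeval_derivative_ne_zero hsep h0
  set f : U[X] := (minpoly F z).map (κ.comp (algebraMap F K)) with hf
  have e1 : ∀ g : F[X], (g.map (κ.comp (algebraMap F K))).eval (κ z) = κ (aeval z g) := by
    intro g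
    rw [eval_map, aeval_def, hom_eval₂]
  have h2 := der_eval_sub D hD f (κ z)
  rw [hf, derivative_map, e1, e1, h0, map_zero, map_zero, ← hf] at h2
  have h3 : (f.sum fun j c => D c * κ z ^ j) ∈ κ.fieldRange := by
    rw [Polynomial.sum_def]
    refine Subfield.sum_mem _ fun j _ => Subfield.mul_mem _ ?_
      (Subfield.pow_mem _ (κ.mem_fieldRange_self z) j)
    rw [hf, coeff_map]
    obtain ⟨z', hz'⟩ := hF _ ((minpoly F z).coeff j).2
    exact ⟨z', hz'.symm⟩
  have h4 : κ (aeval z (derivative (minpoly F z))) ≠ 0 := (map_ne_zero κ).2 h1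
  have h5 : D (κ z) = -(f.sum fun j c => D c * κ z ^ j) /
      κ (aeval z (derivative (minpoly F z))) := by
    rw [eq_div_iff h4, eq_neg_iff_add_eq_zero, mul_comm]
    exact h2.symm
  obtain ⟨z', hz'⟩ : D (κ z) ∈ κ.fieldRange := by
    rw [h5]
    exact Subfield.div_mem _ (Subfield.neg_mem _ h3) (κ.mem_fieldRange_self _)
  exact ⟨z', hz'.symm⟩

/-- **the fixed field of inertia is étale**: derivations stay integral. -/
theorem inert_der (ι : M →+* U) (v : Valuation U Δ) {G : Subgroup Γ} {L : Subfield M}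
    {hL : ∀ g ∈ G, ∀ z ∈ L, g • z ∈ L}
    {hiso : ∀ g ∈ G, ∀ z ∈ L, (v.comap ι) (g • z) = (v.comap ι) z}
    (hfin : FinOn G L) {p : ℕ} (hp : p.Prime) (hvp : v (p : U) < 1)
    (D : U →+ U) (hD : ∀ a b, D (a * b) = a * D b + b * D a)
    (hv : ∀ z ∈ L, ∃ c ∈ L, (∀ g ∈ G, g • c = c) ∧ D (ι c) = 0 ∧ v (ι z) = v (ι c))
    (c : ℕ → M) (hcL : ∀ i, c i ∈ L) (hc1 : ∀ i, v (ι (c i)) ≤ 1)
    (hc2 : ∀ i j, i ≠ j → v (ι (c i - c j)) = 1) (hc3 : ∀ g ∈ G, ∀ i, g • c i = c i)
    (hF : ∀ z ∈ L, (∀ g ∈ G, g • z = z) →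
      (∃ z' ∈ L, (∀ g ∈ G, g • z' = z') ∧ D (ι z) = ι z') ∧ v (D (ι z)) ≤ v (ι z))
    {z : M} (hz : z ∈ fixIn (inert (v.comap ι) G L hL hiso) L) :
    (∃ z' ∈ fixIn (inert (v.comap ι) G L hL hiso) L, D (ι z) = ι z') ∧
      v (D (ι z)) ≤ v (ι z) := by
  classical
  set w := v.comap ι with hw
  set I := inert w G L hL hiso with hI
  set K := fixIn I L with hK
  have hv' : ∀ z ∈ L, ∃ c ∈ L, (∀ g ∈ G, g • c = c) ∧ w z = w c := fun z hz => by
    obtain ⟨c, h1, h2, -, h4⟩ := hv z hz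
    exact ⟨c, h1, h2, h4⟩
  have hwp : w (p : M) < 1 := by simpa [hw] using hvp
  have hKG : ∀ g ∈ G, ∀ z ∈ K, g • z ∈ K := fun g hg z hz =>
    smul_mem_fixIn (fun h hh => by
      have := conj_mem_inert (t := g⁻¹) hh
        (G.mul_mem (G.mul_mem (G.inv_mem hg) hh.1) (G.inv_mem (G.inv_mem hg)))
        (fun y hy => hL _ (G.inv_mem (G.inv_mem hg)) y hy) (hiso _ (G.inv_mem hg))
      rwa [inv_inv] at this) (hL g hg) hz
  have hGK : ∀ y ∈ L, (∀ g ∈ G, g • y = y) → y ∈ K := fun y hy h =>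
    ⟨hy, fun g hg => h g hg.1⟩
  let Q := (resAut G K hKG).range
  have : Finite Q := (hfin.mono (fixIn_le I L)).finite_range hKG
  have := Fintype.ofFinite Q
  let κ : K →+* U := ι.comp K.subtype
  have hfix : ∀ y : K, (∀ q : Q, q • y = y) → ∀ g ∈ G, g • (y : M) = y := fun y hy g hg =>
    congrArg Subtype.val (hy ⟨resAut G K hKG ⟨g, hg⟩, _, rfl⟩)
  have hmem : ∀ y : K, ∃ y', D (κ y) = κ y' := der_mem (Q := Q) κ D hD fun y hy => by
    obtain ⟨⟨y', h1, h2, h3⟩, -⟩ := hF y y.2.1 (hfix y hy)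
    exact ⟨⟨y', hGK y' h1 h2⟩, h3⟩
  choose d hd using hmem
  let DK : K →+ K := AddMonoidHom.mk' d fun a b => κ.injective (by
    rw [← hd, map_add, map_add, map_add, hd, hd])
  have hDK : ∀ a b, DK (a * b) = a * DK b + b * DK a := fun a b => κ.injective (by
    change κ (d (a * b)) = κ (a * d b + b * d a)
    rw [← hd, map_mul, hD, map_add, map_mul, map_mul, hd, hd])
  have hisoQ : ∀ (q : Q) (y : K), (v.comap κ) (q • y) = (v.comap κ) y := by
    rintro ⟨_, g, rfl⟩ y
    exact hiso g g.2 y y.2.1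
  obtain ⟨α, hα, hsep⟩ := exists_sep (Q := Q) (L := K) (v.comap κ)
    (fun i => ⟨c i, hGK _ (hcL i) fun g hg => hc3 g hg i⟩) hc1 hc2
    (by
      rintro ⟨_, g, rfl⟩ i
      exact Subtype.ext (hc3 g g.2 i))
    hisoQ (Finset.univ.erase 1)
    (by
      rintro ⟨_, g, rfl⟩ hq
      have hgI : (g : Γ) ∉ I := fun h => Finset.ne_of_mem_erase hq
        (Subtype.ext (RingEquiv.ext fun y => Subtype.ext (y.2.2 g h)))
      obtain ⟨u, h1, h2, h3, h4⟩ := exists_unit_fix hfin hp hwp hv' g.2 hgI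
      exact ⟨⟨u, h1, h2⟩, h3, h4⟩)
  have hint : ∀ y : K, v (κ y) ≤ 1 → v (D (κ y)) ≤ 1 := fun y hy => by
    have := der_le_one (Q := Q) (v.comap κ) DK hDK hisoQ
      (fun y hy h1 => by
        change v (κ (d y)) ≤ 1
        rw [← hd]
        exact (hF y y.2.1 (hfix y hy)).2.trans h1)
      hα (fun q hq => hsep q (Finset.mem_erase.2 ⟨hq, Finset.mem_univ _⟩)) (z := y) hy
    rw [hd]
    exact this
  refine ⟨⟨d ⟨z, hz⟩, (d ⟨z, hz⟩).2, hd ⟨z, hz⟩⟩, ?_⟩
  by_cases h0 : z = 0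
  · simp [h0]
  obtain ⟨a, ha, ha1, ha2, ha3⟩ := hv z hz.1
  have hvz : v (ι z) ≠ 0 := by simpa using h0
  have ha0 : a ≠ 0 := by
    rintro rfl
    exact hvz (by simpa using ha3)
  have h1 := hint ⟨z / a, K.div_mem hz (hGK a ha ha1)⟩ (by
    change v (ι (z / a)) ≤ 1
    rw [map_div₀, map_div₀, ← ha3, div_self hvz])
  change v (D (ι (z / a))) ≤ 1 at h1
  have h2 : D (ι z) = ι a * D (ι (z / a)) := by
    conv_lhs => rw [← mul_div_cancel₀ z ha0, map_mul, hD, ha2, mul_zero, add_zero]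
  rw [h2, map_mul, ha3]
  exact mul_le_of_le_one_right' h1

end Der

/-- **a lift which stabilises a valuation ring** -/
theorem exists_stab {G : Subgroup Γ} {L : Subfield M} (hL : ∀ g ∈ G, ∀ z ∈ L, g • z ∈ L)
    (hfin : FinOn G L) (V : ValuationSubring L) (τ : L →+* L)
    (hτ : ∀ z : L, (∀ g ∈ G, g • (z : M) = z) → (τ z ∈ V ↔ z ∈ V)) :
    ∃ h ∈ G, ∀ z z' : L, (z' : M) = h • (z : M) → (τ z' ∈ V ↔ z ∈ V) := by
  let Q := (resAut G L hL).range
  have : Finite Q := hfin.finite_range hL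
  let F := FixedPoints.subfield Q L
  obtain ⟨g, hg⟩ := exists_conj (F := F) (V.comap τ) V fun a =>
    hτ a fun g hg => congrArg Subtype.val (a.2 ⟨resAut G L hL ⟨g, hg⟩, _, rfl⟩)
  obtain ⟨⟨_, h, rfl⟩, rfl⟩ := FixedPoints.toAlgAut_surjective Q L g
  refine ⟨h, h.2, fun z z' e => ?_⟩
  have : z' = resAut G L hL h z := Subtype.ext e
  rw [this]
  exact (hg z).symm

/-- the `p`-part of an element of finite order is a power with exponent `≡ 1 mod p ^ a` -/
theorem exists_ppart {p : ℕ} (hp : p.Prime) (a : ℕ) {r : ℕ} (hr : 0 < r) :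
    ∃ m k : ℕ, m ≡ 1 [MOD p ^ a] ∧ 0 < m ∧ r ∣ m * p ^ k := by
  obtain ⟨k, s, hs, he⟩ := Nat.exists_eq_pow_mul_and_not_dvd hr.ne' p hp.ne_one
  have hc : Nat.Coprime s (p ^ a) :=
    (((Nat.Prime.coprime_iff_not_dvd hp).2 hs).symm).pow_right a
  have hs0 : 0 < s := Nat.pos_of_ne_zero fun h => hs (h ▸ dvd_zero p)
  refine ⟨s ^ (p ^ a).totient, k, Nat.ModEq.pow_totient hc, pow_pos hs0 _, ?_⟩
  rw [he, mul_comm]
  exact Nat.mul_dvd_mul_right
    (dvd_pow_self s (Nat.totient_pos.2 (pow_pos hp.pos a)).ne') _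

end Crest.Agent.T170.Desc86
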