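import Crest.Agent.T170.RetE5_88_Mg
import Crest.Agent.T170.CntDef_9
import Crest.Agent.T170.DescIn_86_Mg
import Crest.Agent.T170.DescFine_74
import Crest.Agent.T170.LogB_89
import Crest.Agent.T170.RetApi_81
import Crest.Agent.T170.GalConj_6
import Crest.Agent.T170.Fr_20
import Crest.Agent.T170.DescCore_74
import Crest.Agent.T170.DsDef_6

-- ▼ part T170/RetFin_88
section

/-!
# Row 170: **Riemann existence on the line**, unconditional (assembly, helper88)
-/

set_option autoImplicit false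

namespace Crest.Agent.T170.Ret

/-- **Riemann existence on the line** -/
theorem retP1 : RetP1 := retP1_of gStmt RetE.eStmt

end Crest.Agent.T170.Ret
end

-- ▼ part T170/DescGrp_35
section

/-!
# Row 170 (helper35): the group theory of the descent

* `cnt_of_grp` : Smith lemma + count of labelled homomorphisms + passage to `I / J`;
* `gal_dict`, `exists_Q`, `dvd_orderOf` : the Galois dictionary for `E = M^I ⊆ N = M^J`.
-/

set_option autoImplicit false

namespace Crest.Agent.T170.Desc35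

open Crest.Agent.R170 Crest.Agent.T170.Smith13

/-- elements of `I ⊔ ⟨t⟩` have a `p`-power in `I` -/
theorem pow_mem_of_mem_sup {p : ℕ} {Γ : Type} [Group Γ] (I : Subgroup Γ) [I.Normal] (t : Γ)
    (ht : ∃ k, t ^ p ^ k ∈ I) {g : Γ} (hg : g ∈ I ⊔ Subgroup.zpowers t) :
    ∃ k, g ^ p ^ k ∈ I := by
  obtain ⟨k, hk⟩ := ht
  refine ⟨k, ?_⟩
  have h1 : QuotientGroup.mk' I g ∈ (I ⊔ Subgroup.zpowers t).map (QuotientGroup.mk' I) :=
    Subgroup.mem_map_of_mem _ hg
  rw [Subgroup.map_sup, QuotientGroup.map_mk'_self, bot_sup_eq, MonoidHom.map_zpowers] at h1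
  obtain ⟨m, hm⟩ := Subgroup.mem_zpowers_iff.1 h1
  have h2 : QuotientGroup.mk' I (t ^ p ^ k) = 1 := (QuotientGroup.eq_one_iff _).2 hk
  have h3 : QuotientGroup.mk' I (g ^ p ^ k) = 1 := by
    rw [map_pow, ← hm, ← zpow_natCast, ← zpow_mul, mul_comm, zpow_mul, zpow_natCast, ← map_pow,
      h2, one_zpow]
  exact (QuotientGroup.eq_one_iff _).1 h3

/-- a section `Q / J` of `I` gives a normal `p`-subgroup of the image of `I` -/
theorem hasOp_range {p : ℕ} {Γ G : Type} [Group Γ] [Group G] (I : Subgroup Γ) (φ : I →* G)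
    (Q : Subgroup Γ) (hQI : Q ≤ I) (hne : ¬ Q ≤ φ.ker.map I.subtype)
    (hn : ∀ g ∈ I, ∀ z ∈ Q, g * z * g⁻¹ ∈ Q)
    (hp : ∀ z ∈ Q, ∃ k, z ^ p ^ k ∈ φ.ker.map I.subtype) : HasOp p φ.range := by
  have hJ : ∀ z : I, (z : Γ) ∈ φ.ker.map I.subtype ↔ φ z = 1 := by
    intro z
    constructor
    · rintro ⟨w, hw, e⟩
      have : w = z := Subtype.ext e
      rw [← this]; exact hw
    · intro h; exact ⟨z, h, rfl⟩
  refine ⟨(Q.subgroupOf I).map φ, ?_, ?_, Subgroup.map_le_range _ _, ?_⟩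
  · intro h
    apply hne
    intro z hz
    have : φ ⟨z, hQI hz⟩ ∈ (Q.subgroupOf I).map φ := Subgroup.mem_map_of_mem _ hz
    rw [h] at this
    exact (hJ ⟨z, hQI hz⟩).2 (Subgroup.mem_bot.1 this)
  · rintro ⟨_, z, hz, rfl⟩
    obtain ⟨k, hk⟩ := hp z hz
    refine ⟨k, Subtype.ext ?_⟩
    have := (hJ (z ^ p ^ k)).1 hk
    rw [map_pow] at this
    exact this
  · have hN : (Q.subgroupOf I).Normal := ⟨fun z hz g => hn g g.2 z hz⟩
    rintro _ ⟨g, rfl⟩
    rw [Subgroup.mem_normalizer_iff]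
    intro u
    constructor
    · rintro ⟨z, hz, rfl⟩
      exact ⟨g * z * g⁻¹, hN.conj_mem _ hz _, by simp⟩
    · rintro ⟨z, hz, e⟩
      refine ⟨g⁻¹ * z * g⁻¹⁻¹, hN.conj_mem _ hz _, ?_⟩
      simp only [map_mul, map_inv, e, inv_inv]
      group

/-- **the group theory of the descent** -/
theorem cnt_of_grp {p n : ℕ} [Fact p.Prime] {Γ P0 G : Type} [Group Γ] [Group P0] [Group G]
    [Finite Γ] [Finite G] (r : P0 →* Γ) (hr : Function.Injective r) (I : Subgroup Γ)
    (hN : r.range.Normal) (hI : I.Normal) (hle : r.range ≤ I)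
    (hIp : ∀ g ∈ I, ∃ k, g ^ p ^ k ∈ r.range) (t : Γ) (ht : ∃ k, t ^ p ^ k ∈ I)
    (γ : Fin n → P0) (c : G) (hc : p ∣ orderOf c)
    (hrot : ∀ g : Γ, ∀ i, ∃ j h, g * r (γ i) * g⁻¹ = r (h * γ j * h⁻¹))
    (hcount : ∀ A : Subgroup G,
      Nat.card {ρ : P0 →* G // (∀ i, IsConj (ρ (γ i)) c) ∧ ρ.range ≤ A} =
        Nat.card (Tup A fun (_ : Fin n) (h : A) => IsConj (h : G) c))
    (hgeo : ∀ J : Subgroup Γ, J ≤ I → (∀ g ∈ I, ∀ z ∈ J, g * z * g⁻¹ ∈ J) →
      (∀ z ∈ J, t * z * t⁻¹ ∈ J) → J.relIndex I ≤ Nat.card G →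
      (∀ i m, r (γ i) ^ m ∈ J → p ∣ m) →
      ∃ Q : Subgroup Γ, J ≤ Q ∧ Q ≤ I ∧ ¬ Q ≤ J ∧ (∀ g ∈ I, ∀ z ∈ Q, g * z * g⁻¹ ∈ Q) ∧
        ∀ z ∈ Q, ∃ k, z ^ p ^ k ∈ J) :
    ((p * pPart p (Nat.card G) : ℕ) : ℤ) ∣
      ∑ᶠ w : Tup G (fun (_ : Fin n) (g : G) => IsConj g c), sA p (tcl w.1) := by
  classical
  set Γ' : Subgroup Γ := I ⊔ Subgroup.zpowers t with hΓ'
  have hIΓ : I ≤ Γ' := le_sup_left
  have htΓ : t ∈ Γ' := (le_sup_right : Subgroup.zpowers t ≤ Γ') (Subgroup.mem_zpowers t)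
  set N : Subgroup Γ' := r.range.subgroupOf Γ' with hNdef
  have hNn : N.Normal := hN.subgroupOf Γ'
  let e0 : P0 →* N :=
    (r.codRestrict Γ' fun x => hIΓ (hle ⟨x, rfl⟩)).codRestrict N fun x => ⟨x, rfl⟩
  have he0 : ∀ x, ((e0 x : Γ') : Γ) = r x := fun _ => rfl
  have hbij : Function.Bijective e0 := by
    constructor
    · intro x y h
      apply hr
      rw [← he0, ← he0, h]
    · rintro ⟨⟨z, hz⟩, x, hx⟩
      exact ⟨x, Subtype.ext (Subtype.ext hx)⟩
  let e : P0 ≃* N := MulEquiv.ofBijective e0 hbij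
  have he : ∀ x, ((e x : Γ') : Γ) = r x := fun _ => rfl
  let T : Set (N →* G) := {ρ | ∀ i, IsConj (ρ (e (γ i))) c}
  have hq : IsPGroup p (Γ' ⧸ N) := by
    intro g
    obtain ⟨g, rfl⟩ := QuotientGroup.mk_surjective g
    obtain ⟨k, hk⟩ := pow_mem_of_mem_sup I t ht g.2
    obtain ⟨l, hl⟩ := hIp _ hk
    refine ⟨k + l, ?_⟩
    rw [← QuotientGroup.mk_pow, QuotientGroup.eq_one_iff, pow_add, pow_mul]
    exact hl
  have key := smith (p := p) N hq T ?_ ?_ ?_
  · -- the count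
    have hfin : Finite (N →* G) := Finite.of_injective _ DFunLike.coe_injective
    rw [← tuple_sum_eq p (fun (_ : Fin n) (g : G) => IsConj g c)]
    rw [← chain_sum_eq p (fun ρ : T => (ρ : N →* G).range)] at key
    convert key using 2
    funext σ
    rw [← hcount]
    congr 2
    refine Nat.card_congr ⟨fun ρ => ⟨⟨ρ.1.comp e.symm.toMonoidHom, fun i => ?_⟩, ?_⟩,
      fun ρ => ⟨ρ.1.1.comp e.toMonoidHom, ρ.1.2, ?_⟩, fun ρ => ?_, fun ρ => ?_⟩
    · simpa using ρ.2.1 i
    · rintro _ ⟨x, rfl⟩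
      exact ρ.2.2 ⟨_, rfl⟩
    · rintro _ ⟨x, rfl⟩
      exact ρ.2 ⟨_, rfl⟩
    · refine Subtype.ext (MonoidHom.ext fun x => ?_)
      simp
    · refine Subtype.ext (Subtype.ext (MonoidHom.ext fun x => ?_))
      simp
  · intro g ρ hρ i
    refine IsConj.trans (IsConj.symm ?_) (hρ i)
    exact isConj_iff.2 ⟨g, rfl⟩
  · intro g ρ hρ i
    obtain ⟨j, h, hj⟩ := hrot g i
    have h1 : (MulAut.conjNormal g : MulAut N) (e (γ i)) = e (h * γ j * h⁻¹) := by
      apply Subtype.ext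
      apply Subtype.ext
      rw [he, ← hj, MulAut.conjNormal_apply]
      rfl
    refine IsConj.trans (IsConj.symm ?_) (hρ j)
    refine isConj_iff.2 ⟨ρ (e h), ?_⟩
    change _ = ρ ((MulAut.conjNormal g : MulAut N) (e (γ i)))
    rw [h1]
    simp
  · intro ρ' hρ'
    let φ : I →* G := ρ'.comp (Subgroup.inclusion hIΓ)
    have hJ : ∀ z : I, (z : Γ) ∈ φ.ker.map I.subtype ↔ φ z = 1 := by
      intro z
      constructor
      · rintro ⟨w, hw, e⟩
        have : w = z := Subtype.ext e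
        rw [← this]; exact hw
      · intro h; exact ⟨z, h, rfl⟩
    have hconj : ∀ g : Γ', ∀ z : I,
        φ ⟨g * z * g⁻¹, hI.conj_mem _ z.2 _⟩ = ρ' g * φ z * (ρ' g)⁻¹ := by
      intro g z
      change ρ' (g * Subgroup.inclusion hIΓ z * g⁻¹) = _
      rw [map_mul, map_mul, map_inv]
      rfl
    have hJn : ∀ g : Γ', ∀ z ∈ φ.ker.map I.subtype,
        (g : Γ) * z * (g : Γ)⁻¹ ∈ φ.ker.map I.subtype := by
      rintro g _ ⟨z, hz, rfl⟩
      refine (hJ ⟨g * z * g⁻¹, hI.conj_mem _ z.2 _⟩).2 ?_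
      rw [hconj, (MonoidHom.mem_ker).1 hz]
      simp
    have hidx : (φ.ker.map I.subtype).relIndex I ≤ Nat.card G := by
      have : (φ.ker.map I.subtype).subgroupOf I = φ.ker := by
        ext z
        rw [Subgroup.mem_subgroupOf, hJ, MonoidHom.mem_ker]
      rw [Subgroup.relIndex, this, Subgroup.index_ker]
      exact Nat.card_le_card_of_injective _ (Subgroup.subtype_injective _)
    have hord : ∀ i m, r (γ i) ^ m ∈ φ.ker.map I.subtype → p ∣ m := by
      intro i m hm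
      have h1 := (hJ (⟨r (γ i), hle ⟨_, rfl⟩⟩ ^ m)).1 hm
      rw [map_pow] at h1
      have h2 : IsConj (φ ⟨r (γ i), hle ⟨_, rfl⟩⟩) c := hρ' i
      obtain ⟨u, hu⟩ := isConj_iff.1 h2
      have h3 : c ^ m = 1 := by
        rw [← hu, conj_pow, h1]
        simp
      exact hc.trans (orderOf_dvd_of_pow_eq_one h3)
    obtain ⟨Q, -, hQI, hne, hn, hp⟩ := hgeo (φ.ker.map I.subtype) (Subgroup.map_subtype_le _)
      (fun g hg => hJn ⟨g, hIΓ hg⟩) (hJn ⟨t, htΓ⟩) hidx hord
    refine HasOp.of_normal (A := φ.range) ?_ ?_ (hasOp_range I φ Q hQI hne hn hp)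
    · rintro _ ⟨z, rfl⟩
      exact ⟨_, rfl⟩
    · rintro _ ⟨g, rfl⟩
      rw [Subgroup.mem_normalizer_iff]
      intro u
      constructor
      · rintro ⟨z, rfl⟩
        exact ⟨_, hconj g z⟩
      · rintro ⟨z, e⟩
        refine ⟨_, (hconj g⁻¹ z).trans ?_⟩
        rw [e, map_inv]
        group

/-! ### the Galois dictionary -/

section Gal

variable {Γ M E N : Type} [Group Γ] [Field M] [MulSemiringAction Γ M] [Field E] [Field N]
  [Algebra E N]

/-- `N ≅ M^J`, `E ≅ M^I`, `J` normal in `I`: the action of `I` on `N` -/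
theorem exists_act (I J : Subgroup Γ) (hn : ∀ g ∈ I, ∀ z ∈ J, g * z * g⁻¹ ∈ J) (j : N →+* M)
    (hN : ∀ z : M, z ∈ j.range ↔ ∀ g ∈ J, g • z = z)
    (hE : ∀ g ∈ I, ∀ z : E, g • j (algebraMap E N z) = j (algebraMap E N z)) :
    ∃ ψ : I →* (N ≃ₐ[E] N), ∀ (g : I) z, j (ψ g z) = (g : Γ) • j z := by
  have hj := j.injective
  have hex : ∀ (g : I) (z : N), ∃ z' : N, j z' = (g : Γ) • j z := by
    intro g z
    refine (hN _).2 fun h hh => ?_
    have h1 := (hN (j z)).1 ⟨z, rfl⟩ _ (hn _ (I.inv_mem g.2) h hh)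
    rw [inv_inv, mul_smul, mul_smul, inv_smul_eq_iff] at h1
    exact h1
  choose f hf using hex
  have hmul : ∀ (g h : I) z, f (g * h) z = f g (f h z) := by
    intro g h z
    apply hj
    rw [hf, hf, hf, Subgroup.coe_mul, mul_smul]
  have hone : ∀ z, f 1 z = z := by
    intro z
    apply hj
    rw [hf, Subgroup.coe_one, one_smul]
  let F : I → (N ≃ₐ[E] N) := fun g =>
    { toFun := f g
      invFun := f g⁻¹
      left_inv := fun z => by rw [← hmul, inv_mul_cancel, hone]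
      right_inv := fun z => by rw [← hmul, mul_inv_cancel, hone]
      map_mul' := fun a b => hj (by rw [map_mul, hf, hf, hf, map_mul, smul_mul'])
      map_add' := fun a b => hj (by rw [map_add, hf, hf, hf, map_add, smul_add])
      commutes' := fun a => hj (by rw [hf, hE _ g.2]) }
  exact ⟨MonoidHom.mk' F fun g h => AlgEquiv.ext fun z => hmul g h z, fun g z => hf g z⟩

/-- an element of a finite group acting faithfully which fixes `M^J` lies in `J` -/
theorem mem_of_fix [Finite Γ] [FaithfulSMul Γ M] (J : Subgroup Γ) {g : Γ}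
    (hg : ∀ z : M, (∀ h ∈ J, h • z = z) → g • z = z) : g ∈ J := by
  let a : M ≃ₐ[FixedPoints.subfield J M] M :=
    { MulSemiringAction.toRingEquiv Γ M g with
      commutes' := fun z => hg _ fun h hh => z.2 ⟨h, hh⟩ }
  obtain ⟨h, hh⟩ := FixedPoints.toAlgAut_surjective J M a
  have : (h : Γ) = g := by
    refine FaithfulSMul.eq_of_smul_eq_smul (α := M) fun z => ?_
    exact DFunLike.congr_fun hh z
  rw [← this]; exact h.2

/-- **the Galois dictionary**: `Γ` finite acting faithfully on `M`, `J` normal in `I`,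
`N ≅ M^J`, `E ≅ M^I`. -/
theorem gal_dict [Finite Γ] [FaithfulSMul Γ M] (I J : Subgroup Γ)
    (hn : ∀ g ∈ I, ∀ z ∈ J, g * z * g⁻¹ ∈ J) (j : N →+* M)
    (hN : ∀ z : M, z ∈ j.range ↔ ∀ g ∈ J, g • z = z)
    (hE : ∀ z : N, z ∈ (algebraMap E N).range ↔ ∀ g ∈ I, g • j z = j z) :
    FiniteDimensional E N ∧ IsGalois E N ∧ Module.finrank E N = J.relIndex I ∧
      ∃ ψ : I →* (N ≃ₐ[E] N), Function.Surjective ψ ∧ (∀ g : I, ψ g = 1 ↔ (g : Γ) ∈ J) ∧
        ∀ (g : I) z, j (ψ g z) = (g : Γ) • j z := by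
  obtain ⟨ψ, hψ⟩ := exists_act I J hn j hN fun g hg z => (hE _).1 ⟨z, rfl⟩ g hg
  have hker : ∀ g : I, ψ g = 1 ↔ (g : Γ) ∈ J := by
    intro g
    constructor
    · intro h
      refine mem_of_fix (M := M) J fun z hz => ?_
      obtain ⟨w, rfl⟩ := (hN z).2 hz
      rw [← hψ, h]
      rfl
    · intro h
      refine AlgEquiv.ext fun z => j.injective ?_
      rw [hψ]
      exact (hN _).1 ⟨z, rfl⟩ _ h
  have hfin : Finite ψ.range := Finite.of_surjective _ ψ.rangeRestrict_surjective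
  have hG : IsGaloisGroup ψ.range E N :=
    { faithful := inferInstance
      commutes := inferInstance
      isInvariant := ⟨fun z hz => (hE z).2 fun g hg => by
        have := hz ⟨ψ ⟨g, hg⟩, ⟨_, rfl⟩⟩
        have h2 := hψ ⟨g, hg⟩ z
        rw [← show j (ψ ⟨g, hg⟩ z) = g • j z from h2]
        exact congrArg j this⟩ }
  have hfd : FiniteDimensional E N := IsGaloisGroup.finiteDimensional ψ.range E N
  have hgal : IsGalois E N := IsGaloisGroup.isGalois ψ.range E N
  have hcard : Nat.card ψ.range = Module.finrank E N := IsGaloisGroup.card_eq_finrank ψ.range E N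
  have htop : ψ.range = ⊤ := by
    apply Subgroup.eq_top_of_card_eq
    rw [hcard, IsGalois.card_aut_eq_finrank]
  refine ⟨hfd, hgal, ?_, ψ, MonoidHom.range_eq_top.1 htop, hker, hψ⟩
  have : J.subgroupOf I = ψ.ker := by
    ext g
    rw [Subgroup.mem_subgroupOf, MonoidHom.mem_ker, hker]
  rw [Subgroup.relIndex, this, Subgroup.index_ker, hcard]

/-- a normal `p`-subgroup of a quotient `I / J` gives the subgroup `Q` of `cnt_of_grp` -/
theorem exists_Q {p : ℕ} {A : Type} [Group A] (I J : Subgroup Γ) (hJI : J ≤ I) (ψ : I →* A)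
    (hs : Function.Surjective ψ) (hker : ∀ g : I, ψ g = 1 ↔ (g : Γ) ∈ J)
    (h : ∃ Q : Subgroup A, Q.Normal ∧ Q ≠ ⊥ ∧ IsPGroup p Q) :
    ∃ Q : Subgroup Γ, J ≤ Q ∧ Q ≤ I ∧ ¬ Q ≤ J ∧ (∀ g ∈ I, ∀ z ∈ Q, g * z * g⁻¹ ∈ Q) ∧
      ∀ z ∈ Q, ∃ k, z ^ p ^ k ∈ J := by
  obtain ⟨Q, hQn, hQ, hQp⟩ := h
  refine ⟨(Q.comap ψ).map I.subtype, ?_, Subgroup.map_subtype_le _, ?_, ?_, ?_⟩
  · intro z hz
    refine ⟨⟨z, hJI hz⟩, ?_, rfl⟩
    change ψ _ ∈ Q
    rw [(hker ⟨z, hJI hz⟩).2 hz]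
    exact Q.one_mem
  · intro hle
    apply hQ
    rw [eq_bot_iff]
    intro a ha
    obtain ⟨g, rfl⟩ := hs a
    exact Subgroup.mem_bot.2 ((hker g).2 (hle ⟨g, ha, rfl⟩))
  · rintro g hg _ ⟨z, hz, rfl⟩
    exact ⟨⟨g, hg⟩ * z * ⟨g, hg⟩⁻¹, (hQn.comap ψ).conj_mem _ hz _, rfl⟩
  · rintro _ ⟨z, hz, rfl⟩
    obtain ⟨k, hk⟩ := hQp ⟨ψ z, hz⟩
    refine ⟨k, (hker (z ^ p ^ k)).1 ?_⟩
    rw [map_pow]
    exact congrArg Subtype.val hk

/-- the order of the image of an element in `I / J` -/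
theorem dvd_orderOf {p : ℕ} {A : Type} [Group A] (I J : Subgroup Γ) (ψ : I →* A)
    (hker : ∀ g : I, ψ g = 1 ↔ (g : Γ) ∈ J) (g : I) (h : ∀ m, (g : Γ) ^ m ∈ J → p ∣ m) :
    p ∣ orderOf (ψ g) := by
  refine h _ ((hker (g ^ orderOf (ψ g))).1 ?_)
  rw [map_pow, pow_orderOf_eq_one]

end Gal

/-- the choice of the exponent -/
theorem exists_exp {p : ℕ} (hp : p.Prime) (m : ℕ) :
    ∃ a : ℕ, 0 < a ∧ ∀ d ≤ m, d * (4 * d + 1) + 1 < p ^ a := by
  refine ⟨m * (4 * m + 1) + 1, Nat.succ_pos _, fun d hd => ?_⟩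
  refine lt_of_le_of_lt ?_ (Nat.lt_pow_self hp.one_lt)
  gcongr

end Crest.Agent.T170.Desc35
end

-- ▼ part T170/DescAsmB_64
section

/-!
# Row 170, descent (helper64): the assembly  `descent64 : GeoStmt p → DescentStmt p`
-/

set_option autoImplicit false

noncomputable section

namespace Crest.Agent.T170.Desc64

open scoped NNReal Classical
open Crest.Agent.T170.Fr Crest.Agent.T170.Ds Crest.Agent.T170.Desc86 IntermediateField
open WeierstrassCurve WeierstrassCurve.Affine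

theorem exists_hom {A M U : Type*} [Field A] [Field M] [Field U] (i : A →+* U) (ι : M →+* U)
    (h : ∀ a, ∃ z, ι z = i a) : ∃ κ : A →+* M, ∀ a, ι (κ a) = i a := by
  choose f hf using h
  exact ⟨{ toFun := f
           map_one' := ι.injective (by rw [hf, map_one, map_one])
           map_mul' := fun a b => ι.injective (by rw [hf, map_mul, map_mul, hf, hf])
           map_zero' := ι.injective (by rw [hf, map_zero, map_zero])
           map_add' := fun a b => ι.injective (by rw [hf, map_add, map_add, hf, hf]) }, hf⟩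

variable {p n : ℕ} [NeZero n] {U : Type} [Field U] [Algebra ℂ U] {X : World p n U}

/-- `F` is algebraically closed in `F(x, y)` -/
theorem mem_F_of_isC {z : U} (hz : z ∈ EF X) (hc : IsC z) : ∃ c : X.F, algebraMap X.F U c = z := by
  let : Algebra X.R X.F := ((Subfield.inclusion X.CF).comp X.R.subtype).toAlgebra
  have : IsScalarTower X.R X.F U := IsScalarTower.of_algebraMap_eq' rfl
  let L : IntermediateField X.F U := adjoin X.F {X.x, X.y}
  have hx : X.x ∈ L := subset_adjoin _ _ (by simp)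
  have hy : X.y ∈ L := subset_adjoin _ _ (by simp)
  have hG : Ell.IsGen X.W X.F (⟨X.x, hx⟩ : L) ⟨X.y, hy⟩ := by
    refine ⟨((baseChange_nonsingular (W := X.W) (f := L.val.restrictScalars X.R)
      L.val.injective (⟨X.x, hx⟩ : L) (⟨X.y, hy⟩ : L)).1 X.ns).1, fun h => W3.trans_of (K := ℂ) X.trans (h.algHom L.val), ?_⟩
    apply IntermediateField.lift_injective L
    rw [IntermediateField.lift_top, IntermediateField.lift_adjoin, Set.image_pair]
  have hzL : z ∈ L := EF_le X (S := L.toSubfield) L.algebraMap_mem hx hy hz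
  obtain ⟨f, g, r, hr, he⟩ := hG.exists_eq_div ⟨z, hzL⟩
  obtain ⟨c, rfl⟩ := hc
  have he' := congrArg L.val he
  rw [map_div₀, map_add, map_mul, ← Polynomial.aeval_algHom_apply,
    ← Polynomial.aeval_algHom_apply, ← Polynomial.aeval_algHom_apply] at he'
  change algebraMap ℂ U c = (Polynomial.aeval X.x f + Polynomial.aeval X.x g * X.y) /
    Polynomial.aeval X.x r at he'
  have hr0 : Polynomial.aeval X.x r ≠ 0 := fun h0 =>
    W3.trans_of (K := ℂ) X.trans ⟨r, hr, h0⟩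
  have h1 : Polynomial.aeval X.xB (f.map (algebraMap X.F ℂ) -
      Polynomial.C c * r.map (algebraMap X.F ℂ)) +
      Polynomial.aeval X.xB (g.map (algebraMap X.F ℂ)) * X.yB = 0 := by
    apply X.B.val.injective
    change X.B.val _ = X.B.val 0
    rw [map_zero, map_add, map_mul, ← Polynomial.aeval_algHom_apply,
      ← Polynomial.aeval_algHom_apply, map_sub, map_mul, Polynomial.aeval_C,
      Polynomial.aeval_map_algebraMap, Polynomial.aeval_map_algebraMap,
      Polynomial.aeval_map_algebraMap, he']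
    change Polynomial.aeval X.x f - _ * Polynomial.aeval X.x r + Polynomial.aeval X.x g * X.y = 0
    field_simp
    ring
  have h2 := congrArg (fun q => q.coeff r.natDegree) (sub_eq_zero.1 (X.isGenB.basis_eq_zero h1).1)
  simp only [Polynomial.coeff_map, Polynomial.coeff_C_mul] at h2
  have h3 : algebraMap X.F ℂ (r.coeff r.natDegree) ≠ 0 := by
    simpa using Polynomial.leadingCoeff_ne_zero.2 hr
  refine ⟨f.coeff r.natDegree / r.coeff r.natDegree, ?_⟩
  rw [IsScalarTower.algebraMap_apply X.F ℂ U, map_div₀, h2, mul_div_cancel_right₀ _ h3]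

namespace FL

variable {M : IntermediateField X.B U} (Z : FL X M)

/-- the constants -/
def L : Subfield Z.M₁ := (algebraMap ℂ U).fieldRange.comap Z.ι

variable {Z} in
theorem mem_L {z : Z.M₁} : z ∈ Z.L ↔ IsC (Z.ι z) := Iff.rfl

theorem smul_mem_L (δ : Z.Γ) (z : Z.M₁) (hz : z ∈ Z.L) : δ • z ∈ Z.L := by
  obtain ⟨φ, j, hφ, h⟩ := Z.lift δ
  rw [mem_L, ← h]
  exact hφ.isC hz

theorem val_smul (δ : Z.Γ) (z : Z.M₁) (hz : z ∈ Z.L) :
    (X.v.comap Z.ι) (δ • z) = (X.v.comap Z.ι) z := by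
  obtain ⟨φ, j, hφ, h⟩ := Z.lift δ
  rw [Valuation.comap_apply, Valuation.comap_apply, ← h]
  exact hφ.val hz

theorem smul_mem_EF (δ : Z.Γ) (z : Z.M₁) (hz : Z.ι z ∈ EF X) : Z.ι (δ • z) ∈ EF X := by
  obtain ⟨φ, j, hφ, h⟩ := Z.lift δ
  rw [← h]
  exact hφ.mem_EF hz

/-- the fixer of `F(x, y)` -/
def G0 : Subgroup Z.Γ where
  carrier := {δ | ∀ w, Z.ι w ∈ EF X → δ • w = w}
  one_mem' w _ := one_smul _ w
  mul_mem' {a b} ha hb w hw := by rw [mul_smul, hb w hw, ha w hw]
  inv_mem' {a} ha w hw := by rw [inv_smul_eq_iff, ha w hw]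

instance : Z.G0.Normal := ⟨fun a ha s w hw => by
  rw [mul_smul, mul_smul, ha _ (Z.smul_mem_EF _ _ hw), smul_inv_smul]⟩

theorem range_normal : Z.r.range.Normal := ⟨fun a ha s => by
  rw [Z.r_range] at ha ⊢
  intro w hw
  rw [mul_smul, mul_smul, ha _ (Z.smul_mem_L _ _ hw), smul_inv_smul]⟩

/-- the inertia group -/
def I : Subgroup Z.Γ :=
  inert (X.v.comap Z.ι) Z.G0 Z.L (fun g _ => Z.smul_mem_L g) (fun g _ => Z.val_smul g)

theorem I_normal : Z.I.Normal := inert_normal Z.smul_mem_L Z.val_smul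

theorem I_le : Z.I ≤ Z.G0 := inert_le

theorem range_le : Z.r.range ≤ Z.I := by
  intro δ hδ
  rw [Z.r_range] at hδ
  refine mem_inert_of_fix (fun w hw => ?_) hδ
  obtain ⟨φ, j, hφ, h⟩ := Z.lift δ
  have h0 : Lift X φ 0 := lift_zero_of_fix hφ fun c _ => by
    obtain ⟨z, hz⟩ := Z.memE _ (F_mem_EF X c)
    rw [← hz, h, hδ z ⟨c, hz.symm⟩]
    simp
  apply Z.ι.injective
  rw [← h, h0.fix hw]

theorem exists_const (z : Z.M₁) (hz : z ∈ Z.L) : ∃ c ∈ Z.L, (∀ g ∈ Z.G0, g • c = c) ∧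
    (∀ i, X.D i (Z.ι c) = 0) ∧ X.v (Z.ι z) = X.v (Z.ι c) := by
  obtain ⟨c, hc⟩ := hz
  obtain ⟨c', hc'⟩ := X.vgrp c
  obtain ⟨w, hw⟩ := Z.memE _ ((EF X).algebraMap_mem c')
  refine ⟨w, ⟨c', hw.symm⟩, fun g hg => hg w (hw ▸ (EF X).algebraMap_mem c'), fun i => ?_, ?_⟩
  · rw [hw, Derivation.map_algebraMap]
  · rw [hw, hc', hc]

theorem I_pow (hp : p.Prime) (g : Z.Γ) (hg : g ∈ Z.I) : ∃ k, g ^ p ^ k ∈ Z.r.range := by
  obtain ⟨k, hk⟩ := inert_pow (finOn_of_finite _ _) hp (by simpa using X.vp) (fun z hz => by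
    obtain ⟨c, h1, h2, -, h3⟩ := Z.exists_const z hz
    exact ⟨c, h1, h2, h3⟩) hg
  exact ⟨k, (Z.r_range _).2 hk⟩

theorem mem_F (z : Z.M₁) (hz : z ∈ Z.L) (h : ∀ g ∈ Z.G0, g • z = z) :
    ∃ c : X.F, algebraMap X.F U c = Z.ι z :=
  mem_F_of_isC (Z.fixE z h) hz

theorem mem_fixIn {w : Z.M₁} (h1 : IsC (Z.ι w)) (h2 : Z.ι w ∈ EF X) : w ∈ fixIn Z.I Z.L :=
  ⟨h1, fun _ hg => Z.I_le hg w h2⟩

theorem F_mem_map (c : X.F) : algebraMap X.F U c ∈ (fixIn Z.I Z.L).map Z.ι := by
  obtain ⟨w, hw⟩ := Z.memE _ (F_mem_EF X c)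
  exact ⟨w, Z.mem_fixIn ⟨c, hw.symm⟩ (hw ▸ F_mem_EF X c), hw⟩

/-- the inertia field -/
def K : IntermediateField X.C U :=
  ((fixIn Z.I Z.L).map Z.ι).toIntermediateField fun c => Z.F_mem_map (Subfield.inclusion X.CF c)


theorem vD_le (hp : p.Prime) (i : Fin n) (u : U) (hu : u ∈ Z.K) : X.v (X.D i u) ≤ X.v u := by
  obtain ⟨z, hz, rfl⟩ := hu
  have := X.Cac
  obtain ⟨c, hc1, hc2⟩ := exists_seq (X.v.comap (algebraMap X.C U))
  choose w hw using fun k => Z.memE _ ((EF X).algebraMap_mem (c k))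
  refine (inert_der Z.ι X.v (G := Z.G0) (L := Z.L) (finOn_of_finite _ _) hp X.vp (X.D i).toLinearMap.toAddMonoidHom
    (fun a b => (X.D i).leibniz a b) (fun z hz => ?_) w (fun k => ⟨c k, (hw k).symm⟩)
    (fun k => ?_) (fun k l hkl => ?_)
    (fun g hg k => hg _ (hw k ▸ (EF X).algebraMap_mem (c k))) (fun z hz h => ?_) hz).2
  · obtain ⟨c, h1, h2, h3, h4⟩ := Z.exists_const z hz
    exact ⟨c, h1, h2, h3 i, h4⟩
  · rw [hw]; exact hc1 k
  · rw [map_sub, hw, hw, ← map_sub]; exact hc2 k l hkl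
  · obtain ⟨a, ha⟩ := Z.mem_F z hz h
    obtain ⟨a', ha'⟩ := X.DF i a
    obtain ⟨z', hz'⟩ := Z.memE _ (F_mem_EF X a')
    refine ⟨⟨z', ⟨a', hz'.symm⟩, fun g hg => hg _ (hz' ▸ F_mem_EF X a'), ?_⟩, ?_⟩
    · rw [hz', ← ha]; exact ha'
    · rw [← ha]; exact X.vD i a

theorem stab (S : Subfield Z.M₁) {t : Z.Γ} {φ : Aut X} (hφ : ∀ z, φ (Z.ι z) = Z.ι (t • z))
    (h1 : ∀ z ∈ S, t • z ∈ S) (h2 : ∀ z ∈ S, t⁻¹ • z ∈ S) (u : U) :
    u ∈ S.map Z.ι ↔ φ u ∈ S.map Z.ι := by
  constructor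
  · rintro ⟨z, hz, rfl⟩
    exact ⟨_, h1 z hz, (hφ z).symm⟩
  · rintro ⟨z, hz, he⟩
    refine ⟨_, h2 z hz, φ.injective ?_⟩
    rw [hφ, smul_inv_smul, he]

theorem smul_mem_K (t : Z.Γ) (z : Z.M₁) (hz : z ∈ fixIn Z.I Z.L) : t • z ∈ fixIn Z.I Z.L :=
  smul_mem_fixIn (fun g hg => by simpa using Z.I_normal.conj_mem g hg t⁻¹) (Z.smul_mem_L t) hz

instance algFK : Algebra X.F Z.K := ((algebraMap X.F U).codRestrict Z.K Z.F_mem_map).toAlgebra

instance : IsScalarTower X.F Z.K U := IsScalarTower.of_algebraMap_eq' rfl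

theorem exists_κ : ∃ κ : Z.K →+* Z.L, ∀ u, Z.ι (κ u) = u := by
  obtain ⟨κ, hκ⟩ := exists_hom (algebraMap Z.K U) (Z.ι.comp Z.L.subtype) fun u => by
    obtain ⟨z, hz, he⟩ := u.2
    exact ⟨⟨z, hz.1⟩, he⟩
  exact ⟨κ, hκ⟩

instance finK : FiniteDimensional X.F Z.K := by
  obtain ⟨κ, hκ⟩ := Z.exists_κ
  let : Algebra X.F Z.L := (κ.comp (algebraMap X.F Z.K)).toAlgebra
  let : MulSemiringAction Z.G0 Z.L :=
    MulSemiringAction.compHom Z.L (resAut Z.G0 Z.L fun g _ => Z.smul_mem_L g)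
  have : FiniteDimensional X.F Z.L := finite_of_fixed (Q := Z.G0) fun z hz => by
    obtain ⟨c, hc⟩ := Z.mem_F z z.2 fun g hg => congrArg Subtype.val (hz ⟨g, hg⟩)
    exact ⟨c, Subtype.ext (Z.ι.injective ((hκ _).trans hc))⟩
  let κ' : Z.K →ₐ[X.F] Z.L := { κ with commutes' := fun _ => rfl }
  exact FiniteDimensional.of_injective κ'.toLinearMap κ.injective

theorem cplK (hp : p ≠ 0) : Cpl (X.v.comap (algebraMap Z.K U)) :=
  Gal.Cpl.finite (F := X.F) (v := X.v.comap (algebraMap X.F U)) X.cpl (X.nontriv hp) _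
    fun _ => rfl

/-- the `p`-element over `g` fixing a fine valuation ring -/
theorem exists_t (hp : p.Prime) {a : ℕ} (hn : n = p ^ a) :
    ∃ (t : Z.Γ) (φ : Aut X) (k : ℕ) (V : ValuationSubring Z.K), t ^ p ^ k = 1 ∧ Lift X φ 1 ∧
      (∀ z, φ (Z.ι z) = Z.ι (t • z)) ∧ Fine (C := X.C) (X.v.comap (algebraMap Z.K U)) V ∧
      ∀ z z' : Z.K, (z' : U) = φ z → (z' ∈ V ↔ z ∈ V) := by
  obtain ⟨κ, hκ⟩ := Z.exists_κ
  obtain ⟨VL, hVL⟩ := Log.exists_vs_ext (κ.comp (algebraMap X.F Z.K)) X.V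
  let τ : Z.L ≃+* Z.L := resAut ⊤ Z.L (fun g _ => Z.smul_mem_L g) ⟨Z.g, trivial⟩
  obtain ⟨h, hh, hs⟩ := exists_stab (G := Z.G0) (fun g _ => Z.smul_mem_L g) (finOn_of_finite _ _)
    VL (τ : Z.L →+* Z.L) fun z hz => by
      obtain ⟨c, hc⟩ := Z.mem_F z z.2 hz
      have h1 : z = (κ.comp (algebraMap X.F Z.K)) c :=
        Subtype.ext (Z.ι.injective ((hκ _).trans hc).symm)
      have h2 : (τ : Z.L →+* Z.L) z = (κ.comp (algebraMap X.F Z.K)) (X.σ c) := by
        refine Subtype.ext (Z.ι.injective (Eq.trans ?_ (hκ _).symm))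
        change Z.ι (Z.g • (z : Z.M₁)) = algebraMap X.F U (X.σ c)
        rw [← Z.hg, ← hc, X.gσ]
      rw [h2, hVL, X.Vσ, h1, hVL]
  obtain ⟨m, k, hm, -, hmk⟩ := exists_ppart hp a (orderOf_pos (Z.g * h))
  obtain ⟨φ, j, -, hφ⟩ := Z.lift ((Z.g * h) ^ m)
  have hE : ∀ (l : ℕ) w, Z.ι w ∈ EF X → Z.ι ((Z.g * h) ^ l • w) = (X.g ^ l) (Z.ι w) := by
    intro l
    induction l with
    | zero => intro w _; rw [pow_zero, one_smul]; rfl
    | succ l ih =>
      intro w hw
      rw [pow_succ, mul_smul, mul_smul, hh w hw, ih _ (Z.smul_mem_EF _ _ hw), pow_succ,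
        AlgEquiv.mul_apply, Z.hg]
  have hV : ∀ (l : ℕ) (z z' : Z.L), (z' : Z.M₁) = (Z.g * h) ^ l • (z : Z.M₁) →
      (z' ∈ VL ↔ z ∈ VL) := by
    intro l
    induction l with
    | zero =>
      intro z z' he
      rw [pow_zero, one_smul] at he
      rw [Subtype.ext he]
    | succ l ih =>
      intro z z' he
      have h1 := hs z ⟨h • (z : Z.M₁), Z.smul_mem_L _ _ z.2⟩ rfl
      rw [← h1]
      refine ih _ _ ?_
      rw [he, pow_succ, mul_smul, mul_smul]
      rfl
  have := X.Cac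
  refine ⟨(Z.g * h) ^ m, φ, k, VL.comap κ, ?_, ?_, hφ, ?_, fun z z' he => ?_⟩
  · rw [← pow_mul, ← orderOf_dvd_iff_pow_eq_one]; exact hmk
  · refine Lift.mod (Lift.of_eq_on (j := m) fun u hu => ?_) (hn ▸ hm)
    obtain ⟨w, rfl⟩ := Z.memE u hu
    rw [hφ, hE m w hu]
  · exact Desc74.fine_ext (F := X.F) (K := Z.K) (Subfield.inclusion X.CF) (fun _ => rfl)
      (X.v.comap (algebraMap Z.K U)) (X.nontriv hp.ne_zero) X.cpl X.V X.Vle X.Vconst X.Vres _ hVL
  · refine hV m (κ z) (κ z') (Z.ι.injective ?_)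
    rw [hκ, ← hφ, hκ, he]

theorem rot {G : Type} [Group G] (Y : X.RD G) (Z : FL X Y.M) (s : Z.Γ) (i : Fin n) :
    ∃ j h, s * Z.r (Y.γ i) * s⁻¹ = Z.r (h * Y.γ j * h⁻¹) := by
  obtain ⟨φ, k, hφ, h⟩ := Z.lift s
  have H := Ds79.adm_of_lift hφ
  obtain ⟨c, hc⟩ := isConj_iff.1 (H.isConj_cj Y i).symm
  refine ⟨World.sh k i, c, ?_⟩
  rw [hc]
  refine FaithfulSMul.eq_of_smul_eq_smul (α := Z.M₁) fun z => Z.ι.injective ?_
  have h1 : (⟨Z.ι z, Z.le z⟩ : Y.M) = H.jM Y ⟨Z.ι (s⁻¹ • z), Z.le _⟩ := by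
    apply Subtype.ext
    change Z.ι z = φ (Z.ι (s⁻¹ • z))
    rw [h, smul_inv_smul]
  rw [Z.r_apply, h1, H.cj_jM, mul_smul, mul_smul, ← h, Z.r_apply]
  rfl

end FL

/-- **the descent** -/
theorem descent64 (hp : p.Prime) (geo : GeoStmt p) : DescentStmt p := by
  intro hW hR _ hC G _ _ c hc
  have : Fact p.Prime := ⟨hp⟩
  obtain ⟨a, ha, hbd⟩ := Desc35.exists_exp hp (Nat.card G)
  have : NeZero (p ^ a) := ⟨pow_ne_zero _ hp.ne_zero⟩
  obtain ⟨U, _, _, _, ⟨X⟩⟩ := hW a ha
  obtain ⟨Y⟩ := X.exists_RD hR G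
  obtain ⟨Z⟩ := exists_FL Y
  obtain ⟨t, φ, k, V, ht, hφ, hφt, hfine, hV⟩ := Z.exists_t hp rfl
  refine ⟨a, Desc35.cnt_of_grp Z.r Z.inj Z.I Z.range_normal Z.I_normal Z.range_le (Z.I_pow hp) t
    ⟨k, ht ▸ one_mem _⟩ Y.γ c hc (FL.rot Y Z) (fun A => Y.cnt A c) ?_⟩
  intro J hJI hJn hJt hJc hJp
  have hJt' : ∀ z ∈ J, t⁻¹ * z * t ∈ J := by
    have h1 : ∀ m : ℕ, ∀ z ∈ J, t ^ m * z * (t ^ m)⁻¹ ∈ J := by
      intro m
      induction m with
      | zero => intro z hz; simpa using hz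
      | succ m ih =>
        intro z hz
        have := hJt _ (ih z hz)
        rwa [show t * (t ^ m * z * (t ^ m)⁻¹) * t⁻¹ = t ^ (m + 1) * z * (t ^ (m + 1))⁻¹ by group]
          at this
    have h2 : t ^ (p ^ k - 1) = t⁻¹ := by
      rw [eq_inv_iff_mul_eq_one, ← pow_succ, Nat.sub_add_cancel (Nat.one_le_pow _ _ hp.pos), ht]
    intro z hz
    simpa [h2] using h1 (p ^ k - 1) z hz
  let E : IntermediateField Z.K U := adjoin Z.K {X.x, X.y}
  have hEI : ∀ u ∈ E, u ∈ (fixIn Z.I ⊤).map Z.ι := by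
    have h1 : ∀ u ∈ EF X, u ∈ (fixIn Z.I ⊤).map Z.ι := fun u hu => by
      obtain ⟨w, rfl⟩ := Z.memE u hu
      exact ⟨w, ⟨trivial, fun g hg => Z.I_le hg w hu⟩, rfl⟩
    have h2 : E ≤ ((fixIn Z.I ⊤).map Z.ι).toIntermediateField fun u : Z.K => by
        obtain ⟨w, hw, he⟩ := u.2
        exact ⟨w, ⟨trivial, hw.2⟩, he⟩ := by
      rw [adjoin_le_iff, Set.insert_subset_iff, Set.singleton_subset_iff]
      exact ⟨h1 _ (x_mem_EF X), h1 _ (y_mem_EF X)⟩
    exact fun u hu => h2 hu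
  let N : IntermediateField E U := ((fixIn J ⊤).map Z.ι).toIntermediateField fun u => by
    obtain ⟨w, hw, he⟩ := hEI u u.2
    exact ⟨w, ⟨trivial, fun g hg => hw.2 g (hJI hg)⟩, he⟩
  obtain ⟨j, hj⟩ := exists_hom (algebraMap N U) Z.ι fun u => by
    obtain ⟨w, -, he⟩ := u.2
    exact ⟨w, he⟩
  obtain ⟨h1, h2, h3, ψ, hψs, hψk, hψ⟩ := Desc35.gal_dict (E := E) Z.I J hJn j
    (fun z => ⟨by
      rintro ⟨u, rfl⟩
      obtain ⟨w, hw, he⟩ := u.2
      rw [Z.ι.injective ((hj u).trans he.symm)]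
      exact hw.2, fun hz => ⟨⟨Z.ι z, z, ⟨trivial, hz⟩, rfl⟩, Z.ι.injective (hj _)⟩⟩)
    (fun z => ⟨by
      rintro ⟨u, rfl⟩
      obtain ⟨w, hw, he⟩ := hEI u u.2
      rw [Z.ι.injective ((hj (algebraMap E N u)).trans he.symm)]
      exact hw.2, fun hz => by
      have h := Z.gen Z.I Z.range_le E.toSubfield
        (fun u hu => EF_le X (S := E.toSubfield)
          (fun c => E.algebraMap_mem ⟨_, Z.F_mem_map c⟩) (subset_adjoin _ _ (by simp))
          (subset_adjoin _ _ (by simp)) hu)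
        (fun w hw hw' => E.algebraMap_mem ⟨_, w, ⟨hw, hw'⟩, rfl⟩) (j z) hz
      rw [hj] at h
      exact ⟨⟨_, h⟩, rfl⟩⟩)
  refine Desc35.exists_Q Z.I J hJI ψ hψs hψk ?_
  obtain ⟨u, hu, hgen⟩ := Y.gen 0
  have hpow : ∀ (m : ℕ) z, (φ ^ m) (Z.ι z) = Z.ι (t ^ m • z) := by
    intro m
    induction m with
    | zero => intro z; rw [pow_zero, pow_zero, one_smul]; rfl
    | succ m ih => intro z; rw [pow_succ, pow_succ, AlgEquiv.mul_apply, hφt, ih, mul_smul]
  refine @geo hC (p ^ a) _ U _ _ _ X Y.M Y.fin Y.gal Y.unr Z.K Z.F_mem_map ?_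
    (Z.cplK hp.ne_zero) (Z.vD_le hp) N h1 h2 ?_ φ hφ
    (Z.stab _ hφt (Z.smul_mem_K t) (Z.smul_mem_K t⁻¹))
    (Z.stab (fixIn J ⊤) hφt (fun z hz => smul_mem_fixIn hJt' (fun _ _ => Subfield.mem_top _) hz)
      (fun z hz => smul_mem_fixIn (by simpa using hJt) (fun _ _ => Subfield.mem_top _) hz))
    ⟨p ^ k, pow_pos hp.pos k, ?_⟩ V hfine hV 0 Y.n₀ Y.ζ u (Y.γ 0)
    (ψ ⟨Z.r (Y.γ 0), Z.range_le ⟨_, rfl⟩⟩) Y.pos Y.prim hu hgen ?_
    (Desc35.dvd_orderOf Z.I J ψ hψk _ (hJp 0)) (hbd _ (h3 ▸ hJc))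
  · rintro _ ⟨w, hw, rfl⟩
    exact hw.1
  · rintro _ ⟨w, -, rfl⟩
    exact Z.le w
  · rintro _ ⟨w, -, rfl⟩
    rw [hpow, ht, one_smul]
  · intro z z' he
    have h4 := congrArg Z.ι (hψ ⟨Z.r (Y.γ 0), Z.range_le ⟨_, rfl⟩⟩ z)
    rw [hj, Z.r_apply] at h4
    refine Eq.trans ?_ h4.symm
    congr 2
    exact Subtype.ext (he.trans (hj z).symm)

end Crest.Agent.T170.Desc64
end
end

-- ▼ part T170/LogC_89
section

/-!
# Row 170, module LOG (helper89), part C: `ℤ`-valued valuations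

* `wild`      : a canonical generator of order divisible by `p` gives a value with `p` in the
  denominator;
* `logd_line` : the logarithmic derivative at a place over the line;
* `exists_av` : the normalised additive valuation of a discrete valuation.
-/

set_option autoImplicit false

namespace Crest.Agent.T170.Log

open Polynomial Crest.Agent.T170.Ret Crest.Agent.T170.RetU

section Wild

variable {K E N : Type*} [Field K] [Field E] [Field N] [Algebra K E] [Algebra E N] [Algebra K N]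
  [IsScalarTower K E N]

theorem rot_pow {u : AV N} {z : N} (hz : u z = 0) {g : N ≃ₐ[E] N} (hg : Rot u z g)
    (hgz : g z = z) (m : ℕ) : Rot u (z ^ m) (g ^ m : N ≃ₐ[E] N) := by
  have hz0 : z ≠ 0 := by
    intro h; rw [h, u.map_zero] at hz; exact WithTop.top_ne_zero hz
  induction m with
  | zero =>
    intro f k _
    simp
  | succ m ih =>
    intro f k hf
    have e : (g ^ (m + 1) : N ≃ₐ[E] N) f - (z ^ (m + 1)) ^ k * f =
        g ((g ^ m : N ≃ₐ[E] N) f - (z ^ m) ^ k * f) + (z ^ m) ^ k * (g f - z ^ k * f) := by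
      rw [pow_succ' g, AlgEquiv.mul_apply, map_sub, map_mul, map_zpow₀, map_pow, hgz, pow_succ,
        mul_zpow]
      ring
    rw [e]
    apply u.map_lt_add
    · rw [hg.val_map hz (map_zero g)]; exact ih f k hf
    · have h1 : u (z ^ m) = 0 := by rw [u.map_pow, hz, smul_zero]
      rw [u.map_mul, val_zpow_unit u h1, zero_add]
      exact hg f k hf

theorem den_dvd_of_dvd {n₀ : ℕ} (hn : 0 < n₀) {k : ℤ} {j : ℕ} (hj : 0 < j)
    (h : (n₀ : ℤ) ∣ j * k) : ((k : ℚ) / n₀).den ∣ j := by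
  obtain ⟨w, hw⟩ := h
  have h1 : (k : ℚ) / n₀ = Rat.divInt w j := by
    rw [Rat.divInt_eq_div, div_eq_div_iff (by positivity) (by positivity)]
    have : ((j : ℤ) : ℚ) * k = (n₀ : ℤ) * w := by exact_mod_cast hw
    push_cast at this ⊢
    linarith
  rw [h1]
  exact_mod_cast Rat.den_dvd w j

theorem dvd_of_den_dvd {n₀ : ℕ} (hn : 0 < n₀) {k : ℤ} {j : ℕ}
    (h : ((k : ℚ) / n₀).den ∣ j) : (n₀ : ℤ) ∣ j * k := by
  obtain ⟨e, he⟩ := h
  refine ⟨e * ((k : ℚ) / n₀).num, ?_⟩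
  have h1 := Rat.mul_den_eq_num ((k : ℚ) / n₀)
  have h2 : (n₀ : ℚ) ≠ 0 := by positivity
  have h3 : ((j : ℤ) : ℚ) * k = (n₀ : ℤ) * (e * ((k : ℚ) / n₀).num) := by
    rw [← h1]
    conv_lhs => rw [he]
    push_cast
    field_simp
  exact_mod_cast h3

/-- **wild ramification** -/
theorem wild [CharZero K] {p : ℕ} (hp : p.Prime) (u : AV N)
    (uK : ∀ z : K, z ≠ 0 → u (algebraMap K N z) = 0) {ζ : K} {n₀ : ℕ}
    (hζ : IsPrimitiveRoot ζ n₀) (hn : 0 < n₀) {g : N ≃ₐ[E] N}
    (hg : Rot u (algebraMap K N ζ) g) (hfin : IsOfFinOrder g) (hpg : p ∣ orderOf g) :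
    ∃ (z : N) (k : ℤ), u z = (k : WithTop ℤ) ∧ p ∣ ((k : ℚ) / n₀).den := by
  by_contra hne
  push Not at hne
  obtain ⟨m, hm⟩ := hpg
  have hopos : 0 < orderOf g := hfin.orderOf_pos
  have hm0 : 0 < m := Nat.pos_of_ne_zero fun h => by rw [h, mul_zero] at hm; omega
  have hζ0 : ζ ≠ 0 := hζ.ne_zero hn.ne'
  have hz : u (algebraMap K N ζ) = 0 := uK ζ hζ0
  have hgz : g (algebraMap K N ζ) = algebraMap K N ζ := by
    rw [IsScalarTower.algebraMap_apply K E N, AlgEquiv.commutes]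
  have h1 := rot_pow hz hg hgz (orderOf g)
  have h2 := rot_pow hz hg hgz m
  rw [pow_orderOf_eq_one] at h1
  have hgm : g ^ m = 1 := by
    refine eq_one_of_val u (fun r hr => ?_) (hfin.pow) fun f k hf => ?_
    · rw [← map_natCast (algebraMap K N)]; exact uK _ (Nat.cast_ne_zero.2 hr)
    · have h3 := h1 f k hf
      have h4 : (ζ ^ orderOf g) ^ k = 1 := by
        by_contra h5
        have e : (1 : N ≃ₐ[E] N) f - (algebraMap K N ζ ^ orderOf g) ^ k * f =
            algebraMap K N (1 - (ζ ^ orderOf g) ^ k) * f := by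
          rw [AlgEquiv.one_apply, map_sub, map_one, map_zpow₀, map_pow]; ring
        rw [e, u.map_mul, uK _ (sub_ne_zero.2 (Ne.symm h5)), zero_add, hf] at h3
        exact lt_irrefl _ h3
      rw [← zpow_natCast, ← zpow_mul, hζ.zpow_eq_one_iff_dvd] at h4
      have h5 := den_dvd_of_dvd hn hopos h4
      rw [hm] at h5
      have h6 : ((k : ℚ) / n₀).den ∣ m :=
        (Nat.Coprime.dvd_mul_left ((Nat.coprime_comm.1
          ((Nat.Prime.coprime_iff_not_dvd hp).2 (hne f k hf))))).1 h5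
      have h7 := dvd_of_den_dvd hn h6
      rw [← hζ.zpow_eq_one_iff_dvd, zpow_mul, zpow_natCast] at h7
      have h8 := h2 f k hf
      rwa [← map_pow, ← map_zpow₀, h7, map_one, one_mul] at h8
  have := orderOf_dvd_of_pow_eq_one hgm
  have h9 := Nat.le_of_dvd hm0 this
  have := hp.two_le
  nlinarith

end Wild

section AVal

variable {N : Type*} [Field N]

/-- the multiplicative valuation of an additive one -/
noncomputable abbrev mv (v : AV N) : Valuation N (Multiplicative (WithTop ℤ)ᵒᵈ) :=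
  AddValuation.toValuation v

theorem mv_le_one (v : AV N) (y : N) : mv v y ≤ 1 ↔ 0 ≤ v y := Iff.rfl

/-- the normalised additive valuation. -/
theorem exists_av {Γ : Type*} [LinearOrderedCommGroupWithZero Γ] (v : Valuation N Γ) {π : N}
    (hπ0 : π ≠ 0) (hπ : v π < 1) (h : ∀ y : N, y ≠ 0 → ∃ k : ℤ, v y = v π ^ k) :
    ∃ u : AV N, u π = 1 ∧ (∀ y, 0 ≤ u y ↔ v y ≤ 1) ∧ (∀ y, 0 < u y ↔ v y < 1) := by
  classical
  choose! κ hκ using h
  have hvπ : v π ≠ 0 := (Valuation.ne_zero_iff v).2 hπ0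
  have hpos : 0 < v π := zero_lt_iff.2 hvπ
  have hanti : ∀ k l : ℤ, v π ^ k ≤ v π ^ l ↔ l ≤ k := fun k l =>
    zpow_le_zpow_iff_right_of_lt_one₀ hpos hπ
  have huniq : ∀ y, y ≠ 0 → ∀ k : ℤ, v y = v π ^ k → κ y = k := by
    intro y hy k hk
    have := (hκ y hy).symm.trans hk
    exact le_antisymm ((hanti _ _).1 this.ge) ((hanti _ _).1 this.le)
  let f : N → WithTop ℤ := fun y => if y = 0 then ⊤ else (κ y : WithTop ℤ)
  have hf : ∀ y, y ≠ 0 → f y = κ y := fun y hy => if_neg hy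
  have hf0 : f 0 = ⊤ := if_pos rfl
  have hle : ∀ x y, f x ≤ f y ↔ v y ≤ v x := by
    intro x y
    by_cases hy : y = 0
    · rw [hy, hf0, map_zero]; simp
    by_cases hx : x = 0
    · rw [hx, hf0, hf y hy, map_zero]
      simp [hy]
    rw [hf x hx, hf y hy, WithTop.coe_le_coe, hκ x hx, hκ y hy, hanti]
  have hf1 : f 1 = 0 := by
    rw [hf 1 one_ne_zero, huniq 1 one_ne_zero 0 (by simp)]; rfl
  refine ⟨AddValuation.of f hf0 hf1 (fun x y => ?_) (fun x y => ?_), ?_, fun y => ?_, fun y => ?_⟩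
  · rcases le_max_iff.1 (v.map_add x y) with h | h
    · exact min_le_of_left_le ((hle _ _).2 h)
    · exact min_le_of_right_le ((hle _ _).2 h)
  · by_cases hx : x = 0
    · rw [hx, zero_mul, hf0, top_add]
    by_cases hy : y = 0
    · rw [hy, mul_zero, hf0, add_top]
    rw [hf x hx, hf y hy, hf _ (mul_ne_zero hx hy), huniq _ (mul_ne_zero hx hy) (κ x + κ y)
      (by rw [map_mul, zpow_add₀ hvπ, ← hκ x hx, ← hκ y hy]), WithTop.coe_add]
  · rw [AddValuation.of_apply, hf π hπ0, huniq π hπ0 1 (by simp)]; rfl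
  · rw [AddValuation.of_apply, ← hf1, hle, map_one]
  · rw [AddValuation.of_apply, ← hf1, ← not_le, hle, map_one, not_le]

end AVal

section Logd

open IntermediateField

variable {R₀ C M : Type*} [CommRing R₀] [Field C] [Field M] [Algebra C M] [Algebra R₀ M]

theorem mv_const {v : AV M} (hv : ∀ c : C, c ≠ 0 → v (algebraMap C M c) = 0) (c : C) :
    mv v (algebraMap C M c) ≤ 1 := by
  rw [mv_le_one]
  by_cases hc : c = 0
  · rw [hc, map_zero, v.map_zero]; exact le_top
  · rw [hv c hc]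

/-- **logarithmic derivative** at a place with `v t = n₀`. -/
theorem logd_line [IsAlgClosed C] [CharZero C] (v : AV M)
    (hv : ∀ c : C, c ≠ 0 → v (algebraMap C M c) = 0) {t : M} {n₀ : ℕ} (hn : 0 < n₀)
    (ht : v t = ((n₀ : ℤ) : WithTop ℤ)) [FiniteDimensional (adjoin C {t}) M]
    (D : Derivation R₀ M M) (hDC : ∀ c : C, ∃ c' : C, D (algebraMap C M c) = algebraMap C M c')
    {e : M} (he : 0 ≤ v e) (hDt : D t = -e) (z : M) (k : ℤ) (hz : v z = (k : WithTop ℤ)) :
    (k : WithTop ℤ) < v (t * D z + (((k : ℚ) / n₀ : ℚ) : M) * e * z) := by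
  have : CharZero M := charZero_of_injective_algebraMap (algebraMap C M).injective
  have hC := mv_const hv
  have ht0 : t ≠ 0 := by
    intro h; rw [h, v.map_zero] at ht; exact WithTop.top_ne_coe ht
  have hz0 : z ≠ 0 := by
    intro h; rw [h, v.map_zero] at hz; exact WithTop.top_ne_coe hz
  have htpos : 0 < v t := by
    rw [ht]; exact_mod_cast hn
  have hlog := log_p1 (v := mv v) (t := t) (t • D) (Q := fun g => g < 1) (fun _ h => le_of_lt h)
    (fun _ h => h) (fun _ _ h h' => lt_of_le_of_lt h h') hC ht0 htpos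
    (fun c => by
      obtain ⟨c', hc'⟩ := hDC c
      rw [Derivation.smul_apply, hc', smul_eq_mul, map_mul]
      calc mv v t * mv v (algebraMap C M c') ≤ mv v t * 1 := mul_le_mul_right (hC c') _
        _ < 1 := by rw [mul_one]; exact htpos)
    (by
      rw [Derivation.smul_apply, hDt, smul_eq_mul, map_mul, Valuation.map_neg]
      exact mul_le_of_le_one_right' ((mv_le_one v e).2 he))
  set w := z ^ n₀ / t ^ k with hw
  have hw0 : w ≠ 0 := div_ne_zero (pow_ne_zero _ hz0) (zpow_ne_zero _ ht0)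
  have hvw : v w = 0 := by
    have h1 := val_pow v hz n₀
    have h2 := val_inv v (val_zpow v ht k)
    rw [hw, div_eq_mul_inv, v.map_mul, h1, h2, ← WithTop.coe_add, ← WithTop.coe_zero]
    congr 1; ring
  have h1 : 0 < v (t * D w) := hlog w (by rw [mv_le_one, hvw])
  have hn0 : (n₀ : M) ≠ 0 := Nat.cast_ne_zero.2 hn.ne'
  have e1 : z ^ n₀ = t ^ k * w := by rw [hw]; field_simp
  have e2 := congrArg D e1
  obtain ⟨m, rfl⟩ : ∃ m, n₀ = m + 1 := ⟨n₀ - 1, by omega⟩
  rw [deriv_pow, deriv_mul, Derivation.leibniz_zpow, hDt, Nat.add_sub_cancel, zpow_sub_one₀ ht0,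
    smul_eq_mul, zsmul_eq_mul] at e2
  have e3 : t * D z + (((k : ℚ) / (m + 1 : ℕ) : ℚ) : M) * e * z =
      z * (t * D w) * (((m + 1 : ℕ) : M) * w)⁻¹ := by
    have hzm : z ^ m ≠ 0 := pow_ne_zero _ hz0
    have e4 : t ^ k = z ^ m * z / w := by rw [← pow_succ, e1]; field_simp
    rw [e4] at e2
    have e5 : D z = (z * D w / w - k * e * z / t) / ((m + 1 : ℕ) : M) := by
      rw [eq_div_iff hn0]
      apply mul_left_cancel₀ hzm
      clear_value w
      linear_combination (exp := 1) e2 - (z ^ m * z * k * e / t) * (mul_inv_cancel₀ hw0)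
    rw [e5, Rat.cast_div, Rat.cast_intCast, Rat.cast_natCast]
    field_simp
    ring
  have h2 : v (((m + 1 : ℕ) : M) * w) = ((0 : ℤ) : WithTop ℤ) := by
    rw [v.map_mul, hvw, ← map_natCast (algebraMap C M), hv _ (Nat.cast_ne_zero.2 hn.ne')]
    simp
  rw [e3, v.map_mul, v.map_mul, val_inv v h2, hz, neg_zero, WithTop.coe_zero, add_zero]
  conv_lhs => rw [← add_zero (k : WithTop ℤ)]
  exact WithTop.add_lt_add_left WithTop.coe_ne_top h1

end Logd

end Crest.Agent.T170.Log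
end

-- ▼ part T170/LogD_89
section

/-!
# Row 170, module LOG (helper89), part D: the derivation at the places of a cover of the curve

`B = ℂ(x, y)`, `M / B` finite Galois, unramified outside the points `(a i, b i)`, `D` a derivation
killing `x, y`, the coefficients of the curve and the `a l`, `l ≠ i`.

* `pres_val`, `pres_val_inf` : `h D` preserves every valuation ring of `M` over the charts.
-/

set_option autoImplicit false

namespace Crest.Agent.T170.Log

open Polynomial IntermediateField WeierstrassCurve WeierstrassCurve.Affine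
open Crest.Agent.T170.Ret Crest.Agent.T170.RetU Crest.Agent.T170.Fr

section Eqn

variable {C M Γ : Type*} [Field C] [Field M] [Algebra C M] [LinearOrderedCommGroupWithZero Γ]

/-- the Weierstrass equation in an extension field -/
def Eqn (W : Affine C) (x y : M) : Prop :=
  y ^ 2 + algebraMap C M W.a₁ * x * y + algebraMap C M W.a₃ * y =
    x ^ 3 + algebraMap C M W.a₂ * x ^ 2 + algebraMap C M W.a₄ * x + algebraMap C M W.a₆

theorem eqn_iff (W : Affine C) (x y : M) : (W⁄M).Equation x y ↔ Eqn W x y := by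
  rw [Affine.equation_iff]; rfl

theorem Eqn.map {W : Affine C} {x y : M} (h : Eqn W x y) {M' : Type*} [Field M'] [Algebra C M']
    (f : M →ₐ[C] M') : Eqn W (f x) (f y) := by
  have := congrArg f h
  simpa [Eqn] using this

theorem eqn_const {W : Affine C} {a b : C} (h : W.Equation a b) :
    Eqn W (algebraMap C M a) (algebraMap C M b) := by
  rw [Affine.equation_iff] at h
  have := congrArg (algebraMap C M) h
  simpa [Eqn] using this

theorem val_le_one_of_quad (v : Valuation M Γ) {η α β : M} (hα : v α ≤ 1) (hβ : v β ≤ 1)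
    (h : η ^ 2 + α * η = β) : v η ≤ 1 := by
  by_contra hlt
  push Not at hlt
  have h0 : 0 < v η := lt_trans zero_lt_one hlt
  have h1 : v (α * η) < v (η ^ 2) := by
    rw [map_mul, map_pow, pow_two]
    exact mul_lt_mul_of_pos_right (lt_of_le_of_lt hα hlt) h0
  have h2 := Valuation.map_add_eq_of_lt_left v h1
  rw [h, map_pow] at h2
  exact absurd (h2 ▸ hβ) (not_le.2 (one_lt_pow₀ hlt two_ne_zero))

variable {v : Valuation M Γ} {W : Affine C} {x y : M}

theorem Eqn.val_y (h : Eqn W x y) (hC : ∀ c : C, v (algebraMap C M c) ≤ 1) (hx : v x ≤ 1) :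
    v y ≤ 1 := by
  have e1 : y ^ 2 + aeval x (Polynomial.C W.a₁ * X + Polynomial.C W.a₃) * y =
      aeval x (X ^ 3 + Polynomial.C W.a₂ * X ^ 2 + Polynomial.C W.a₄ * X + Polynomial.C W.a₆) := by
    simp only [map_add, map_mul, map_pow, aeval_C, aeval_X]
    rw [← h]; ring
  exact val_le_one_of_quad v (val_aeval_le hC hx _) (val_aeval_le hC hx _) e1

theorem Eqn.val_y_div (h : Eqn W x y) (hC : ∀ c : C, v (algebraMap C M c) ≤ 1) (hx0 : x ≠ 0)
    (hx : v x⁻¹ ≤ 1) : v (y / x ^ 2) ≤ 1 := by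
  have e1 : (y / x ^ 2) ^ 2 + aeval x⁻¹ (Polynomial.C W.a₁ * X + Polynomial.C W.a₃ * X ^ 2) *
      (y / x ^ 2) = aeval x⁻¹ (X + Polynomial.C W.a₂ * X ^ 2 + Polynomial.C W.a₄ * X ^ 3 +
        Polynomial.C W.a₆ * X ^ 4) := by
    simp only [map_add, map_mul, map_pow, aeval_C, aeval_X]
    unfold Eqn at h
    field_simp
    linear_combination h
  exact val_le_one_of_quad v (val_aeval_le hC hx _) (val_aeval_le hC hx _) e1

theorem const_eq_of_val_lt (hC : ∀ c : C, v (algebraMap C M c) ≤ 1) {z : M} {a a' : C}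
    (h : v (z - algebraMap C M a) < 1) (h' : v (z - algebraMap C M a') < 1) : a = a' := by
  by_contra hne
  have := Valuation.map_sub_lt v h' h
  rw [show z - algebraMap C M a' - (z - algebraMap C M a) = algebraMap C M (a - a') by
    rw [map_sub]; ring, val_const hC (sub_ne_zero.2 hne)] at this
  exact lt_irrefl _ this

theorem val_le_one_of_sub (hC : ∀ c : C, v (algebraMap C M c) ≤ 1) {z : M} {a : C}
    (h : v (z - algebraMap C M a) < 1) : v z ≤ 1 := by
  rw [show z = (z - algebraMap C M a) + algebraMap C M a by ring]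
  exact Valuation.map_add_le v h.le (hC a)

/-- the centre of a place lies on the curve -/
theorem Eqn.centre (h : Eqn W x y) (hC : ∀ c : C, v (algebraMap C M c) ≤ 1) {a b : C}
    (ha : v (x - algebraMap C M a) < 1) (hb : v (y - algebraMap C M b) < 1) : W.Equation a b := by
  rw [Affine.equation_iff']
  by_contra hne
  have hx := val_le_one_of_sub hC ha
  have hy := val_le_one_of_sub hC hb
  have h1 := val_const hC hne
  have e : algebraMap C M (b ^ 2 + W.a₁ * a * b + W.a₃ * b - (a ^ 3 + W.a₂ * a ^ 2 + W.a₄ * a +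
      W.a₆)) = (x - algebraMap C M a) * (aeval x (X ^ 2 + Polynomial.C (a + W.a₂) * X +
        Polynomial.C (a ^ 2 + W.a₂ * a + W.a₄)) - algebraMap C M W.a₁ * y) -
      (y - algebraMap C M b) * (y + algebraMap C M (b + W.a₁ * a + W.a₃)) := by
    simp only [map_add, map_sub, map_mul, map_pow, aeval_C, aeval_X]
    unfold Eqn at h
    linear_combination h
  have h2 : v ((x - algebraMap C M a) * (aeval x (X ^ 2 + Polynomial.C (a + W.a₂) * X +
        Polynomial.C (a ^ 2 + W.a₂ * a + W.a₄)) - algebraMap C M W.a₁ * y)) < 1 := by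
    rw [map_mul]
    refine mul_lt_one_of_lt_of_le ha (Valuation.map_sub_le v (val_aeval_le hC hx _) ?_)
    rw [map_mul]; exact mul_le_one' (hC _) hy
  have h3 : v ((y - algebraMap C M b) * (y + algebraMap C M (b + W.a₁ * a + W.a₃))) < 1 := by
    rw [map_mul]
    exact mul_lt_one_of_lt_of_le hb (Valuation.map_add_le v hy (hC _))
  rw [e] at h1
  exact absurd h1 (Valuation.map_sub_lt v h2 h3).ne

theorem val_dy (hC : ∀ c : C, v (algebraMap C M c) ≤ 1) {a b : C}
    (hne : b ≠ W.negY a b) {z : M} (hz : v (z - algebraMap C M (2 * b + W.a₁ * a + W.a₃)) < 1) :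
    v z = 1 := by
  have h0 : 2 * b + W.a₁ * a + W.a₃ ≠ 0 := by
    intro h; apply hne; rw [negY]; linear_combination h
  rw [← val_const hC h0] at hz
  rw [Valuation.map_eq_of_sub_lt v hz, val_const hC h0]

/-- `x - a` divides `y - b` at a point which is not of order two -/
theorem Eqn.val_sub_le (h : Eqn W x y) (hC : ∀ c : C, v (algebraMap C M c) ≤ 1) {a b : C}
    (hab : W.Equation a b) (hne : b ≠ W.negY a b)
    (ha : v (x - algebraMap C M a) < 1) (hb : v (y - algebraMap C M b) < 1) :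
    v (y - algebraMap C M b) ≤ v (x - algebraMap C M a) := by
  have hx := val_le_one_of_sub hC ha
  have hy := val_le_one_of_sub hC hb
  have h' := eqn_const (M := M) hab
  have e : (y - algebraMap C M b) * (y + algebraMap C M (b + W.a₁ * a + W.a₃)) =
      (x - algebraMap C M a) * (aeval x (X ^ 2 + Polynomial.C (a + W.a₂) * X +
        Polynomial.C (a ^ 2 + W.a₂ * a + W.a₄)) - algebraMap C M W.a₁ * y) := by
    simp only [map_add, map_mul, map_pow, aeval_C, aeval_X]
    unfold Eqn at h h'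
    linear_combination h - h'
  have h1 : v (y + algebraMap C M (b + W.a₁ * a + W.a₃)) = 1 := by
    apply val_dy hC hne
    rwa [show y + algebraMap C M (b + W.a₁ * a + W.a₃) - algebraMap C M (2 * b + W.a₁ * a + W.a₃) =
      y - algebraMap C M b by simp only [map_add, map_mul, map_ofNat]; ring]
  have h2 := congrArg v e
  rw [map_mul, map_mul, h1, mul_one] at h2
  rw [h2]
  refine mul_le_of_le_one_right' (Valuation.map_sub_le v (val_aeval_le hC hx _) ?_)
  rw [map_mul]; exact mul_le_one' (hC _) hy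

/-- the abscissae of the points of order two are constants of the derivation -/
theorem deriv_two_torsion {R₀ : Type*} [CommRing R₀] [Algebra R₀ M] [W.IsElliptic]
    (D : Derivation R₀ M M)
    (hDW : ∀ c ∈ ({W.a₁, W.a₂, W.a₃, W.a₄, W.a₆} : Set C), D (algebraMap C M c) = 0) {a b : C}
    (hab : W.Equation a b) (he : b = W.negY a b) : D (algebraMap C M a) = 0 := by
  have hns := (Affine.nonsingular_iff' a b).1 (Affine.equation_iff_nonsingular.1 hab)
  have hy : 2 * b + W.a₁ * a + W.a₃ = 0 := by rw [negY] at he; linear_combination he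
  have hx := hns.2.resolve_right (not_not.2 hy)
  have h := congrArg D (eqn_const (M := M) hab)
  simp only [map_add, deriv_mul, deriv_pow, hDW _ (by simp : W.a₁ ∈ _), hDW _ (by simp : W.a₂ ∈ _),
    hDW _ (by simp : W.a₃ ∈ _), hDW _ (by simp : W.a₄ ∈ _), hDW _ (by simp : W.a₆ ∈ _)] at h
  have hy' := congrArg (algebraMap C M) hy
  have hx' : algebraMap C M (W.a₁ * b - (3 * a ^ 2 + 2 * W.a₂ * a + W.a₄)) ≠ 0 :=
    (_root_.map_ne_zero _).2 hx
  apply (mul_eq_zero.1 _).resolve_left hx'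
  simp only [map_add, map_sub, map_mul, map_pow, map_ofNat, map_zero] at hy' ⊢
  push_cast at h
  linear_combination h - D (algebraMap C M b) * hy'

end Eqn

section Fin

variable {C B M : Type*} [Field C] [Field B] [Field M] [Algebra C B] [Algebra B M] [Algebra C M]
  [IsScalarTower C B M] {W : Affine C} {x y : B}

theorem algebraMap_mem_of_gen (hgen : adjoin C {x, y} = ⊤) (S : IntermediateField C M)
    (hx : algebraMap B M x ∈ S) (hy : algebraMap B M y ∈ S) (f : B) : algebraMap B M f ∈ S := by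
  have h1 : adjoin C {x, y} ≤ S.comap (IsScalarTower.toAlgHom C B M) := by
    rw [adjoin_le_iff]
    rintro z (rfl | rfl)
    exacts [hx, hy]
  exact h1 (hgen ▸ mem_top)

theorem isIntegral_y_of_mem {x y : M} (h : Eqn W x y) (K : IntermediateField C M) (hx : x ∈ K) :
    IsIntegral K y :=
  isIntegral_of_forall_vs y fun V hV => (V.valuation_le_one_iff y).1
    (h.val_y (fun c => (V.valuation_le_one_iff _).2 (hV (algebraMap C K c)))
      ((V.valuation_le_one_iff _).2 (hV ⟨x, hx⟩)))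

theorem finDim_line [FiniteDimensional B M] (h : Eqn W x y) (hgen : adjoin C {x, y} = ⊤)
    (K : IntermediateField C M) (hx : algebraMap B M x ∈ K) : FiniteDimensional K M := by
  have hy : IsIntegral K (algebraMap B M y) :=
    isIntegral_y_of_mem (h.map (IsScalarTower.toAlgHom C B M)) K hx
  let K₁ := adjoin K {algebraMap B M y}
  have : FiniteDimensional K K₁ := adjoin.finiteDimensional hy
  have hB : ∀ f : B, algebraMap B M f ∈ K₁ := fun f =>
    algebraMap_mem_of_gen hgen (K₁.restrictScalars C) (K₁.algebraMap_mem ⟨_, hx⟩)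
      (mem_adjoin_simple_self K _) f
  have : FiniteDimensional K₁ M := by
    obtain ⟨s, hs⟩ := Module.Finite.fg_top (R := B) (M := M)
    refine ⟨⟨s, eq_top_iff.2 fun z _ => ?_⟩⟩
    have hz : z ∈ Submodule.span B (s : Set M) := hs ▸ Submodule.mem_top
    induction hz using Submodule.span_induction with
    | mem z hz => exact Submodule.subset_span hz
    | zero => exact zero_mem _
    | add a b _ _ ha hb => exact add_mem (ha trivial) (hb trivial)
    | smul f a _ ha =>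
      have e : f • a = (⟨_, hB f⟩ : K₁) • a := by rw [Algebra.smul_def]; rfl
      rw [e]; exact Submodule.smul_mem _ _ (ha trivial)
  exact Module.Finite.trans K₁ M

theorem mem_adjoin_sub (x : M) (a : C) : x ∈ adjoin C {x - algebraMap C M a} := by
  have := add_mem (mem_adjoin_simple_self C (x - algebraMap C M a))
    ((adjoin C {x - algebraMap C M a}).algebraMap_mem a)
  rwa [sub_add_cancel] at this

theorem mem_adjoin_inv (x : M) : x ∈ adjoin C {x⁻¹} := by
  have := inv_mem (mem_adjoin_simple_self C x⁻¹)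
  rwa [inv_inv] at this

theorem deriv_mem_range {R₀ : Type*} [CommRing R₀] [Algebra R₀ M] (hgen : adjoin C {x, y} = ⊤)
    (D : Derivation R₀ M M) (hDx : D (algebraMap B M x) = 0) (hDy : D (algebraMap B M y) = 0)
    (hDc : ∀ c : C, ∃ c' : C, D (algebraMap C M c) = algebraMap C M c') (f : B) :
    ∃ f' : B, D (algebraMap B M f) = algebraMap B M f' := by
  have hf : f ∈ adjoin C {x, y} := hgen ▸ mem_top
  induction hf using adjoin_induction with
  | mem z hz =>
    rcases hz with rfl | rfl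
    exacts [⟨0, by rw [hDx, map_zero]⟩, ⟨0, by rw [hDy, map_zero]⟩]
  | algebraMap c =>
    obtain ⟨c', hc'⟩ := hDc c
    exact ⟨algebraMap C B c', by
      rw [← IsScalarTower.algebraMap_apply, ← IsScalarTower.algebraMap_apply, hc']⟩
  | add a b _ _ ha hb =>
    obtain ⟨a', ha⟩ := ha
    obtain ⟨b', hb⟩ := hb
    exact ⟨a' + b', by rw [map_add, map_add, ha, hb, map_add]⟩
  | inv a _ ha =>
    obtain ⟨a', ha⟩ := ha
    exact ⟨-a⁻¹ ^ 2 * a', by
      rw [map_inv₀, Derivation.leibniz_inv, ha, smul_eq_mul, map_mul, map_neg, map_pow, map_inv₀]⟩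
  | mul a b _ _ ha hb =>
    obtain ⟨a', ha⟩ := ha
    obtain ⟨b', hb⟩ := hb
    exact ⟨a * b' + b * a', by
      rw [map_mul, deriv_mul, ha, hb, map_add, map_mul, map_mul]⟩

/-- the curve is étale over the line at the points which are not of order two -/
theorem etale_curve {R₀ Γ : Type*} [CommRing R₀] [Algebra R₀ B] [CharZero C]
    [LinearOrderedCommGroupWithZero Γ] {v : Valuation B Γ} (h : Eqn W x y)
    (hgen : adjoin C {x, y} = ⊤) (hC : ∀ c : C, v (algebraMap C B c) ≤ 1) {a b : C}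
    (hne : b ≠ W.negY a b) (ht0 : x - algebraMap C B a ≠ 0) (ha : v (x - algebraMap C B a) < 1)
    (hb : v (y - algebraMap C B b) < 1) (D : Derivation R₀ B B)
    (hDc : ∀ c : C, v (D (algebraMap C B c)) ≤ 1) (hDx : v (D x) ≤ 1) :
    ∀ z : B, v z ≤ 1 → v (D z) ≤ 1 := by
  set t := x - algebraMap C B a with ht
  let K := adjoin C {t}
  have hxK : x ∈ K := mem_adjoin_sub x a
  have : FiniteDimensional K B := finDim_line (M := B) h hgen K hxK
  have : CharZero K := charZero_of_injective_algebraMap (algebraMap C _).injective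
  have hx := val_le_one_of_sub hC ha
  have hy := val_le_one_of_sub hC hb
  have hyint : IsIntegral K y := Algebra.IsIntegral.isIntegral y
  have hg : Algebra.adjoin K {y} = ⊤ := by
    rw [← adjoin_simple_toSubalgebra_of_isAlgebraic hyint.isAlgebraic]
    have h1 : adjoin K {y} = ⊤ := eq_top_iff.2 fun f _ =>
      algebraMap_mem_of_gen (M := B) hgen ((adjoin K {y}).restrictScalars C)
        ((adjoin K {y}).algebraMap_mem ⟨_, hxK⟩) (mem_adjoin_simple_self K _) f
    rw [h1, top_toSubalgebra]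
  let xK : K := ⟨x, hxK⟩
  let α : K := aeval xK (Polynomial.C W.a₁ * X + Polynomial.C W.a₃)
  let β : K := aeval xK (X ^ 3 + Polynomial.C W.a₂ * X ^ 2 + Polynomial.C W.a₄ * X +
    Polynomial.C W.a₆)
  have hα : algebraMap K B α = aeval x (Polynomial.C W.a₁ * X + Polynomial.C W.a₃) :=
    (aeval_algebraMap_apply B xK _).symm
  have hβ : algebraMap K B β = aeval x (X ^ 3 + Polynomial.C W.a₂ * X ^ 2 +
      Polynomial.C W.a₄ * X + Polynomial.C W.a₆) := (aeval_algebraMap_apply B xK _).symm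
  refine etale_lemma (K := K) v D y hg (X ^ 2 + Polynomial.C α * X - Polynomial.C β)
    (by monicity!) (fun i => ?_) ?_ ?_ fun c hc => ?_
  · simp only [coeff_sub, coeff_add, coeff_X_pow, coeff_C_mul, coeff_X, coeff_C, map_sub, map_add,
      map_mul]
    refine Valuation.map_sub_le v (Valuation.map_add_le v ?_ ?_) ?_
    · split_ifs <;> simp
    · rw [map_mul, hα]
      refine mul_le_one' (val_aeval_le hC hx _) ?_
      split_ifs <;> simp
    · split_ifs
      · rw [hβ]; exact val_aeval_le hC hx _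
      · simp
  · simp only [map_sub, map_add, map_mul, map_pow, aeval_C, aeval_X, hα, hβ]
    unfold Eqn at h
    linear_combination h
  · apply val_dy hC hne
    have e : aeval y (derivative (X ^ 2 + Polynomial.C α * X - Polynomial.C β)) -
        algebraMap C B (2 * b + W.a₁ * a + W.a₃) =
        algebraMap C B 2 * (y - algebraMap C B b) + algebraMap C B W.a₁ * t := by
      simp only [derivative_mul, derivative_C, derivative_X_pow,
        derivative_X, map_sub, map_add, map_mul, map_pow, aeval_C, aeval_X, hα, ht, map_ofNat,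
        map_zero, map_one, map_natCast]
      push_cast
      ring
    rw [e]
    refine Valuation.map_add_lt v ?_ ?_ <;> rw [map_mul]
    · exact lt_of_le_of_lt (mul_le_of_le_one_left' (hC _)) hb
    · exact lt_of_le_of_lt (mul_le_of_le_one_left' (hC _)) ha
  · refine Q_deriv_adjoin D (Q := fun g => g ≤ 1) (fun _ _ h h' => h.trans h') hC ht0 ha hDc ?_
      c.2 hc
    rw [ht, map_sub]
    exact Valuation.map_sub_le v hDx (hDc a)

end Fin

section Pres

variable {R₀ B M : Type} {Γ : Type*} [CommRing R₀] [Field B] [Field M] [Algebra ℂ B] [Algebra B M]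
  [Algebra ℂ M] [IsScalarTower ℂ B M] [Algebra R₀ M] [FiniteDimensional B M] [IsGalois B M]
  [LinearOrderedCommGroupWithZero Γ] {W : Affine ℂ} {x y : B} {n : ℕ} {a b : Fin n → ℂ}

/-- at an unramified place the value group does not grow -/
theorem val_unram (h : Eqn W x y) (hgen : adjoin ℂ {x, y} = ⊤) (hU : UnrE M x y a b)
    {v : Valuation M Γ} (hC : ∀ c : ℂ, v (algebraMap ℂ M c) ≤ 1) {t : B} (ht0 : t ≠ 0)
    (ht : v (algebraMap B M t) < 1) (hxt : x ∈ adjoin ℂ {t})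
    (hcen : ∀ l, ¬ (v (algebraMap B M x - algebraMap ℂ M (a l)) < 1 ∧
      v (algebraMap B M y - algebraMap ℂ M (b l)) < 1)) (z : M) (hz : z ≠ 0) :
    ∃ f : B, v z = v (algebraMap B M f) := by
  let vB := v.comap (algebraMap B M)
  have hCB : ∀ c : ℂ, vB (algebraMap ℂ B c) ≤ 1 := fun c => by
    rw [Valuation.comap_apply, ← IsScalarTower.algebraMap_apply]; exact hC c
  have : FiniteDimensional (adjoin ℂ {t}) B := finDim_line (M := B) h hgen _ hxt
  obtain ⟨π, hπ0, hπ, hπk⟩ := exists_unif vB (vB t) ((Valuation.ne_zero_iff vB).2 ht0) ht _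
    (Nat.factorial_ne_zero _) (exists_pow_eq hCB ht0 ht) t ht0 ht
  obtain ⟨u, hu1, hule, hult⟩ := exists_av vB hπ0 hπ hπk
  obtain ⟨v', hv'⟩ := hU u
    (fun c hc => le_antisymm (not_lt.1 fun h0 => (val_const hCB hc).not_lt ((hult _).1 h0))
      ((hule _).2 (hCB c))) ⟨π, hu1⟩
    (fun l hl => hcen l (by
      have h1 := (hult _).1 hl.1
      have h2 := (hult _).1 hl.2
      rw [Valuation.comap_apply, map_sub, ← IsScalarTower.algebraMap_apply] at h1 h2
      exact ⟨h1, h2⟩))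
  obtain ⟨g, hg⟩ := Gal.exists_conj (F := B) v.valuationSubring (mv v').valuationSubring
    (fun f => by
      rw [Valuation.mem_valuationSubring_iff, Valuation.mem_valuationSubring_iff, mv_le_one, hv',
        hule, Valuation.comap_apply])
  simp only [Valuation.mem_valuationSubring_iff, mv_le_one] at hg
  have hz' : g.symm z ≠ 0 := (_root_.map_ne_zero _).2 hz
  obtain ⟨k, hk⟩ := exists_int v' hz'
  have hp : v' (algebraMap B M (π ^ k)) = (k : WithTop ℤ) := by
    rw [hv', val_zpow u (k := 1) hu1 k, mul_one]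
  have hp0 : algebraMap B M (π ^ k) ≠ 0 := (_root_.map_ne_zero _).2 (zpow_ne_zero _ hπ0)
  have h1 : v (z / algebraMap B M (π ^ k)) ≤ 1 := by
    have := (hg (g.symm z / algebraMap B M (π ^ k))).1 (by
      rw [div_eq_mul_inv, v'.map_mul, hk, val_inv v' hp, ← WithTop.coe_add, add_neg_cancel]
      exact le_rfl)
    rwa [map_div₀, AlgEquiv.apply_symm_apply, AlgEquiv.commutes] at this
  have h2 : v (algebraMap B M (π ^ k) / z) ≤ 1 := by
    have := (hg (algebraMap B M (π ^ k) / g.symm z)).1 (by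
      rw [div_eq_mul_inv, v'.map_mul, hp, val_inv v' hk, ← WithTop.coe_add, add_neg_cancel]
      exact le_rfl)
    rwa [map_div₀, AlgEquiv.apply_symm_apply, AlgEquiv.commutes] at this
  rw [map_div₀, div_le_one₀ (zero_lt_iff.2 ((Valuation.ne_zero_iff v).2 hp0))] at h1
  rw [map_div₀, div_le_one₀ (zero_lt_iff.2 ((Valuation.ne_zero_iff v).2 hz))] at h2
  exact ⟨π ^ k, le_antisymm h1 h2⟩

variable [W.IsElliptic] (hx : Transcendental ℂ x) (h : Eqn W x y) (hgen : adjoin ℂ {x, y} = ⊤)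
  (hab : ∀ i, W.Equation (a i) (b i)) (hneg : ∀ i, b i ≠ W.negY (a i) (b i))
  (hU : UnrE M x y a b) (D : Derivation R₀ M M) (hDx : D (algebraMap B M x) = 0)
  (hDy : D (algebraMap B M y) = 0)
  (hDc : ∀ c : ℂ, ∃ c' : ℂ, D (algebraMap ℂ M c) = algebraMap ℂ M c')
  (hDW : ∀ c ∈ ({W.a₁, W.a₂, W.a₃, W.a₄, W.a₆} : Set ℂ), D (algebraMap ℂ M c) = 0) (i : Fin n)
  (hDa : ∀ l, l ≠ i → D (algebraMap ℂ M (a l)) = 0)

include hx h hgen hab hneg hU hDx hDy hDc hDW hDa

/-- the affine chart -/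
theorem pres_val {v : Valuation M Γ} (hC : ∀ c : ℂ, v (algebraMap ℂ M c) ≤ 1)
    (hvx : v (algebraMap B M x) ≤ 1) {f : M}
    (hf : f = algebraMap B M x - algebraMap ℂ M (a i) ∨ f = algebraMap B M y - algebraMap ℂ M (b i))
    {z : M} (hz : v z ≤ 1) : v (f * D z) ≤ 1 := by
  set xM := algebraMap B M x with hxM
  set yM := algebraMap B M y with hyM
  have hM : Eqn W xM yM := h.map (IsScalarTower.toAlgHom ℂ B M)
  have hvy : v yM ≤ 1 := hM.val_y hC hvx
  have hvf : v f ≤ 1 := by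
    rcases hf with rfl | rfl
    exacts [Valuation.map_sub_le v hvx (hC _), Valuation.map_sub_le v hvy (hC _)]
  have hDc1 : ∀ c : ℂ, v (D (algebraMap ℂ M c)) ≤ 1 := fun c => by
    obtain ⟨c', hc'⟩ := hDc c
    rw [hc']; exact hC c'
  have hQ2 : ∀ g : Γ, g < 1 → g ≤ 1 := fun _ h => h.le
  have hQ3 : ∀ g g' : Γ, g ≤ g' → g' ≤ 1 → g ≤ 1 := fun _ _ h h' => h.trans h'
  by_cases hcen : ∃ a₀ : ℂ, v (xM - algebraMap ℂ M a₀) < 1
  swap
  · -- the trivial valuation
    push Not at hcen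
    have : FiniteDimensional (adjoin ℂ {xM}) M :=
      finDim_line h hgen _ (mem_adjoin_simple_self ℂ _)
    refine val_le_one_of_isIntegral (A := adjoin ℂ {xM}) v (fun c => ?_)
      (Algebra.IsIntegral.isIntegral _)
    obtain ⟨r, s, hc⟩ := (mem_adjoin_simple_iff ℂ _).1 c.2
    change v (c : M) ≤ 1
    rw [hc, map_div₀]
    by_cases hs : s = 0
    · simp [hs]
    have h1 : v (aeval xM s) = 1 := le_antisymm (val_aeval_le hC hvx s) (not_lt.1 fun h0 => by
      obtain ⟨c', -, hc'⟩ := exists_root_of_val_lt hC hs h0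
      exact absurd hc' (not_lt.2 (hcen c')))
    rw [h1, div_one]; exact val_aeval_le hC hvx r
  obtain ⟨a₀, ha₀⟩ := hcen
  have ht0B : x - algebraMap ℂ B a₀ ≠ 0 := fun h0 =>
    hx (sub_eq_zero.1 h0 ▸ isAlgebraic_algebraMap a₀)
  have htM : algebraMap B M (x - algebraMap ℂ B a₀) = xM - algebraMap ℂ M a₀ := by
    rw [map_sub, ← IsScalarTower.algebraMap_apply]
  have ht0 : xM - algebraMap ℂ M a₀ ≠ 0 := htM ▸ (_root_.map_ne_zero _).2 ht0B
  have : FiniteDimensional (adjoin ℂ {xM - algebraMap ℂ M a₀}) M :=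
    finDim_line h hgen _ (mem_adjoin_sub xM a₀)
  obtain ⟨b₀, hb₀⟩ := exists_res hC ht0 ha₀ (Algebra.IsAlgebraic.isAlgebraic yM) hvy
  have hab₀ : W.Equation a₀ b₀ := hM.centre hC ha₀ hb₀
  by_cases hA : D (algebraMap ℂ M a₀) = 0
  · have := log_p1 D (Q := fun g => g ≤ 1) (fun _ h => h) hQ2 hQ3 hC ht0 ha₀ hDc1
      (by rw [map_sub, hDx, hA, sub_zero, map_zero]; exact zero_le) z hz
    rw [map_mul]; exact mul_le_one' hvf this
  by_cases hB : a₀ = a i ∧ b₀ = b i
  · obtain ⟨rfl, rfl⟩ := hB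
    have := log_p1 ((xM - algebraMap ℂ M (a i)) • D) (Q := fun g => g ≤ 1) (fun _ h => h) hQ2 hQ3
      hC ht0 ha₀
      (fun c => by
        rw [Derivation.smul_apply, smul_eq_mul, map_mul]; exact mul_le_one' ha₀.le (hDc1 c))
      (by
        rw [Derivation.smul_apply, smul_eq_mul, map_mul, map_sub D, hDx, zero_sub,
          Valuation.map_neg]
        exact mul_le_of_le_one_right' (hDc1 _)) z hz
    rw [Derivation.smul_apply, smul_eq_mul] at this
    rcases hf with rfl | rfl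
    · exact this
    · rw [map_mul] at this ⊢
      exact (mul_le_mul_left (hM.val_sub_le hC (hab i) (hneg i) ha₀ hb₀) _).trans this
  have hne : b₀ ≠ W.negY a₀ b₀ := fun he => hA (deriv_two_torsion D hDW hab₀ he)
  obtain ⟨DB, hDB⟩ := exists_restrictDer D (algebraMap B M) (algebraMap B M).injective
    (deriv_mem_range hgen D hDx hDy hDc)
  have hCB : ∀ c : ℂ, v.comap (algebraMap B M) (algebraMap ℂ B c) ≤ 1 := fun c => by
    rw [Valuation.comap_apply, ← IsScalarTower.algebraMap_apply]; exact hC c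
  have het := etale_curve (v := v.comap (algebraMap B M)) h hgen hCB hne ht0B
    (by rw [Valuation.comap_apply, htM]; exact ha₀)
    (by rw [Valuation.comap_apply, map_sub, ← IsScalarTower.algebraMap_apply]; exact hb₀) DB
    (fun c => by
      rw [Valuation.comap_apply, hDB, ← IsScalarTower.algebraMap_apply]; exact hDc1 c)
    (by rw [Valuation.comap_apply, hDB, hDx, map_zero]; exact zero_le)
  have hun := val_unram h hgen hU hC ht0B (by rw [htM]; exact ha₀) (mem_adjoin_sub x a₀)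
    (fun l hl => by
      have e1 := const_eq_of_val_lt hC ha₀ hl.1
      have e2 := const_eq_of_val_lt hC hb₀ hl.2
      by_cases hli : l = i
      · exact hB (hli ▸ ⟨e1, e2⟩)
      · exact hA (e1 ▸ hDa l hli))
  have := log_lemma (K := B) v (hasMax_line hC ht0 ha₀) D (fun g => g ≤ 1) (fun _ h => h) hQ2 hQ3
    (fun c hc => by
      have := het c hc
      rwa [Valuation.comap_apply, hDB] at this)
    (fun w hw => by
      obtain ⟨c, hc⟩ := exists_res hC ht0 ha₀ (Algebra.IsAlgebraic.isAlgebraic w) hw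
      exact ⟨algebraMap ℂ B c, by rwa [← IsScalarTower.algebraMap_apply]⟩)
    (fun w hw _ => Or.inl (hun w hw)) z hz
  rw [map_mul]; exact mul_le_one' hvf this

/-- the chart at infinity -/
theorem pres_val_inf {v : Valuation M Γ} (hC : ∀ c : ℂ, v (algebraMap ℂ M c) ≤ 1)
    (hvx : v (algebraMap B M x)⁻¹ ≤ 1) {f : M}
    (hf : f = 1 - algebraMap ℂ M (a i) / algebraMap B M x ∨
      f = (algebraMap B M y - algebraMap ℂ M (b i)) / algebraMap B M x ^ 2)
    {z : M} (hz : v z ≤ 1) : v (f * D z) ≤ 1 := by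
  have hx0 : algebraMap B M x ≠ 0 :=
    (_root_.map_ne_zero _).2 fun h0 => hx (h0 ▸ isAlgebraic_zero)
  by_cases hx1 : v (algebraMap B M x) ≤ 1
  · rcases hf with rfl | rfl
    · have := pres_val hx h hgen hab hneg hU D hDx hDy hDc hDW i hDa hC hx1 (Or.inl rfl) hz
      rw [show (1 - algebraMap ℂ M (a i) / algebraMap B M x) * D z = (algebraMap B M x)⁻¹ *
        ((algebraMap B M x - algebraMap ℂ M (a i)) * D z) by field_simp, map_mul]
      exact mul_le_one' hvx this
    · have := pres_val hx h hgen hab hneg hU D hDx hDy hDc hDW i hDa hC hx1 (Or.inr rfl) hz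
      rw [show (algebraMap B M y - algebraMap ℂ M (b i)) / algebraMap B M x ^ 2 * D z =
        (algebraMap B M x)⁻¹ ^ 2 * ((algebraMap B M y - algebraMap ℂ M (b i)) * D z) by
          field_simp, map_mul, map_pow]
      exact mul_le_one' (pow_le_one' hvx _) this
  have hlt : v (algebraMap B M x)⁻¹ < 1 := by
    rw [map_inv₀]; exact inv_lt_one_of_one_lt₀ (not_le.1 hx1)
  have : FiniteDimensional (adjoin ℂ {(algebraMap B M x)⁻¹}) M :=
    finDim_line h hgen _ (mem_adjoin_inv _)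
  have h1 := log_p1 D (Q := fun g => g ≤ 1) (fun _ h => h) (fun _ h => h.le)
    (fun _ _ h h' => h.trans h') hC (inv_ne_zero hx0) hlt
    (fun c => by
      obtain ⟨c', hc'⟩ := hDc c
      rw [hc']; exact hC c')
    (by rw [Derivation.leibniz_inv, hDx, smul_zero, map_zero]; exact zero_le) z hz
  rw [map_mul]
  refine mul_le_one' ?_ h1
  rcases hf with rfl | rfl
  · refine Valuation.map_sub_le v (le_of_eq (map_one v)) ?_
    rw [div_eq_mul_inv, map_mul]; exact mul_le_one' (hC _) hvx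
  · rw [sub_div]
    refine Valuation.map_sub_le v ((h.map (IsScalarTower.toAlgHom ℂ B M)).val_y_div hC hx0 hvx) ?_
    rw [div_eq_mul_inv, map_mul, ← inv_pow, map_pow]
    exact mul_le_one' (hC _) (pow_le_one' hvx _)

end Pres

end Crest.Agent.T170.Log
end

-- ▼ part T170/DescCore2_74
section

/-!
# Row 170, descent (helper74): `CoreData` from `World`, part 2: the place over a puncture

* structure `Up X B` : `B = ℂ(x, y)` embedded in `U`;
* `Up.der_const`, `Up.der_B`, `Up.der_M`, `Up.finite_line`;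
* `Emb.exists_place` : the fields `u`, `uK`, `uh`, `logd`, `wild` of `CoreData`.
-/

set_option autoImplicit false
set_option linter.unusedSectionVars false

namespace Crest.Agent.T170.Desc74

open scoped NNReal Polynomial Classical
open WeierstrassCurve WeierstrassCurve.Affine Crest.Agent.T170.Fr Crest.Agent.T170.Ret
open IntermediateField

variable {p n : ℕ} [NeZero n] {U : Type} [Field U] [Algebra ℂ U] (X : World p n U)
  (B : Type) [Field B] [Algebra ℂ B] [Algebra B U] [IsScalarTower ℂ B U]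

/-- `B = ℂ(x, y)` inside `U` -/
structure Up where
  x : B
  y : B
  hx : algebraMap B U x = X.x
  hy : algebraMap B U y = X.y
  gen : IntermediateField.adjoin ℂ {x, y} = ⊤

/-- the derivations preserve the complex constants -/
theorem der_const (i : Fin n) (c : ℂ) :
    ∃ c' : ℂ, X.D i (algebraMap ℂ U c) = algebraMap ℂ U c' := by
  have : Algebra.IsAlgebraic X.F ℂ := ⟨X.algF⟩
  have h := Log.deriv_mem (X.D i) (IsScalarTower.toAlgHom X.F ℂ U).fieldRange
    (fun a => by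
      obtain ⟨a', ha⟩ := X.DF i a
      rw [ha]; exact IntermediateField.algebraMap_mem _ _)
    (z := algebraMap ℂ U c) ⟨c, rfl⟩
    ((Algebra.IsSeparable.isSeparable X.F c).map (IsScalarTower.toAlgHom X.F ℂ U)
      (algebraMap ℂ U).injective)
  obtain ⟨c', hc'⟩ := h
  exact ⟨c', hc'.symm⟩

/-- roots of unity are constants -/
theorem root_mem {ζ : ℂ} {m : ℕ} (hm : 0 < m) (hζ : ζ ^ m = 1) : ∃ c : X.C, (c : ℂ) = ζ := by
  have := X.Cac
  have h1 : _root_.IsIntegral X.C ζ :=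
    ⟨Polynomial.X ^ m - Polynomial.C 1, Polynomial.monic_X_pow_sub_C _ hm.ne', by simp [hζ]⟩
  exact minpoly.mem_range_of_degree_eq_one X.C _
    (IsAlgClosed.degree_eq_one_of_irreducible X.C (minpoly.irreducible h1))

namespace Up

variable {X B} (Y : Up X B)

theorem trans : Transcendental ℂ Y.x := fun h =>
  X.trans (Y.hx ▸ h.algHom (IsScalarTower.toAlgHom ℂ B U))

theorem eqn : ((X.W⁄ℂ)⁄B).Equation Y.x Y.y := by
  have h := X.ns.1
  rw [← Y.hx, ← Y.hy] at h
  have e : (X.W⁄ℂ)⁄B = X.W⁄B :=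
    WeierstrassCurve.map_baseChange X.W (IsScalarTower.toAlgHom X.R ℂ B)
  rw [e]
  exact (baseChange_equation X.W (f := IsScalarTower.toAlgHom ℂ B U)
    (algebraMap B U).injective Y.x Y.y).1 h

include Y in
theorem der_B (i : Fin n) (z : B) : ∃ z' : B, X.D i (algebraMap B U z) = algebraMap B U z' := by
  have hz : z ∈ IntermediateField.adjoin ℂ {Y.x, Y.y} := by rw [Y.gen]; trivial
  induction hz using IntermediateField.adjoin_induction with
  | mem x hx =>
    rcases hx with rfl | rfl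
    · exact ⟨0, by rw [Y.hx, X.Dx, map_zero]⟩
    · exact ⟨0, by rw [Y.hy, X.Dy, map_zero]⟩
  | algebraMap k =>
    obtain ⟨k', hk'⟩ := der_const X i k
    exact ⟨algebraMap ℂ B k', by
      rw [← IsScalarTower.algebraMap_apply, ← IsScalarTower.algebraMap_apply, hk']⟩
  | add a b _ _ ha hb =>
    obtain ⟨a', ha⟩ := ha
    obtain ⟨b', hb⟩ := hb
    exact ⟨a' + b', by rw [map_add, map_add, map_add, ha, hb]⟩
  | inv a _ ha =>
    obtain ⟨a', ha⟩ := ha
    exact ⟨-a⁻¹ ^ 2 * a', by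
      rw [map_inv₀, Derivation.leibniz_inv, ha]; simp⟩
  | mul a b _ _ ha hb =>
    obtain ⟨a', ha⟩ := ha
    obtain ⟨b', hb⟩ := hb
    exact ⟨a * b' + b * a', by rw [map_mul, Derivation.leibniz, ha, hb]; simp⟩

include Y in
theorem der_M (M : IntermediateField B U) [Algebra.IsSeparable B M] (i : Fin n) (z : M) :
    ∃ z' : M, X.D i (algebraMap M U z) = algebraMap M U z' := by
  have h := Log.deriv_mem (X.D i) M
    (fun a => by
      obtain ⟨a', ha⟩ := Y.der_B i a
      rw [ha]; exact IntermediateField.algebraMap_mem _ _)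
    z.2 ((Algebra.IsSeparable.isSeparable B z).map M.val M.val.toRingHom.injective)
  exact ⟨⟨_, h⟩, rfl⟩

theorem finite_line (M : Type) [Field M] [Algebra B M] [Algebra ℂ M] [IsScalarTower ℂ B M]
    [FiniteDimensional B M] (a : ℂ) :
    FiniteDimensional ℂ⟮algebraMap B M (Y.x - algebraMap ℂ B a)⟯ M :=
  Log.finDim_line ((Log.eqn_iff _ _ _).1 Y.eqn) Y.gen _ (by
    rw [map_sub, ← IsScalarTower.algebraMap_apply]
    exact Log.mem_adjoin_sub _ _)

include Y in
/-- the derivations on `M` -/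
theorem exists_DM (M : IntermediateField B U) [Algebra.IsSeparable B M] (i : Fin n) :
    ∃ DM : Derivation ℤ M M, (∀ z : M, (DM z : U) = X.D i z) ∧
      ∀ c : ℂ, ∃ c' : ℂ, DM (algebraMap ℂ M c) = algebraMap ℂ M c' := by
  obtain ⟨DM, hDM⟩ := Log.exists_restrictDer (X.D i) (algebraMap M U) (algebraMap M U).injective
    (Y.der_M M i)
  refine ⟨DM, hDM, fun c => ?_⟩
  obtain ⟨c', hc'⟩ := der_const X i c
  exact ⟨c', Subtype.ext ((hDM _).trans hc')⟩

end Up

variable {X B} {K E N : Type} [Field K] [Field E] [Field N] [Algebra X.C K] [Algebra K E]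
  [Algebra E N] [Algebra X.C E] [Algebra X.C N] [Algebra K N] [IsScalarTower X.C K E]
  [IsScalarTower K E N] [IsScalarTower X.C E N] [IsScalarTower X.C K N] [Algebra X.F K]

namespace Emb

variable (J : Emb X K E N)

/-- the embedding `N → M` -/
noncomputable def jM (M : IntermediateField B U) (hNM : ∀ z, J.j z ∈ M) : N →+* M :=
  J.j.toRingHom.codRestrict M hNM

@[simp] theorem coe_jM (M : IntermediateField B U) (hNM : ∀ z, J.j z ∈ M) (z : N) :
    (J.jM M hNM z : U) = J.j z := rfl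

/-- the place over the wildly ramified puncture -/
theorem exists_place (hp : p.Prime) [Algebra.IsAlgebraic X.F K] [FiniteDimensional E N]
    (Y : Up X B) (M : IntermediateField B U) [FiniteDimensional B M] [IsGalois B M]
    (hNM : ∀ z, J.j z ∈ M) (D : Fin n → Derivation X.C N N) (d : Fin n → K → K)
    (hD : ∀ i z, J.j (D i z) = X.D i (J.j z))
    (Dd : ∀ i z, D i (algebraMap K N z) = algebraMap K N (d i z))
    (i₀ : Fin n) {n₀ : ℕ} (hn : 0 < n₀) {ζ : ℂ} (hζ : IsPrimitiveRoot ζ n₀) {u₀ : AV B}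
    (hu : AtPt u₀ Y.x Y.y (X.a i₀) (X.b i₀) n₀) {γ₀ : M ≃ₐ[B] M}
    (hγ : GenOver u₀ (algebraMap ℂ B ζ) γ₀) {h : N ≃ₐ[E] N}
    (hh : ∀ (z : N) (z' : M), (z' : U) = J.j z → (γ₀ z' : U) = J.j (h z))
    (hph : p ∣ orderOf h) :
    ∃ u : AV N, (∀ z : K, z ≠ 0 → u (algebraMap K N z) = 0) ∧
      u (algebraMap E N (J.x - algebraMap K E (algebraMap X.F K (X.a i₀)))) =
        ((n₀ : ℤ) : WithTop ℤ) ∧
      (∀ (z : N) (k : ℤ), u z = (k : WithTop ℤ) →
        (k : WithTop ℤ) < u ((J.x - algebraMap K E (algebraMap X.F K (X.a i₀))) • D i₀ z +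
          (((k : ℚ) / n₀ : ℚ) : N) * algebraMap K N (d i₀ (algebraMap X.F K (X.a i₀))) * z)) ∧
      ∃ (z : N) (k : ℤ), u z = (k : WithTop ℤ) ∧ p ∣ ((k : ℚ) / n₀).den := by
  have := charZero_of (X := X) K
  have := charZero_of (X := X) N
  obtain ⟨w, hw, hrot⟩ := hγ
  let j := J.jM M hNM
  have hwC : ∀ c : ℂ, c ≠ 0 → w (algebraMap ℂ M c) = 0 := fun c hc => by
    rw [IsScalarTower.algebraMap_apply ℂ B M, hw]; exact hu.1.1 c hc
  have hK : ∀ k : K, ∃ c : ℂ, j (algebraMap K N k) = algebraMap ℂ M c := fun k => by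
    obtain ⟨c, hc⟩ := J.exists_const k
    exact ⟨c, Subtype.ext hc⟩
  have uK : ∀ z : K, z ≠ 0 → w (j (algebraMap K N z)) = 0 := fun z hz => by
    obtain ⟨c, hc⟩ := hK z
    rw [hc]
    refine hwC c fun h0 => hz ?_
    rw [h0, map_zero, map_eq_zero, map_eq_zero] at hc
    exact hc
  have ht : j (algebraMap E N (J.x - algebraMap K E (algebraMap X.F K (X.a i₀)))) =
      algebraMap B M (Y.x - algebraMap ℂ B (X.a i₀)) := Subtype.ext (by
    change J.jE _ = algebraMap B U _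
    rw [map_sub, map_sub, jE_algebraMap, jK_F, Y.hx, ← IsScalarTower.algebraMap_apply, jE_apply,
      J.jx]
    rfl)
  have uh : w (algebraMap B M (Y.x - algebraMap ℂ B (X.a i₀))) = ((n₀ : ℤ) : WithTop ℤ) := by
    rw [hw]; exact hu.1.2
  refine ⟨w.comap j, uK, ?_, fun z k hz => ?_, ?_⟩
  · change w (j _) = _
    rw [ht, uh]
  · obtain ⟨DM, hDM', hDc⟩ := Y.exists_DM M i₀
    have hDM : ∀ z, algebraMap M U (DM z) = X.D i₀ (algebraMap M U z) := hDM'
    have := Y.finite_line M (X.a i₀)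
    have hi := (algebraMap M U).injective
    have hj : ∀ z, algebraMap M U (j z) = J.j z := fun _ => rfl
    have key := Log.logd_line (C := ℂ) w hwC hn uh DM hDc
      (e := j (algebraMap K N (d i₀ (algebraMap X.F K (X.a i₀)))))
      (by
        rcases eq_or_ne (d i₀ (algebraMap X.F K (X.a i₀))) 0 with h0 | h0
        · rw [h0, map_zero, map_zero, w.map_zero]; exact le_top
        · rw [uK _ h0])
      (hi (by
        rw [hDM, ← ht, map_neg, hj, hj, ← Dd, hD, map_sub, map_sub, map_sub, J.jx, X.Dx, zero_sub,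
          ← IsScalarTower.algebraMap_apply]))
      (j z) k hz
    have e : j ((J.x - algebraMap K E (algebraMap X.F K (X.a i₀))) • D i₀ z +
        (((k : ℚ) / n₀ : ℚ) : N) * algebraMap K N (d i₀ (algebraMap X.F K (X.a i₀))) * z) =
        algebraMap B M (Y.x - algebraMap ℂ B (X.a i₀)) * DM (j z) +
          (((k : ℚ) / n₀ : ℚ) : M) * j (algebraMap K N (d i₀ (algebraMap X.F K (X.a i₀)))) *
            j z := by
      rw [Algebra.smul_def, map_add, map_mul, map_mul, map_mul, ht, map_ratCast]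
      congr 2
      exact hi (by rw [hDM, hj, hj, hD])
    change _ < w (j _)
    rw [e]
    exact key
  · obtain ⟨c, hc⟩ := root_mem X hn hζ.pow_eq_one
    have hζK : IsPrimitiveRoot (algebraMap X.C K c) n₀ := by
      refine IsPrimitiveRoot.map_of_injective ?_ (algebraMap X.C K).injective
      refine IsPrimitiveRoot.of_map_of_injective (f := X.C.subtype) ?_ X.C.subtype.injective
      rw [← hc] at hζ
      exact hζ
    have e : j (algebraMap K N (algebraMap X.C K c)) = algebraMap B M (algebraMap ℂ B ζ) :=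
      Subtype.ext (by
        change J.jK _ = algebraMap B U _
        rw [AlgHom.commutes, ← IsScalarTower.algebraMap_apply, ← hc]
        rfl)
    refine Log.wild hp (w.comap j) uK hζK hn (g := h) (fun f k hf => ?_)
      (isOfFinOrder_of_finite h) hph
    have h1 := hrot (j f) k hf
    have e2 : γ₀ (j f) = j (h f) := Subtype.ext (hh f _ rfl)
    change _ < w (j _)
    rw [map_sub, map_mul, map_zpow₀, e, ← e2]
    exact h1

/-- from the valuation rings of `M` to integrality in `N` -/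
theorem isIntegral_of_val [Algebra.IsAlgebraic X.F K] (M : IntermediateField B U)
    (hNM : ∀ z, J.j z ∈ M) (ξ : N) {z z' : N}
    (hz : _root_.IsIntegral (Algebra.adjoin K {ξ}) z)
    (h : ∀ W : ValuationSubring M, (∀ c : ℂ, W.valuation (algebraMap ℂ M c) ≤ 1) →
      W.valuation (J.jM M hNM ξ) ≤ 1 → W.valuation (J.jM M hNM z) ≤ 1 →
      W.valuation (J.jM M hNM z') ≤ 1) :
    _root_.IsIntegral (Algebra.adjoin K {ξ}) z' := by
  refine Log.isIntegral_of_forall_vs z' fun V hV => ?_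
  obtain ⟨W, hW⟩ := Log.exists_vs_ext (J.jM M hNM) V
  refine (hW _).1 ((W.valuation_le_one_iff _).1 (h W (fun c => ?_) ?_ ?_))
  · have : Algebra.IsAlgebraic X.F ℂ := ⟨X.algF⟩
    refine Log.val_le_one_of_isIntegral (A := X.F) W.valuation (fun a => ?_)
      (Algebra.IsIntegral.isIntegral (R := X.F) c).algebraMap
    have e : algebraMap X.F M a = J.jM M hNM (algebraMap K N (algebraMap X.F K a)) :=
      Subtype.ext (J.jF a).symm
    rw [e, W.valuation_le_one_iff, hW]
    exact hV (algebraMap K _ (algebraMap X.F K a))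
  · rw [W.valuation_le_one_iff, hW]
    exact hV ⟨ξ, Algebra.self_mem_adjoin_singleton K ξ⟩
  · rw [W.valuation_le_one_iff, hW]
    exact Log.vs_mem_of_isIntegral V hV hz

/-- the fields `pres₀`, `pres₁` -/
theorem pres [Algebra.IsAlgebraic X.F K]
    (Y : Up X B) (M : IntermediateField B U) [FiniteDimensional B M] [IsGalois B M]
    (hU : UnrE M Y.x Y.y (fun i => (X.a i : ℂ)) (fun i => (X.b i : ℂ)))
    (hNM : ∀ z, J.j z ∈ M) (D : Fin n → Derivation X.C N N)
    (hD : ∀ i z, J.j (D i z) = X.D i (J.j z)) :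
    (∀ i, ∀ h ∈ ({J.x - algebraMap K E (algebraMap X.F K (X.a i)),
        J.y - algebraMap K E (algebraMap X.F K (X.b i))} : Set E), ∀ z : N,
      _root_.IsIntegral (Algebra.adjoin K {algebraMap E N J.x}) z →
      _root_.IsIntegral (Algebra.adjoin K {algebraMap E N J.x}) (h • D i z)) ∧
    ∀ i, ∀ h ∈ ({1 - algebraMap K E (algebraMap X.F K (X.a i)) / J.x,
        (J.y - algebraMap K E (algebraMap X.F K (X.b i))) / J.x ^ 2} : Set E), ∀ z : N,
      _root_.IsIntegral (Algebra.adjoin K {(algebraMap E N J.x)⁻¹}) z →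
      _root_.IsIntegral (Algebra.adjoin K {(algebraMap E N J.x)⁻¹}) (h • D i z) := by
  have := X.ell
  let j := J.jM M hNM
  have hns : ∀ i, (X.W⁄ℂ).Nonsingular (X.a i : ℂ) (X.b i : ℂ) := fun i =>
    (baseChange_nonsingular X.W (f := Algebra.ofId ℂ U) (algebraMap ℂ U).injective _ _).1 (X.nsO i)
  have hneg : ∀ i, (X.b i : ℂ) ≠ (X.W⁄ℂ).negY (X.a i : ℂ) (X.b i : ℂ) := fun i h => by
    have h1 := X.vW i
    have h2 := baseChange_negY (W' := X.W) (Algebra.ofId ℂ U) (X.a i : ℂ) (X.b i : ℂ)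
    rw [← h] at h2
    have h3 : (X.W⁄U).negY (algebraMap X.F U (X.a i)) (algebraMap X.F U (X.b i)) =
        algebraMap X.F U (X.b i) := h2
    rw [h3, sub_self, map_zero] at h1
    exact zero_ne_one h1
  have jx : j (algebraMap E N J.x) = algebraMap B M Y.x := Subtype.ext (J.jx.trans Y.hx.symm)
  have jy : j (algebraMap E N J.y) = algebraMap B M Y.y := Subtype.ext (J.jy.trans Y.hy.symm)
  have jF : ∀ a : X.F, j (algebraMap E N (algebraMap K E (algebraMap X.F K a))) =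
      algebraMap ℂ M (a : ℂ) := fun a => Subtype.ext (by
    change J.jE _ = _
    rw [jE_algebraMap, jK_F]; rfl)
  choose DM hDM hDc using Y.exists_DM M
  have hjD : ∀ i z, j (D i z) = DM i (j z) := fun i z =>
    Subtype.ext ((hD i z).trans (hDM i (j z)).symm)
  have hDx : ∀ i, DM i (algebraMap B M Y.x) = 0 := fun i => Subtype.ext ((hDM i _).trans (by
    change X.D i (algebraMap B U Y.x) = 0
    rw [Y.hx, X.Dx]))
  have hDy : ∀ i, DM i (algebraMap B M Y.y) = 0 := fun i => Subtype.ext ((hDM i _).trans (by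
    change X.D i (algebraMap B U Y.y) = 0
    rw [Y.hy, X.Dy]))
  have hR : ∀ i (r : X.R), DM i (algebraMap ℂ M (algebraMap X.R ℂ r)) = 0 := fun i r =>
    Subtype.ext ((hDM i _).trans ((X.D i).map_algebraMap (r : X.C)))
  have hDW : ∀ i, ∀ c ∈ ({(X.W⁄ℂ).a₁, (X.W⁄ℂ).a₂, (X.W⁄ℂ).a₃, (X.W⁄ℂ).a₄, (X.W⁄ℂ).a₆} : Set ℂ),
      DM i (algebraMap ℂ M c) = 0 := by
    rintro i c (rfl | rfl | rfl | rfl | rfl) <;> exact hR i _
  have hDa : ∀ i l, l ≠ i → DM i (algebraMap ℂ M (X.a l : ℂ)) = 0 := fun i l hl =>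
    Subtype.ext ((hDM i _).trans (X.Da l i hl.symm))
  refine ⟨fun i h hh z hz => ?_, fun i h hh z hz => ?_⟩
  · refine J.isIntegral_of_val M hNM _ hz fun W hC h1 h2 => ?_
    change W.valuation (j _) ≤ 1
    rw [Algebra.smul_def, map_mul, hjD]
    refine Log.pres_val Y.trans ((Log.eqn_iff _ _ _).1 Y.eqn) Y.gen (fun i => (hns i).1) hneg hU
      (DM i) (hDx i) (hDy i) (hDc i) (hDW i) i (hDa i) hC (jx ▸ h1) ?_ h2
    rcases hh with rfl | rfl
    · left; rw [map_sub, map_sub, jx, jF]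
    · right; rw [map_sub, map_sub, jy, jF]
  · refine J.isIntegral_of_val M hNM _ hz fun W hC h1 h2 => ?_
    change W.valuation (j _) ≤ 1
    rw [Algebra.smul_def, map_mul, hjD]
    refine Log.pres_val_inf Y.trans ((Log.eqn_iff _ _ _).1 Y.eqn) Y.gen (fun i => (hns i).1) hneg
      hU (DM i) (hDx i) (hDy i) (hDc i) (hDW i) i (hDa i) hC
      (by rw [← jx, ← map_inv₀ j]; exact h1) ?_ h2
    rcases hh with rfl | rfl
    · left; rw [map_sub, map_sub, map_div₀, map_div₀, map_one, map_one, jx, jF]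
    · right; rw [map_div₀, map_div₀, map_sub, map_sub, map_pow, map_pow, jx, jy, jF]

/-- **`CoreData` from `World`** -/
theorem coreData (hp : p.Prime) [Algebra.IsAlgebraic X.F K] [FiniteDimensional E N]
    (cpl : Cpl (J.vE.comap (algebraMap K E)))
    (hvd : ∀ i (k : K), X.v (X.D i (J.jK k)) ≤ X.v (J.jK k))
    (γ : N ≃ₐ[X.C] N)
    (hF : ∀ z : X.F, γ (algebraMap K N (algebraMap X.F K z)) =
      algebraMap K N (algebraMap X.F K (X.σ z)))
    (hx : J.j (γ (algebraMap E N J.x)) = X.g X.x) (hy : J.j (γ (algebraMap E N J.y)) = X.g X.y)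
    (hK : ∀ k : K, ∃ k' : K, γ (algebraMap K N k) = algebraMap K N k') (hfin : IsOfFinOrder γ)
    (V : ValuationSubring K) (fine : Fine (C := X.C) (J.vE.comap (algebraMap K E)) V)
    (hV : ∀ k k' : K, γ (algebraMap K N k) = algebraMap K N k' → (k' ∈ V ↔ k ∈ V))
    (Y : Up X B) (M : IntermediateField B U) [FiniteDimensional B M] [IsGalois B M]
    (hU : UnrE M Y.x Y.y (fun i => (X.a i : ℂ)) (fun i => (X.b i : ℂ)))
    (hNM : ∀ z, J.j z ∈ M)
    (i₀ : Fin n) {n₀ : ℕ} (hn : 0 < n₀) {ζ : ℂ} (hζ : IsPrimitiveRoot ζ n₀) {u₀ : AV B}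
    (hu : AtPt u₀ Y.x Y.y (X.a i₀) (X.b i₀) n₀) {γ₀ : M ≃ₐ[B] M}
    (hγ : GenOver u₀ (algebraMap ℂ B ζ) γ₀) {h : N ≃ₐ[E] N}
    (hh : ∀ (z : N) (z' : M), (z' : U) = J.j z → (γ₀ z' : U) = J.j (h z))
    (hph : p ∣ orderOf h) : Nonempty (CoreData p n X.R X.C K E N) := by
  have := charZero_of (X := X) E
  obtain ⟨D, d, hD, Dd⟩ := J.exists_der
  obtain ⟨h0, h1⟩ := J.pres Y M hU hNM D hD
  obtain ⟨u, uK, uh, logd, wild⟩ := J.exists_place hp Y M hNM D d hD Dd i₀ hn hζ hu hγ hh hph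
  exact J.coreData_of hp.ne_zero cpl hvd γ hF hx hy hK hfin V fine hV D d hD Dd h0 h1 i₀ u n₀ hn
    uK uh logd wild

end Emb

end Crest.Agent.T170.Desc74
end

-- ▼ part T170/DsGeo_74

/-!
# Row 170, descent (helper74): the geometric claim `Ds.GeoStmt`
-/

set_option autoImplicit false

namespace Crest.Agent.T170.Desc74

open scoped NNReal Polynomial Classical
open WeierstrassCurve WeierstrassCurve.Affine Crest.Agent.T170.Fr Crest.Agent.T170.Ret

/-- the generators of an adjunction generate it -/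
theorem adjoin_gen_top {K U : Type*} [Field K] [Field U] [Algebra K U] (x y : U) :
    IntermediateField.adjoin K
      ({⟨x, IntermediateField.subset_adjoin K _ (Set.mem_insert _ _)⟩,
        ⟨y, IntermediateField.subset_adjoin K _ (Set.mem_insert_of_mem _ rfl)⟩} :
        Set (IntermediateField.adjoin K {x, y})) = ⊤ := by
  apply IntermediateField.lift_injective
  rw [IntermediateField.lift_adjoin, IntermediateField.lift_top, Set.image_pair]

/-- restriction of an automorphism to a stable subfield -/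
theorem exists_res_aut {C N U : Type*} [Field C] [Field N] [Field U] [Algebra C N] [Algebra C U]
    (j : N →ₐ[C] U) (φ : U ≃ₐ[C] U) (h : ∀ z, z ∈ j.fieldRange ↔ φ z ∈ j.fieldRange) :
    ∃ γ : N ≃ₐ[C] N, ∀ z, j (γ z) = φ (j z) := by
  have hi := j.toRingHom.injective
  have h1 : ∀ z, ∃ z', j z' = φ (j z) := fun z => (h _).1 ⟨z, rfl⟩
  choose f hf using h1
  let ψ : N →ₐ[C] N :=
    { toFun := f
      map_one' := hi (by change j _ = j _; rw [hf]; simp)
      map_mul' := fun a b => hi (by change j _ = j _; rw [hf, map_mul, map_mul, map_mul, hf, hf])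
      map_zero' := hi (by change j _ = j _; rw [hf]; simp)
      map_add' := fun a b => hi (by change j _ = j _; rw [hf, map_add, map_add, map_add, hf, hf])
      commutes' := fun c => hi (by change j _ = j _; rw [hf, j.commutes, φ.commutes]) }
  refine ⟨AlgEquiv.ofBijective ψ ⟨ψ.toRingHom.injective, fun z => ?_⟩, hf⟩
  obtain ⟨z', hz'⟩ := (h (φ.symm (j z))).2 (by rw [φ.apply_symm_apply]; exact ⟨z, rfl⟩)
  refine ⟨z', hi ?_⟩
  change j (f z') = j z
  rw [hf]
  exact (congrArg φ hz').trans (φ.apply_symm_apply _)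

/-- the geometric claim for an abstract tower -/
theorem geo_abs {p : ℕ} (hp : p.Prime) (hcore : CoreStmt p) {n : ℕ} [NeZero n] {U : Type}
    [Field U] [Algebra ℂ U] (X : World p n U) {B : Type} [Field B] [Algebra ℂ B] [Algebra B U]
    [IsScalarTower ℂ B U] (Y : Up X B) (M : IntermediateField B U) [FiniteDimensional B M]
    [IsGalois B M] (hU : UnrE M Y.x Y.y (fun i => (X.a i : ℂ)) (fun i => (X.b i : ℂ)))
    (K E N : Type) [Field K] [Field E] [Field N] [Algebra X.C K] [Algebra K E] [Algebra E N]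
    [FiniteDimensional E N] [IsGalois E N] (j : N →+* U) (jK : K →+* U)
    (hjK : ∀ k, j (algebraMap E N (algebraMap K E k)) = jK k)
    (hjC : ∀ c, jK (algebraMap X.C K c) = algebraMap X.C U c)
    (ι : X.F →+* K) (hι : ∀ z, jK (ι z) = algebraMap X.F U z)
    (hKC : ∀ k, ∃ c : ℂ, algebraMap ℂ U c = jK k)
    (x y : E) (jx : j (algebraMap E N x) = X.x) (jy : j (algebraMap E N y) = X.y)
    (gen : IntermediateField.adjoin K {x, y} = ⊤)
    (cpl : Cpl (X.v.comap jK)) (hvd : ∀ i k, X.v (X.D i (jK k)) ≤ X.v (jK k))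
    (hNM : ∀ z, j z ∈ M) (φ : U ≃ₐ[X.C] U)
    (hF : ∀ z : X.F, φ (algebraMap X.F U z) = X.g (algebraMap X.F U z))
    (hx : φ X.x = X.g X.x) (hy : φ X.y = X.g X.y) (hφK : ∀ k, ∃ k', jK k' = φ (jK k))
    (hφN : ∀ z, z ∈ j.fieldRange ↔ φ z ∈ j.fieldRange)
    (hfin : ∃ r : ℕ, 0 < r ∧ ∀ z, (φ ^ r) (j z) = j z)
    (V : ValuationSubring K) (fine : Fine (C := X.C) (X.v.comap jK) V)
    (hV : ∀ k k' : K, jK k' = φ (jK k) → (k' ∈ V ↔ k ∈ V))
    (i₀ : Fin n) {n₀ : ℕ} (hn : 0 < n₀) {ζ : ℂ} (hζ : IsPrimitiveRoot ζ n₀) {u₀ : AV B}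
    (hu : AtPt u₀ Y.x Y.y (X.a i₀) (X.b i₀) n₀) {γ₀ : M ≃ₐ[B] M}
    (hγ : GenOver u₀ (algebraMap ℂ B ζ) γ₀) {h : N ≃ₐ[E] N}
    (hh : ∀ (z : N) (z' : M), (z' : U) = j z → (γ₀ z' : U) = j (h z))
    (hph : p ∣ orderOf h) (hrk : Module.finrank E N * (4 * Module.finrank E N + 1) + 1 < n) :
    ∃ Q : Subgroup (N ≃ₐ[E] N), Q.Normal ∧ Q ≠ ⊥ ∧ IsPGroup p Q := by
  have := X.Cac
  let _ : Algebra X.F K := ι.toAlgebra
  let _ : Algebra X.C E := ((algebraMap K E).comp (algebraMap X.C K)).toAlgebra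
  let _ : Algebra K N := ((algebraMap E N).comp (algebraMap K E)).toAlgebra
  let _ : Algebra X.C N := ((algebraMap K N).comp (algebraMap X.C K)).toAlgebra
  have : IsScalarTower X.C K E := IsScalarTower.of_algebraMap_eq fun _ => rfl
  have : IsScalarTower K E N := IsScalarTower.of_algebraMap_eq fun _ => rfl
  have : IsScalarTower X.C E N := IsScalarTower.of_algebraMap_eq fun _ => rfl
  have : IsScalarTower X.C K N := IsScalarTower.of_algebraMap_eq fun _ => rfl
  have : Algebra.IsAlgebraic X.F K := ⟨fun k => by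
    obtain ⟨c, hc⟩ := hKC k
    let jK' : K →ₐ[X.F] U := { jK with commutes' := hι }
    have h1 : IsAlgebraic X.F (jK' k) := by
      change IsAlgebraic X.F (jK k)
      rw [← hc]
      exact (X.algF c).algebraMap
    exact (isAlgebraic_algHom_iff jK' jK.injective).1 h1⟩
  let j' : N →ₐ[X.C] U := { j with commutes' := fun c => (hjK _).trans (hjC c) }
  let J : Emb X K E N :=
    { j := j'
      jF := fun z => (hjK _).trans (hι z)
      x := x
      y := y
      jx := jx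
      jy := jy
      gen := gen }
  have hK' : ∀ k, j' (algebraMap K N k) = jK k := hjK
  have hv : J.vE.comap (algebraMap K E) = X.v.comap jK :=
    Valuation.ext fun k => congrArg X.v (hjK k)
  obtain ⟨γ, hγ'⟩ := exists_res_aut j' φ hφN
  have hi : Function.Injective j' := j.injective
  have hpow : ∀ (m : ℕ) z, j' ((γ ^ m) z) = (φ ^ m) (j' z) := by
    intro m
    induction m with
    | zero => intro z; rfl
    | succ m ih =>
      intro z
      rw [pow_succ', pow_succ', AlgEquiv.mul_apply, AlgEquiv.mul_apply, hγ', ih]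
  refine hcore n X.R X.C K E N
    (J.coreData hp (hv ▸ cpl) (fun i k => ?_) γ (fun z => hi ?_) ?_ ?_
      (fun k => ?_) ?_ V (hv ▸ fine) (fun k k' hk => hV k k' ?_) Y M hU hNM i₀ hn hζ hu hγ
      hh hph) hrk
  · have e : J.jK k = jK k := hjK k
    rw [e]; exact hvd i k
  · rw [hγ', hK', hK']
    exact (congrArg φ (hι z)).trans ((hF z).trans ((X.gσ z).trans (hι _).symm))
  · exact (hγ' _).trans ((congrArg φ jx).trans hx)
  · exact (hγ' _).trans ((congrArg φ jy).trans hy)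
  · obtain ⟨k', hk'⟩ := hφK k
    exact ⟨k', hi (by rw [hγ', hK', hK', hk'])⟩
  · obtain ⟨r, hr0, hr1⟩ := hfin
    refine isOfFinOrder_iff_pow_eq_one.2 ⟨r, hr0, AlgEquiv.ext fun z => hi ?_⟩
    exact (hpow r z).trans (hr1 z)
  · rw [← hK', ← hK', ← hk, hγ']

/-- **the geometric claim** -/
theorem geoStmt {p : ℕ} (hp : p.Prime) : Ds.GeoStmt p := by
  intro hcore n _ U _ _ _ X M _ _ hU K hFK hKC cpl hvd N _ _ hNM φ hφ hφK hφN hfin V fine hV
    i₀ n₀ ζ u γ₀ g₀ hn hζ hu hγ hh hpg hrk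
  let Y : Up X (Ds.B X) :=
    { x := Ds.xB X
      y := Ds.yB X
      hx := rfl
      hy := rfl
      gen := adjoin_gen_top _ _ }
  have hr : ∀ z, z ∈ (algebraMap N U).fieldRange ↔ z ∈ N := fun z =>
    ⟨fun ⟨t, ht⟩ => ht ▸ t.2, fun hz => ⟨⟨z, hz⟩, rfl⟩⟩
  obtain ⟨r, hr0, hr1⟩ := hfin
  exact geo_abs hp hcore X Y M hU K (IntermediateField.adjoin K {X.x, X.y}) N (algebraMap N U)
    (algebraMap K U) (fun _ => rfl) (fun _ => rfl) ((algebraMap X.F U).codRestrict K hFK)
    (fun _ => rfl) (fun k => hKC k k.2)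
    ⟨X.x, IntermediateField.subset_adjoin K _ (Set.mem_insert _ _)⟩
    ⟨X.y, IntermediateField.subset_adjoin K _ (Set.mem_insert_of_mem _ rfl)⟩ rfl rfl
    (adjoin_gen_top _ _) cpl (fun i k => hvd i k k.2) (fun z => hNM z z.2) φ
    (fun z => by simpa using hφ.F z) (by simpa using hφ.x) (by simpa using hφ.y)
    (fun k => ⟨⟨φ k, (hφK k).1 k.2⟩, rfl⟩) (fun z => by rw [hr, hr]; exact hφN z)
    ⟨r, hr0, fun z => hr1 z z.2⟩ V fine hV i₀ hn hζ hu hγ hh hpg hrk

end Crest.Agent.T170.Desc74
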