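import Mathlib

/-!
# Row 170, module E (helper64), part A: complete discrete valuation rings

* `isLocalRing_of_finite` : a domain finite over a complete Noetherian local ring is local;
* `isAdicComplete_of_finite` : and it is complete;
* `isDVR_integralClosure`, `isAdicComplete_integralClosure` : the integral closure of a complete
  DVR in a finite separable extension is a complete DVR;
* `eq_of_dvr` : a valuation subring containing a DVR with the same fraction field is this DVR or
  everything;
* `exists_ext`, `ext_unique` : the same for valuation subrings of fields;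
* `Derivation` extension along formally étale maps: `derExt`, `derExt_algebraMap`, `der_ext`.
-/

set_option autoImplicit false

namespace Crest.Agent.T170.Base

open IsLocalRing

section Precomplete

variable {A : Type*} [CommRing A] (I : Ideal A) {M : Type*} [AddCommGroup M] [Module A M]
  {N : Type*} [AddCommGroup N] [Module A N]

theorem isPrecomplete_of_surjective (f : M →ₗ[A] N) (hf : Function.Surjective f)
    [hM : IsPrecomplete I M] : IsPrecomplete I N := by
  refine ⟨fun y hy => ?_⟩
  have h1 : ∀ n, ∃ z : M, z ∈ (I ^ n • ⊤ : Submodule A M) ∧ f z = y (n + 1) - y n := by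
    intro n
    have h2 : y (n + 1) - y n ∈ (I ^ n • ⊤ : Submodule A N) := by
      have h3 := (hy (Nat.le_succ n)).symm
      rwa [SModEq.sub_mem] at h3
    have h4 : (I ^ n • ⊤ : Submodule A N) = (I ^ n • ⊤ : Submodule A M).map f := by
      rw [Submodule.map_smul'', Submodule.map_top, LinearMap.range_eq_top.2 hf]
    rw [h4] at h2
    exact h2
  choose z hz hfz using h1
  obtain ⟨x0, hx0⟩ := hf (y 0)
  let x : ℕ → M := fun n => x0 + ∑ i ∈ Finset.range n, z i
  have hfx : ∀ n, f (x n) = y n := by
    intro n
    induction n with
    | zero => simp [x, hx0]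
    | succ n ih =>
      have : x (n + 1) = x n + z n := by
        simp only [x, Finset.sum_range_succ, add_assoc]
      rw [this, map_add, ih, hfz, add_sub_cancel]
  have hx : ∀ {m n : ℕ}, m ≤ n → x m ≡ x n [SMOD (I ^ m • ⊤ : Submodule A M)] := by
    intro m n hmn
    induction n, hmn using Nat.le_induction with
    | base => exact SModEq.rfl
    | succ n hmn ih =>
      refine ih.trans ?_
      rw [SModEq.comm, SModEq.sub_mem]
      have : x (n + 1) - x n = z n := by
        simp only [x, Finset.sum_range_succ]; abel
      rw [this]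
      exact Submodule.smul_mono_left (Ideal.pow_le_pow_right hmn) (hz n)
  obtain ⟨L, hL⟩ := hM.prec' x hx
  refine ⟨f L, fun n => ?_⟩
  have h5 := hL n
  rw [SModEq.sub_mem] at h5 ⊢
  rw [← hfx, ← map_sub]
  have h4 : (I ^ n • ⊤ : Submodule A M).map f ≤ (I ^ n • ⊤ : Submodule A N) := by
    rw [Submodule.map_smul'']
    exact Submodule.smul_mono le_rfl le_top
  exact h4 (Submodule.mem_map_of_mem h5)

theorem mem_smul_top_pi {n : ℕ} (J : Ideal A) (x : Fin n → A) :
    x ∈ (J • ⊤ : Submodule A (Fin n → A)) ↔ ∀ i, x i ∈ J := by
  constructor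
  · intro h i
    refine Submodule.smul_induction_on h (fun r hr y _ => ?_) (fun y z hy hz => ?_)
    · exact J.mul_mem_right _ hr
    · exact J.add_mem hy hz
  · intro h
    rw [pi_eq_sum_univ' x]
    exact Submodule.sum_mem _ fun i _ => Submodule.smul_mem_smul (h i) trivial

theorem isPrecomplete_pi [hI : IsPrecomplete I A] (n : ℕ) : IsPrecomplete I (Fin n → A) := by
  refine ⟨fun f hf => ?_⟩
  have h1 : ∀ i, ∃ L : A, ∀ m, f m i ≡ L [SMOD (I ^ m • ⊤ : Submodule A A)] := by
    intro i
    refine hI.prec' (fun m => f m i) fun {m k} hmk => ?_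
    have h2 := hf hmk
    rw [SModEq.sub_mem] at h2 ⊢
    rw [mem_smul_top_pi] at h2
    have h3 := h2 i
    rw [smul_eq_mul, Ideal.mul_top]
    exact h3
  choose L hL using h1
  refine ⟨L, fun m => ?_⟩
  rw [SModEq.sub_mem, mem_smul_top_pi]
  intro i
  have h2 := hL i m
  rw [SModEq.sub_mem, smul_eq_mul, Ideal.mul_top] at h2
  exact h2

theorem isPrecomplete_of_finite [IsPrecomplete I A] [Module.Finite A M] : IsPrecomplete I M := by
  obtain ⟨n, g, hg⟩ := Module.Finite.exists_fin' A M
  have := isPrecomplete_pi (I := I) (A := A) n
  exact isPrecomplete_of_surjective I g hg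

/-- Change of the ideal: `J ^ c ≤ K ≤ J`. -/
theorem isPrecomplete_of_pow_le {B : Type*} [CommRing B] {J K : Ideal B} (hKJ : K ≤ J) {c : ℕ}
    (hc : J ^ c ≤ K) [hK : IsPrecomplete K B] : IsPrecomplete J B := by
  refine ⟨fun y hy => ?_⟩
  obtain ⟨L, hL⟩ := hK.prec' (fun n => y (c * n)) (fun {m n} hmn => by
    have h1 := hy (Nat.mul_le_mul_left c hmn)
    rw [SModEq.sub_mem] at h1 ⊢
    rw [smul_eq_mul, Ideal.mul_top] at h1 ⊢
    have h2 : J ^ (c * m) ≤ K ^ m := by
      rw [pow_mul]; exact Ideal.pow_right_mono hc m
    exact h2 h1)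
  refine ⟨L, fun n => ?_⟩
  have h1 := hL n
  rcases Nat.eq_zero_or_pos c with rfl | hcpos
  · have h2 : J ^ n = ⊤ := by
      have : J = ⊤ := by
        rw [pow_zero, Ideal.one_eq_top, top_le_iff] at hc
        exact top_le_iff.1 (hc ▸ hKJ)
      rw [this, Ideal.top_pow]
    rw [SModEq.sub_mem, h2, smul_eq_mul, Ideal.mul_top]
    exact trivial
  · have h3 := hy (Nat.le_mul_of_pos_left n hcpos)
    refine h3.trans ?_
    rw [SModEq.sub_mem] at h1 ⊢
    rw [smul_eq_mul, Ideal.mul_top] at h1 ⊢
    exact Ideal.pow_right_mono hKJ n h1

end Precomplete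

section Finite

variable (A : Type*) [CommRing A] [IsLocalRing A] [IsNoetherianRing A]
  (B : Type*) [CommRing B] [Algebra A B] [Module.Finite A B]

omit [IsNoetherianRing A] in
theorem map_maximalIdeal_le_jacobson :
    (maximalIdeal A).map (algebraMap A B) ≤ Ideal.jacobson (⊥ : Ideal B) := by
  refine le_sInf fun M hM => ?_
  have hmax : M.IsMaximal := hM.2
  have h1 : (M.comap (algebraMap A B)).IsMaximal :=
    Ideal.isMaximal_comap_of_isIntegral_of_isMaximal M
  rw [Ideal.map_le_iff_le_comap, eq_maximalIdeal h1]

/-- A finite algebra over a complete Noetherian local ring is complete. -/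
theorem isAdicComplete_map [IsPrecomplete (maximalIdeal A) A] :
    IsAdicComplete ((maximalIdeal A).map (algebraMap A B)) B := by
  have hNB : IsNoetherianRing B := IsNoetherianRing.of_finite A B
  have h1 : IsPrecomplete (maximalIdeal A) B := isPrecomplete_of_finite _
  have h2 : IsPrecomplete ((maximalIdeal A).map (algebraMap A B)) B :=
    (IsPrecomplete.map_algebraMap_iff (R := A) (S := B) (M := B)).2 h1
  have h3 : IsHausdorff ((maximalIdeal A).map (algebraMap A B)) B :=
    IsHausdorff.of_le_jacobson _ _ (map_maximalIdeal_le_jacobson A B)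
  exact { }

/-- A domain which is finite over a complete Noetherian local ring is local. -/
theorem isLocalRing_of_finite [IsPrecomplete (maximalIdeal A) A] [IsDomain B] : IsLocalRing B := by
  set J : Ideal B := (maximalIdeal A).map (algebraMap A B) with hJ
  have hc : IsAdicComplete J B := isAdicComplete_map A B
  have hjac : J ≤ Ideal.jacobson ⊥ := map_maximalIdeal_le_jacobson A B
  have hunit : ∀ j ∈ J, IsUnit (1 - j) := fun j hj => by
    have h := Ideal.mem_jacobson_bot.1 (hjac hj) (-1)
    have e : j * -1 + 1 = 1 - j := by ring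
    rwa [e] at h
  -- the fibre is Artinian
  have hart : IsArtinianRing (B ⧸ J) := by
    let : Algebra (A ⧸ maximalIdeal A) (B ⧸ J) := Ideal.Quotient.algebraQuotientMapQuotient
    let : Field (A ⧸ maximalIdeal A) := Ideal.Quotient.field _
    have : Module.Finite (A ⧸ maximalIdeal A) (B ⧸ J) := by
      have : IsScalarTower A (A ⧸ maximalIdeal A) (B ⧸ J) := IsScalarTower.of_algebraMap_eq' rfl
      exact Module.Finite.of_restrictScalars_finite A _ _
    exact IsArtinianRing.of_finite (A ⧸ maximalIdeal A) (B ⧸ J)
  refine IsLocalRing.of_isUnit_or_isUnit_one_sub_self fun b => ?_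
  obtain ⟨n, y, hy⟩ := IsArtinian.exists_pow_succ_smul_dvd (Ideal.Quotient.mk J b) (1 : B ⧸ J)
  obtain ⟨c, rfl⟩ := Ideal.Quotient.mk_surjective y
  simp only [smul_eq_mul, mul_one, Nat.succ_eq_add_one] at hy
  set β := Ideal.Quotient.mk J b with hβ
  set γ := Ideal.Quotient.mk J c with hγ
  have hk : ∀ k : ℕ, β ^ n * (β * γ) ^ k = β ^ n := by
    intro k
    induction k with
    | zero => simp
    | succ k ih =>
      calc β ^ n * (β * γ) ^ (k + 1) = (β ^ (n + 1) * γ) * (β * γ) ^ k := by ring
        _ = β ^ n := by rw [hy, ih]
  -- the idempotent `(b c) ^ n`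
  have hid : ((b * c) ^ n) ^ 2 - (b * c) ^ n ∈ J := by
    rw [← Ideal.Quotient.eq_zero_iff_mem]
    simp only [map_sub, map_pow, map_mul, ← hβ, ← hγ]
    calc ((β * γ) ^ n) ^ 2 - (β * γ) ^ n = (β ^ n * (β * γ) ^ n) * γ ^ n - (β * γ) ^ n := by ring
      _ = 0 := by rw [hk]; ring
  obtain ⟨e, he, heJ⟩ := HenselianRing.is_henselian (I := J)
    (Polynomial.X ^ 2 - Polynomial.X : Polynomial B) (by monicity!) ((b * c) ^ n)
    (by simpa using hid) (by
      have h2 : (Ideal.Quotient.mk J (2 * (b * c) ^ n - 1)) ^ 2 = 1 := by
        have h3 : Ideal.Quotient.mk J (((b * c) ^ n) ^ 2 - (b * c) ^ n) = 0 :=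
          Ideal.Quotient.eq_zero_iff_mem.2 hid
        have h4 : (2 * (b * c) ^ n - 1) ^ 2 = 4 * (((b * c) ^ n) ^ 2 - (b * c) ^ n) + 1 := by ring
        rw [← map_pow, h4, map_add, map_mul, h3, mul_zero, zero_add, map_one]
      have h5 : Polynomial.eval ((b * c) ^ n)
          (Polynomial.derivative (Polynomial.X ^ 2 - Polynomial.X : Polynomial B)) =
          2 * (b * c) ^ n - 1 := by
        simp only [Polynomial.derivative_sub, Polynomial.derivative_X_pow, Polynomial.derivative_X,
          Polynomial.eval_sub, Polynomial.eval_mul, Polynomial.eval_C, Polynomial.eval_pow,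
          Polynomial.eval_X, Polynomial.eval_one]
        norm_num
      rw [h5]
      exact IsUnit.of_pow_eq_one h2 two_ne_zero)
  have he' : e * (e - 1) = 0 := by
    have := he
    simp only [Polynomial.IsRoot.def, Polynomial.eval_sub, Polynomial.eval_pow,
      Polynomial.eval_X] at this
    linear_combination this
  rcases mul_eq_zero.1 he' with h0 | h1
  · right
    have hbc : (b * c) ^ n ∈ J := by
      have := J.neg_mem heJ
      simpa [h0] using this
    have hbn : b ^ n ∈ J := by
      rw [← Ideal.Quotient.eq_zero_iff_mem, map_pow, ← hβ, ← hk n]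
      have : (β * γ) ^ n = 0 := by
        rw [hβ, hγ, ← map_mul, ← map_pow]
        exact Ideal.Quotient.eq_zero_iff_mem.2 hbc
      rw [this, mul_zero]
    have hu := hunit _ hbn
    have hd : (1 - b) ∣ 1 - b ^ n := by
      simpa using sub_dvd_pow_sub_pow (1 : B) b n
    exact isUnit_of_dvd_unit hd hu
  · have he1 : e = 1 := sub_eq_zero.1 h1
    have hu := hunit _ heJ
    rw [he1, sub_sub_cancel] at hu
    rcases Nat.eq_zero_or_pos n with rfl | hn
    · left
      have h6 : β * γ = 1 := by simpa using hy
      have h7 : 1 - b * c ∈ J := by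
        rw [← Ideal.Quotient.eq_zero_iff_mem, map_sub, map_mul, ← hβ, ← hγ, h6, map_one, sub_self]
      have h8 := hunit _ h7
      rw [sub_sub_cancel] at h8
      exact isUnit_of_mul_isUnit_left h8
    · left
      exact isUnit_of_mul_isUnit_left ((isUnit_pow_iff hn.ne').1 hu)

/-- A local ring which is finite over a complete Noetherian local ring is complete. -/
theorem isAdicComplete_of_finite [IsPrecomplete (maximalIdeal A) A] [IsLocalRing B] :
    IsAdicComplete (maximalIdeal B) B := by
  have hNB : IsNoetherianRing B := IsNoetherianRing.of_finite A B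
  have hle : (maximalIdeal A).map (algebraMap A B) ≤ maximalIdeal B := by
    have := map_maximalIdeal_le_jacobson A B
    rwa [jacobson_eq_maximalIdeal ⊥ bot_ne_top] at this
  have hart : ∃ c, maximalIdeal B ^ c ≤ (maximalIdeal A).map (algebraMap A B) := by
    have hrad : maximalIdeal B ≤ ((maximalIdeal A).map (algebraMap A B)).radical := by
      rw [Ideal.radical_eq_sInf]
      refine le_sInf fun P hP => ?_
      obtain ⟨hP1, hP2⟩ := hP
      have h1 : maximalIdeal A ≤ P.comap (algebraMap A B) := Ideal.map_le_iff_le_comap.1 hP1
      have h2 : P.comap (algebraMap A B) = maximalIdeal A :=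
        ((maximalIdeal.isMaximal A).eq_of_le (Ideal.IsPrime.comap (algebraMap A B)).ne_top h1).symm
      have h3 : (P.comap (algebraMap A B)).IsMaximal := h2 ▸ maximalIdeal.isMaximal A
      have h4 : P.IsMaximal := Ideal.isMaximal_of_isIntegral_of_isMaximal_comap P h3
      exact (eq_maximalIdeal h4).ge
    exact Ideal.exists_pow_le_of_le_radical_of_fg hrad (IsNoetherian.noetherian _)
  obtain ⟨c, hc⟩ := hart
  have h2 := isAdicComplete_map A B
  have h3 : IsPrecomplete (maximalIdeal B) B := isPrecomplete_of_pow_le hle hc
  exact { }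

end Finite

section IntegralClosure

variable (A : Type*) [CommRing A] [IsDomain A] [IsDiscreteValuationRing A]
  [IsPrecomplete (maximalIdeal A) A]
  (K : Type*) [Field K] [Algebra A K] [IsFractionRing A K]
  (L : Type*) [Field L] [Algebra K L] [Algebra A L] [IsScalarTower A K L]
  [FiniteDimensional K L] [Algebra.IsSeparable K L]
  (B : Type*) [CommRing B] [IsDomain B] [Algebra B L] [Algebra A B] [IsScalarTower A B L]
  [IsIntegralClosure B A L]

include A K L in
/-- The integral closure of a complete DVR in a finite separable extension is a DVR. -/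
theorem isDVR_integralClosure : IsDiscreteValuationRing B := by
  have : Module.Finite A B := IsIntegralClosure.finite A K L B
  have : IsDedekindDomain B := IsIntegralClosure.isDedekindDomain A K L B
  have : IsLocalRing B := isLocalRing_of_finite A B
  have hinj : Function.Injective (algebraMap A B) := by
    have h1 : Function.Injective (algebraMap A L) := by
      rw [IsScalarTower.algebraMap_eq A K L]
      exact (algebraMap K L).injective.comp (IsFractionRing.injective A K)
    rw [IsScalarTower.algebraMap_eq A B L] at h1
    exact Function.Injective.of_comp h1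
  have hnf : ¬ IsField B := fun h =>
    IsDiscreteValuationRing.not_isField A
      ((Algebra.IsIntegral.isField_iff_isField hinj).2 h)
  exact ((IsDiscreteValuationRing.TFAE B hnf).out 0 2).2 ‹IsDedekindDomain B›

omit [IsDomain B] in
include A K L in
theorem isAdicComplete_integralClosure [IsLocalRing B] : IsAdicComplete (maximalIdeal B) B := by
  have : Module.Finite A B := IsIntegralClosure.finite A K L B
  exact isAdicComplete_of_finite A B

end IntegralClosure

section ExtVS


variable (A : Type*) [CommRing A] [IsDomain A] [IsDiscreteValuationRing A]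
  [IsPrecomplete (maximalIdeal A) A]
  (K : Type*) [Field K] [Algebra A K] [IsFractionRing A K]
  (L : Type*) [Field L] [Algebra K L] [Algebra A L] [IsScalarTower A K L]
  [FiniteDimensional K L] [Algebra.IsSeparable K L]

/-- The valuation ring of a finite separable extension `L` of the fraction field `K` of a complete
DVR `A`: the integral closure of `A`. -/
noncomputable def extVS : ValuationSubring L :=
  ValuationSubring.ofSubring (integralClosure A L).toSubring fun x => by
    have : IsDiscreteValuationRing (integralClosure A L) := isDVR_integralClosure A K L _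
    have : IsFractionRing (integralClosure A L) L :=
      IsIntegralClosure.isFractionRing_of_finite_extension A K L _
    rcases ValuationRing.isInteger_or_isInteger (integralClosure A L) x with ⟨y, hy⟩ | ⟨y, hy⟩
    · left; rw [← hy]; exact y.2
    · right; rw [← hy]; exact y.2

variable {L} in
theorem mem_extVS {z : L} : z ∈ extVS A K L ↔ IsIntegral A z := Iff.rfl

theorem algebraMap_mem_extVS (a : A) : algebraMap A L a ∈ extVS A K L :=
  (mem_extVS A K).2 isIntegral_algebraMap

noncomputable instance : Algebra A (extVS A K L) :=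
  ((algebraMap A L).codRestrict (extVS A K L) (algebraMap_mem_extVS A K L)).toAlgebra

instance : IsScalarTower A (extVS A K L) L := IsScalarTower.of_algebraMap_eq' rfl

instance : IsIntegralClosure (extVS A K L) A L where
  algebraMap_injective := Subtype.val_injective
  isIntegral_iff := ⟨fun h => ⟨⟨_, h⟩, rfl⟩, fun ⟨y, hy⟩ => hy ▸ y.2⟩

instance : IsDiscreteValuationRing (extVS A K L) := isDVR_integralClosure A K L _

instance : IsAdicComplete (maximalIdeal (extVS A K L)) (extVS A K L) :=
  isAdicComplete_integralClosure A K L _

instance : Module.Finite A (extVS A K L) := IsIntegralClosure.finite A K L _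





instance : IsLocalHom (algebraMap A (extVS A K L)) := by
  have h1 : ((maximalIdeal (extVS A K L)).comap (algebraMap A (extVS A K L))).IsMaximal :=
    Ideal.isMaximal_comap_of_isIntegral_of_isMaximal (maximalIdeal _)
  exact ((IsLocalRing.local_hom_TFAE (algebraMap A (extVS A K L))).out 0 4).2 (eq_maximalIdeal h1)


end ExtVS

section Der

variable {R S M : Type*} [CommRing R] [CommRing S] [Algebra R S] [AddCommGroup M] [Module S M]

/-- An additive map with the Leibniz rule which kills `R` vanishes on a formally unramified
`R`-algebra. -/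
theorem leib_eq_zero [Algebra.FormallyUnramified R S] (E : S →+ M)
    (hE : ∀ x y, E (x * y) = x • E y + y • E x) (h0 : ∀ r : R, E (algebraMap R S r) = 0) (x : S) :
    E x = 0 := by
  let : Module R M := Module.compHom M (algebraMap R S)
  have : IsScalarTower R S M := ⟨fun r s m => by
    rw [Algebra.smul_def, mul_smul]; rfl⟩
  let E' : Derivation R S M :=
    { toFun := E
      map_add' := E.map_add
      map_smul' := fun r s => by
        rw [Algebra.smul_def, hE, h0, smul_zero, add_zero]; rfl
      map_one_eq_zero' := by
        have := h0 1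
        rwa [map_one] at this
      leibniz' := hE }
  have h1 : E'.liftKaehlerDifferential (KaehlerDifferential.D R S x) = E' x :=
    E'.liftKaehlerDifferential_comp_D x
  rw [Subsingleton.elim (KaehlerDifferential.D R S x) 0, map_zero] at h1
  exact h1.symm

variable (O : Type*) [CommRing O] [Algebra O R] [Algebra O S] [IsScalarTower O R S]
  [Module O M]

omit [Algebra O R] [IsScalarTower O R S] in
/-- Derivations of a formally unramified `R`-algebra are determined by their values on `R`. -/
theorem der_ext [Algebra.FormallyUnramified R S] {D₁ D₂ : Derivation O S M}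
    (h : ∀ r : R, D₁ (algebraMap R S r) = D₂ (algebraMap R S r)) : D₁ = D₂ := by
  ext x
  have := leib_eq_zero (R := R) (D₁ - D₂ : Derivation O S M).toLinearMap.toAddMonoidHom
    (fun x y => (D₁ - D₂).leibniz x y) (fun r => by simp [h r]) x
  simpa [sub_eq_zero] using this

variable [Module R M] [IsScalarTower R S M] [IsScalarTower O R M] [IsScalarTower O S M]

variable {O} (S) in
/-- The extension of a derivation along a formally étale map. -/
noncomputable def derExt [Algebra.FormallyEtale R S] (D : Derivation O R M) : Derivation O S M :=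
  ((D.liftKaehlerDifferential.liftBaseChange S) ∘ₗ
    (KaehlerDifferential.tensorKaehlerEquivOfFormallyEtale O R S).symm.toLinearMap).compDer
      (KaehlerDifferential.D O S)

variable {O} in
@[simp] theorem derExt_algebraMap [Algebra.FormallyEtale R S] (D : Derivation O R M) (r : R) :
    derExt S D (algebraMap R S r) = D r := by
  simp [derExt, KaehlerDifferential.tensorKaehlerEquivOfFormallyEtale_symm_D_algebraMap]

end Der

section DerSelf

variable {O R S : Type*} [CommRing O] [CommRing R] [CommRing S] [Algebra R S] [Algebra O R]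
  [Algebra O S] [IsScalarTower O R S]

variable (S) in
/-- The extension of a derivation `R → R` to a derivation `S → S` of a formally étale algebra. -/
noncomputable def derUp [Algebra.FormallyEtale R S] (D : Derivation O R R) : Derivation O S S :=
  derExt S ((Algebra.linearMap R S).compDer D)

@[simp] theorem derUp_algebraMap [Algebra.FormallyEtale R S] (D : Derivation O R R) (r : R) :
    derUp S D (algebraMap R S r) = algebraMap R S (D r) := by
  simp [derUp]

omit [IsScalarTower O R S] [Algebra O R] in
/-- Commutation of derivations can be checked on `R`. -/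
theorem der_comm [Algebra.FormallyUnramified R S] (D₁ D₂ : Derivation O S S)
    (h : ∀ r : R, D₁ (D₂ (algebraMap R S r)) = D₂ (D₁ (algebraMap R S r))) (x : S) :
    D₁ (D₂ x) = D₂ (D₁ x) := by
  have h1 : ⁅D₁, D₂⁆ = 0 := der_ext (R := R) O fun r => by
    simp [Derivation.commutator_apply, h r]
  have h2 := congrArg (fun E : Derivation O S S => E x) h1
  simpa [Derivation.commutator_apply, sub_eq_zero] using h2

omit [IsScalarTower O R S] [Algebra O R] in
/-- Intertwining of derivations by a ring homomorphism can be checked on `R`. -/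
theorem der_conj [Algebra.FormallyUnramified R S] {O' T : Type*} [CommRing O'] [CommRing T]
    [Algebra O' T] (τ : S →+* T) (D₁ : Derivation O S S) (D₂ : Derivation O' T T)
    (h : ∀ r : R, τ (D₁ (algebraMap R S r)) = D₂ (τ (algebraMap R S r))) (x : S) :
    τ (D₁ x) = D₂ (τ x) := by
  let : Module S T := Module.compHom T τ
  have hs : ∀ (s : S) (t : T), s • t = τ s * t := fun _ _ => rfl
  have := leib_eq_zero (R := R) (M := T)
    (τ.toAddMonoidHom.comp D₁.toLinearMap.toAddMonoidHom -
      D₂.toLinearMap.toAddMonoidHom.comp τ.toAddMonoidHom)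
    (fun x y => by simp [hs]; ring) (fun r => by simp [h r]) x
  simpa [sub_eq_zero] using this

theorem derUp_comm [Algebra.FormallyEtale R S] (D₁ D₂ : Derivation O R R)
    (h : ∀ r : R, D₁ (D₂ r) = D₂ (D₁ r)) (x : S) :
    derUp S D₁ (derUp S D₂ x) = derUp S D₂ (derUp S D₁ x) :=
  der_comm (R := R) _ _ (fun r => by simp [h r]) x

end DerSelf

end Crest.Agent.T170.Base
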