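import Mathlib
import Crest.Agent.T170.Fr_20
import Crest.Agent.T170.BaseA_64
import Crest.Agent.T170.GalVal_6

-- ▼ part T170/Base1_49
section

/-!
# Row 170, module E (helper49), part 1: the Gauss valuation on `C[s_i]` and on `C(s_i)`
-/

set_option autoImplicit false

namespace Crest.Agent.T170.Base

open scoped NNReal
open MvPolynomial

variable {C : Type*} [Field C] (v : Valuation C ℝ≥0) {ι : Type*}

/-- the Gauss norm -/
noncomputable def gn (f : MvPolynomial ι C) : ℝ≥0 := f.support.sup fun m => v (coeff m f)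

theorem le_gn (f : MvPolynomial ι C) (m : ι →₀ ℕ) : v (coeff m f) ≤ gn v f := by
  by_cases h : m ∈ f.support
  · exact Finset.le_sup (f := fun m => v (coeff m f)) h
  · rw [notMem_support_iff.1 h]; simp

theorem gn_le_iff {f : MvPolynomial ι C} {r : ℝ≥0} : gn v f ≤ r ↔ ∀ m, v (coeff m f) ≤ r :=
  ⟨fun h m => (le_gn v f m).trans h, fun h => Finset.sup_le fun m _ => h m⟩

theorem exists_gn (f : MvPolynomial ι C) : ∃ m, v (coeff m f) = gn v f := by
  rcases f.support.eq_empty_or_nonempty with h | h
  · refine ⟨0, ?_⟩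
    rw [support_eq_empty.1 h]; simp [gn]
  · obtain ⟨m, -, hm⟩ := Finset.exists_mem_eq_sup f.support h fun m => v (coeff m f)
    exact ⟨m, hm.symm⟩

theorem gn_lt_iff {f : MvPolynomial ι C} {r : ℝ≥0} : gn v f < r ↔ ∀ m, v (coeff m f) < r := by
  refine ⟨fun h m => (le_gn v f m).trans_lt h, fun h => ?_⟩
  obtain ⟨m, hm⟩ := exists_gn v f
  exact hm ▸ h m

@[simp] theorem gn_zero : gn v (0 : MvPolynomial ι C) = 0 := by simp [gn]

theorem gn_eq_zero {f : MvPolynomial ι C} (h : gn v f = 0) : f = 0 := by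
  ext m
  have := le_gn v f m
  rw [h] at this
  simpa using this

theorem gn_C_mul (c : C) (f : MvPolynomial ι C) : gn v (MvPolynomial.C c * f) = v c * gn v f := by
  apply le_antisymm
  · rw [gn_le_iff]
    intro m
    rw [coeff_C_mul, map_mul]
    exact mul_le_mul_right (le_gn v f m) _
  · obtain ⟨m, hm⟩ := exists_gn v f
    rw [← hm, ← map_mul, ← coeff_C_mul]
    exact le_gn v _ m

theorem gn_monomial (m : ι →₀ ℕ) (c : C) : gn v (monomial m c) = v c := by
  classical
  apply le_antisymm
  · rw [gn_le_iff]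
    intro m'
    rw [coeff_monomial]
    split_ifs <;> simp
  · simpa using le_gn v (monomial m c) m

theorem gn_C (c : C) : gn v (MvPolynomial.C c : MvPolynomial ι C) = v c := gn_monomial v 0 c

theorem gn_X (i : ι) : gn v (X i : MvPolynomial ι C) = 1 := by
  rw [X, gn_monomial, map_one]

theorem gn_add (f g : MvPolynomial ι C) : gn v (f + g) ≤ max (gn v f) (gn v g) := by
  rw [gn_le_iff]
  intro m
  rw [coeff_add]
  exact (v.map_add _ _).trans (max_le_max (le_gn v f m) (le_gn v g m))

/-- the polynomial with integral coefficients, seen over `C` -/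
noncomputable abbrev up (f : MvPolynomial ι v.valuationSubring) : MvPolynomial ι C :=
  MvPolynomial.map v.valuationSubring.subtype f

/-- the reduction -/
noncomputable abbrev rd (f : MvPolynomial ι v.valuationSubring) :
    MvPolynomial ι (IsLocalRing.ResidueField v.valuationSubring) :=
  MvPolynomial.map (IsLocalRing.residue v.valuationSubring) f

theorem residue_eq_zero_iff' (c : v.valuationSubring) :
    IsLocalRing.residue v.valuationSubring c = 0 ↔ v (c : C) < 1 := by
  rw [IsLocalRing.residue_eq_zero_iff, Valuation.mem_maximalIdeal_iff]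

theorem gn_up_le (f : MvPolynomial ι v.valuationSubring) : gn v (up v f) ≤ 1 := by
  rw [gn_le_iff]
  intro m
  rw [coeff_map]
  exact (coeff m f).2

theorem gn_up_lt (f : MvPolynomial ι v.valuationSubring) : gn v (up v f) < 1 ↔ rd v f = 0 := by
  rw [gn_lt_iff, MvPolynomial.ext_iff]
  refine forall_congr' fun m => ?_
  rw [coeff_map, coeff_map, coeff_zero, residue_eq_zero_iff']
  rfl

theorem gn_up_eq_one {f : MvPolynomial ι v.valuationSubring} : gn v (up v f) = 1 ↔ rd v f ≠ 0 := by
  rw [Ne, ← gn_up_lt, not_lt]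
  exact ⟨fun h => h.ge, fun h => le_antisymm (gn_up_le v f) h⟩

theorem exists_up {f : MvPolynomial ι C} (h : gn v f ≤ 1) : ∃ g, up v g = f := by
  classical
  refine ⟨∑ m ∈ f.support, monomial m ⟨coeff m f, (le_gn v f m).trans h⟩, ?_⟩
  rw [up, map_sum]
  conv_rhs => rw [f.as_sum]
  refine Finset.sum_congr rfl fun m _ => ?_
  rw [map_monomial]
  rfl

/-- normal form: a constant times a primitive polynomial -/
theorem exists_prim {f : MvPolynomial ι C} (hf : f ≠ 0) :
    ∃ (c : C) (g : MvPolynomial ι v.valuationSubring), c ≠ 0 ∧ rd v g ≠ 0 ∧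
      f = MvPolynomial.C c * up v g := by
  obtain ⟨m, hm⟩ := exists_gn v f
  have h0 : gn v f ≠ 0 := fun h => hf (gn_eq_zero v h)
  have hc : coeff m f ≠ 0 := fun h => h0 (by rw [← hm, h, map_zero])
  have h1 : gn v (MvPolynomial.C (coeff m f)⁻¹ * f) = 1 := by
    rw [gn_C_mul, map_inv₀, hm, inv_mul_cancel₀ h0]
  obtain ⟨g, hg⟩ := exists_up v h1.le
  refine ⟨coeff m f, g, hc, (gn_up_eq_one v).1 (hg ▸ h1), ?_⟩
  rw [hg, ← mul_assoc, ← map_mul, mul_inv_cancel₀ hc, map_one, one_mul]

theorem gn_mul (f g : MvPolynomial ι C) : gn v (f * g) = gn v f * gn v g := by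
  rcases eq_or_ne f 0 with rfl | hf
  · simp
  rcases eq_or_ne g 0 with rfl | hg
  · simp
  obtain ⟨c, f', -, hf', rfl⟩ := exists_prim v hf
  obtain ⟨d, g', -, hg', rfl⟩ := exists_prim v hg
  have h : rd v (f' * g') ≠ 0 := by rw [rd, map_mul]; exact mul_ne_zero hf' hg'
  have h2 : MvPolynomial.C c * up v f' * (MvPolynomial.C d * up v g') =
      MvPolynomial.C (c * d) * up v (f' * g') := by
    simp only [up, map_mul]; ring
  rw [h2, gn_C_mul, gn_C_mul, gn_C_mul, (gn_up_eq_one v).2 h, (gn_up_eq_one v).2 hf',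
    (gn_up_eq_one v).2 hg', map_mul]
  ring

variable (ι) in
/-- the Gauss valuation on the polynomial ring -/
noncomputable def gv : Valuation (MvPolynomial ι C) ℝ≥0 where
  toFun := gn v
  map_zero' := gn_zero v
  map_one' := by rw [← C_1, gn_C, map_one]
  map_mul' := gn_mul v
  map_add_le_max' := gn_add v

theorem gv_apply (f : MvPolynomial ι C) : gv v ι f = gn v f := rfl

theorem gn_rename (e : ι ≃ ι) (f : MvPolynomial ι C) : gn v (rename e f) = gn v f := by
  have key : ∀ (e : ι ≃ ι) (f : MvPolynomial ι C), gn v f ≤ gn v (rename e f) := by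
    intro e f
    rw [gn_le_iff]
    intro m
    rw [← coeff_rename_mapDomain e e.injective f m]
    exact le_gn v _ _
  refine le_antisymm ?_ (key e f)
  have := key e.symm (rename e f)
  rwa [rename_rename, e.symm_comp_self, rename_id, AlgHom.id_apply] at this

theorem gn_pderiv (i : ι) (f : MvPolynomial ι C) : gn v (pderiv i f) ≤ gn v f := by
  classical
  conv_lhs => rw [f.as_sum, map_sum]
  refine (gv v ι).map_sum_le fun m _ => ?_
  rw [pderiv_monomial, gv_apply, gn_monomial, map_mul]
  have h1 : v ((m i : ℕ) : C) ≤ 1 := by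
    induction m i with
    | zero => simp
    | succ j ih =>
      rw [Nat.cast_succ]
      exact (v.map_add _ _).trans (max_le ih (by simp))
  calc v (coeff m f) * v ((m i : ℕ) : C) ≤ gn v f * 1 := mul_le_mul' (le_gn v f m) h1
    _ = gn v f := mul_one _

theorem gn_X_sub_X {i j : ι} (h : i ≠ j) : gn v (X i - X j : MvPolynomial ι C) = 1 := by
  have h1 : (X i - X j : MvPolynomial ι C) = up v (X i - X j) := by simp
  rw [h1, gn_up_eq_one]
  simp only [rd, map_sub, map_X]
  exact sub_ne_zero.2 fun h' => h (X_injective h')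

section Frac

variable (K : Type*) [Field K] [Algebra (MvPolynomial ι C) K] [IsFractionRing (MvPolynomial ι C) K]

variable (ι) in
/-- the Gauss valuation on the field of rational functions -/
noncomputable def gK : Valuation K ℝ≥0 :=
  (gv v ι).extendToLocalization (S := nonZeroDivisors (MvPolynomial ι C)) (by
    intro f hf h
    exact nonZeroDivisors.ne_zero hf (gn_eq_zero v h)) K

theorem gK_algebraMap (f : MvPolynomial ι C) : gK v ι K (algebraMap _ K f) = gn v f :=
  Valuation.extendToLocalization_apply_map_apply _ _ _ f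

variable {K}

/-- normal form of a rational function -/
theorem exists_frac (z : K) :
    ∃ (c : C) (f g : MvPolynomial ι v.valuationSubring), rd v f ≠ 0 ∧ rd v g ≠ 0 ∧
      z = algebraMap _ K (MvPolynomial.C c * up v f) / algebraMap _ K (up v g) := by
  obtain ⟨f, g, hg, rfl⟩ := IsFractionRing.div_surjective (A := MvPolynomial ι C) z
  obtain ⟨d, g', hd, hg', rfl⟩ := exists_prim v (nonZeroDivisors.ne_zero hg)
  have hd' : algebraMap (MvPolynomial ι C) K (MvPolynomial.C d) ≠ 0 := by
    rw [Ne, IsFractionRing.to_map_eq_zero_iff, C_eq_zero]; exact hd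
  rcases eq_or_ne f 0 with rfl | hf
  · exact ⟨0, 1, 1, by simp, by simp, by simp⟩
  obtain ⟨c, f', -, hf', rfl⟩ := exists_prim v hf
  refine ⟨c / d, f', g', hf', hg', ?_⟩
  have h1 : (MvPolynomial.C c : MvPolynomial ι C) = MvPolynomial.C d * MvPolynomial.C (c / d) := by
    rw [← map_mul, mul_div_cancel₀ _ hd]
  rw [h1, mul_assoc, map_mul, map_mul _ (MvPolynomial.C d), mul_div_mul_left _ _ hd']

theorem gK_frac (c : C) {f g : MvPolynomial ι v.valuationSubring} (hf : rd v f ≠ 0)
    (hg : rd v g ≠ 0) :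
    gK v ι K (algebraMap _ K (MvPolynomial.C c * up v f) / algebraMap _ K (up v g)) = v c := by
  rw [map_div₀, gK_algebraMap, gK_algebraMap, gn_C_mul, (gn_up_eq_one v).2 hf,
    (gn_up_eq_one v).2 hg]
  simp

/-- integral rational functions -/
theorem exists_frac_of_le {z : K} (hz : gK v ι K z ≤ 1) :
    ∃ f g : MvPolynomial ι v.valuationSubring, rd v g ≠ 0 ∧
      z = algebraMap _ K (up v f) / algebraMap _ K (up v g) := by
  obtain ⟨c, f, g, hf, hg, rfl⟩ := exists_frac v (ι := ι) z
  rw [gK_frac v c hf hg] at hz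
  refine ⟨MvPolynomial.C ⟨c, hz⟩ * f, g, hg, ?_⟩
  simp [up]

end Frac

end Crest.Agent.T170.Base
end

-- ▼ part T170/BaseDef_49
section

/-!
# Row 170, module E (helper49): the base field before completion (definitions and joints)

* `PreBase`  : `Fr.Base` without completeness;
* `LexStmt`  : a rotation invariant valuation ring of `k(s₀, …, s_{n-1})` with residue field `k`;
* `CplStmt`  : completion of a `PreBase`;
-/

set_option autoImplicit false

namespace Crest.Agent.T170.Base

open scoped NNReal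

/-- `Fr.Base` without completeness -/
structure PreBase (p n : ℕ) [NeZero n] (C F : Type) [Field C] [Field F] [Algebra C F] where
  v : Valuation F ℝ≥0
  vp : v (p : F) < 1
  vgrp : ∀ z : F, ∃ c : C, v (algebraMap C F c) = v z
  s : Fin n → F
  vs : ∀ i, v (s i) ≤ 1
  vss : ∀ i j, i ≠ j → v (s i - s j) = 1
  σ : F ≃ₐ[C] F
  σn : σ ^ n = 1
  σs : ∀ i, σ (s i) = s (i + 1)
  vσ : ∀ z, v (σ z) = v z
  D : Fin n → Derivation C F F
  Ds : ∀ i j, D i (s j) = if i = j then 1 else 0
  vD : ∀ i z, v (D i z) ≤ v z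
  Dcomm : ∀ i j z, D i (D j z) = D j (D i z)
  σD : ∀ i z, σ (D i z) = D (i + 1) (σ z)
  V : ValuationSubring F
  fine : Fr.Fine (C := C) v V
  σV : ∀ z, σ z ∈ V ↔ z ∈ V

/-- a rotation invariant valuation ring of the rational function field with residue field `k` -/
def LexStmt (p : ℕ) : Prop :=
  ∀ (a : ℕ) [NeZero (p ^ a)] (k κ : Type) [Field k] [CharP k p] [Field κ]
    [Algebra (MvPolynomial (Fin (p ^ a)) k) κ] [IsFractionRing (MvPolynomial (Fin (p ^ a)) k) κ],
    ∃ W : ValuationSubring κ,
      (∀ c : k, algebraMap (MvPolynomial (Fin (p ^ a)) k) κ (MvPolynomial.C c) ∈ W) ∧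
      (∀ z ∈ W, ∃ c : k,
        W.valuation (z - algebraMap (MvPolynomial (Fin (p ^ a)) k) κ (MvPolynomial.C c)) < 1) ∧
      ∀ f g : MvPolynomial (Fin (p ^ a)) k,
        algebraMap _ κ (MvPolynomial.rename (· + 1) f) /
            algebraMap _ κ (MvPolynomial.rename (· + 1) g) ∈ W ↔
          algebraMap _ κ f / algebraMap _ κ g ∈ W

/-- completion of the base field -/
def CplStmt (p : ℕ) : Prop :=
  ∀ (n : ℕ) [NeZero n] (C K : Type) [Field C] [CharZero C] [Field K] [Algebra C K],
    PreBase p n C K → Cardinal.mk K ≤ Cardinal.continuum →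
    ∃ (F : Type) (_ : Field F) (_ : Algebra C F),
      Cardinal.mk F = Cardinal.continuum ∧ Nonempty (Fr.Base p n C F)

end Crest.Agent.T170.Base
end

-- ▼ part T170/Base2_49
section

/-!
# Row 170, module E (helper49), part 2: the refined valuation ring and `PreBase`
-/

set_option autoImplicit false
set_option linter.unusedSectionVars false

namespace Crest.Agent.T170.Base

open scoped NNReal
open MvPolynomial IsLocalRing

section Sp

variable {C : Type*} [Field C] (v : Valuation C ℝ≥0) (ι : Type*)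
  {K : Type*} [Field K] [Algebra (MvPolynomial ι C) K] [IsFractionRing (MvPolynomial ι C) K]
  {κ : Type*} [Field κ] [Algebra (MvPolynomial ι (ResidueField v.valuationSubring)) κ]
  [IsFractionRing (MvPolynomial ι (ResidueField v.valuationSubring)) κ]

/-- `a` is the residue of `z` -/
def Sp (z : K) (a : κ) : Prop :=
  ∃ f g : MvPolynomial ι v.valuationSubring, rd v g ≠ 0 ∧
    z = algebraMap _ K (up v f) / algebraMap _ K (up v g) ∧
    a = algebraMap _ κ (rd v f) / algebraMap _ κ (rd v g)

variable {v ι}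

theorem up_ne_zero {g : MvPolynomial ι v.valuationSubring} (hg : rd v g ≠ 0) :
    algebraMap _ K (up v g) ≠ 0 := by
  rw [Ne, IsFractionRing.to_map_eq_zero_iff]
  intro h
  have := (gn_up_eq_one v).2 hg
  rw [h, gn_zero] at this
  exact zero_ne_one this

theorem rd_ne_zero {g : MvPolynomial ι v.valuationSubring} (hg : rd v g ≠ 0) :
    algebraMap _ κ (rd v g) ≠ 0 := by
  rwa [Ne, IsFractionRing.to_map_eq_zero_iff]

theorem Sp.mul {z w : K} {a b : κ} (h : Sp v ι z a) (h' : Sp v ι w b) : Sp v ι (z * w) (a * b) := by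
  obtain ⟨f, g, hg, rfl, rfl⟩ := h
  obtain ⟨f', g', hg', rfl, rfl⟩ := h'
  refine ⟨f * f', g * g', by rw [rd, map_mul]; exact mul_ne_zero hg hg', ?_, ?_⟩
  · simp only [up, map_mul, div_mul_div_comm]
  · simp only [rd, map_mul, div_mul_div_comm]

theorem Sp.add {z w : K} {a b : κ} (h : Sp v ι z a) (h' : Sp v ι w b) : Sp v ι (z + w) (a + b) := by
  obtain ⟨f, g, hg, rfl, rfl⟩ := h
  obtain ⟨f', g', hg', rfl, rfl⟩ := h'
  refine ⟨f * g' + g * f', g * g', by rw [rd, map_mul]; exact mul_ne_zero hg hg', ?_, ?_⟩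
  · rw [div_add_div _ _ (up_ne_zero hg) (up_ne_zero hg')]
    simp only [up, map_mul, map_add]
  · rw [div_add_div _ _ (rd_ne_zero hg) (rd_ne_zero hg')]
    simp only [rd, map_mul, map_add]

omit [IsFractionRing (MvPolynomial ι C) K]
  [IsFractionRing (MvPolynomial ι (ResidueField v.valuationSubring)) κ] in
theorem sp_poly (f : MvPolynomial ι v.valuationSubring) :
    Sp v ι (algebraMap _ K (up v f)) (algebraMap _ κ (rd v f)) :=
  ⟨f, 1, by simp, by simp, by simp⟩

omit [IsFractionRing (MvPolynomial ι C) K]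
  [IsFractionRing (MvPolynomial ι (ResidueField v.valuationSubring)) κ] in
theorem Sp.neg {z : K} {a : κ} (h : Sp v ι z a) : Sp v ι (-z) (-a) := by
  obtain ⟨f, g, hg, rfl, rfl⟩ := h
  exact ⟨-f, g, hg, by simp [neg_div], by simp [neg_div]⟩

theorem Sp.le {z : K} {a : κ} (h : Sp v ι z a) : gK v ι K z ≤ 1 := by
  obtain ⟨f, g, hg, rfl, rfl⟩ := h
  rw [map_div₀, gK_algebraMap, gK_algebraMap, (gn_up_eq_one v).2 hg, div_one]
  exact gn_up_le v f

theorem Sp.eq_zero_iff {z : K} {a : κ} (h : Sp v ι z a) : a = 0 ↔ gK v ι K z < 1 := by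
  obtain ⟨f, g, hg, rfl, rfl⟩ := h
  rw [map_div₀, gK_algebraMap, gK_algebraMap, (gn_up_eq_one v).2 hg, div_one, gn_up_lt,
    div_eq_zero_iff, or_iff_left (rd_ne_zero hg), IsFractionRing.to_map_eq_zero_iff]

theorem Sp.unique {z : K} {a b : κ} (h : Sp v ι z a) (h' : Sp v ι z b) : a = b := by
  have h1 := h.add h'.neg
  rw [add_neg_cancel] at h1
  have := h1.eq_zero_iff.2 (by simp)
  rwa [add_neg_eq_zero] at this

theorem Sp.inv {z : K} {a : κ} (h : Sp v ι z a) (ha : a ≠ 0) : Sp v ι z⁻¹ a⁻¹ := by
  obtain ⟨f, g, hg, rfl, rfl⟩ := h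
  refine ⟨g, f, fun h => ha (by rw [h]; simp), by rw [inv_div], by rw [inv_div]⟩

omit [IsFractionRing (MvPolynomial ι (ResidueField v.valuationSubring)) κ] in
variable (κ) in
theorem exists_sp {z : K} (hz : gK v ι K z ≤ 1) : ∃ a : κ, Sp v ι z a := by
  obtain ⟨f, g, hg, rfl⟩ := exists_frac_of_le v hz
  exact ⟨_, f, g, hg, rfl, rfl⟩

variable (v ι K) in
/-- the composite valuation ring -/
def compVS (W : ValuationSubring κ) : ValuationSubring K where
  carrier := {z | ∃ a ∈ W, Sp v ι z a}
  mul_mem' := by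
    rintro z w ⟨a, ha, h⟩ ⟨b, hb, h'⟩
    exact ⟨a * b, mul_mem ha hb, h.mul h'⟩
  one_mem' := ⟨1, one_mem _, by simpa using sp_poly (K := K) (κ := κ) (v := v) (ι := ι) 1⟩
  add_mem' := by
    rintro z w ⟨a, ha, h⟩ ⟨b, hb, h'⟩
    exact ⟨a + b, add_mem ha hb, h.add h'⟩
  zero_mem' := ⟨0, zero_mem _, by simpa using sp_poly (K := K) (κ := κ) (v := v) (ι := ι) 0⟩
  neg_mem' := by
    rintro z ⟨a, ha, h⟩
    exact ⟨-a, neg_mem ha, h.neg⟩
  mem_or_inv_mem' := by
    intro z
    rcases le_or_gt (gK v ι K z) 1 with hz | hz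
    · obtain ⟨a, ha⟩ := exists_sp κ hz
      by_cases h : a ∈ W
      · exact Or.inl ⟨a, h, ha⟩
      · refine Or.inr ⟨a⁻¹, (W.mem_or_inv_mem a).resolve_left h, ha.inv ?_⟩
        rintro rfl
        exact h (zero_mem _)
    · have h1 : gK v ι K z⁻¹ < 1 := by
        rw [map_inv₀]; exact inv_lt_one_of_one_lt₀ hz
      obtain ⟨a, ha⟩ := exists_sp κ h1.le
      refine Or.inr ⟨a, ?_, ha⟩
      rw [ha.eq_zero_iff.2 h1]
      exact zero_mem _


theorem compVS_lt {W : ValuationSubring κ} {z : K} {a : κ} (h : Sp v ι z a)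
    (ha : W.valuation a < 1) : (compVS v ι K W).valuation z < 1 := by
  by_contra hz
  rw [not_lt] at hz
  have hz0 : z ≠ 0 := by
    rintro rfl
    simp at hz
  have h1 : z⁻¹ ∈ compVS v ι K W := by
    rw [← ValuationSubring.valuation_le_one_iff, map_inv₀]
    exact inv_le_one_of_one_le₀ hz
  obtain ⟨b, hb, h'⟩ := h1
  have h2 := h.mul h'
  rw [mul_inv_cancel₀ hz0] at h2
  have h3 : a * b = 1 := h2.unique (by simpa using sp_poly (K := K) (κ := κ) (v := v) (ι := ι) 1)
  have h4 : W.valuation (a * b) < 1 := by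
    rw [map_mul]
    exact mul_lt_one_of_lt_of_le ha ((W.valuation_le_one_iff b).2 hb)
  rw [h3, map_one] at h4
  exact lt_irrefl _ h4

end Sp

section Rot

variable {C : Type*} [Field C] {ι : Type*}
  (K : Type*) [Field K] [Algebra (MvPolynomial ι C) K] [IsFractionRing (MvPolynomial ι C) K]
  [Algebra C K] [IsScalarTower C (MvPolynomial ι C) K]

/-- permutation of the variables -/
noncomputable def perm (e : ι ≃ ι) : K ≃ₐ[C] K :=
  IsFractionRing.algEquivOfAlgEquiv (renameEquiv C e)

theorem perm_algebraMap (e : ι ≃ ι) (f : MvPolynomial ι C) :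
    perm (C := C) K e (algebraMap _ K f) = algebraMap _ K (rename e f) :=
  IsFractionRing.algEquivOfAlgEquiv_algebraMap _ f

/-- the partial derivatives -/
noncomputable def pd (i : ι) : Derivation C K K :=
  haveI : Algebra.FormallyEtale (MvPolynomial ι C) K :=
    Algebra.FormallyEtale.of_isLocalization (nonZeroDivisors _)
  derUp K (pderiv i)

theorem pd_algebraMap (i : ι) (f : MvPolynomial ι C) :
    pd (C := C) K i (algebraMap _ K f) = algebraMap _ K (pderiv i f) :=
  haveI : Algebra.FormallyEtale (MvPolynomial ι C) K :=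
    Algebra.FormallyEtale.of_isLocalization (nonZeroDivisors _)
  derUp_algebraMap _ f

theorem pderiv_comm' (i j : ι) (f : MvPolynomial ι C) :
    pderiv i (pderiv j f) = pderiv j (pderiv i f) := by
  classical
  have h1 : ⁅(pderiv i : Derivation C (MvPolynomial ι C) (MvPolynomial ι C)),
      (pderiv j : Derivation C (MvPolynomial ι C) (MvPolynomial ι C))⁆ = 0 := by
    apply MvPolynomial.derivation_ext
    intro l
    simp only [Derivation.commutator_apply, pderiv_X, Pi.single_apply]
    split_ifs <;> simp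
  have h2 := congrArg (fun E : Derivation C (MvPolynomial ι C) (MvPolynomial ι C) => E f) h1
  simpa [Derivation.commutator_apply, sub_eq_zero] using h2

theorem pd_comm (i j : ι) (z : K) :
    pd (C := C) K i (pd (C := C) K j z) = pd (C := C) K j (pd (C := C) K i z) :=
  haveI : Algebra.FormallyEtale (MvPolynomial ι C) K :=
    Algebra.FormallyEtale.of_isLocalization (nonZeroDivisors _)
  derUp_comm _ _ (pderiv_comm' i j) z

theorem perm_pd (e : ι ≃ ι) (i : ι) (z : K) :
    perm (C := C) K e (pd (C := C) K i z) = pd (C := C) K (e i) (perm (C := C) K e z) :=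
  haveI : Algebra.FormallyEtale (MvPolynomial ι C) K :=
    Algebra.FormallyEtale.of_isLocalization (nonZeroDivisors _)
  der_conj (R := MvPolynomial ι C) (perm (C := C) K e : K →+* K) _ _ (fun r => by
    simp only [RingHom.coe_coe, pd_algebraMap, perm_algebraMap, pderiv_rename e.injective]) z

variable (v : Valuation C ℝ≥0)

theorem gK_perm (e : ι ≃ ι) (z : K) : gK v ι K (perm (C := C) K e z) = gK v ι K z := by
  obtain ⟨f, g, -, rfl⟩ := IsFractionRing.div_surjective (A := MvPolynomial ι C) z
  simp only [map_div₀, perm_algebraMap, gK_algebraMap, gn_rename]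

theorem gK_pd (i : ι) (z : K) : gK v ι K (pd (C := C) K i z) ≤ gK v ι K z := by
  obtain ⟨f, g, hg, rfl⟩ := IsFractionRing.div_surjective (A := MvPolynomial ι C) z
  have h0 : gn v g ≠ 0 := fun h => nonZeroDivisors.ne_zero hg (gn_eq_zero v h)
  rw [Derivation.leibniz_div, pd_algebraMap, pd_algebraMap]
  simp only [smul_eq_mul, map_mul, map_pow, map_inv₀, map_div₀, gK_algebraMap]
  have h1 : gK v ι K (algebraMap _ K g * algebraMap _ K (pderiv i f) -
      algebraMap _ K f * algebraMap _ K (pderiv i g)) ≤ gn v g * gn v f := by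
    refine (Valuation.map_sub _ _ _).trans (max_le ?_ ?_)
    · rw [map_mul, gK_algebraMap, gK_algebraMap]
      exact mul_le_mul_right (gn_pderiv v i f) _
    · rw [map_mul, gK_algebraMap, gK_algebraMap, mul_comm]
      exact mul_le_mul_left (gn_pderiv v i g) _
  refine (mul_le_mul_right h1 _).trans (le_of_eq ?_)
  field_simp

theorem gK_const (c : C) : gK v ι K (algebraMap C K c) = v c := by
  rw [IsScalarTower.algebraMap_apply C (MvPolynomial ι C) K, gK_algebraMap, algebraMap_eq, gn_C]

theorem algEquiv_ext {σ τ : K ≃ₐ[C] K}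
    (h : ∀ i : ι, σ (algebraMap _ K (X i : MvPolynomial ι C)) =
      τ (algebraMap _ K (X i : MvPolynomial ι C))) : σ = τ := by
  have h1 : (σ : K →ₐ[C] K).comp (IsScalarTower.toAlgHom C (MvPolynomial ι C) K) =
      (τ : K →ₐ[C] K).comp (IsScalarTower.toAlgHom C (MvPolynomial ι C) K) :=
    MvPolynomial.algHom_ext h
  ext z
  obtain ⟨f, g, -, rfl⟩ := IsFractionRing.div_surjective (A := MvPolynomial ι C) z
  have h2 : ∀ f, σ (algebraMap (MvPolynomial ι C) K f) = τ (algebraMap (MvPolynomial ι C) K f) :=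
    fun f => congrArg (fun φ => φ f) h1
  rw [map_div₀, map_div₀, h2, h2]

end Rot

theorem preBase_of_lex {p : ℕ} (hp : p.Prime) (hL : LexStmt p) (a : ℕ) [NeZero (p ^ a)] (C : Type)
    [Field C] (v : Valuation C ℝ≥0) (hv : v (p : C) < 1) :
    Nonempty (PreBase p (p ^ a) C (FractionRing (MvPolynomial (Fin (p ^ a)) C))) := by
  classical
  set ι := Fin (p ^ a)
  set K := FractionRing (MvPolynomial ι C)
  set k := ResidueField v.valuationSubring
  have hk : CharP k p := by
    rw [CharP.charP_iff_prime_eq_zero hp, ← map_natCast (residue v.valuationSubring),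
      residue_eq_zero_iff']
    simpa using hv
  obtain ⟨W, hW1, hW2, hW3⟩ := hL a k (FractionRing (MvPolynomial ι k))
  let e : ι ≃ ι := Equiv.addRight 1
  have hconst : ∀ c : v.valuationSubring, Sp v ι (algebraMap C K c)
      (algebraMap (MvPolynomial ι k) (FractionRing (MvPolynomial ι k))
        (MvPolynomial.C (residue _ c))) := by
    intro c
    have := sp_poly (K := K) (κ := FractionRing (MvPolynomial ι k)) (v := v) (ι := ι)
      (MvPolynomial.C c)
    rw [IsScalarTower.algebraMap_apply C (MvPolynomial ι C) K]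
    simpa using this
  have hrot : ∀ f g : MvPolynomial ι v.valuationSubring, rd v g ≠ 0 →
      Sp v ι (perm (C := C) K e (algebraMap _ K (up v f) / algebraMap _ K (up v g)))
        (algebraMap _ (FractionRing (MvPolynomial ι k)) (rename (· + 1) (rd v f)) /
          algebraMap _ (FractionRing (MvPolynomial ι k)) (rename (· + 1) (rd v g))) := by
    intro f g hg
    refine ⟨rename e f, rename e g, ?_, ?_, ?_⟩
    · rw [rd, map_rename]
      exact fun h => hg (rename_injective _ e.injective (by rw [h, map_zero]))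
    · rw [map_div₀, perm_algebraMap, perm_algebraMap, up, up, up, up, map_rename, map_rename]
    · rw [rd, rd, rd, rd, map_rename, map_rename]
      rfl
  refine ⟨{ v := gK v ι K
            vp := ?_
            vgrp := ?_
            s := fun i => algebraMap (MvPolynomial ι C) K (X i)
            vs := fun i => by rw [gK_algebraMap, gn_X]
            vss := fun i j h => by rw [← map_sub, gK_algebraMap, gn_X_sub_X v h]
            σ := perm K e
            σn := ?_
            σs := fun i => by rw [perm_algebraMap, rename_X]; rfl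
            vσ := gK_perm K v e
            D := pd K
            Ds := fun i j => ?_
            vD := gK_pd K v
            Dcomm := pd_comm K
            σD := perm_pd K e
            V := compVS v ι K W
            fine := ⟨?_, ?_, ?_⟩
            σV := ?_ }⟩
  · rw [← map_natCast (algebraMap C K), gK_const]; exact hv
  · intro z
    obtain ⟨c, f, g, hf, hg, rfl⟩ := exists_frac v (ι := ι) z
    exact ⟨c, by rw [gK_const, gK_frac v c hf hg]⟩
  · have key : ∀ (j : ℕ) (i : ι), (perm (C := C) K e ^ j) (algebraMap (MvPolynomial ι C) K (X i)) =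
        algebraMap (MvPolynomial ι C) K (X (i + j • (1 : ι))) := by
      intro j
      induction j with
      | zero => intro i; simp
      | succ j ih =>
        intro i
        rw [pow_succ', AlgEquiv.mul_apply, ih, perm_algebraMap, rename_X, succ_nsmul, ← add_assoc]
        rfl
    apply algEquiv_ext K (ι := ι)
    intro i
    have h0 : (p ^ a) • (1 : ι) = 0 := by
      have := card_nsmul_eq_zero (G := ι) (x := 1)
      rwa [Fintype.card_fin] at this
    rw [key, h0, add_zero, AlgEquiv.one_apply]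
  · rw [pd_algebraMap, pderiv_X, Pi.single_apply]
    by_cases h : i = j
    · simp [h]
    · simp [h, Ne.symm h]
  · rintro z ⟨b, -, hb⟩
    exact hb.le
  · intro c hc
    rw [gK_const] at hc
    exact ⟨_, hW1 _, hconst ⟨c, hc⟩⟩
  · rintro z ⟨b, hb, hz⟩
    obtain ⟨c, hc⟩ := hW2 b hb
    obtain ⟨c, rfl⟩ := residue_surjective c
    refine ⟨c, by rw [gK_const]; exact c.2, ?_⟩
    rw [sub_eq_add_neg] at hc ⊢
    exact compVS_lt (hz.add (hconst c).neg) hc
  · intro z
    rcases le_or_gt (gK v ι K z) 1 with hz | hz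
    · obtain ⟨f, g, hg, rfl⟩ := exists_frac_of_le v hz
      have h1 := hrot f g hg
      have h2 : Sp v ι (algebraMap _ K (up v f) / algebraMap _ K (up v g))
        (algebraMap _ (FractionRing (MvPolynomial ι k)) (rd v f) /
          algebraMap _ (FractionRing (MvPolynomial ι k)) (rd v g)) := ⟨f, g, hg, rfl, rfl⟩
      constructor
      · rintro ⟨b, hb, h⟩
        rw [h.unique h1, hW3] at hb
        exact ⟨_, hb, h2⟩
      · rintro ⟨b, hb, h⟩
        rw [h.unique h2, ← hW3] at hb
        exact ⟨_, hb, h1⟩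
    · constructor
      · rintro ⟨b, -, h⟩
        exact absurd (gK_perm K v e z ▸ h.le) (not_le.2 hz)
      · rintro ⟨b, -, h⟩
        exact absurd h.le (not_le.2 hz)

end Crest.Agent.T170.Base
end

-- ▼ part T170/BaseLex_64
section

/-!
# Row 170, module E (helper64): a rotation invariant place of `k(s_i)` with residue field `k`

For a field `k` of characteristic `p`, `n = p ^ a` and a cyclic permutation `ρ` of `n` variables
there is a valuation subring `W` of the fraction field of `k[s_i]` which contains `k`, is invariant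
under the rotation and has residue field `k` (`exists_lex`, `exists_lex_fin`, `exists_lex_zmod`).
-/

set_option autoImplicit false

namespace Crest.Agent.T170.Base

open MvPolynomial
open scoped MonomialOrder

section Deg

variable {k R K Γ : Type*} [Field k] [CommRing R] [IsDomain R] [Algebra k R] [Field K]
  [Algebra R K] [IsFractionRing R K] [LinearOrder Γ] [AddCommMonoid Γ]
  [IsOrderedCancelAddMonoid Γ]

omit [Algebra k R] in
/-- The valuation subring at infinity of a degree function. -/
theorem exists_vs_of_deg (d : R → Γ) (hmul : ∀ f g, f ≠ 0 → g ≠ 0 → d (f * g) = d f + d g)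
    (hadd : ∀ f g, d (f + g) ≤ max (d f) (d g)) (hneg : ∀ f, d (-f) = d f)
    (h0 : ∀ f, d 0 ≤ d f) :
    ∃ W : ValuationSubring K, ∀ f g : R, g ≠ 0 →
      (algebraMap R K f / algebraMap R K g ∈ W ↔ d f ≤ d g) := by
  have hne : ∀ g : R, g ≠ 0 → algebraMap R K g ≠ 0 := fun g hg => by simpa using hg
  have hle : ∀ f g f' g' : R, g ≠ 0 → g' ≠ 0 → d f ≤ d g → d f' ≤ d g' →
      d (f * f') ≤ d (g * g') := by
    intro f g f' g' hg hg' h h'
    by_cases hf : f * f' = 0
    · rw [hf]; exact h0 _
    · rw [hmul _ _ (left_ne_zero_of_mul hf) (right_ne_zero_of_mul hf), hmul _ _ hg hg']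
      exact add_le_add h h'
  let S : Subring K :=
    { carrier := {z | ∃ f g : R, g ≠ 0 ∧ d f ≤ d g ∧ z = algebraMap R K f / algebraMap R K g}
      mul_mem' := by
        rintro _ _ ⟨f, g, hg, h, rfl⟩ ⟨f', g', hg', h', rfl⟩
        refine ⟨f * f', g * g', mul_ne_zero hg hg', hle _ _ _ _ hg hg' h h', ?_⟩
        rw [map_mul, map_mul, div_mul_div_comm]
      one_mem' := ⟨1, 1, one_ne_zero, le_rfl, by simp⟩
      add_mem' := by
        rintro _ _ ⟨f, g, hg, h, rfl⟩ ⟨f', g', hg', h', rfl⟩
        refine ⟨f * g' + g * f', g * g', mul_ne_zero hg hg', (hadd _ _).trans (max_le ?_ ?_), ?_⟩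
        · exact hle _ _ _ _ hg hg' h le_rfl
        · exact hle _ _ _ _ hg hg' le_rfl h'
        · rw [map_add, map_mul, map_mul, map_mul, div_add_div _ _ (hne g hg) (hne g' hg')]
      zero_mem' := ⟨0, 1, one_ne_zero, h0 _, by simp⟩
      neg_mem' := by
        rintro _ ⟨f, g, hg, h, rfl⟩
        exact ⟨-f, g, hg, by rwa [hneg], by rw [map_neg, neg_div]⟩ }
  have hS : ∀ z : K, z ∈ S ∨ z⁻¹ ∈ S := by
    intro z
    obtain ⟨f, g, hg, rfl⟩ := IsFractionRing.div_surjective (A := R) z
    have hg' : g ≠ 0 := nonZeroDivisors.ne_zero hg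
    rcases le_total (d f) (d g) with h | h
    · exact Or.inl ⟨f, g, hg', h, rfl⟩
    · by_cases hf : f = 0
      · exact Or.inl ⟨f, g, hg', hf ▸ h0 _, rfl⟩
      · exact Or.inr ⟨g, f, hf, h, by rw [inv_div]⟩
  refine ⟨ValuationSubring.ofSubring S hS, fun f g hg => ⟨?_, fun h => ⟨f, g, hg, h, rfl⟩⟩⟩
  rintro ⟨f', g', hg', h, he⟩
  rw [div_eq_div_iff (hne g hg) (hne g' hg'), ← map_mul, ← map_mul] at he
  have he' : f * g' = f' * g := IsFractionRing.injective R K he
  by_cases hf : f = 0
  · rw [hf]; exact h0 _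
  · have hf' : f' ≠ 0 := left_ne_zero_of_mul (he' ▸ mul_ne_zero hf hg')
    have h1 : d f + d g' = d f' + d g := by rw [← hmul _ _ hf hg', ← hmul _ _ hf' hg, he']
    have h2 : d f + d g' ≤ d g + d g' := by
      rw [h1, add_comm (d g)]
      exact add_le_add h le_rfl
    exact le_of_add_le_add_right h2

end Deg

section Subst

variable {k σ : Type*} [Field k] (m : MonomialOrder σ)

/-- A substitution which preserves the leading monomial of the variables preserves all leading
monomials. -/
theorem degree_subst (ψ : MvPolynomial σ k →ₐ[k] MvPolynomial σ k)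
    (hψ : ∀ j, m.degree (ψ (X j)) = Finsupp.single j 1) (f : MvPolynomial σ k) :
    m.degree (ψ f) = m.degree f ∧ (f ≠ 0 → ψ f ≠ 0) := by
  classical
  have hX : ∀ j, ψ (X j) ≠ 0 := fun j =>
    MonomialOrder.ne_zero_of_degree_ne_zero (m := m) (by rw [hψ]; simp)
  have hmon : ∀ (e : σ →₀ ℕ) (c : k), c ≠ 0 →
      m.degree (ψ (monomial e c)) = e ∧ ψ (monomial e c) ≠ 0 := by
    intro e c hc
    have h1 : ψ (monomial e c) = C c * ∏ j ∈ e.support, ψ (X j) ^ e j := by
      rw [monomial_eq, map_mul, Finsupp.prod, map_prod]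
      simp only [map_pow]
      congr 1
      exact ψ.commutes c
    have h2 : ∀ j ∈ e.support, ψ (X j) ^ e j ≠ 0 := fun j _ => pow_ne_zero _ (hX j)
    have h3 : (∏ j ∈ e.support, ψ (X j) ^ e j) ≠ 0 := Finset.prod_ne_zero_iff.2 h2
    have h4 : (C c : MvPolynomial σ k) ≠ 0 := by simpa using hc
    refine ⟨?_, h1 ▸ mul_ne_zero h4 h3⟩
    rw [h1, MonomialOrder.degree_mul h4 h3, MonomialOrder.degree_C, zero_add,
      MonomialOrder.degree_prod h2]
    simp only [MonomialOrder.degree_pow, hψ, Finsupp.smul_single, smul_eq_mul, mul_one]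
    exact Finsupp.sum_single e
  by_cases hf : f = 0
  · simp [hf]
  by_cases hd : m.degree f = 0
  · have h1 := MonomialOrder.eq_C_of_degree_eq_zero hd
    have h2 : ψ f = f := by
      rw [h1]
      exact ψ.commutes _
    rw [h2]
    exact ⟨rfl, id⟩
  have hmem := MonomialOrder.degree_mem_support (m := m) hf
  have hlc : m.leadingCoeff f ≠ 0 := MonomialOrder.leadingCoeff_ne_zero_iff.2 hf
  have hsplit : ψ f = ψ (monomial (m.degree f) (m.leadingCoeff f)) +
      ∑ e ∈ f.support.erase (m.degree f), ψ (monomial e (f.coeff e)) := by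
    conv_lhs => rw [f.as_sum, ← Finset.add_sum_erase _ _ hmem]
    rw [map_add, map_sum]
    rfl
  have hlt : m.degree (∑ e ∈ f.support.erase (m.degree f), ψ (monomial e (f.coeff e))) ≺[m]
      m.degree (ψ (monomial (m.degree f) (m.leadingCoeff f))) := by
    rw [(hmon _ _ hlc).1]
    refine lt_of_le_of_lt MonomialOrder.degree_sum_le ?_
    have hpos : (⊥ : m.syn) < m.toSyn (m.degree f) := by
      rw [bot_lt_iff_ne_bot, MonomialOrder.bot_eq_zero, Ne, MonomialOrder.toSyn_eq_zero_iff]
      exact hd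
    rw [Finset.sup_lt_iff hpos]
    intro e he
    have he1 := Finset.mem_of_mem_erase he
    rw [(hmon e _ (mem_support_iff.1 he1)).1]
    exact lt_of_le_of_ne (MonomialOrder.le_degree he1)
      (fun h => Finset.ne_of_mem_erase he (m.toSyn.injective h))
  have hdeg : m.degree (ψ f) = m.degree f := by
    rw [hsplit, MonomialOrder.degree_add_of_lt hlt, (hmon _ _ hlc).1]
  exact ⟨hdeg, fun _ => MonomialOrder.ne_zero_of_degree_ne_zero (m := m) (hdeg ▸ hd)⟩

theorem degree_X_add (j : σ) (g : MvPolynomial σ k)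
    (hg : m.degree g ≺[m] Finsupp.single j 1) : m.degree (X j + g) = Finsupp.single j 1 := by
  rw [MonomialOrder.degree_add_of_lt (by rwa [MonomialOrder.degree_X]), MonomialOrder.degree_X]

theorem zero_lt_single (j : σ) : (0 : σ →₀ ℕ) ≺[m] Finsupp.single j 1 := by
  rw [map_zero, MonomialOrder.toSyn_lt_iff_ne_zero, Ne, MonomialOrder.toSyn_eq_zero_iff]
  simp

theorem exists_degree_sub_lt (f g : MvPolynomial σ k) (hg : g ≠ 0)
    (h : m.degree f ≼[m] m.degree g) :
    ∃ c : k, f - C c * g = 0 ∨ m.degree (f - C c * g) ≺[m] m.degree g := by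
  have hlc : m.leadingCoeff g ≠ 0 := MonomialOrder.leadingCoeff_ne_zero_iff.2 hg
  refine ⟨f.coeff (m.degree g) / m.leadingCoeff g, ?_⟩
  set c := f.coeff (m.degree g) / m.leadingCoeff g with hc
  by_cases h0 : f - C c * g = 0
  · exact Or.inl h0
  right
  have hle : m.degree (f - C c * g) ≼[m] m.degree g := by
    rw [MonomialOrder.degree_le_iff]
    intro e he
    by_contra hlt
    push Not at hlt
    apply mem_support_iff.1 he
    rw [coeff_sub, coeff_C_mul, MonomialOrder.coeff_eq_zero_of_lt (lt_of_le_of_lt h hlt),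
      MonomialOrder.coeff_eq_zero_of_lt hlt, mul_zero, sub_zero]
  refine lt_of_le_of_ne hle fun he => ?_
  have he' := m.toSyn.injective he
  apply (MonomialOrder.coeff_degree_ne_zero_iff (m := m)).2 h0
  rw [he', coeff_sub, coeff_C_mul, hc]
  change _ - _ * m.leadingCoeff g = 0
  rw [div_mul_cancel₀ _ hlc, sub_self]

end Subst

section Lam

variable (k : Type*) [Field k] (n : ℕ)

/-- the variables, extended by zero -/
noncomputable def lam (j : ℕ) : MvPolynomial (Fin n) k := if h : j < n then X ⟨j, h⟩ else 0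

/-- `s_j = (1 + T) ^ j λ_0` -/
noncomputable def sl (j : ℕ) : MvPolynomial (Fin n) k :=
  ∑ l ∈ Finset.range n, (j.choose l : MvPolynomial (Fin n) k) * lam k n l

/-- the unipotent substitution `λ_j ↦ λ_j + λ_{j+1}` -/
noncomputable def tau : MvPolynomial (Fin n) k →ₐ[k] MvPolynomial (Fin n) k :=
  aeval fun l => X l + lam k n (l + 1)

theorem lam_self : lam k n n = 0 := by simp [lam]

theorem tau_lam (l : ℕ) : tau k n (lam k n l) = lam k n l + lam k n (l + 1) := by
  by_cases h : l < n
  · simp [tau, lam, h]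
  · have h' : ¬ l + 1 < n := by omega
    simp [lam, h, h']

theorem sl_eq (j : ℕ) : sl k n j = lam k n 0 +
    ∑ l ∈ Finset.range n, (j.choose (l + 1) : MvPolynomial (Fin n) k) * lam k n (l + 1) := by
  have h := Finset.sum_range_succ
    (fun l => (j.choose l : MvPolynomial (Fin n) k) * lam k n l) n
  rw [Finset.sum_range_succ', lam_self, mul_zero, add_zero] at h
  rw [sl, ← h]
  simp [add_comm]

theorem tau_sl (j : ℕ) : tau k n (sl k n j) = sl k n (j + 1) := by
  have h1 : tau k n (sl k n j) = sl k n j +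
      ∑ l ∈ Finset.range n, (j.choose l : MvPolynomial (Fin n) k) * lam k n (l + 1) := by
    rw [sl, map_sum, ← Finset.sum_add_distrib]
    refine Finset.sum_congr rfl fun l _ => ?_
    rw [map_mul, map_natCast, tau_lam, mul_add]
  rw [h1, sl_eq, sl_eq, add_assoc, ← Finset.sum_add_distrib]
  congr 1
  refine Finset.sum_congr rfl fun l _ => ?_
  rw [Nat.choose_succ_succ', Nat.cast_add]
  ring

theorem sl_period (p a : ℕ) [Fact p.Prime] [CharP k p] :
    sl k (p ^ a) (p ^ a) = sl k (p ^ a) 0 := by
  rw [sl_eq, sl_eq]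
  congr 1
  refine Finset.sum_congr rfl fun l hl => ?_
  have hl' := Finset.mem_range.1 hl
  by_cases h : l + 1 = p ^ a
  · rw [h, lam_self, mul_zero, mul_zero]
  · have h1 : p ∣ (p ^ a).choose (l + 1) :=
      (Fact.out : p.Prime).dvd_choose_pow (by omega) h
    rw [(CharP.cast_eq_zero_iff (MvPolynomial (Fin (p ^ a)) k) p _).2 h1]
    simp

theorem degree_tau_X (l : Fin n) :
    (MonomialOrder.lex : MonomialOrder (Fin n)).degree (tau k n (X l)) = Finsupp.single l 1 := by
  rw [tau, aeval_X]
  apply degree_X_add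
  by_cases h : (l : ℕ) + 1 < n
  · rw [lam, dif_pos h, MonomialOrder.degree_X, MonomialOrder.lex_lt_iff,
      Finsupp.Lex.single_lt_iff]
    exact Nat.lt_succ_self _
  · rw [lam, dif_neg h, MonomialOrder.degree_zero]
    exact zero_lt_single _ _

/-- the reverse lexicographic order -/
noncomputable def revLex : MonomialOrder (Fin n) := MonomialOrder.lex (σ := (Fin n)ᵒᵈ)

theorem revLex_lt {i j : Fin n} (h : i < j) :
    Finsupp.single i 1 ≺[revLex n] Finsupp.single j 1 :=
  (Finsupp.Lex.single_lt_iff (α := (Fin n)ᵒᵈ)).2 h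

theorem degree_sl (j : Fin n) : (revLex n).degree (sl k n j) = Finsupp.single j 1 := by
  have hj : (j : ℕ) ∈ Finset.range n := Finset.mem_range.2 j.2
  rw [sl, ← Finset.add_sum_erase _ _ hj, Nat.choose_self, Nat.cast_one, one_mul, lam,
    dif_pos j.2]
  apply degree_X_add
  refine lt_of_le_of_lt MonomialOrder.degree_sum_le ?_
  have hpos : (⊥ : (revLex n).syn) < (revLex n).toSyn (Finsupp.single j 1) := by
    have := zero_lt_single (revLex n) j
    rwa [map_zero] at this
  rw [Finset.sup_lt_iff hpos]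
  intro l hl
  have hl1 := Finset.mem_range.1 (Finset.mem_of_mem_erase hl)
  have hl2 := Finset.ne_of_mem_erase hl
  rcases lt_or_gt_of_ne hl2 with h | h
  · rw [lam, dif_pos hl1]
    have h1 : ((j : ℕ).choose l : MvPolynomial (Fin n) k) * X ⟨l, hl1⟩ =
        monomial (Finsupp.single ⟨l, hl1⟩ 1) ((j : ℕ).choose l : k) := by
      rw [← map_natCast (C : k →+* MvPolynomial (Fin n) k), C_mul_X_eq_monomial]
    rw [h1]
    exact lt_of_le_of_lt (MonomialOrder.degree_monomial_le _) (revLex_lt n h)
  · rw [Nat.choose_eq_zero_of_lt h, Nat.cast_zero, zero_mul, MonomialOrder.degree_zero]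
    exact zero_lt_single _ _

theorem aeval_sl_ne_zero {f : MvPolynomial (Fin n) k} (hf : f ≠ 0) :
    aeval (fun j : Fin n => sl k n j) f ≠ 0 :=
  (degree_subst (revLex n) (aeval fun j : Fin n => sl k n j)
    (fun j => by rw [aeval_X, degree_sl]) f).2 hf

end Lam

section Main

variable (k : Type*) [Field k] (p a : ℕ) [Fact p.Prime] [CharP k p]

/-- **The invariant place.** -/
theorem exists_lex {ι : Type*} (ρ : ι → ι) (e : ℕ → ι) (he : ∀ j, e (j + 1) = ρ (e j))
    (hper : e (p ^ a) = e 0) (hbij : Function.Bijective fun j : Fin (p ^ a) => e j)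
    (K : Type*) [Field K] [Algebra (MvPolynomial ι k) K] [IsFractionRing (MvPolynomial ι k) K] :
    ∃ W : ValuationSubring K,
      (∀ c : k, algebraMap (MvPolynomial ι k) K (C c) ∈ W) ∧
      (∀ z ∈ W, ∃ c : k, z - algebraMap (MvPolynomial ι k) K (C c) ∈ W.nonunits) ∧
      ∀ g : K →+* K, (∀ f, g (algebraMap (MvPolynomial ι k) K f) =
        algebraMap (MvPolynomial ι k) K (rename ρ f)) → ∀ z, g z ∈ W ↔ z ∈ W := by
  classical
  let E : Fin (p ^ a) ≃ ι := Equiv.ofBijective _ hbij
  let φ : MvPolynomial ι k →ₐ[k] MvPolynomial (Fin (p ^ a)) k :=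
    aeval fun i => sl k (p ^ a) (E.symm i)
  have hφ : ∀ f, f ≠ 0 → φ f ≠ 0 := by
    intro f hf
    have h1 : φ f = aeval (fun j : Fin (p ^ a) => sl k (p ^ a) j) (rename E.symm f) := by
      rw [aeval_rename]; rfl
    rw [h1]
    apply aeval_sl_ne_zero
    intro h
    exact hf (rename_injective _ E.symm.injective (by rw [h, map_zero]))
  have hequiv : ∀ f, φ (rename ρ f) = tau k (p ^ a) (φ f) := by
    intro f
    have : φ.comp (rename ρ) = (tau k (p ^ a)).comp φ := by
      refine algHom_ext fun i => ?_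
      obtain ⟨j, rfl⟩ := E.surjective i
      simp only [φ, AlgHom.comp_apply, rename_X, aeval_X, Equiv.symm_apply_apply, tau_sl]
      have hE : ρ (E j) = e (j + 1) := (he j).symm
      rw [hE]
      by_cases h : (j : ℕ) + 1 < p ^ a
      · have : e (j + 1) = E ⟨j + 1, h⟩ := rfl
        rw [this, Equiv.symm_apply_apply]
      · have h2 : (j : ℕ) + 1 = p ^ a := by have := j.2; omega
        have h3 : 0 < p ^ a := by omega
        have : e 0 = E ⟨0, h3⟩ := rfl
        rw [h2, hper, this, Equiv.symm_apply_apply, sl_period]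
    exact congrArg (fun F : _ →ₐ[k] _ => F f) this
  let m : MonomialOrder (Fin (p ^ a)) := MonomialOrder.lex
  let d : MvPolynomial ι k → m.syn := fun f => m.toSyn (m.degree (φ f))
  have hd0 : d 0 = 0 := by simp [d]
  obtain ⟨W, hW⟩ := exists_vs_of_deg (K := K) d
    (fun f g hf hg => by
      simp only [d, map_mul]
      rw [MonomialOrder.degree_mul (hφ f hf) (hφ g hg), map_add])
    (fun f g => by
      simp only [d, map_add]
      exact MonomialOrder.degree_add_le)
    (fun f => by simp only [d, map_neg, MonomialOrder.degree_neg])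
    (fun f => by rw [hd0]; exact MonomialOrder.zero_le _ _)
  have hne : ∀ g : MvPolynomial ι k, g ≠ 0 → algebraMap (MvPolynomial ι k) K g ≠ 0 :=
    fun g hg => by simpa using hg
  have hC : ∀ c : k, φ (C c) = C c := fun c => φ.commutes c
  refine ⟨W, fun c => ?_, fun z hz => ?_, fun g hg z => ?_⟩
  · have := (hW (C c) 1 one_ne_zero).2 (by
      simp only [d, hC, MonomialOrder.degree_C, map_zero]
      exact MonomialOrder.zero_le _ _)
    simpa using this
  · obtain ⟨f, g, hg, rfl⟩ := IsFractionRing.div_surjective (A := MvPolynomial ι k) z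
    have hg' : g ≠ 0 := nonZeroDivisors.ne_zero hg
    obtain ⟨c, hc⟩ := exists_degree_sub_lt m (φ f) (φ g) (hφ g hg') ((hW f g hg').1 hz)
    refine ⟨c, ?_⟩
    have h1 : algebraMap (MvPolynomial ι k) K f / algebraMap (MvPolynomial ι k) K g -
        algebraMap (MvPolynomial ι k) K (C c) =
        algebraMap (MvPolynomial ι k) K (f - C c * g) / algebraMap (MvPolynomial ι k) K g := by
      rw [map_sub, map_mul]
      field_simp [hne g hg']
    have h2 : φ (f - C c * g) = φ f - C c * φ g := by rw [map_sub, map_mul, hC]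
    rw [h1, ValuationSubring.mem_nonunits_iff_or]
    by_cases h0 : f - C c * g = 0
    · left; rw [h0, map_zero, zero_div]
    · right
      rw [inv_div, hW _ _ h0, not_le]
      rcases hc with hc | hc
      · exact absurd (h2 ▸ hc) (hφ _ h0)
      · simp only [d]
        rwa [h2]
  · obtain ⟨f, f', hf', rfl⟩ := IsFractionRing.div_surjective (A := MvPolynomial ι k) z
    have hf'' : f' ≠ 0 := nonZeroDivisors.ne_zero hf'
    have hr : rename ρ f' ≠ 0 := by
      intro h
      have := hg f'
      rw [h, map_zero, map_eq_zero] at this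
      exact hne _ hf'' this
    have hdr : ∀ f, d (rename ρ f) = d f := fun f => by
      simp only [d, hequiv]
      rw [(degree_subst m (tau k (p ^ a)) (degree_tau_X k _) (φ f)).1]
    rw [map_div₀, hg, hg, hW _ _ hr, hW _ _ hf'', hdr, hdr]


/-- The invariant place for the variables `Fin (p ^ a)` and the rotation `i ↦ i + 1`. -/
theorem exists_lex_fin [NeZero (p ^ a)] (K : Type*) [Field K]
    [Algebra (MvPolynomial (Fin (p ^ a)) k) K] [IsFractionRing (MvPolynomial (Fin (p ^ a)) k) K] :
    ∃ W : ValuationSubring K,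
      (∀ c : k, algebraMap (MvPolynomial (Fin (p ^ a)) k) K (C c) ∈ W) ∧
      (∀ z ∈ W, ∃ c : k, z - algebraMap (MvPolynomial (Fin (p ^ a)) k) K (C c) ∈ W.nonunits) ∧
      ∀ g : K →+* K, (∀ f, g (algebraMap (MvPolynomial (Fin (p ^ a)) k) K f) =
        algebraMap (MvPolynomial (Fin (p ^ a)) k) K (rename (· + 1) f)) →
        ∀ z, g z ∈ W ↔ z ∈ W := by
  refine exists_lex k p a (· + 1) (fun j => Fin.ofNat (p ^ a) j) (fun j => ?_) (by simp) ?_ K
  · apply Fin.ext
    simp [Fin.val_add]
  · have : (fun j : Fin (p ^ a) => Fin.ofNat (p ^ a) j) = id := by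
      funext j; simp
    rw [this]
    exact Function.bijective_id

end Main

end Crest.Agent.T170.Base
end

-- ▼ part T170/BaseCpl_64
section

/-!
# Row 170, module E (helper64): the completion of an `ℝ≥0`-valued field

* `exists_cpl` : completion `ι : K →+* F`, dense, complete, bounded additive maps extend;
* `Dns ι w` : density; `Dns.eq_zero`, `Dns.val`, `Dns.card_le`, `continuum_le`.
-/

set_option autoImplicit false

namespace Crest.Agent.T170.Base

open scoped NNReal Cardinal
open Crest.Agent.T170.Gal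

/-- the image of `ι` is dense -/
def Dns {K F : Type*} [Field K] [Field F] (ι : K →+* F) (w : Valuation F ℝ≥0) : Prop :=
  ∀ (z : F) (ε : ℝ≥0), 0 < ε → ∃ x : K, w (z - ι x) < ε

theorem exists_cpl_aux (K : Type) [NormedField K] [IsUltrametricDist K] :
    ∃ (F : Type) (_ : Field F) (ι : K →+* F) (w : Valuation F ℝ≥0),
      (∀ x, w (ι x) = ‖x‖₊) ∧ Cpl w ∧ Dns ι w ∧
      ∀ f : K →+ F, (∀ x, w (f x) ≤ ‖x‖₊) →
        ∃ g : F →+ F, (∀ x, g (ι x) = f x) ∧ ∀ z, w (g z) ≤ w z := by
  let F := UniformSpace.Completion K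
  have hU : IsUltrametricDist F := by
    refine IsUltrametricDist.isUltrametricDist_of_isNonarchimedean_norm fun x y => ?_
    refine UniformSpace.Completion.induction_on₂ x y (isClosed_le (by fun_prop) (by fun_prop)) ?_
    intro a b
    rw [← UniformSpace.Completion.coe_add, UniformSpace.Completion.norm_coe,
      UniformSpace.Completion.norm_coe, UniformSpace.Completion.norm_coe]
    exact IsUltrametricDist.norm_add_le_max a b
  refine ⟨F, inferInstance, UniformSpace.Completion.coeRingHom, NormedField.valuation,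
    fun x => UniformSpace.Completion.nnnorm_coe x, ?_, ?_, ?_⟩
  · exact (cpl_iff_aux (NormedField.valuation (K := F)) fun _ => rfl).2 inferInstance
  · intro z ε hε
    obtain ⟨x, hx⟩ := Metric.denseRange_iff.1 (UniformSpace.Completion.denseRange_coe (α := K)) z
      ε (by exact_mod_cast hε)
    refine ⟨x, ?_⟩
    rw [dist_eq_norm] at hx
    exact_mod_cast hx
  · intro f hf
    have hc : Continuous f := by
      refine AddMonoidHomClass.continuous_of_bound f 1 fun x => ?_
      rw [one_mul]
      exact_mod_cast hf x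
    refine ⟨f.extension hc, fun x => f.extension_coe hc x, fun z => ?_⟩
    have hc' := f.continuous_extension hc
    change ‖f.extension hc z‖ ≤ ‖z‖
    refine UniformSpace.Completion.induction_on z (isClosed_le (by fun_prop) (by fun_prop)) ?_
    intro a
    rw [f.extension_coe hc a, UniformSpace.Completion.norm_coe]
    exact_mod_cast hf a

/-- **The completion** of a valued field. -/
theorem exists_cpl (K : Type) [Field K] (v : Valuation K ℝ≥0) :
    ∃ (F : Type) (_ : Field F) (ι : K →+* F) (w : Valuation F ℝ≥0),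
      (∀ x, w (ι x) = v x) ∧ Cpl w ∧ Dns ι w ∧
      ∀ f : K →+ F, (∀ x, w (f x) ≤ v x) →
        ∃ g : F →+ F, (∀ x, g (ι x) = f x) ∧ ∀ z, w (g z) ≤ w z := by
  let : NormedField K := (av v).toNormedField
  have : IsUltrametricDist K := by
    refine IsUltrametricDist.isUltrametricDist_of_isNonarchimedean_norm ?_
    intro x y
    change (v (x + y) : ℝ) ≤ max (v x : ℝ) (v y : ℝ)
    exact_mod_cast v.map_add x y
  exact exists_cpl_aux K

section Dense

variable {K F : Type*} [Field K] [Field F] {ι : K →+* F} {w : Valuation F ℝ≥0}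

/-- a bounded additive map which kills a dense subfield vanishes -/
theorem Dns.eq_zero (h : Dns ι w) {F' : Type*} [Field F'] (w' : Valuation F' ℝ≥0) (g : F →+ F')
    (c : ℝ≥0) (hg : ∀ z, w' (g z) ≤ c * w z) (h0 : ∀ x, g (ι x) = 0) (z : F) : g z = 0 := by
  rw [← w'.zero_iff]
  by_contra hne
  have hpos : 0 < w' (g z) := pos_iff_ne_zero.2 hne
  obtain ⟨x, hx⟩ := h z (w' (g z) / (c + 1)) (by positivity)
  have h1 : g z = g (z - ι x) := by rw [map_sub, h0, sub_zero]
  have h2 : w' (g z) ≤ c * w (z - ι x) := h1 ▸ hg _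
  have h3 : w (z - ι x) * (c + 1) < w' (g z) := by
    rwa [lt_div_iff₀ (by positivity)] at hx
  have h4 : c * w (z - ι x) ≤ w (z - ι x) * (c + 1) := by
    rw [mul_comm]; gcongr; exact le_self_add
  exact absurd (h2.trans h4) (not_le.2 h3)

/-- two bounded additive maps which agree on a dense subfield are equal -/
theorem Dns.ext (h : Dns ι w) {F' : Type*} [Field F'] (w' : Valuation F' ℝ≥0) (g g' : F →+ F')
    (c : ℝ≥0) (hg : ∀ z, w' (g z) ≤ c * w z) (hg' : ∀ z, w' (g' z) ≤ c * w z)
    (h0 : ∀ x, g (ι x) = g' (ι x)) (z : F) : g z = g' z := by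
  have := h.eq_zero w' (g - g') c (fun z => by
    rw [AddMonoidHom.sub_apply]
    exact (w'.map_sub _ _).trans (max_le (hg z) (hg' z))) (fun x => by simp [h0]) z
  simpa [sub_eq_zero] using this

/-- the same for biadditive maps -/
theorem Dns.ext₂ (h : Dns ι w) {F' : Type*} [Field F'] (w' : Valuation F' ℝ≥0)
    (g g' : F →+ F →+ F') (hg : ∀ y z, w' (g y z) ≤ w y * w z)
    (hg' : ∀ y z, w' (g' y z) ≤ w y * w z)
    (h0 : ∀ x x', g (ι x) (ι x') = g' (ι x) (ι x')) (y z : F) : g y z = g' y z := by
  have h1 : ∀ x z, g (ι x) z = g' (ι x) z := fun x z =>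
    h.ext w' (g (ι x)) (g' (ι x)) (w (ι x)) (hg _) (hg' _) (h0 x) z
  exact h.ext w' (g.flip z) (g'.flip z) (w z) (fun y => by simpa [mul_comm] using hg y z)
    (fun y => by simpa [mul_comm] using hg' y z) (fun x => h1 x z) y

/-- the value group does not grow -/
theorem Dns.val (h : Dns ι w) (z : F) : ∃ x : K, w (ι x) = w z := by
  by_cases hz : z = 0
  · exact ⟨0, by simp [hz]⟩
  obtain ⟨x, hx⟩ := h z (w z) (pos_iff_ne_zero.2 (by simpa using hz))
  exact ⟨x, by simpa using w.map_sub_eq_of_lt_left hx⟩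

theorem Dns.card_le {K F : Type} [Field K] [Field F] {ι : K →+* F} {w : Valuation F ℝ≥0}
    (h : Dns ι w) (hK : #K ≤ 𝔠) : #F ≤ 𝔠 := by
  choose s hs using fun (z : F) (m : ℕ) => h z (1 / ((m : ℝ≥0) + 1)) (by positivity)
  have hinj : Function.Injective s := by
    intro z z' he
    rw [← sub_eq_zero, ← w.zero_iff]
    by_contra hne
    obtain ⟨m, hm⟩ := exists_nat_one_div_lt (pos_iff_ne_zero.2 hne)
    have h1 : z - z' = (z - ι (s z m)) - (z' - ι (s z' m)) := by rw [he]; ring
    have h2 : w (z - z') < 1 / ((m : ℝ≥0) + 1) := by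
      rw [h1]
      exact (w.map_sub _ _).trans_lt (max_lt (hs z m) (hs z' m))
    exact lt_asymm hm h2
  calc #F ≤ #(ℕ → K) := Cardinal.mk_le_of_injective hinj
    _ = #K ^ ℵ₀ := by simp
    _ ≤ 𝔠 ^ ℵ₀ := Cardinal.power_le_power_right hK
    _ = 𝔠 := Cardinal.continuum_power_aleph0

theorem continuum_le {F : Type} [Field F] (w : Valuation F ℝ≥0) (hc : Cpl w)
    (h : ∃ x : F, x ≠ 0 ∧ w x ≠ 1) : 𝔠 ≤ #F := by
  let := nnf w h
  have : CompleteSpace F := (cpl_iff_aux w fun _ => rfl).1 hc
  exact continuum_le_cardinal_of_nontriviallyNormedField F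

/-- a bounded additive extension of a ring homomorphism is multiplicative -/
theorem Dns.map_mul (h : Dns ι w) (g : F →+ F) (hg : ∀ z, w (g z) ≤ w z)
    (h0 : ∀ x x', g (ι x * ι x') = g (ι x) * g (ι x')) (y z : F) : g (y * z) = g y * g z :=
  h.ext₂ w (AddMonoidHom.mul.compr₂ g) ((AddMonoidHom.mul.comp g).compl₂ g)
    (fun y z => by simpa using hg (y * z))
    (fun y z => by simpa using mul_le_mul' (hg y) (hg z)) h0 y z

/-- a bounded additive extension of a derivation satisfies the Leibniz rule -/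
theorem Dns.leibniz (h : Dns ι w) (g : F →+ F) (hg : ∀ z, w (g z) ≤ w z)
    (h0 : ∀ x x', g (ι x * ι x') = ι x * g (ι x') + ι x' * g (ι x)) (y z : F) :
    g (y * z) = y * g z + z * g y :=
  h.ext₂ w (AddMonoidHom.mul.compr₂ g)
    (AddMonoidHom.mul.compl₂ g + (AddMonoidHom.mul.compl₂ g).flip)
    (fun y z => by simpa using hg (y * z))
    (fun y z => by
      change w (y * g z + z * g y) ≤ _
      refine (w.map_add _ _).trans (max_le ?_ ?_)
      · rw [w.map_mul]; exact mul_le_mul' le_rfl (hg z)
      · rw [w.map_mul, mul_comm]; exact mul_le_mul' (hg y) le_rfl) h0 y z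

/-- elements of value `< 1` lie in every valuation ring refining the integers -/
theorem mem_of_val_lt_one {Γ : Type*} [LinearOrderedCommGroupWithZero Γ] (v : Valuation K Γ)
    (V : ValuationSubring K) (hV : ∀ z ∈ V, v z ≤ 1) {z : K} (hz : v z < 1) : z ∈ V.nonunits := by
  rw [ValuationSubring.mem_nonunits_iff_or]
  by_cases h0 : z = 0
  · exact Or.inl h0
  right
  intro hi
  have h1 := hV _ hi
  rw [map_inv₀, inv_le_one₀ (pos_iff_ne_zero.2 (by simpa using h0))] at h1
  exact absurd hz (not_lt.2 h1)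

/-- the refinement of the integers of the completion given by a refinement downstairs -/
theorem Dns.exists_vs (h : Dns ι w) (V : ValuationSubring K) (hV : ∀ x ∈ V, w (ι x) ≤ 1) :
    ∃ V' : ValuationSubring F, (∀ z, z ∈ V' ↔ ∃ x ∈ V, w (z - ι x) < 1) ∧
      (∀ z ∈ V', w z ≤ 1) ∧ (∀ x, ι x ∈ V' ↔ x ∈ V) := by
  have hle : ∀ z : F, ∀ x ∈ V, w (z - ι x) < 1 → w z ≤ 1 := by
    intro z x hx hz
    have : z = (z - ι x) + ι x := by ring
    rw [this]
    exact (w.map_add _ _).trans (max_le hz.le (hV x hx))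
  let S : Subring F :=
    { carrier := {z | ∃ x ∈ V, w (z - ι x) < 1}
      mul_mem' := by
        rintro z z' ⟨x, hx, hz⟩ ⟨x', hx', hz'⟩
        refine ⟨x * x', mul_mem hx hx', ?_⟩
        have : z * z' - ι (x * x') = z * (z' - ι x') + (z - ι x) * ι x' := by
          rw [_root_.map_mul]; ring
        rw [this]
        refine (w.map_add _ _).trans_lt (max_lt ?_ ?_)
        · rw [w.map_mul]; exact mul_lt_one_of_nonneg_of_lt_one_right (hle z x hx hz) zero_le hz'
        · rw [w.map_mul]; exact mul_lt_one_of_nonneg_of_lt_one_left zero_le hz (hV x' hx')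
      one_mem' := ⟨1, one_mem _, by simp⟩
      add_mem' := by
        rintro z z' ⟨x, hx, hz⟩ ⟨x', hx', hz'⟩
        refine ⟨x + x', add_mem hx hx', ?_⟩
        have : z + z' - ι (x + x') = (z - ι x) + (z' - ι x') := by rw [map_add]; ring
        rw [this]
        exact (w.map_add _ _).trans_lt (max_lt hz hz')
      zero_mem' := ⟨0, zero_mem _, by simp⟩
      neg_mem' := by
        rintro z ⟨x, hx, hz⟩
        refine ⟨-x, neg_mem hx, ?_⟩
        have : -z - ι (-x) = -(z - ι x) := by rw [map_neg]; ring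
        rwa [this, w.map_neg] }
  have hS : ∀ z : F, z ∈ S ∨ z⁻¹ ∈ S := by
    intro z
    rcases lt_trichotomy (w z) 1 with hz | hz | hz
    · exact Or.inl ⟨0, zero_mem _, by simpa using hz⟩
    · obtain ⟨x, hx⟩ := h z 1 one_pos
      have hx1 : w (ι x) = 1 := by
        have := w.map_sub_eq_of_lt_left (x := z) (y := z - ι x) (hz ▸ hx)
        simpa [hz] using this
      rcases V.mem_or_inv_mem x with hm | hm
      · exact Or.inl ⟨x, hm, hx⟩
      · refine Or.inr ⟨x⁻¹, hm, ?_⟩
        have hz0 : z ≠ 0 := by rintro rfl; simp at hz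
        have hx0 : ι x ≠ 0 := by intro h0; simp [h0] at hx1
        have : z⁻¹ - ι x⁻¹ = -(z - ι x) * z⁻¹ * (ι x)⁻¹ := by
          rw [map_inv₀]; field_simp; ring
        rw [this, w.map_mul, w.map_mul, w.map_neg, map_inv₀, map_inv₀, hz, hx1]
        simpa using hx
    · refine Or.inr ⟨0, zero_mem _, ?_⟩
      rw [map_zero, sub_zero, map_inv₀]
      exact inv_lt_one_of_one_lt₀ hz
  refine ⟨ValuationSubring.ofSubring S hS, fun z => Iff.rfl, ?_, fun x => ⟨?_, ?_⟩⟩
  · rintro z ⟨x, hx, hz⟩
    exact hle z x hx hz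
  · rintro ⟨x', hx', hz⟩
    have h1 : x - x' ∈ V.nonunits :=
      mem_of_val_lt_one (w.comap ι) V hV (by simpa using hz)
    have h2 : x = (x - x') + x' := by ring
    rw [h2]
    exact add_mem (V.nonunits_subset h1) hx'
  · intro hx
    exact ⟨x, hx, by simp⟩

end Dense

end Crest.Agent.T170.Base
end

-- ▼ part T170/BaseFin_64

/-!
# Row 170, module E (helper64): `lexStmt : LexStmt p` and `cplStmt : CplStmt p`
-/

set_option autoImplicit false

namespace Crest.Agent.T170.Base

open scoped NNReal Cardinal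

theorem lexStmt {p : ℕ} (hp : p.Prime) : LexStmt p := by
  intro a _ k κ _ _ _ _ _
  have : Fact p.Prime := ⟨hp⟩
  obtain ⟨W, h1, h2, h3⟩ := exists_lex_fin k p a κ
  refine ⟨W, h1, fun z hz => h2 z hz, fun f g => ?_⟩
  have hinj : Function.Injective ((algebraMap (MvPolynomial (Fin (p ^ a)) k) κ).comp
      (MvPolynomial.rename (R := k) (fun i : Fin (p ^ a) => i + 1)).toRingHom) :=
    (IsFractionRing.injective _ κ).comp
      (MvPolynomial.rename_injective _ (add_left_injective 1))
  have h4 : ∀ f, IsFractionRing.lift (K := κ) hinj (algebraMap (MvPolynomial (Fin (p ^ a)) k) κ f) =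
      algebraMap _ κ (MvPolynomial.rename (· + 1) f) := fun f => by
    rw [IsFractionRing.lift_algebraMap]; rfl
  rw [← h3 _ h4 (algebraMap _ κ f / algebraMap _ κ g), map_div₀, h4, h4]

theorem cplStmt {p : ℕ} (hp : p ≠ 0) : CplStmt p := by
  intro n _ C K _ _ _ _ B hK
  obtain ⟨F, _, ι, w, hw, hc, hd, hext⟩ := exists_cpl K B.v
  let : Algebra C F := (ι.comp (algebraMap C K)).toAlgebra
  have hC : ∀ c : C, algebraMap C F c = ι (algebraMap C K c) := fun _ => rfl
  have : CharZero K := charZero_of_injective_algebraMap (algebraMap C K).injective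
  have hp' : w (p : F) < 1 := by rw [← map_natCast ι, hw]; exact B.vp
  refine ⟨F, inferInstance, inferInstance, le_antisymm (hd.card_le hK)
    (continuum_le w hc ⟨p, ?_, hp'.ne⟩), ?_⟩
  · rw [← map_natCast ι, map_ne_zero]
    exact_mod_cast hp
  -- the automorphism
  have vσ' : ∀ x, B.v (B.σ.symm x) = B.v x := fun x => by
    rw [← B.vσ, AlgEquiv.apply_symm_apply]
  obtain ⟨g, hg, vg⟩ := hext (ι.toAddMonoidHom.comp (B.σ : K →+* K).toAddMonoidHom)
    (fun x => by simp [hw, B.vσ])
  obtain ⟨g', hg', vg'⟩ := hext (ι.toAddMonoidHom.comp (B.σ.symm : K →+* K).toAddMonoidHom)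
    (fun x => by simp [hw, vσ'])
  replace hg : ∀ x, g (ι x) = ι (B.σ x) := hg
  replace hg' : ∀ x, g' (ι x) = ι (B.σ.symm x) := hg'
  have hgg' : ∀ z, g (g' z) = z := hd.ext w (g.comp g') (AddMonoidHom.id F) 1
    (fun z => by simpa using (vg _).trans (vg' z)) (fun z => by simp)
    (fun x => by simp [hg, hg'])
  have hg'g : ∀ z, g' (g z) = z := hd.ext w (g'.comp g) (AddMonoidHom.id F) 1
    (fun z => by simpa using (vg' _).trans (vg z)) (fun z => by simp)
    (fun x => by simp [hg, hg'])
  let σ : F ≃ₐ[C] F :=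
    { toFun := g
      invFun := g'
      left_inv := hg'g
      right_inv := hgg'
      map_mul' := hd.map_mul g vg fun x x' => by rw [← map_mul, hg, hg, hg, map_mul, map_mul]
      map_add' := g.map_add
      commutes' := fun c => by rw [hC, hg, AlgEquiv.commutes] }
  have hσ : ∀ x, σ (ι x) = ι (B.σ x) := hg
  have vσ : ∀ z, w (σ z) = w z := fun z =>
    le_antisymm (vg z) (by have h := vg' (g z); rw [hg'g] at h; exact h)
  have hσj : ∀ (j : ℕ) x, (σ ^ j) (ι x) = ι ((B.σ ^ j) x) := by
    intro j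
    induction j with
    | zero => intro x; rfl
    | succ j ih => intro x; rw [pow_succ, pow_succ, AlgEquiv.mul_apply, AlgEquiv.mul_apply, hσ, ih]
  have vσj : ∀ (j : ℕ) z, w ((σ ^ j) z) = w z := by
    intro j
    induction j with
    | zero => intro x; rfl
    | succ j ih => intro x; rw [pow_succ, AlgEquiv.mul_apply, ih, vσ]
  have σn : σ ^ n = 1 := by
    ext z
    exact hd.ext w ((σ ^ n : F ≃ₐ[C] F) : F →+* F).toAddMonoidHom (AddMonoidHom.id F) 1
      (fun z => by simpa using (vσj n z).le) (fun z => by simp)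
      (fun x => by simp [hσj, B.σn]) z
  -- the derivations
  have hD : ∀ i, ∃ D : Derivation C F F, (∀ x, D (ι x) = ι (B.D i x)) ∧ ∀ z, w (D z) ≤ w z := by
    intro i
    obtain ⟨d, hdd, vd⟩ := hext (ι.toAddMonoidHom.comp (B.D i).toLinearMap.toAddMonoidHom)
      (fun x => by simpa [hw] using B.vD i x)
    replace hdd : ∀ x, d (ι x) = ι (B.D i x) := hdd
    have hl := hd.leibniz d vd fun x x' => by
      rw [← map_mul, hdd, hdd, hdd, Derivation.leibniz]; simp
    refine ⟨Derivation.mk'
      { toFun := d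
        map_add' := d.map_add
        map_smul' := fun c z => by
          rw [Algebra.smul_def, hl, hC, hdd, Derivation.map_algebraMap, map_zero, mul_zero,
            add_zero, RingHom.id_apply, Algebra.smul_def, hC] } (fun a b => hl a b), hdd, vd⟩
  choose D hD vD using hD
  -- the refined valuation ring
  obtain ⟨V, hV, Vle, Vι⟩ := hd.exists_vs B.V fun x hx => by rw [hw]; exact B.fine.le x hx
  refine ⟨
    { v := w
      vp := hp'
      vgrp := fun z => ?_
      cpl := hc
      s := fun i => ι (B.s i)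
      vs := fun i => by rw [hw]; exact B.vs i
      vss := fun i j h => by rw [← map_sub, hw]; exact B.vss i j h
      σ := σ
      σn := σn
      σs := fun i => by rw [hσ, B.σs]
      vσ := vσ
      D := D
      Ds := fun i j => by rw [hD, B.Ds]; split_ifs <;> simp
      vD := vD
      Dcomm := fun i j => hd.ext w
        ((D i).toLinearMap.toAddMonoidHom.comp (D j).toLinearMap.toAddMonoidHom)
        ((D j).toLinearMap.toAddMonoidHom.comp (D i).toLinearMap.toAddMonoidHom) 1
        (fun z => by simpa using (vD i _).trans (vD j z))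
        (fun z => by simpa using (vD j _).trans (vD i z))
        (fun x => by simp [hD, B.Dcomm i j])
      σD := fun i => hd.ext w (g.comp (D i).toLinearMap.toAddMonoidHom)
        ((D (i + 1)).toLinearMap.toAddMonoidHom.comp g) 1
        (fun z => by simpa using (vg _).trans (vD i z))
        (fun z => by simpa using (vD (i + 1) _).trans (vg z))
        (fun x => by simp [hD, hg, B.σD])
      V := V
      fine := ⟨Vle, fun c hc => ?_, fun z hz => ?_⟩
      σV := fun z => ?_ }⟩
  · obtain ⟨x, hx⟩ := hd.val z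
    obtain ⟨c, hc⟩ := B.vgrp x
    exact ⟨c, by rw [hC, hw, hc, ← hw, hx]⟩
  · rw [hC, Vι]
    exact B.fine.const c (by rwa [hC, hw] at hc)
  · obtain ⟨x, hx, hz'⟩ := (hV z).1 hz
    obtain ⟨c, hc1, hc2⟩ := B.fine.res x hx
    refine ⟨c, by rwa [hC, hw], ?_⟩
    have h1 : z - ι x ∈ V.nonunits := mem_of_val_lt_one w V Vle hz'
    have h2 : ι (x - algebraMap C K c) ∈ V.nonunits := by
      rw [← ValuationSubring.mem_nonunits_iff, ValuationSubring.mem_nonunits_iff_or] at hc2
      rw [ValuationSubring.mem_nonunits_iff_or, ← map_inv₀, Vι, map_eq_zero]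
      exact hc2
    have h3 : z - algebraMap C F c = (z - ι x) + ι (x - algebraMap C K c) := by
      rw [hC, map_sub]; ring
    rw [← ValuationSubring.mem_nonunits_iff, h3]
    exact add_mem h1 h2
  · rw [hV, hV]
    constructor
    · rintro ⟨x, hx, hz⟩
      refine ⟨B.σ.symm x, (B.σV _).1 (by simpa using hx), ?_⟩
      rw [← vσ, map_sub, hσ, AlgEquiv.apply_symm_apply]
      exact hz
    · rintro ⟨x, hx, hz⟩
      refine ⟨B.σ x, (B.σV _).2 hx, ?_⟩
      rw [← hσ, ← map_sub, vσ]
      exact hz

end Crest.Agent.T170.Base
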