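import Crest.Agent.T170.EllB_61

-- ▼ part T170/OrdA_16
section

/-!
# Row 170, module D4 (helper16), part A: multiplication by `n` on points

* `exists_ratfun` : the `x`-coordinate of `n • T` is a rational function of the `x`-coordinate
  of `T` (a weak form of the division polynomials);
* `nsmul_surjective` : over an algebraically closed field, `[n]` is onto unless it is zero.
-/

set_option autoImplicit false

namespace Crest.Agent.T170.Ord

open WeierstrassCurve WeierstrassCurve.Affine Polynomial Crest.Agent.T170.Ell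
  Crest.Agent.T170.Ell.Place

/-- Over an algebraically closed field every `x` is the abscissa of a point. -/
theorem exists_y {K : Type*} [Field K] [IsAlgClosed K] (V : Affine K) (x : K) :
    ∃ y, V.Equation x y := by
  have hd : (X ^ 2 + C (V.a₁ * x + V.a₃) * X -
      C (x ^ 3 + V.a₂ * x ^ 2 + V.a₄ * x + V.a₆) : K[X]).degree = 2 := by
    compute_degree!
  obtain ⟨y, hy⟩ := IsAlgClosed.exists_root _ (by rw [hd]; decide :
    (X ^ 2 + C (V.a₁ * x + V.a₃) * X -
      C (x ^ 3 + V.a₂ * x ^ 2 + V.a₄ * x + V.a₆) : K[X]).degree ≠ 0)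
  refine ⟨y, (equation_iff _ _).mpr ?_⟩
  simp only [IsRoot.def, eval_sub, eval_add, eval_mul, eval_pow, eval_X, eval_C] at hy
  linear_combination hy

variable {R : Type*} [CommRing R] (W : Affine R) [W.IsElliptic]

section

variable {F L : Type*} [Field F] [Field L] [Algebra R F] [Algebra R L] [Algebra F L]
  [IsScalarTower R F L] [DecidableEq L] {W}

/-- The abscissa of a multiple of the generic point is a rational function of `x`. -/
theorem gen_ratfun {x y : L} (h : IsGen W F x y) {n : ℕ} {X₁ Y₁ : L}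
    {h₁ : (W⁄L).Nonsingular X₁ Y₁} (e : n • h.pt = .some X₁ Y₁ h₁) :
    ∃ a b : F[X], IsCoprime a b ∧ a ≠ 0 ∧ X₁ * aeval x a = aeval x b := by
  classical
  obtain ⟨f, hf, hfx, hfy⟩ := h.exists_algHom (IsScalarTower.toAlgHom R F L)
    ((equation_neg _ _).mpr h.eqn) fun p hp => h.eval₂_ne_zero hp
  have hp : Point.map f h.pt = -h.pt := by
    rw [IsGen.pt, Point.map_some, Point.neg_some, Point.some.injEq]
    exact ⟨hfx, hfy⟩
  have hX : f X₁ = X₁ := by
    have := congrArg (Point.map f) e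
    rw [map_nsmul, hp, smul_neg, e, Point.map_some, Point.neg_some, Point.some.injEq] at this
    exact this.1.symm
  have hfa : ∀ p : F[X], f (aeval x p) = aeval x p := fun p => by
    rw [aeval_eq_sum_range, map_sum]
    refine Finset.sum_congr rfl fun i _ => ?_
    rw [Algebra.smul_def, map_mul, map_pow, hfx, hf]
    rfl
  obtain ⟨p, q, r, hr, hz⟩ := h.exists_eq_div X₁
  have hr' : aeval x r ≠ 0 := h.eval₂_ne_zero hr
  have e1 : X₁ * aeval x r = aeval x p + aeval x q * y := by rw [hz, div_mul_cancel₀ _ hr']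
  have e2 := congrArg f e1
  rw [map_mul, map_add, map_mul, hX, hfa, hfa, hfa, hfy, e1] at e2
  have hq : q = 0 := by
    by_contra hq
    have a1 : (W⁄L).a₁ = algebraMap F L (W⁄F).a₁ := IsScalarTower.algebraMap_apply R F L _
    have a3 : (W⁄L).a₃ = algebraMap F L (W⁄F).a₃ := IsScalarTower.algebraMap_apply R F L _
    have e3 : aeval x (q * (C (W⁄F).a₁ * X + C (W⁄F).a₃)) + aeval x (q * C 2) * y = 0 := by
      simp only [map_mul, map_add, aeval_C, aeval_X, ← a1, ← a3, map_ofNat]
      simp only [negY] at e2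
      linear_combination e2
    obtain ⟨h1, h2⟩ := h.basis_eq_zero e3
    have h2' : (2 : F) = 0 := C_eq_zero.mp ((mul_eq_zero.mp h2).resolve_left hq)
    have h1' := (mul_eq_zero.mp h1).resolve_left hq
    have c1 : (W⁄F).a₁ = 0 := by simpa using congrArg (coeff · 1) h1'
    have c3 : (W⁄F).a₃ = 0 := by simpa using congrArg (coeff · 0) h1'
    have hΔ : (W⁄F).Δ ≠ 0 := (WeierstrassCurve.isUnit_Δ (W⁄F)).ne_zero
    apply hΔ
    have h4 : (4 : F) = 0 := by linear_combination 2 * h2'
    simp only [Δ, b₂, b₄, b₆, b₈, c1, c3, h2', h4]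
    ring
  rw [hq, map_zero, zero_mul, add_zero] at e1
  refine ⟨r / gcd r p, p / gcd r p, isCoprime_div_gcd_div_gcd_of_gcd_ne_zero
    (fun h0 => hr ((gcd_eq_zero_iff _ _).mp h0).1), ?_, ?_⟩
  · exact left_div_gcd_ne_zero hr
  · have hg : gcd r p ≠ 0 := fun h0 => hr ((gcd_eq_zero_iff _ _).mp h0).1
    have hg' : aeval x (gcd r p) ≠ 0 := h.eval₂_ne_zero hg
    apply mul_left_cancel₀ hg'
    rw [mul_left_comm, ← map_mul, ← map_mul,
      EuclideanDomain.mul_div_cancel' hg (gcd_dvd_left _ _),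
      EuclideanDomain.mul_div_cancel' hg (gcd_dvd_right _ _), e1]

end

variable {K : Type*} [Field K] [IsAlgClosed K] [Algebra R K] [DecidableEq K]

/-- If `[n]` is not zero on `W(K)`, it does not kill the generic point. -/
theorem nsmul_gen_ne_zero {L : Type*} [Field L] [Algebra R L] [Algebra K L]
    [IsScalarTower R K L] [DecidableEq L] {x y : L} (h : IsGen W K x y) {n : ℕ}
    (hn : ∃ T : (W⁄K).Point, n • T ≠ 0) : n • h.pt ≠ 0 := by
  obtain ⟨T, hT⟩ := hn
  have hT0 : T ≠ 0 := by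
    rintro rfl
    exact hT (smul_zero _)
  obtain ⟨Q, hQ, -, e, -⟩ := h.exists_red_pt (AlgHom.id R K) hT0
  intro h0
  apply hT
  rw [← e, ← map_nsmul, h0, map_zero]

/-- **Weak division polynomials.** -/
theorem exists_ratfun {n : ℕ} (hn : ∃ T : (W⁄K).Point, n • T ≠ 0) :
    ∃ a b : K[X], a ≠ 0 ∧ ∀ (x y : K) (h : (W⁄K).Nonsingular x y),
      (n • Point.some x y h = 0 ↔ a.eval x = 0) ∧
      ∀ (X₁ Y₁ : K) (h₁ : (W⁄K).Nonsingular X₁ Y₁), n • Point.some x y h = .some X₁ Y₁ h₁ →
        X₁ * a.eval x = b.eval x := by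
  classical
  have hg := isGen_functionField W K
  set s := algebraMap (W⁄K).CoordinateRing (W⁄K).FunctionField (CoordinateRing.mk _ (C X))
  set t := algebraMap (W⁄K).CoordinateRing (W⁄K).FunctionField (CoordinateRing.mk _ X)
  have h0 := nsmul_gen_ne_zero W hg hn
  rcases e : n • hg.pt with _ | ⟨U, V, hUV⟩
  · exact absurd e h0
  obtain ⟨a, b, hab, ha, hU⟩ := gen_ratfun hg e
  refine ⟨a, b, ha, fun x y h => ?_⟩
  obtain ⟨Q, hc, hx, hy⟩ := hg.exists_place (AlgHom.id R K) h.1
  have hQK : Q.Over K := hc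
  have hQ : Q.Over R := fun r => by
    rw [IsScalarTower.algebraMap_apply R K (W⁄K).FunctionField]
    exact hc _
  have e1 : n • Point.some x y h = red W hQ (.some U V hUV) := by
    rw [← e, map_nsmul, IsGen.pt, red_some_of_sp hQ _ hx hy]
  have sa := hQK.sp_aeval hx a
  have sb := hQK.sp_aeval hx b
  rw [coe_aeval_eq_eval] at sa sb
  have key : ∀ (X₁ Y₁ : K) (h₁ : (W⁄K).Nonsingular X₁ Y₁),
      n • Point.some x y h = .some X₁ Y₁ h₁ → X₁ * a.eval x = b.eval x := by
    intro X₁ Y₁ h₁ e2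
    rw [e1, red_some_eq_some_iff] at e2
    have := e2.1.mul sa
    rw [hU] at this
    exact this.unique sb
  refine ⟨⟨fun e2 => ?_, fun e2 => ?_⟩, key⟩
  · rw [e1, red_some_eq_zero_iff] at e2
    by_contra hne
    apply e2
    rw [eq_div_of_mul_eq (sa.ne_zero hne) hU]
    exact (sb.div sa hne).mem
  · rcases e3 : n • Point.some x y h with _ | ⟨X₁, Y₁, h₁⟩
    · rfl
    · exfalso
      have e4 := key X₁ Y₁ h₁ e3
      rw [e2, mul_zero] at e4
      obtain ⟨u, v, huv⟩ := hab
      have := congrArg (eval x) huv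
      simp [e2, ← e4] at this

/-- Over an algebraically closed field `[n]` is onto unless it is zero. -/
theorem nsmul_surjective {n : ℕ} (hn : ∃ T : (W⁄K).Point, n • T ≠ 0) (S : (W⁄K).Point) :
    ∃ T : (W⁄K).Point, n • T = S := by
  classical
  have hg := isGen_functionField W K
  set s := algebraMap (W⁄K).CoordinateRing (W⁄K).FunctionField (CoordinateRing.mk _ (C X))
  set t := algebraMap (W⁄K).CoordinateRing (W⁄K).FunctionField (CoordinateRing.mk _ X)
  have h0 := nsmul_gen_ne_zero W hg hn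
  rcases e : n • hg.pt with _ | ⟨U, V, hUV⟩
  · exact absurd e h0
  have hover : ∀ Q : Place (W⁄K).FunctionField K, Q.Over K → Q.Over R := fun Q hc r => by
    rw [IsScalarTower.algebraMap_apply R K (W⁄K).FunctionField]
    exact hc _
  have hU : Transcendental K U := by
    intro halg
    have hd := IsAlgClosed.degree_eq_one_of_irreducible K (minpoly.irreducible halg.isIntegral)
    obtain ⟨c, hc⟩ := minpoly.mem_range_of_degree_eq_one K U hd
    have hx : ∀ T : (W⁄K).Point, T ≠ 0 → (n • T).xRep = ![c, 1] := by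
      intro T hT
      obtain ⟨Q, hQ, hcQ, e1, -⟩ := hg.exists_red_pt (AlgHom.id R K) hT
      have sU : Q.Sp U c := hc ▸ hcQ c
      rw [← e1, ← map_nsmul, e, red_some_of_sp hQ _ sU (sp_val (y_mem hQ hUV.1 sU.mem))]
      rfl
    obtain ⟨y₀, hy₀⟩ := exists_y (W⁄K) 0
    obtain ⟨y₁, hy₁⟩ := exists_y (W⁄K) 1
    set T₀ : (W⁄K).Point := .some 0 y₀ (equation_iff_nonsingular.mp hy₀) with hT₀
    set T₁ : (W⁄K).Point := .some 1 y₁ (equation_iff_nonsingular.mp hy₁) with hT₁
    have hne : ¬(T₀ = T₁ ∨ T₀ = -T₁) := fun h => zero_ne_one (Point.X_eq_iff.mpr h)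
    have hz : ∀ T : (W⁄K).Point, n • T = 0 → T = 0 := fun T hT => by
      by_contra hT0
      have := hx T hT0
      rw [hT, Point.xRep_zero] at this
      simpa using congrFun this 1
    rcases Point.eq_or_eq_neg_of_xRep_eq_xRep
      ((hx T₀ (Point.some_ne_zero _)).trans (hx T₁ (Point.some_ne_zero _)).symm) with h | h
    · exact hne (Or.inl (sub_eq_zero.mp (hz _ (by rw [smul_sub, h, sub_self]))))
    · exact hne (Or.inr (add_eq_zero_iff_eq_neg.mp (hz _ (by rw [smul_add, h, neg_add_cancel]))))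
  rcases S with _ | ⟨X₀, Y₀, hS⟩
  · exact ⟨0, smul_zero _⟩
  obtain ⟨Q, hQ⟩ := exists_place (aeval U : K[X] →ₐ[K] (W⁄K).FunctionField).toRingHom
    (evalRingHom X₀) fun b hb => by
      by_contra hne
      exact hU ⟨b, fun hb0 => hne (by rw [hb0, map_zero]), hb⟩
  have hQK : Q.Over K := fun c => by simpa using hQ (C c)
  have sU : Q.Sp U X₀ := by simpa using hQ X
  have e1 : n • red W (hover Q hQK) hg.pt = .some X₀ _ (nonsingular_sp (hover Q hQK) hUV.1 sU
      (sp_val (y_mem (hover Q hQK) hUV.1 sU.mem))) := by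
    rw [← map_nsmul, e]
    exact red_some_of_sp _ _ sU (sp_val (y_mem (hover Q hQK) hUV.1 sU.mem))
  rcases (Point.X_eq_iff (h₁ := hS) (h₂ := nonsingular_sp (hover Q hQK) hUV.1 sU
      (sp_val (y_mem (hover Q hQK) hUV.1 sU.mem)))).mp rfl with h | h
  · exact ⟨_, e1.trans h.symm⟩
  · exact ⟨-red W (hover Q hQK) hg.pt, by rw [smul_neg, e1, h]⟩

/-- From a point of order `p` to a point of order `p ^ a`. -/
theorem exists_addOrderOf_pow {p : ℕ} [Fact p.Prime] (hn : ∃ T : (W⁄K).Point, p • T ≠ 0)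
    (h1 : ∃ T : (W⁄K).Point, addOrderOf T = p) (a : ℕ) :
    ∃ T : (W⁄K).Point, addOrderOf T = p ^ a := by
  have key : ∀ a : ℕ, ∃ T : (W⁄K).Point, p ^ a • T ≠ 0 ∧ p ^ (a + 1) • T = 0 := by
    intro a
    induction a with
    | zero =>
      obtain ⟨T, hT⟩ := h1
      refine ⟨T, ?_, ?_⟩
      · rw [pow_zero, one_smul]
        rintro rfl
        rw [addOrderOf_zero] at hT
        exact (Fact.out : p.Prime).one_lt.ne hT
      · rw [zero_add, pow_one, ← hT, addOrderOf_nsmul_eq_zero]
    | succ a ih =>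
      obtain ⟨S, h₁, h₂⟩ := ih
      obtain ⟨T, rfl⟩ := nsmul_surjective W hn S
      rw [smul_smul, ← pow_succ] at h₁ h₂
      exact ⟨T, h₁, h₂⟩
  rcases a with _ | a
  · exact ⟨0, by simp⟩
  · obtain ⟨T, h₁, h₂⟩ := key a
    exact ⟨T, addOrderOf_eq_prime_pow h₁ h₂⟩

end Crest.Agent.T170.Ord
end

-- ▼ part T170/OrdB_16
section

/-!
# Row 170, module D4 (helper16), part B: an ordinary elliptic curve in every characteristic

`exists_ordinary` : over an algebraically closed field of characteristic `p` there is an elliptic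
curve with a point of order `p` (and a point not killed by `p`).  For odd `p` the points of a curve
with Hasse invariant `1` over a finite field are counted modulo `p`.
-/

set_option autoImplicit false

namespace Crest.Agent.T170.Ord

open WeierstrassCurve WeierstrassCurve.Affine Polynomial Crest.Agent.T170.Ell

section Count

variable {F : Type*} [Field F]

theorem sum_pow_of_lt [Fintype F] {i : ℕ} (hi : i < 2 * (Fintype.card F - 1)) :
    ∑ x : F, x ^ i = if i = Fintype.card F - 1 then -1 else 0 := by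
  classical
  have hq : 1 < Fintype.card F := Fintype.one_lt_card
  rcases lt_or_ge i (Fintype.card F - 1) with h | h
  · rw [if_neg h.ne, FiniteField.sum_pow_lt_card_sub_one F i h]
  have hi0 : i ≠ 0 := by omega
  let φ : Fˣ ↪ F := ⟨fun x ↦ x, Units.val_injective⟩
  have e : Finset.univ.map φ = Finset.univ \ {0} := by
    ext x
    simpa only [Finset.mem_map, Finset.mem_univ, Function.Embedding.coeFn_mk, true_and,
      Finset.mem_sdiff, Finset.mem_singleton, φ] using! isUnit_iff_ne_zero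
  have e1 : ∑ x : F, x ^ i = ∑ x : Fˣ, (x ^ i : F) := by
    rw [← Finset.sum_sdiff ({0} : Finset F).subset_univ, Finset.sum_singleton, zero_pow hi0,
      add_zero, ← e, Finset.sum_map]
    rfl
  rw [e1, FiniteField.sum_pow_units F i]
  congr 1
  apply propext
  constructor
  · rintro ⟨c, rfl⟩
    rcases c with _ | _ | c
    · simp at hi0
    · simp
    · exfalso
      have : (Fintype.card F - 1) * (c + 1 + 1) ≥ (Fintype.card F - 1) * 2 :=
        Nat.mul_le_mul_left _ (by omega)
      omega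
  · rintro rfl
    exact dvd_rfl

theorem sum_eval_eq [Fintype F] {g : F[X]} (hg : g.natDegree < 2 * (Fintype.card F - 1)) :
    ∑ x : F, g.eval x = -g.coeff (Fintype.card F - 1) := by
  classical
  simp only [eval_eq_sum_range' hg]
  rw [Finset.sum_comm]
  have : ∀ i ∈ Finset.range (2 * (Fintype.card F - 1)), ∑ x : F, g.coeff i * x ^ i =
      if i = Fintype.card F - 1 then -g.coeff i else 0 := by
    intro i hi
    rw [← Finset.mul_sum, sum_pow_of_lt (Finset.mem_range.mp hi)]
    split_ifs <;> simp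
  rw [Finset.sum_congr rfl this, Finset.sum_ite_eq', if_pos]
  have hq : 1 < Fintype.card F := Fintype.one_lt_card
  rw [Finset.mem_range]
  omega

/-- The Hasse invariant over `F_{p^r}` from the Hasse invariant over the prime field. -/
theorem coeff_pow_eq_one {p m : ℕ} [Fact p.Prime] [CharP F p] (hp : p = 2 * m + 1) {f : F[X]}
    (hf : f.natDegree ≤ 3) (hA : (f ^ m).coeff (2 * m) = 1) (r : ℕ) :
    ∃ e : ℕ, p ^ r = 2 * e + 1 ∧ (f ^ e).coeff (2 * e) = 1 := by
  induction r with
  | zero => exact ⟨0, by simp, by simp⟩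
  | succ r ih =>
    obtain ⟨e, he, hc⟩ := ih
    have hp0 : 0 < p := by omega
    refine ⟨m + e * p, by rw [pow_succ, he]; nth_rewrite 1 [hp]; nth_rewrite 1 [hp]; ring, ?_⟩
    rw [pow_add, pow_mul, ← map_frobenius_expand p, coeff_mul,
      Finset.sum_eq_single (2 * m, p * (2 * e))]
    · rw [hA, coeff_map, coeff_expand_mul' hp0, hc, map_one, one_mul]
    · rintro ⟨i, j⟩ hij hne
      rw [Finset.HasAntidiagonal.mem_antidiagonal] at hij
      simp only at hij ⊢
      rw [coeff_map, coeff_expand hp0]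
      split_ifs with hd
      · obtain ⟨c, rfl⟩ := hd
        have hdeg : (f ^ m).natDegree ≤ m * 3 :=
          natDegree_pow_le.trans (Nat.mul_le_mul_left _ hf)
        rcases lt_trichotomy c (2 * e) with h | h | h
        · rw [coeff_eq_zero_of_natDegree_lt, zero_mul]
          have : p * (c + 1) ≤ p * (2 * e) := Nat.mul_le_mul_left _ h
          have e1 : p * (c + 1) = p * c + p := by ring
          have e2 : 2 * (m + e * p) = 2 * m + p * (2 * e) := by ring
          omega
        · exfalso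
          apply hne
          have e2 : 2 * (m + e * p) = 2 * m + p * (2 * e) := by ring
          rw [h] at hij ⊢
          rw [Prod.mk.injEq]
          exact ⟨by omega, rfl⟩
        · exfalso
          have : p * (2 * e + 1) ≤ p * c := Nat.mul_le_mul_left _ h
          have e1 : p * (2 * e + 1) = p * (2 * e) + p := by ring
          have e2 : 2 * (m + e * p) = 2 * m + p * (2 * e) := by ring
          omega
      · rw [map_zero, mul_zero]
    · intro h
      exfalso
      apply h
      rw [Finset.HasAntidiagonal.mem_antidiagonal]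
      ring

/-- A curve with Hasse invariant `1` over a finite field has a point of order `p`. -/
theorem exists_point_of_hasse [Finite F] [DecidableEq F] {p m : ℕ} [Fact p.Prime] [CharP F p]
    (hp : p = 2 * m + 1) (V : Affine F) [V.IsElliptic] (h₁ : V.a₁ = 0) (h₃ : V.a₃ = 0)
    (hA : ((X ^ 3 + C V.a₂ * X ^ 2 + C V.a₄ * X + C V.a₆) ^ m).coeff (2 * m) = 1) :
    ∃ T : V.Point, addOrderOf T = p := by
  classical
  have := Fintype.ofFinite F
  set f : F[X] := X ^ 3 + C V.a₂ * X ^ 2 + C V.a₄ * X + C V.a₆ with hfdef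
  have hf : f.natDegree ≤ 3 := by rw [hfdef]; compute_degree
  obtain ⟨r, -, hr⟩ := FiniteField.card F p
  obtain ⟨e, he, hc⟩ := coeff_pow_eq_one hp hf hA r
  rw [← hr] at he
  have hq : 1 < Fintype.card F := Fintype.one_lt_card
  have h2 : ringChar F ≠ 2 := by
    rw [ringChar.eq F p]
    omega
  have : Finite V.Point := @Finite.of_equiv _ _
    (inferInstanceAs (Finite (Option {xy : F × F // V.Equation xy.1 xy.2}))) (pointEquiv V).symm
  refine exists_prime_addOrderOf_dvd_card' p ((CharP.cast_eq_zero_iff F p _).mp ?_)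
  have e1 : Nat.card V.Point = Nat.card {xy : F × F // V.Equation xy.1 xy.2} + 1 := by
    rw [Nat.card_congr (pointEquiv V)]
    exact Finite.card_option
  have e2 : Nat.card {xy : F × F // V.Equation xy.1 xy.2} =
      ∑ x : F, {y : F | y ^ 2 = f.eval x}.toFinset.card := by
    have : {xy : F × F // V.Equation xy.1 xy.2} ≃ Σ x : F, {y : F | y ^ 2 = f.eval x} :=
      (Equiv.subtypeEquivRight fun xy => by
        rw [equation_iff, h₁, h₃, hfdef]
        simp).trans (Equiv.subtypeProdEquivSigmaSubtype fun x y : F => y ^ 2 = f.eval x)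
    rw [Nat.card_congr this, Nat.card_sigma]
    refine Finset.sum_congr rfl fun x _ => ?_
    rw [Nat.card_eq_fintype_card, Set.toFinset_card]
  have e3 : ∀ x : F, (({y : F | y ^ 2 = f.eval x}.toFinset.card : ℕ) : F) =
      (f ^ e).eval x + 1 := by
    intro x
    have := congrArg (Int.cast : ℤ → F) (quadraticChar_card_sqrts h2 (f.eval x))
    rw [Int.cast_natCast, Int.cast_add, Int.cast_one,
      quadraticChar_eq_pow_of_char_ne_two' h2] at this
    rw [this, eval_pow]
    congr 2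
    omega
  have hdeg : (f ^ e).natDegree < 2 * (Fintype.card F - 1) := by
    have : (f ^ e).natDegree ≤ e * 3 := natDegree_pow_le.trans (Nat.mul_le_mul_left _ hf)
    omega
  rw [e1, e2, Nat.cast_add, Nat.cast_sum, Finset.sum_congr rfl fun x _ => e3 x,
    Finset.sum_add_distrib, sum_eval_eq hdeg, show Fintype.card F - 1 = 2 * e by omega, hc]
  simp

end Count

/-- Parameters of a curve `y² = x³ + a x² + b x` with Hasse invariant `1`. -/
theorem exists_hasse_params (k : Type*) [Field k] [IsAlgClosed k] {m : ℕ} (hm : 0 < m) :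
    ∃ a b : k, b ≠ 0 ∧ a ^ 2 - 4 * b ≠ 0 ∧
      ((X ^ 3 + C a * X ^ 2 + C b * X : k[X]) ^ m).coeff (2 * m) = 1 := by
  let H : k[X] := ((X ^ 3 + X ^ 2 + C X * X : k[X][X]) ^ m).coeff (2 * m)
  have hH : ∀ l : k, H.eval l = ((X ^ 3 + X ^ 2 + C l * X : k[X]) ^ m).coeff (2 * m) := by
    intro l
    rw [← coe_evalRingHom, ← coeff_map]
    simp
  have hH0 : H.eval 0 = 1 := by
    rw [hH, map_zero, zero_mul, add_zero,
      show (X ^ 3 + X ^ 2 : k[X]) ^ m = (X + 1) ^ m * X ^ (2 * m) by rw [pow_mul, ← mul_pow]; ring]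
    have := coeff_mul_X_pow ((X + 1 : k[X]) ^ m) (2 * m) 0
    rw [zero_add] at this
    rw [this, coeff_zero_eq_eval_zero]
    simp
  have hne : (X * ((1 - C 4 * X) * H) : k[X]) ≠ 0 := by
    refine mul_ne_zero X_ne_zero fun h0 => ?_
    have := congrArg (eval 0) h0
    simp [hH0] at this
  obtain ⟨l, hl⟩ : ∃ l : k, (X * ((1 - C 4 * X) * H) : k[X]).eval l ≠ 0 := by
    by_contra hcon
    push Not at hcon
    exact hne (zero_of_eval_zero _ hcon)
  simp only [eval_mul, eval_X, eval_sub, eval_one, eval_C, mul_ne_zero_iff] at hl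
  obtain ⟨hl0, hl1, hl2⟩ := hl
  obtain ⟨u, hu⟩ := IsAlgClosed.exists_pow_nat_eq (H.eval l)⁻¹ hm
  have hu0 : u ≠ 0 := by
    rintro rfl
    rw [zero_pow hm.ne'] at hu
    exact inv_ne_zero hl2 hu.symm
  refine ⟨u, u ^ 2 * l, mul_ne_zero (pow_ne_zero 2 hu0) hl0, ?_, ?_⟩
  · rw [show u ^ 2 - 4 * (u ^ 2 * l) = u ^ 2 * (1 - 4 * l) by ring]
    exact mul_ne_zero (pow_ne_zero 2 hu0) hl1
  · have e1 : ((X ^ 3 + C u * X ^ 2 + C (u ^ 2 * l) * X : k[X]) ^ m).comp (C u * X) =
        C (u ^ (3 * m)) * (X ^ 3 + X ^ 2 + C l * X : k[X]) ^ m := by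
      rw [pow_comp, pow_mul, C_pow, ← mul_pow]
      congr 1
      simp only [add_comp, mul_comp, pow_comp, X_comp, C_comp, C_mul, C_pow]
      ring
    have e2 := congrArg (coeff · (2 * m)) e1
    simp only [comp_C_mul_X_coeff, coeff_C_mul] at e2
    rw [← hH] at e2
    apply mul_right_cancel₀ (pow_ne_zero (2 * m) hu0)
    rw [e2, show 3 * m = 2 * m + m by ring, pow_add, hu, one_mul, mul_assoc, inv_mul_cancel₀ hl2,
      mul_one]

/-- **Ordinary elliptic curves exist in every characteristic.** -/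
theorem exists_ordinary (k : Type*) [Field k] [IsAlgClosed k] [DecidableEq k] (p : ℕ)
    [Fact p.Prime] [CharP k p] :
    ∃ V : Affine k, V.IsElliptic ∧ (∃ T : V.Point, addOrderOf T = p) ∧
      ∃ T : V.Point, p • T ≠ 0 := by
  classical
  rcases (Fact.out : p.Prime).eq_two_or_odd' with rfl | ⟨m, hp⟩
  · have h2 : (2 : k) = 0 := CharP.cast_eq_zero k 2
    let V : Affine k := ⟨1, 0, 0, 0, 1⟩
    have hΔ : V.Δ = 1 := by
      simp only [V, Δ, b₂, b₄, b₆, b₈]
      linear_combination (-217 : k) * h2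
    have hV : V.IsElliptic := ⟨by rw [hΔ]; exact isUnit_one⟩
    have e1 : V.Equation 0 1 := by simp [equation_iff, V]
    have e2 : V.Equation 1 0 := by
      simp only [equation_iff, V]
      linear_combination (-1 : k) * h2
    refine ⟨V, hV, ⟨.some 0 1 (equation_iff_nonsingular.mp e1), addOrderOf_eq_prime ?_
      (Point.some_ne_zero _)⟩, .some 1 0 (equation_iff_nonsingular.mp e2), ?_⟩
    · rw [two_nsmul, Point.add_self_of_Y_eq]
      simp only [negY, V]
      linear_combination h2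
    · rw [two_nsmul, Point.add_self_of_Y_ne]
      · exact Point.some_ne_zero _
      · simp [negY, V]
  · have hm : 0 < m := by
      have := (Fact.out : p.Prime).one_lt
      omega
    let k₀ := AlgebraicClosure (ZMod p)
    obtain ⟨a, b, hb, hab, hA⟩ := exists_hasse_params k₀ hm
    let F := IntermediateField.adjoin (ZMod p) ({a, b} : Set k₀)
    have : FiniteDimensional (ZMod p) F := IntermediateField.finiteDimensional_adjoin fun x _ =>
      Algebra.IsIntegral.isIntegral x
    have : Finite F := Module.finite_of_finite (ZMod p)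
    have : CharP F p := charP_of_injective_algebraMap (algebraMap (ZMod p) F).injective p
    let a' : F := ⟨a, IntermediateField.subset_adjoin _ _ (by simp)⟩
    let b' : F := ⟨b, IntermediateField.subset_adjoin _ _ (by simp)⟩
    let _ : Algebra (ZMod p) k := ZMod.algebra k p
    let φ : F →ₐ[ZMod p] k := IsAlgClosed.lift
    let _ : Algebra F k := φ.toRingHom.toAlgebra
    let V : Affine F := ⟨0, a', 0, b', 0⟩
    have h2 : (2 : F) ≠ 0 := by
      intro h
      have := (CharP.cast_eq_zero_iff F p 2).mp h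
      have := Nat.le_of_dvd two_pos this
      omega
    have hb' : b' ≠ 0 := fun h => hb (congrArg Subtype.val h)
    have hab' : a' ^ 2 - 4 * b' ≠ 0 := fun h => hab (congrArg Subtype.val h)
    have hΔ : V.Δ = 2 ^ 4 * b' ^ 2 * (a' ^ 2 - 4 * b') := by
      simp only [V, Δ, b₂, b₄, b₆, b₈]
      ring
    have hV : V.IsElliptic := ⟨by
      rw [hΔ]
      exact (mul_ne_zero (mul_ne_zero (pow_ne_zero 4 h2) (pow_ne_zero 2 hb')) hab').isUnit⟩
    obtain ⟨T, hT⟩ := exists_point_of_hasse hp (V⁄F) rfl rfl (by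
      apply (algebraMap F k₀).injective
      rw [← coeff_map, map_one, ← hA]
      congr 1
      simp [V, a', b', Affine.baseChange, WeierstrassCurve.baseChange])
    have e0 : (V⁄k).Equation 0 0 := by
      simp [equation_iff, V, Affine.baseChange, WeierstrassCurve.baseChange]
    refine ⟨V⁄k, inferInstance, ⟨Point.baseChange F k T, ?_⟩,
      .some 0 0 (equation_iff_nonsingular.mp e0), ?_⟩
    · rw [addOrderOf_injective _ (Point.map_injective _), hT]
    · have h0 : (2 : ℕ) • (Point.some 0 0 (equation_iff_nonsingular.mp e0) : (V⁄k).Point) = 0 := by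
        rw [two_nsmul, Point.add_self_of_Y_eq]
        simp [negY, V, Affine.baseChange, WeierstrassCurve.baseChange]
      have key : ∀ S : (V⁄k).Point, (2 : ℕ) • S = 0 → p • S = S := fun S hS => by
        have : (2 * m + 1) • S = S := by
          rw [add_smul, mul_comm, mul_smul, hS, smul_zero, zero_add, one_smul]
        exact (congrArg (· • S) hp).trans this
      rw [key _ h0]
      exact Point.some_ne_zero _

end Crest.Agent.T170.Ord
end

-- ▼ part T170/OrdC_16

/-!
# Row 170, module D4 (helper16), part C: lifting torsion points along a place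

* `exists_red_eq` : reduction of points is onto;
* `exists_torsion_lift` : an `n`-torsion point of the reduction lifts to an `n`-torsion point;
* `exists_ordinary_lift` : an elliptic curve with good reduction and a point `T` with
  `p ^ a • T = 0` whose reduction has exact order `p ^ a`.
-/

set_option autoImplicit false

namespace Crest.Agent.T170.Ord

open WeierstrassCurve WeierstrassCurve.Affine Polynomial Crest.Agent.T170.Ell
  Crest.Agent.T170.Ell.Place

variable {C k : Type*} [Field C] [Field k] {P : Place C k}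

theorem exists_mul_sub {x₀ x₁ r : C} {c : k} (h₀ : P.Sp x₀ c) (h₁ : x₁ ∈ P.A) (hr : ¬P.Sp r c) :
    ∃ u ∈ P.A, x₁ - r = u * (x₀ - r) := by
  by_cases hm : r ∈ P.A
  · have hd : c - P.val r ≠ 0 := fun h => hr (sub_eq_zero.mp h ▸ sp_val hm)
    have s := h₀.sub (sp_val hm)
    exact ⟨_, (((sp_val h₁).sub (sp_val hm)).div s hd).mem,
      (div_mul_cancel₀ _ (s.ne_zero hd)).symm⟩
  · obtain ⟨hr0, hi⟩ := not_mem_iff.mp hm
    have s : P.Sp (1 - x₀ * r⁻¹) 1 := by simpa using sp_one.sub (h₀.mul hi)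
    have s' : P.Sp (1 - x₁ * r⁻¹) 1 := by simpa using sp_one.sub ((sp_val h₁).mul hi)
    refine ⟨_, (s'.div s one_ne_zero).mem, ?_⟩
    have hne := s.ne_zero one_ne_zero
    rw [div_mul_eq_mul_div, eq_div_iff hne]
    field_simp
    ring

/-- Either a polynomial has a root with the same value as `x₀`, or its value at `x₀` divides all
its values at finite elements. -/
theorem root_or_dvd [IsAlgClosed C] {a : C[X]} (ha : a ≠ 0) {x₀ x₁ : C} {c : k} (h₀ : P.Sp x₀ c)
    (h₁ : x₁ ∈ P.A) :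
    (∃ r, a.eval r = 0 ∧ P.Sp r c) ∨ ∃ u ∈ P.A, a.eval x₁ = u * a.eval x₀ := by
  refine or_iff_not_imp_left.mpr fun hno => ?_
  have key : ∀ s : Multiset C, (∀ r ∈ s, ¬P.Sp r c) →
      ∃ u ∈ P.A, (s.map (x₁ - ·)).prod = u * (s.map (x₀ - ·)).prod := by
    intro s
    induction s using Multiset.induction_on with
    | empty => exact fun _ => ⟨1, one_mem _, by simp⟩
    | cons r s ih =>
      intro hs
      obtain ⟨u, hu, e⟩ := ih fun r hr => hs r (Multiset.mem_cons_of_mem hr)
      obtain ⟨w, hw, e'⟩ := exists_mul_sub h₀ h₁ (hs r (Multiset.mem_cons_self _ _))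
      refine ⟨w * u, mul_mem hw hu, ?_⟩
      rw [Multiset.map_cons, Multiset.map_cons, Multiset.prod_cons, Multiset.prod_cons, e, e']
      ring
  obtain ⟨u, hu, e⟩ := key a.roots fun r hr hs => hno ⟨r, ((mem_roots ha).mp hr), hs⟩
  refine ⟨u, hu, ?_⟩
  rw [(IsAlgClosed.splits a).eval_eq_prod_roots, (IsAlgClosed.splits a).eval_eq_prod_roots, e]
  ring

variable {R : Type*} [CommRing R] [Algebra R C] [Algebra R k] (W : Affine R) [W.IsElliptic]
  [DecidableEq C] [DecidableEq k]

/-- A point whose abscissa reduces to that of `S` reduces to `± S`. -/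
theorem exists_red_eq_of_sp [IsAlgClosed C] (hP : P.Over R) {a b : k}
    (hS : (W⁄k).Nonsingular a b) {x : C} (hx : P.Sp x a) :
    ∃ (y : C) (h : (W⁄C).Nonsingular x y), red W hP (.some x y h) = .some a b hS := by
  obtain ⟨y, hy⟩ := exists_y (W⁄C) x
  have h : (W⁄C).Nonsingular x y := equation_iff_nonsingular.mp hy
  have sy := sp_val (y_mem hP hy hx.mem)
  have e := red_some_of_sp hP h hx sy
  rcases (Point.X_eq_iff (h₁ := hS) (h₂ := nonsingular_sp hP h.1 hx sy)).mp rfl with h' | h'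
  · exact ⟨y, h, e.trans h'.symm⟩
  · refine ⟨_, (nonsingular_neg ..).mpr h, ?_⟩
    rw [← Point.neg_some h, map_neg, e, h']

/-- Reduction of points is onto. -/
theorem exists_red_eq [IsAlgClosed C] (hP : P.Over R) (hs : ∀ a : k, ∃ x, P.Sp x a)
    (S : (W⁄k).Point) : ∃ T : (W⁄C).Point, red W hP T = S := by
  rcases S with _ | ⟨a, b, hS⟩
  · exact ⟨0, map_zero _⟩
  obtain ⟨x, hx⟩ := hs a
  obtain ⟨y, h, e⟩ := exists_red_eq_of_sp W hP hS hx
  exact ⟨_, e⟩

/-- **Torsion points lift to torsion points.** -/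
theorem exists_torsion_lift [IsAlgClosed C] [IsAlgClosed k] (hP : P.Over R)
    (hs : ∀ a : k, ∃ x, P.Sp x a) {n : ℕ} (hn : ∃ S : (W⁄k).Point, n • S ≠ 0)
    {S : (W⁄k).Point} (hS : n • S = 0) :
    ∃ T : (W⁄C).Point, n • T = 0 ∧ red W hP T = S := by
  classical
  rcases S with _ | ⟨c, d, hcd⟩
  · exact ⟨0, smul_zero _, map_zero _⟩
  have hn' : ∃ T : (W⁄C).Point, n • T ≠ 0 := by
    obtain ⟨S, hS⟩ := hn
    obtain ⟨T, rfl⟩ := exists_red_eq W hP hs S
    exact ⟨T, fun h => hS (by rw [← map_nsmul, h, map_zero])⟩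
  obtain ⟨a, b, ha, hab⟩ := exists_ratfun W hn'
  obtain ⟨a', b', ha', hab'⟩ := exists_ratfun W hn
  by_cases hroot : ∃ r, a.eval r = 0 ∧ P.Sp r c
  · obtain ⟨r, hr, sr⟩ := hroot
    obtain ⟨y, h, e⟩ := exists_red_eq_of_sp W hP hcd sr
    exact ⟨_, (hab r y h).1.mpr hr, e⟩
  exfalso
  obtain ⟨x₀, hx₀⟩ := hs c
  obtain ⟨y₀, h₀, e₀⟩ := exists_red_eq_of_sp W hP hcd hx₀
  have ha₀ : a.eval x₀ ≠ 0 := fun h => hroot ⟨x₀, h, hx₀⟩
  rcases e₁ : n • Point.some x₀ y₀ h₀ with _ | ⟨X₀, Y₀, H₀⟩
  · exact ha₀ ((hab x₀ y₀ h₀).1.mp e₁)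
  have hX₀ : X₀ ∉ P.A := by
    rw [← red_some_eq_zero_iff hP H₀, ← e₁, map_nsmul, e₀, hS]
  obtain ⟨hX0, hXi⟩ := not_mem_iff.mp hX₀
  have eb₀ := (hab x₀ y₀ h₀).2 X₀ Y₀ H₀ e₁
  have hb₀ : b.eval x₀ ≠ 0 := eb₀ ▸ mul_ne_zero hX0 ha₀
  have hb : b ≠ 0 := by
    rintro rfl
    exact hb₀ eval_zero
  have key : ∀ c₁ : k, a'.eval c₁ ≠ 0 → ∃ r ∈ b.roots, P.val r = c₁ := by
    intro c₁ hc₁
    obtain ⟨d₁, hd₁⟩ := exists_y (W⁄k) c₁
    have n₁ : (W⁄k).Nonsingular c₁ d₁ := equation_iff_nonsingular.mp hd₁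
    obtain ⟨x₁, hx₁⟩ := hs c₁
    obtain ⟨y₁, h₁, e₂⟩ := exists_red_eq_of_sp W hP n₁ hx₁
    have hne : red W hP (n • Point.some x₁ y₁ h₁) ≠ 0 := by
      rw [map_nsmul, e₂]
      exact fun h => hc₁ ((hab' c₁ d₁ n₁).1.mp h)
    rcases e₃ : n • Point.some x₁ y₁ h₁ with _ | ⟨X₁, Y₁, H₁⟩
    · rw [e₃] at hne
      exact absurd (map_zero _) hne
    rw [e₃, Ne, red_some_eq_zero_iff, not_not] at hne
    have eb₁ := (hab x₁ y₁ h₁).2 X₁ Y₁ H₁ e₃
    obtain ⟨u, hu, eu⟩ := (root_or_dvd ha hx₀ hx₁.mem).resolve_left hroot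
    rcases root_or_dvd hb hx₁ hx₀.mem with ⟨r, hr, sr⟩ | ⟨w, hw, ew⟩
    · exact ⟨r, (mem_roots hb).mpr hr, sr.val_eq⟩
    · exfalso
      apply hX₀
      rw [← eb₀, ← eb₁, eu, ← mul_assoc, ← mul_assoc] at ew
      rw [mul_right_cancel₀ ha₀ ew]
      exact mul_mem (mul_mem hw hne) hu
  have hfin : (Set.univ : Set k).Finite := by
    refine Set.Finite.subset ((a'.roots.toFinset ∪ b.roots.toFinset.image P.val).finite_toSet)
      fun c₁ _ => ?_
    rw [Finset.mem_coe, Finset.mem_union]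
    by_cases hc₁ : a'.eval c₁ = 0
    · exact Or.inl (Multiset.mem_toFinset.mpr ((mem_roots ha').mpr hc₁))
    · obtain ⟨r, hr, e⟩ := key c₁ hc₁
      exact Or.inr (Finset.mem_image.mpr ⟨r, Multiset.mem_toFinset.mpr hr, e⟩)
  exact Set.infinite_univ hfin

omit W in
/-- **Ordinary good reduction with a torsion point of exact order `p ^ a`.**  `R` is any ring
mapping onto the residue field `k` in which elements with non-zero residue are units (e.g. the
valuation ring of the place). -/
theorem exists_ordinary_lift [IsAlgClosed C] [IsAlgClosed k] (p : ℕ) [Fact p.Prime] [CharP k p]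
    (hP : P.Over R) (hs : Function.Surjective (algebraMap R k))
    (hu : ∀ r : R, algebraMap R k r ≠ 0 → IsUnit r) :
    ∃ (W : Affine R) (_ : W.IsElliptic), ∀ a : ℕ, ∃ T : (W⁄C).Point,
      p ^ a • T = 0 ∧ addOrderOf (red W hP T) = p ^ a := by
  obtain ⟨V, hV, h1, hn⟩ := exists_ordinary k p
  obtain ⟨W, rfl⟩ : ∃ W : Affine R, W⁄k = V := by
    obtain ⟨r₁, e₁⟩ := hs V.a₁
    obtain ⟨r₂, e₂⟩ := hs V.a₂
    obtain ⟨r₃, e₃⟩ := hs V.a₃
    obtain ⟨r₄, e₄⟩ := hs V.a₄
    obtain ⟨r₆, e₆⟩ := hs V.a₆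
    exact ⟨⟨r₁, r₂, r₃, r₄, r₆⟩, WeierstrassCurve.ext e₁ e₂ e₃ e₄ e₆⟩
  have hW : W.IsElliptic := ⟨hu _ (by
    rw [← map_Δ]
    exact hV.isUnit.ne_zero)⟩
  refine ⟨W, hW, fun a => ?_⟩
  have hs' : ∀ c : k, ∃ x, P.Sp x c := fun c => by
    obtain ⟨r, rfl⟩ := hs c
    exact ⟨_, hP r⟩
  obtain ⟨S, hS⟩ := exists_addOrderOf_pow W hn h1 a
  obtain ⟨S', hS'⟩ := exists_addOrderOf_pow W hn h1 (a + 1)
  have hn' : p ^ a • S' ≠ 0 := fun h => by
    have h2 := addOrderOf_dvd_of_nsmul_eq_zero h
    rw [hS', Nat.pow_dvd_pow_iff_le_right (Fact.out : p.Prime).one_lt] at h2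
    omega
  obtain ⟨T, hT, e⟩ := exists_torsion_lift W hP hs' ⟨S', hn'⟩
    (S := S) (by rw [← hS, addOrderOf_nsmul_eq_zero])
  exact ⟨T, hT, by rw [e, hS]⟩

end Crest.Agent.T170.Ord
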