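import Crest.Agent.R170.S4b_262

-- ▼ part T170/Smith_13
section

/-!
# Row 170 (T170), module B: the finite Smith lemma (helper13)

* `sum_stab_eq_zero`, `dvd_sum_of_bad` : abstract form.  A finite group `R` acts on a finite type
  `Ω` with an invariant weight `f`; `bad` is an upward closed, conjugation invariant family of
  subgroups such that the weighted number of fixed points of every bad subgroup is `0`.  Then
  every common divisor of the indices of the good subgroups divides the total weight.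
* `smith` : `N ◁ Γ` finite, `S ≤ Γ` a `p`-subgroup with `N S = Γ`; `T` a set of homomorphisms
  `N → G` stable under conjugation by `G` and by `Γ`.  If the image of every extension
  `Γ → G` of a member of `T` has a nontrivial normal `p`-subgroup then
  `p |G|_p ∣ ∑_{ρ ∈ T} s_p(im ρ)` (`smith_of_sup`; `smith` assumes `Γ / N` a `p`-group).
* `HasOp p A` : `A` has a nontrivial normal `p`-subgroup; `HasOp.of_normal`, `HasOp.sA_eq_zero`.
-/

set_option autoImplicit false
open scoped BigOperators Classical Pointwise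

namespace Crest.Agent.T170.Smith13

open Crest.Agent.R170

section Abstract
variable {R Ω : Type*} [Group R] [Finite R] [MulAction R Ω] [Fintype Ω]

/-- the weighted number of points with a given bad stabiliser vanishes -/
theorem sum_stab_eq_zero (f : Ω → ℤ) (bad : Subgroup R → Prop)
    (hup : ∀ Q Q' : Subgroup R, Q ≤ Q' → bad Q → bad Q')
    (hfix : ∀ Q, bad Q →
      ∑ ω ∈ Finset.univ.filter (fun ω : Ω => Q ≤ MulAction.stabilizer R ω), f ω = 0) :
    ∀ Q, bad Q →
      ∑ ω ∈ Finset.univ.filter (fun ω : Ω => MulAction.stabilizer R ω = Q), f ω = 0 := by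
  have := Fintype.ofFinite R
  have := Fintype.ofFinite (Subgroup R)
  intro Q
  induction Q using WellFoundedGT.induction with
  | ind Q ih =>
    intro hQ
    have h1 := hfix Q hQ
    rw [← Finset.sum_fiberwise (s := Finset.univ.filter
      (fun ω : Ω => Q ≤ MulAction.stabilizer R ω)) (g := fun ω => MulAction.stabilizer R ω)] at h1
    rw [← Finset.add_sum_erase _ _ (Finset.mem_univ Q)] at h1
    rw [Finset.sum_eq_zero (s := Finset.univ.erase Q), add_zero] at h1
    · rw [← h1]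
      refine Finset.sum_congr ?_ (fun _ _ => rfl)
      ext ω
      simp only [Finset.mem_filter, Finset.mem_univ, true_and]
      constructor
      · intro h; exact ⟨h.ge, h⟩
      · intro h; exact h.2
    · intro Q' hQ'
      have hne : Q' ≠ Q := Finset.ne_of_mem_erase hQ'
      by_cases hle : Q ≤ Q'
      · rw [← ih Q' (lt_of_le_of_ne hle hne.symm) (hup _ _ hle hQ)]
        refine Finset.sum_congr ?_ (fun _ _ => rfl)
        ext ω
        simp only [Finset.mem_filter, Finset.mem_univ, true_and]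
        constructor
        · intro h; exact h.2
        · intro h; exact ⟨h ▸ hle, h⟩
      · refine Finset.sum_eq_zero ?_
        intro ω hω
        simp only [Finset.mem_filter, Finset.mem_univ, true_and] at hω
        exact absurd (hω.2 ▸ hω.1) hle

/-- **abstract Smith lemma** -/
theorem dvd_sum_of_bad (f : Ω → ℤ) (hf : ∀ (g : R) ω, f (g • ω) = f ω)
    (bad : Subgroup R → Prop)
    (hup : ∀ Q Q' : Subgroup R, Q ≤ Q' → bad Q → bad Q')
    (hconj : ∀ (g : R) (ω : Ω), bad (MulAction.stabilizer R ω) →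
      bad (MulAction.stabilizer R (g • ω)))
    (hfix : ∀ Q, bad Q →
      ∑ ω ∈ Finset.univ.filter (fun ω : Ω => Q ≤ MulAction.stabilizer R ω), f ω = 0)
    (m : ℕ) (hm : ∀ Q : Subgroup R, ¬ bad Q → m ∣ Q.index) :
    (m : ℤ) ∣ ∑ ω, f ω := by
  have := Fintype.ofFinite R
  have := Fintype.ofFinite (Subgroup R)
  have h0 := sum_stab_eq_zero f bad hup hfix
  have h1 : ∑ ω ∈ Finset.univ.filter (fun ω : Ω => bad (MulAction.stabilizer R ω)), f ω = 0 := by
    rw [← Finset.sum_fiberwise (s := Finset.univ.filter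
      (fun ω : Ω => bad (MulAction.stabilizer R ω))) (g := fun ω => MulAction.stabilizer R ω)]
    refine Finset.sum_eq_zero ?_
    intro Q _
    by_cases hQ : bad Q
    · rw [← h0 Q hQ]
      refine Finset.sum_congr ?_ (fun _ _ => rfl)
      ext ω
      simp only [Finset.mem_filter, Finset.mem_univ, true_and]
      constructor
      · intro h; exact h.2
      · intro h; exact ⟨h ▸ hQ, h⟩
    · refine Finset.sum_eq_zero ?_
      intro ω hω
      simp only [Finset.mem_filter, Finset.mem_univ, true_and] at hω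
      exact absurd (hω.2 ▸ hω.1) hQ
  rw [← Finset.sum_filter_add_sum_filter_not Finset.univ
    (fun ω : Ω => bad (MulAction.stabilizer R ω)), h1, zero_add, Finset.sum_filter]
  rw [← Finset.sum_fiberwise (Finset.univ : Finset Ω)
    (fun x => (Quotient.mk (MulAction.orbitRel R Ω) x))]
  refine Finset.dvd_sum ?_
  intro q _
  obtain ⟨x0, rfl⟩ := Quotient.exists_rep q
  have h2 : ∀ x ∈ (Finset.univ : Finset Ω).filter (fun x =>
      (Quotient.mk (MulAction.orbitRel R Ω) x) = Quotient.mk (MulAction.orbitRel R Ω) x0),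
      (if ¬ bad (MulAction.stabilizer R x) then f x else 0) =
        (if ¬ bad (MulAction.stabilizer R x0) then f x0 else 0) := by
    intro x hx
    rw [Finset.mem_filter] at hx
    have h2 := Quotient.exact hx.2
    obtain ⟨g, hg⟩ := (MulAction.orbitRel_apply.1 h2)
    simp only at hg
    have h3 : bad (MulAction.stabilizer R x) ↔ bad (MulAction.stabilizer R x0) := by
      constructor
      · intro h
        have := hconj g⁻¹ _ h
        rwa [← hg, inv_smul_smul] at this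
      · intro h
        rw [← hg]; exact hconj g _ h
    rw [h3, ← hg, hf]
  rw [Finset.sum_congr rfl h2, Finset.sum_const, nsmul_eq_mul]
  have h3 : ((Finset.univ : Finset Ω).filter (fun x =>
      (Quotient.mk (MulAction.orbitRel R Ω) x) = Quotient.mk (MulAction.orbitRel R Ω) x0)).card
      = (MulAction.stabilizer R x0).index := by
    rw [MulAction.index_stabilizer, Set.ncard_eq_toFinset_card']
    congr 1
    ext x
    simp only [Finset.mem_filter, Finset.mem_univ, true_and, Set.mem_toFinset]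
    rw [Quotient.eq]
    exact MulAction.orbitRel_apply
  rw [h3]
  by_cases hb : bad (MulAction.stabilizer R x0)
  · rw [if_neg (not_not.2 hb), mul_zero]; exact dvd_zero _
  · exact (Int.natCast_dvd_natCast.2 (hm _ hb)).mul_right _

end Abstract

section Index

/-- index of a good subgroup of a product of `p`-groups -/
theorem dvd_index {p : ℕ} [Fact p.Prime] {S P : Type*} [Group S] [Group P] [Finite S] [Finite P]
    (hS : IsPGroup p S) (Q : Subgroup (S × P))
    (h1 : ∀ g : P, ((1 : S), g) ∈ Q → g = 1) (h2 : Q.map (MonoidHom.fst S P) ≠ ⊤) :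
    p * Nat.card P ∣ Q.index := by
  have hinj : Function.Injective ((MonoidHom.fst S P).comp Q.subtype) := by
    rw [injective_iff_map_eq_one]
    rintro ⟨⟨s, g⟩, hx⟩ h
    have hs : s = 1 := h
    subst hs
    have := h1 g hx
    subst this
    rfl
  have hc : Nat.card Q = Nat.card (Q.map (MonoidHom.fst S P)) := by
    have e : Q.map (MonoidHom.fst S P) = ((MonoidHom.fst S P).comp Q.subtype).range := by
      rw [MonoidHom.range_comp, Subgroup.range_subtype]
    rw [e]
    exact Nat.card_congr (MonoidHom.ofInjective hinj).toEquiv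
  have h3 := Q.index_mul_card
  have h4 := (Q.map (MonoidHom.fst S P)).index_mul_card
  rw [Nat.card_prod, ← h4, hc] at h3
  have h5 : Q.index = (Q.map (MonoidHom.fst S P)).index * Nat.card P := by
    have hpos : 0 < Nat.card (Q.map (MonoidHom.fst S P)) := Nat.card_pos
    apply Nat.eq_of_mul_eq_mul_right hpos
    rw [h3]; ring
  rw [h5]
  apply Nat.mul_dvd_mul_right
  obtain ⟨n, hn⟩ := hS.index (Q.map (MonoidHom.fst S P))
  rw [hn]
  apply dvd_pow_self
  rintro rfl
  rw [pow_zero, Subgroup.index_eq_one] at hn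
  exact h2 hn

end Index

section Ext
variable {Γ G : Type*} [Group Γ] [Group G]

/-- gluing of `ρ : N → G` and `φ : S → G` when `N S = Γ` -/
theorem exists_ext (N S : Subgroup Γ) [hN : N.Normal] (hNS : N ⊔ S = ⊤) (ρ : N →* G) (φ : S →* G)
    (hc : ∀ (s : S) (x : N), ρ ⟨s * x * s⁻¹, hN.conj_mem _ x.2 _⟩ = φ s * ρ x * (φ s)⁻¹)
    (hi : ∀ (s : S) (h : (s : Γ) ∈ N), ρ ⟨s, h⟩ = φ s) :
    ∃ ρ' : Γ →* G, ρ'.comp N.subtype = ρ ∧ ρ'.comp S.subtype = φ := by
  have hdec : ∀ y : Γ, ∃ (x : N) (s : S), (x : Γ) * s = y := by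
    intro y
    have hy : y ∈ ((N ⊔ S : Subgroup Γ) : Set Γ) := by rw [hNS]; trivial
    rw [Subgroup.normal_mul] at hy
    obtain ⟨x, hx, s, hs, rfl⟩ := hy
    exact ⟨⟨x, hx⟩, ⟨s, hs⟩, rfl⟩
  choose a b hab using hdec
  have key : ∀ (x : N) (s : S), ρ (a (x * s)) * φ (b (x * s)) = ρ x * φ s := by
    intro x s
    have h := hab ((x : Γ) * s)
    set x' := a ((x : Γ) * s)
    set s' := b ((x : Γ) * s)
    have e : ((s * s'⁻¹ : S) : Γ) = ((x⁻¹ * x' : N) : Γ) := by
      push_cast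
      rw [mul_inv_eq_iff_eq_mul, mul_assoc, h]; group
    have hm : ((s * s'⁻¹ : S) : Γ) ∈ N := by rw [e]; exact Subtype.mem _
    have h1 := hi _ hm
    have h2 : (⟨((s * s'⁻¹ : S) : Γ), hm⟩ : N) = x⁻¹ * x' := Subtype.ext e
    rw [h2, map_mul, map_mul, map_inv, map_inv] at h1
    calc ρ x' * φ s' = ρ x * ((ρ x)⁻¹ * ρ x') * φ s' := by group
      _ = ρ x * φ s := by rw [h1]; group
  refine ⟨MonoidHom.mk' (fun y => ρ (a y) * φ (b y)) ?_, ?_, ?_⟩
  · intro y z
    have e : y * z = ((a y * ⟨b y * a z * (b y)⁻¹, hN.conj_mem _ (a z).2 _⟩ : N) : Γ) *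
        ((b y * b z : S) : Γ) := by
      conv_lhs => rw [← hab y, ← hab z]
      push_cast
      group
    conv_lhs => rw [e, key]
    rw [map_mul, map_mul, hc]
    group
  · ext x
    have := key x 1
    simpa using this
  · ext s
    have := key 1 s
    simpa using this

end Ext

section Hom
variable {Γ G : Type} [Group Γ] [Group G]

/-- the action of `Γ × G` on `Hom(N, G)` -/
def act (N : Subgroup Γ) [N.Normal] (r : Γ × G) (ρ : N →* G) : N →* G :=
  (MulAut.conj r.2).toMonoidHom.comp (ρ.comp (MulAut.conjNormal r.1⁻¹ : MulAut N).toMonoidHom)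

theorem act_apply (N : Subgroup Γ) [hN : N.Normal] (r : Γ × G) (ρ : N →* G) (x : N) :
    act N r ρ x = r.2 * ρ ⟨r.1⁻¹ * x * r.1⁻¹⁻¹, hN.conj_mem _ x.2 _⟩ * r.2⁻¹ := rfl

theorem range_act (N : Subgroup Γ) [N.Normal] (r : Γ × G) (ρ : N →* G) :
    (act N r ρ).range = ρ.range.map (MulAut.conj r.2).toMonoidHom := by
  unfold act
  rw [MonoidHom.range_comp, MonoidHom.range_comp,
    (MonoidHom.range_eq_top (f := (MulAut.conjNormal r.1⁻¹ : MulAut N).toMonoidHom)).2
      (MulAut.conjNormal r.1⁻¹ : MulAut N).surjective,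
    ← MonoidHom.range_eq_map]

/-- pairs (homomorphism, finite set of subgroups) -/
def Om (N : Subgroup Γ) (G : Type) [Group G] : Type := (N →* G) × Finset (Subgroup G)

/-- constructor -/
def mkOm {N : Subgroup Γ} (ρ : N →* G) (C : Finset (Subgroup G)) : Om N G := (ρ, C)

theorem mkOm_fst {N : Subgroup Γ} (ρ : N →* G) (C : Finset (Subgroup G)) : (mkOm ρ C).1 = ρ := rfl

theorem mkOm_snd {N : Subgroup Γ} (ρ : N →* G) (C : Finset (Subgroup G)) : (mkOm ρ C).2 = C := rfl

noncomputable instance omAct (N : Subgroup Γ) [N.Normal] : MulAction (Γ × G) (Om N G) where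
  smul r ω := (act N r ω.1, ConjAct.toConjAct r.2 • ω.2)
  one_smul ω := by
    refine Prod.ext ?_ ?_
    · show act N 1 ω.1 = ω.1
      ext x
      rw [act_apply]
      simp
    · show ConjAct.toConjAct (1 : G) • ω.2 = ω.2
      simp
  mul_smul r r' ω := by
    refine Prod.ext ?_ ?_
    · show act N (r * r') ω.1 = act N r (act N r' ω.1)
      ext x
      rw [act_apply, act_apply, act_apply]
      have e : (⟨(r * r').1⁻¹ * x * (r * r').1⁻¹⁻¹, Subgroup.Normal.conj_mem inferInstance _ x.2 _⟩ : N) =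
          ⟨r'.1⁻¹ * (r.1⁻¹ * x * r.1⁻¹⁻¹) * r'.1⁻¹⁻¹, Subgroup.Normal.conj_mem inferInstance _
            (Subgroup.Normal.conj_mem inferInstance _ x.2 _) _⟩ := by
        apply Subtype.ext
        simp only [Prod.fst_mul]
        group
      rw [e]
      simp only [Prod.snd_mul]
      group
    · show ConjAct.toConjAct (r * r').2 • ω.2 =
        ConjAct.toConjAct r.2 • ConjAct.toConjAct r'.2 • ω.2
      rw [Prod.snd_mul, map_mul, mul_smul]

theorem smul_fst (N : Subgroup Γ) [N.Normal] (r : Γ × G) (ω : Om N G) :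
    (r • ω).1 = act N r ω.1 := rfl

theorem smul_snd (N : Subgroup Γ) [N.Normal] (r : Γ × G) (ω : Om N G) :
    (r • ω).2 = ConjAct.toConjAct r.2 • ω.2 := rfl

theorem smul_chain_eq_iff [Finite G] {p : ℕ} (C : Finset (Subgroup G)) (hC : Toggle262.PChain p C)
    (g : G) : ConjAct.toConjAct g • C = C ↔ g ∈ Toggle262.st C := by
  constructor
  · intro h
    rw [Toggle262.mem_st]
    intro P hP
    have h2 := S4262.smul_mem_of_chain _ C hC h P hP
    rw [Subgroup.mem_normalizer_iff]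
    intro y
    have h3 : ConjAct.toConjAct g • y ∈ ConjAct.toConjAct g • P ↔ y ∈ P :=
      Subgroup.smul_mem_pointwise_smul_iff
    rw [h2, ConjAct.smul_def] at h3
    exact h3.symm
  · intro hg
    have h := Toggle262.mem_st.1 hg
    have h2 : ∀ P ∈ C, ConjAct.toConjAct g • P = P := by
      intro P hP
      ext y
      rw [Subgroup.mem_pointwise_smul_iff_inv_smul_mem, ConjAct.smul_def]
      have h3 := Subgroup.mem_normalizer_iff.1 (Subgroup.inv_mem _ (h P hP)) y
      simpa using h3.symm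
    ext P
    rw [S4262.mem_smul_chain]
    constructor
    · rintro ⟨Q, hQ, rfl⟩
      rw [h2 Q hQ]; exact hQ
    · intro hP
      exact ⟨P, hP, h2 P hP⟩

/-- `A` has a nontrivial normal `p`-subgroup -/
def HasOp (p : ℕ) (A : Subgroup G) : Prop :=
  ∃ U : Subgroup G, U ≠ ⊥ ∧ IsPGroup p U ∧ U ≤ A ∧ A ≤ Subgroup.normalizer (U : Set G)

theorem HasOp.s_eq_zero [Finite G] {p : ℕ} {A : Subgroup G} (h : HasOp p A) :
    Toggle262.s p A = 0 := by
  obtain ⟨U, h1, h2, h3, h4⟩ := h
  exact Toggle262.s_eq_zero h1 h2 h3 h4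

theorem mem_normalizer_of [Finite G] {U : Subgroup G} {g : G}
    (h : ∀ u ∈ U, g * u * g⁻¹ ∈ U) : g ∈ Subgroup.normalizer (U : Set G) :=
  Subgroup.mem_normalizer_fintype (S := (U : Set G)) h

/-- the marks at bad subgroups: the group generated by `im ρ` and the second projection of `Q`
has a nontrivial normal `p`-subgroup -/
theorem hasOp_of_bad [Finite G] {p : ℕ} (N S : Subgroup Γ) [hN : N.Normal] (hNS : N ⊔ S = ⊤)
    (hS : IsPGroup p S) (P : Subgroup G) (hP : IsPGroup p P) (T : Set (N →* G))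
    (hgeo : ∀ ρ' : Γ →* G, ρ'.comp N.subtype ∈ T → HasOp p ρ'.range)
    (Q : Subgroup (S × P))
    (hQ : (∃ g : P, g ≠ 1 ∧ ((1 : S), g) ∈ Q) ∨ Q.map (MonoidHom.fst S P) = ⊤)
    (ρ : N →* G) (hρ : ρ ∈ T)
    (hfix : ∀ r ∈ Q, act N (((r.1 : S) : Γ), ((r.2 : P) : G)) ρ = ρ) :
    HasOp p (ρ.range ⊔ Q.map (P.subtype.comp (MonoidHom.snd S P))) := by
  have hfix' : ∀ r ∈ Q, ∀ x : N, ρ ⟨(r.1 : Γ) * x * (r.1 : Γ)⁻¹, hN.conj_mem _ x.2 _⟩ =
      (r.2 : G) * ρ x * (r.2 : G)⁻¹ := by
    intro r hr x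
    have h := DFunLike.congr_fun (hfix r hr) ⟨(r.1 : Γ) * x * (r.1 : Γ)⁻¹, hN.conj_mem _ x.2 _⟩
    rw [act_apply] at h
    rw [← h]
    congr 3
    apply Subtype.ext
    simp only
    group
  by_cases h1 : ∃ g : P, g ≠ 1 ∧ ((1 : S), g) ∈ Q
  · refine ⟨(Q.comap (MonoidHom.inr S P)).map P.subtype, ?_, ?_, ?_, ?_⟩
    · obtain ⟨g, hg, hgQ⟩ := h1
      intro h
      have : (g : G) ∈ (Q.comap (MonoidHom.inr S P)).map P.subtype :=
        Subgroup.mem_map_of_mem P.subtype hgQ
      rw [h, Subgroup.mem_bot] at this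
      exact hg (Subtype.ext this)
    · exact (hP.to_subgroup _).map _
    · refine le_trans ?_ le_sup_right
      rintro _ ⟨g, hg, rfl⟩
      exact ⟨(1, g), hg, rfl⟩
    · refine sup_le ?_ ?_
      · rintro _ ⟨x, rfl⟩
        apply mem_normalizer_of
        rintro _ ⟨g, hg, rfl⟩
        have h := hfix' (1, g) hg x
        simp only [OneMemClass.coe_one, one_mul, inv_one, mul_one] at h
        have e : ρ x * P.subtype g * (ρ x)⁻¹ = P.subtype g := by
          show ρ x * (g : G) * (ρ x)⁻¹ = g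
          have h' : ρ x = (g : G) * ρ x * (g : G)⁻¹ := h
          calc ρ x * (g : G) * (ρ x)⁻¹ = (g : G) * ρ x * (g : G)⁻¹ * g * (ρ x)⁻¹ := by rw [← h']
            _ = g := by group
        rw [e]
        exact Subgroup.mem_map_of_mem _ hg
      · rintro _ ⟨r, hr, rfl⟩
        apply mem_normalizer_of
        rintro _ ⟨g, hg, rfl⟩
        refine ⟨r.2 * g * r.2⁻¹, ?_, rfl⟩
        have := Q.mul_mem (Q.mul_mem hr hg) (Q.inv_mem hr)
        have e : r * (MonoidHom.inr S P g) * r⁻¹ = MonoidHom.inr S P (r.2 * g * r.2⁻¹) := by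
          refine Prod.ext ?_ ?_ <;> simp
        rw [e] at this
        exact this
  · have h2 : Q.map (MonoidHom.fst S P) = ⊤ := hQ.resolve_left h1
    have h1' : ∀ g : P, ((1 : S), g) ∈ Q → g = 1 := by
      intro g hg
      by_contra h
      exact h1 ⟨g, h, hg⟩
    have hex : ∀ s : S, ∃ g : P, (s, g) ∈ Q := by
      intro s
      have : s ∈ Q.map (MonoidHom.fst S P) := by rw [h2]; trivial
      obtain ⟨r, hr, rfl⟩ := this
      exact ⟨r.2, hr⟩
    choose φ0 hφ0 using hex
    have huniq : ∀ r ∈ Q, r.2 = φ0 r.1 := by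
      intro r hr
      have := Q.mul_mem (Q.inv_mem (hφ0 r.1)) hr
      have e : (r.1, φ0 r.1)⁻¹ * r = ((1 : S), (φ0 r.1)⁻¹ * r.2) := by
        refine Prod.ext ?_ ?_ <;> simp
      rw [e] at this
      have h3 := h1' _ this
      exact (inv_mul_eq_one.1 h3).symm
    let φ : S →* G := P.subtype.comp (MonoidHom.mk' φ0 (by
      intro s t
      exact (huniq _ (Q.mul_mem (hφ0 s) (hφ0 t))).symm))
    have hφ : ∀ s, φ s = (φ0 s : G) := fun _ => rfl
    have hrange : Q.map (P.subtype.comp (MonoidHom.snd S P)) = φ.range := by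
      ext g
      constructor
      · rintro ⟨r, hr, rfl⟩
        refine ⟨r.1, ?_⟩
        rw [hφ, ← huniq r hr]; rfl
      · rintro ⟨s, rfl⟩
        exact ⟨(s, φ0 s), hφ0 s, rfl⟩
    have hc : ∀ (s : S) (x : N), ρ ⟨s * x * s⁻¹, hN.conj_mem _ x.2 _⟩ = φ s * ρ x * (φ s)⁻¹ :=
      fun s x => hfix' (s, φ0 s) (hφ0 s) x
    rw [hrange]
    -- the defect `c(s) = ρ(s)⁻¹ φ(s)` on `S ∩ N`
    have hcomm : ∀ (s : S) (h : (s : Γ) ∈ N) (x : N),
        (ρ ⟨s, h⟩)⁻¹ * φ s * ρ x = ρ x * ((ρ ⟨s, h⟩)⁻¹ * φ s) := by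
      intro s h x
      have h3 := hc s x
      have e : (⟨s * x * s⁻¹, hN.conj_mem _ x.2 _⟩ : N) = ⟨s, h⟩ * x * (⟨s, h⟩ : N)⁻¹ :=
        Subtype.ext rfl
      rw [e, map_mul, map_mul, map_inv] at h3
      calc (ρ ⟨s, h⟩)⁻¹ * φ s * ρ x = (ρ ⟨s, h⟩)⁻¹ * (φ s * ρ x * (φ s)⁻¹) * φ s := by group
        _ = _ := by rw [← h3]; group
    have hmem : ∀ s : N.subgroupOf S, ((s : S) : Γ) ∈ N := fun s => Subgroup.mem_subgroupOf.1 s.2
    let c : N.subgroupOf S →* G := MonoidHom.mk' (fun s => (ρ ⟨(s : S), hmem s⟩)⁻¹ * φ s) (by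
      intro s t
      have e : (⟨((s * t : N.subgroupOf S) : S), hmem (s * t)⟩ : N) =
          ⟨(s : S), hmem s⟩ * ⟨(t : S), hmem t⟩ := Subtype.ext rfl
      have h3 := hcomm s (hmem s) (⟨(t : S), hmem t⟩ : N)⁻¹
      rw [map_inv] at h3
      show (ρ ⟨((s * t : N.subgroupOf S) : S), hmem (s * t)⟩)⁻¹ * φ ((s : S) * (t : S)) =
        (ρ ⟨(s : S), hmem s⟩)⁻¹ * φ s * ((ρ ⟨(t : S), hmem t⟩)⁻¹ * φ t)
      rw [e, map_mul, map_mul, mul_inv_rev]
      calc (ρ ⟨(t : S), hmem t⟩)⁻¹ * (ρ ⟨(s : S), hmem s⟩)⁻¹ * (φ s * φ t)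
          = (ρ ⟨(t : S), hmem t⟩)⁻¹ * ((ρ ⟨(s : S), hmem s⟩)⁻¹ * φ s) * φ t := by group
        _ = _ := by rw [← h3]; group)
    have hcapp : ∀ s : N.subgroupOf S, c s = (ρ ⟨(s : S), hmem s⟩)⁻¹ * φ s := fun _ => rfl
    by_cases h3 : c.range = ⊥
    · obtain ⟨ρ', e1, e2⟩ := exists_ext N S hNS ρ φ hc (by
        intro s h
        have : c ⟨s, Subgroup.mem_subgroupOf.2 h⟩ ∈ c.range := ⟨_, rfl⟩
        rw [h3, Subgroup.mem_bot, hcapp] at this
        exact inv_mul_eq_one.1 this)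
      have h4 := hgeo ρ' (e1 ▸ hρ)
      have h5 : ρ'.range = ρ.range ⊔ φ.range := by
        rw [← e1, ← e2, MonoidHom.range_comp, MonoidHom.range_comp, Subgroup.range_subtype,
          Subgroup.range_subtype, ← Subgroup.map_sup, hNS, MonoidHom.range_eq_map]
      rwa [h5] at h4
    · refine ⟨c.range, h3, ?_, ?_, ?_⟩
      · rw [MonoidHom.range_eq_map]
        exact ((hS.to_subgroup _).to_subgroup _).map _
      · rintro _ ⟨s, rfl⟩
        rw [hcapp]
        exact Subgroup.mul_mem_sup (Subgroup.inv_mem _ ⟨_, rfl⟩) ⟨_, rfl⟩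
      · refine sup_le ?_ ?_
        · rintro _ ⟨x, rfl⟩
          apply mem_normalizer_of
          rintro _ ⟨s, rfl⟩
          refine ⟨s, ?_⟩
          rw [hcapp, ← hcomm (s : S) (hmem s) x]; group
        · rintro _ ⟨d, rfl⟩
          apply mem_normalizer_of
          rintro _ ⟨s, rfl⟩
          have hm : d * s * d⁻¹ ∈ N.subgroupOf S :=
            Subgroup.mem_subgroupOf.2 (hN.conj_mem _ (hmem s) _)
          refine ⟨⟨d * s * d⁻¹, hm⟩, ?_⟩
          have h4 := hc d ⟨(s : S), hmem s⟩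
          rw [hcapp, hcapp]
          show (ρ ⟨(d : Γ) * ((s : S) : Γ) * ((d⁻¹ : S) : Γ), hN.conj_mem _ (hmem s) _⟩)⁻¹ *
            φ (d * s * d⁻¹) = _
          rw [h4, map_mul, map_mul, map_inv]
          group

/-- the weight on `Om` -/
noncomputable def wt (p : ℕ) (N : Subgroup Γ) (T : Set (N →* G)) (ω : Om N G) : ℤ :=
  if ω.1 ∈ T ∧ Toggle262.PChain p ω.2 ∧ ω.1.range ≤ Toggle262.st ω.2 then (-1) ^ ω.2.card else 0

theorem wt_smul [Finite G] (p : ℕ) (N : Subgroup Γ) [N.Normal] (T : Set (N →* G)) (r : Γ × G)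
    (hT : ∀ ρ, act N r ρ ∈ T ↔ ρ ∈ T) (ω : Om N G) : wt p N T (r • ω) = wt p N T ω := by
  unfold wt
  rw [smul_fst, smul_snd, hT, S4262.pchain_smul_iff, Finset.card_smul_finset, range_act]
  have : ω.1.range.map (MulAut.conj r.2).toMonoidHom ≤
      Toggle262.st (ConjAct.toConjAct r.2 • ω.2) ↔ ω.1.range ≤ Toggle262.st ω.2 := by
    rw [Subgroup.map_le_iff_le_comap]
    refine forall₂_congr (fun x _ => ?_)
    exact S4262.st_smul (ConjAct.toConjAct r.2) ω.2 x
  rw [this]

theorem sum_chain [Finite G] [Fintype (Finset (Subgroup G))] (p : ℕ) (A : Subgroup G) :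
    ∑ C : Finset (Subgroup G),
      (if Toggle262.PChain p C ∧ A ≤ Toggle262.st C then (-1 : ℤ) ^ C.card else 0) =
      Toggle262.s p A := by
  unfold Toggle262.s
  rw [← Finset.sum_filter]
  refine Finset.sum_congr ?_ (fun _ _ => rfl)
  ext C
  simp [Toggle262.mem_chains]

/-- **The finite Smith lemma.** -/
theorem smith_aux [Finite Γ] [Finite G] [Fintype (Finset (Subgroup G))] {p : ℕ} [Fact p.Prime]
    (N S : Subgroup Γ) [hN : N.Normal] [Fintype (N →* G)] (hNS : N ⊔ S = ⊤)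
    (hS : IsPGroup p S) (T : Set (N →* G))
    (hT : ∀ (r : Γ × G) ρ, ρ ∈ T → act N r ρ ∈ T)
    (hgeo : ∀ ρ' : Γ →* G, ρ'.comp N.subtype ∈ T → HasOp p ρ'.range) :
    ((p * pPart p (Nat.card G) : ℕ) : ℤ) ∣
      ∑ ρ : N →* G, if ρ ∈ T then Toggle262.s p ρ.range else 0 := by
  obtain ⟨P⟩ : Nonempty (Sylow p G) := inferInstance
  have hPc : Nat.card P = pPart p (Nat.card G) := by
    rw [Sylow.card_eq_multiplicity, Nat.factorization_def _ Fact.out]; rfl
  let j : S × (P : Subgroup G) →* Γ × G := S.subtype.prodMap (P : Subgroup G).subtype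
  let _ : MulAction (S × (P : Subgroup G)) (Om N G) := MulAction.compHom _ j
  let _ : Fintype (Om N G) := inferInstanceAs (Fintype ((N →* G) × Finset (Subgroup G)))
  have hsm : ∀ (r : S × (P : Subgroup G)) (ω : Om N G), r • ω = j r • ω := fun _ _ => rfl
  have hT' : ∀ (r : Γ × G) ρ, act N r ρ ∈ T ↔ ρ ∈ T := by
    intro r ρ
    refine ⟨fun h => ?_, hT r ρ⟩
    have h1 := hT r⁻¹ _ h
    have h2 : (r⁻¹ • r • (mkOm ρ ∅ : Om N G)).1 = ρ := by rw [inv_smul_smul, mkOm_fst]
    rw [smul_fst, smul_fst, mkOm_fst] at h2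
    rwa [h2] at h1
  have hsum : ∀ F : Om N G → ℤ, ∑ ω, F ω = ∑ ρ : N →* G, ∑ C : Finset (Subgroup G), F (mkOm ρ C) :=
    fun F => Fintype.sum_prod_type (α₁ := N →* G) (α₂ := Finset (Subgroup G)) F
  have main := dvd_sum_of_bad (R := S × (P : Subgroup G)) (Ω := Om N G) (wt p N T)
    (fun r ω => wt_smul p N T (j r) (hT' _) ω)
    (fun Q => (∃ g : (P : Subgroup G), g ≠ 1 ∧ ((1 : S), g) ∈ Q) ∨
      Q.map (MonoidHom.fst S (P : Subgroup G)) = ⊤) ?_ ?_ ?_ (p * Nat.card P) ?_
  · rw [hsum, hPc] at main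
    refine main.trans (dvd_of_eq ?_)
    refine Finset.sum_congr rfl (fun ρ _ => ?_)
    by_cases hρ : ρ ∈ T
    · rw [if_pos hρ, ← sum_chain]
      refine Finset.sum_congr rfl (fun C _ => ?_)
      unfold wt
      simp only [mkOm_fst, mkOm_snd, hρ, true_and]
    · rw [if_neg hρ]
      refine Finset.sum_eq_zero (fun C _ => ?_)
      unfold wt
      simp only [mkOm_fst, mkOm_snd, hρ, false_and, if_false]
  · rintro Q Q' hle (⟨g, hg, hgQ⟩ | h)
    · exact Or.inl ⟨g, hg, hle hgQ⟩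
    · exact Or.inr (eq_top_iff.2 (h ▸ Subgroup.map_mono hle))
  · rintro r ω (⟨g, hg, hgQ⟩ | h)
    · refine Or.inl ⟨r.2 * g * r.2⁻¹, ?_, ?_⟩
      · intro h
        apply hg
        have : g = r.2⁻¹ * (r.2 * g * r.2⁻¹) * r.2 := by group
        rw [this, h]; group
      · have e : ((1 : S), r.2 * g * r.2⁻¹) = r * ((1 : S), g) * r⁻¹ := by
          refine Prod.ext ?_ ?_ <;> simp
        rw [MulAction.mem_stabilizer_iff] at hgQ ⊢
        rw [e, mul_smul, mul_smul, inv_smul_smul, hgQ]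
    · right
      rw [eq_top_iff]
      intro s _
      have : r.1⁻¹ * s * r.1 ∈ (MulAction.stabilizer (S × (P : Subgroup G)) ω).map
        (MonoidHom.fst S (P : Subgroup G)) := by rw [h]; trivial
      obtain ⟨q, hq, e⟩ := this
      refine ⟨r * q * r⁻¹, ?_, ?_⟩
      · have hq' : q • ω = ω := hq
        show (r * q * r⁻¹) • r • ω = r • ω
        rw [mul_smul, mul_smul, inv_smul_smul, hq']
      · have e' : q.1 = r.1⁻¹ * s * r.1 := e
        show r.1 * q.1 * r.1⁻¹ = s
        rw [e']; group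
  · intro Q hQ
    rw [Finset.sum_filter, hsum]
    refine Finset.sum_eq_zero (fun ρ _ => ?_)
    by_cases hρ : ρ ∈ T ∧ ∀ r ∈ Q, act N (j r) ρ = ρ
    · have h0 := (hasOp_of_bad N S hNS hS P P.isPGroup' T hgeo Q hQ ρ hρ.1 hρ.2).s_eq_zero
      refine Eq.trans ?_ h0
      rw [← sum_chain]
      refine Finset.sum_congr rfl (fun C _ => ?_)
      unfold wt
      by_cases hC : Toggle262.PChain p C
      · have e : Q ≤ MulAction.stabilizer (S × (P : Subgroup G)) (mkOm ρ C) ↔
            Q.map ((P : Subgroup G).subtype.comp (MonoidHom.snd S (P : Subgroup G))) ≤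
              Toggle262.st C := by
          rw [Subgroup.map_le_iff_le_comap]
          refine forall₂_congr (fun r hr => ?_)
          rw [MulAction.mem_stabilizer_iff, Subgroup.mem_comap, ← smul_chain_eq_iff C hC, hsm]
          constructor
          · intro h; exact congrArg Prod.snd h
          · intro h; exact Prod.ext (hρ.2 r hr) h
        rw [e]
        simp only [mkOm_fst, mkOm_snd, hρ.1, hC, true_and, sup_le_iff]
        by_cases h1 : ρ.range ≤ Toggle262.st C <;>
        by_cases h2 : Q.map ((P : Subgroup G).subtype.comp (MonoidHom.snd S (P : Subgroup G))) ≤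
              Toggle262.st C <;> simp [h1, h2]
      · simp [mkOm_fst, mkOm_snd, hC]
    · refine Finset.sum_eq_zero (fun C _ => ?_)
      split_ifs with h
      · unfold wt
        rw [if_neg]
        rintro ⟨h1, -⟩
        apply hρ
        refine ⟨h1, fun r hr => ?_⟩
        have h2 : r • mkOm ρ C = mkOm ρ C := h hr
        exact congrArg Prod.fst h2
      · rfl
  · intro Q hQ
    rw [not_or] at hQ
    refine dvd_index hS Q ?_ hQ.2
    intro g hg
    by_contra h
    exact hQ.1 ⟨g, h, hg⟩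

theorem s_eq_sA [Finite G] (p : ℕ) (A : Subgroup G) : Toggle262.s p A = sA p A := by
  have := Fintype.ofFinite G
  have := Fintype.ofFinite (Subgroup G)
  have : Finite (Ch p G) := by unfold Ch; infer_instance
  have := Fintype.ofFinite (Ch p G)
  have h := S4262.finsum_ch (G := G) (p := p)
    (fun C => if A ≤ Toggle262.st C then (-1 : ℤ) ^ C.card else 0)
  unfold Toggle262.s sA
  rw [Finset.sum_filter, ← h, finsum_eq_sum_of_fintype, finsum_eq_sum_of_fintype,
    ← Finset.sum_filter]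
  refine Finset.sum_subtype (p := fun σ : Ch p G => A ≤ st σ) _ ?_ (fun σ : Ch p G => sgn σ)
  intro σ
  simp only [Finset.mem_filter, Finset.mem_univ, true_and]
  rfl


theorem act_mem (N : Subgroup Γ) [N.Normal] (T : Set (N →* G))
    (hG : ∀ (g : G) ρ, ρ ∈ T → (MulAut.conj g).toMonoidHom.comp ρ ∈ T)
    (hΓ : ∀ (γ : Γ) ρ, ρ ∈ T → ρ.comp (MulAut.conjNormal γ : MulAut N).toMonoidHom ∈ T)
    (r : Γ × G) (ρ : N →* G) (h : ρ ∈ T) : act N r ρ ∈ T :=
  hG _ _ (hΓ _ _ h)

theorem finite_hom (A G : Type*) [Group A] [Group G] [Finite A] [Finite G] : Finite (A →* G) :=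
  Finite.of_injective (fun ρ : A →* G => (ρ : A → G)) DFunLike.coe_injective

/-- **The finite Smith lemma**, `Γ = N S` with `S` a `p`-group. -/
theorem smith_of_sup [Finite Γ] [Finite G] {p : ℕ} [Fact p.Prime]
    (N S : Subgroup Γ) [hN : N.Normal] (hNS : N ⊔ S = ⊤) (hS : IsPGroup p S) (T : Set (N →* G))
    (hG : ∀ (g : G) ρ, ρ ∈ T → (MulAut.conj g).toMonoidHom.comp ρ ∈ T)
    (hΓ : ∀ (γ : Γ) ρ, ρ ∈ T → ρ.comp (MulAut.conjNormal γ : MulAut N).toMonoidHom ∈ T)
    (hgeo : ∀ ρ' : Γ →* G, ρ'.comp N.subtype ∈ T → HasOp p ρ'.range) :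
    ((p * pPart p (Nat.card G) : ℕ) : ℤ) ∣ ∑ᶠ ρ : T, sA p (ρ : N →* G).range := by
  have := Fintype.ofFinite G
  have := Fintype.ofFinite (Subgroup G)
  have := finite_hom N G
  have := Fintype.ofFinite (N →* G)
  have h := smith_aux N S hNS hS T (act_mem N T hG hΓ) hgeo
  rw [← Finset.sum_filter] at h
  rw [finsum_eq_sum_of_fintype]
  refine h.trans (dvd_of_eq ?_)
  rw [Finset.sum_subtype (p := fun ρ : N →* G => ρ ∈ T) _ (by simp)]
  exact Finset.sum_congr rfl (fun ρ _ => s_eq_sA p _)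

/-- a Sylow subgroup supplements a normal subgroup with `p`-group quotient -/
theorem sup_sylow [Finite Γ] {p : ℕ} [Fact p.Prime] (N : Subgroup Γ) [N.Normal]
    (hq : IsPGroup p (Γ ⧸ N)) (S : Sylow p Γ) : N ⊔ (S : Subgroup Γ) = ⊤ := by
  have h1 : (N ⊔ (S : Subgroup Γ)).index ∣ N.index := Subgroup.index_dvd_of_le le_sup_left
  have h2 : (N ⊔ (S : Subgroup Γ)).index ∣ (S : Subgroup Γ).index :=
    Subgroup.index_dvd_of_le le_sup_right
  obtain ⟨n, hn⟩ := IsPGroup.iff_card.1 hq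
  rw [Subgroup.index_eq_card N, hn] at h1
  obtain ⟨k, -, hk⟩ := (Nat.dvd_prime_pow Fact.out).1 h1
  rw [← Subgroup.index_eq_one, hk]
  rcases k with _ | k
  · rfl
  · exact absurd ((dvd_pow_self p (Nat.succ_ne_zero k)).trans (hk ▸ h2)) S.not_dvd_index

/-- **The finite Smith lemma**, `Γ / N` a `p`-group. -/
theorem smith [Finite Γ] [Finite G] {p : ℕ} [Fact p.Prime]
    (N : Subgroup Γ) [hN : N.Normal] (hq : IsPGroup p (Γ ⧸ N)) (T : Set (N →* G))
    (hG : ∀ (g : G) ρ, ρ ∈ T → (MulAut.conj g).toMonoidHom.comp ρ ∈ T)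
    (hΓ : ∀ (γ : Γ) ρ, ρ ∈ T → ρ.comp (MulAut.conjNormal γ : MulAut N).toMonoidHom ∈ T)
    (hgeo : ∀ ρ' : Γ →* G, ρ'.comp N.subtype ∈ T → HasOp p ρ'.range) :
    ((p * pPart p (Nat.card G) : ℕ) : ℤ) ∣ ∑ᶠ ρ : T, sA p (ρ : N →* G).range := by
  obtain ⟨S⟩ : Nonempty (Sylow p Γ) := inferInstance
  exact smith_of_sup N S (sup_sylow N hq S) S.isPGroup' T hG hΓ hgeo

/-- `O_p(H) ≠ 1` passes from a normal subgroup to the whole group -/
theorem HasOp.of_normal [Finite G] {p : ℕ} [Fact p.Prime] {A B : Subgroup G} (hAB : A ≤ B)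
    (hn : B ≤ Subgroup.normalizer (A : Set G)) (h : HasOp p A) : HasOp p B := by
  obtain ⟨U, h1, h2, h3, h4⟩ := h
  -- the join of all `p`-subgroups normal in `A`
  let 𝒰 : Set (Subgroup G) := {V | IsPGroup p V ∧ V ≤ A ∧ A ≤ Subgroup.normalizer (V : Set G)}
  have hfin : 𝒰.Finite := Set.toFinite _
  obtain ⟨M, hM⟩ := hfin.exists_maximal ⟨U, h2, h3, h4⟩
  have hmax : ∀ V ∈ 𝒰, V ≤ M := by
    intro V hV
    have hs : M ⊔ V ∈ 𝒰 := by
      refine ⟨?_, sup_le hM.1.2.1 hV.2.1, ?_⟩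
      · exact hM.1.1.to_sup_of_normal_left' hV.1 (hV.2.1.trans hM.1.2.2)
      · exact (le_inf hM.1.2.2 hV.2.2).trans
          (Subgroup.normalizer_inf_normalizer_le_normalizer_sup _ _)
    exact le_sup_right.trans (hM.2 hs le_sup_left)
  refine ⟨M, ?_, hM.1.1, hM.1.2.1.trans hAB, ?_⟩
  · intro h
    apply h1
    rw [eq_bot_iff, ← h]
    exact hmax U ⟨h2, h3, h4⟩
  · intro b hb
    have hb' := Subgroup.mem_normalizer_iff.1 (hn hb)
    have hV : M.map (MulAut.conj b).toMonoidHom ∈ 𝒰 := by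
      refine ⟨hM.1.1.map _, ?_, ?_⟩
      · rintro _ ⟨x, hx, rfl⟩
        exact (hb' x).1 (hM.1.2.1 hx)
      · intro a ha
        apply mem_normalizer_of
        rintro _ ⟨x, hx, rfl⟩
        have ha' : b⁻¹ * a * b ∈ A := by
          rw [hb']
          have : b * (b⁻¹ * a * b) * b⁻¹ = a := by group
          rw [this]; exact ha
        refine ⟨(b⁻¹ * a * b) * x * (b⁻¹ * a * b)⁻¹,
          (Subgroup.mem_normalizer_iff.1 (hM.1.2.2 ha') x).1 hx, ?_⟩
        simp only [MulEquiv.toMonoidHom_eq_coe, MonoidHom.coe_coe, MulAut.conj_apply]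
        group
    apply mem_normalizer_of
    intro u hu
    exact hmax _ hV ⟨u, hu, rfl⟩

end Hom

end Crest.Agent.T170.Smith13
end

-- ▼ part T170/Smith2_13

/-!
# Row 170 (T170): alternating chain sums of counts versus sums of `sA` (helper13)

* `chain_sum_eq` : `∑_σ sgn σ · #{x | A x ≤ st σ} = ∑_x sA p (A x)`.
* `tuple_sum_eq` : the same for the tuples `[x,y] = g_1 ⋯ g_n`, `g_i ∈ K_i`.
-/

set_option autoImplicit false
open scoped BigOperators Classical

namespace Crest.Agent.T170.Smith13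

open Crest.Agent.R170

variable {G : Type} [Group G] [Finite G]

theorem chain_sum_eq (p : ℕ) {X : Type*} [Finite X] (A : X → Subgroup G) :
    ∑ᶠ σ : Ch p G, sgn σ * (Nat.card {x : X // A x ≤ st σ} : ℤ) = ∑ᶠ x : X, sA p (A x) := by
  have : Finite (Ch p G) := by unfold Ch; infer_instance
  have := Fintype.ofFinite (Ch p G)
  have := Fintype.ofFinite X
  rw [finsum_eq_sum_of_fintype, finsum_eq_sum_of_fintype]
  have h1 : ∀ x : X, sA p (A x) = ∑ σ : Ch p G, if A x ≤ st σ then sgn σ else 0 := by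
    intro x
    unfold sA
    rw [finsum_eq_sum_of_fintype, ← Finset.sum_filter]
    refine (Finset.sum_subtype (p := fun σ : Ch p G => A x ≤ st σ) _ ?_
      (fun σ : Ch p G => sgn σ)).symm
    intro σ
    simp only [Finset.mem_filter, Finset.mem_univ, true_and]
  simp only [h1]
  rw [Finset.sum_comm]
  refine Finset.sum_congr rfl (fun σ _ => ?_)
  rw [← Finset.sum_filter, Finset.sum_const, nsmul_eq_mul, mul_comm, Nat.card_eq_fintype_card,
    Fintype.card_subtype]

/-- labelled tuples `[x, y] = g_1 ⋯ g_n`, `g_i ∈ K i` -/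
def Tup (H : Type) [Group H] {n : ℕ} (K : Fin n → H → Prop) : Type :=
  {w : H × H × (Fin n → H) // w.1 * w.2.1 * w.1⁻¹ * w.2.1⁻¹ = (List.ofFn w.2.2).prod ∧
    ∀ i, K i (w.2.2 i)}

/-- the subgroup generated by a tuple -/
def tcl {n : ℕ} (w : G × G × (Fin n → G)) : Subgroup G :=
  Subgroup.closure (insert w.1 (insert w.2.1 (Set.range w.2.2)))

omit [Finite G] in
theorem tcl_le {n : ℕ} (w : G × G × (Fin n → G)) (H : Subgroup G) :
    tcl w ≤ H ↔ w.1 ∈ H ∧ w.2.1 ∈ H ∧ ∀ i, w.2.2 i ∈ H := by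
  unfold tcl
  rw [Subgroup.closure_le, Set.insert_subset_iff, Set.insert_subset_iff, Set.range_subset_iff]
  rfl

omit [Finite G] in
theorem card_tup {n : ℕ} (K : Fin n → G → Prop) (H : Subgroup G) :
    Nat.card (Tup H (fun i (h : H) => K i (h : G))) =
      Nat.card {w : Tup G K // tcl w.1 ≤ H} := by
  have hl : ∀ g : Fin n → H, (((List.ofFn g).prod : H) : G) =
      (List.ofFn (fun i => (g i : G))).prod := by
    intro g
    rw [show (((List.ofFn g).prod : H) : G) = H.subtype (List.ofFn g).prod from rfl,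
      map_list_prod, List.map_ofFn]
    rfl
  refine Nat.card_congr ⟨fun w => ⟨⟨(w.1.1, w.1.2.1, fun i => w.1.2.2 i), ?_, w.2.2⟩, ?_⟩,
    fun w => ⟨(⟨w.1.1.1, ((tcl_le _ _).1 w.2).1⟩, ⟨w.1.1.2.1, ((tcl_le _ _).1 w.2).2.1⟩,
      fun i => ⟨w.1.1.2.2 i, ((tcl_le _ _).1 w.2).2.2 i⟩), ?_, w.1.2.2⟩,
    fun _ => rfl, fun _ => rfl⟩
  · have h := congrArg (fun h : H => (h : G)) w.2.1
    simp only [Subgroup.coe_mul, Subgroup.coe_inv, hl] at h
    exact h
  · exact (tcl_le _ _).2 ⟨w.1.1.2, w.1.2.1.2, fun i => (w.1.2.2 i).2⟩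
  · apply Subtype.ext
    rw [hl]
    exact w.1.2.1

/-- chain form of the count = sum of `sA` over the tuples of `G` -/
theorem tuple_sum_eq (p : ℕ) {n : ℕ} (K : Fin n → G → Prop) :
    ∑ᶠ σ : Ch p G, sgn σ * (Nat.card (Tup (st σ) (fun i (h : st σ) => K i (h : G))) : ℤ) =
      ∑ᶠ w : Tup G K, sA p (tcl w.1) := by
  have : Finite (Tup G K) := by unfold Tup; infer_instance
  rw [← chain_sum_eq p (fun w : Tup G K => tcl w.1)]
  refine finsum_congr (fun σ => ?_)
  rw [card_tup]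


end Crest.Agent.T170.Smith13
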