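import Crest.Agent.T170.GalVal_6
import Mathlib
import Crest.Agent.T170.Fr_20
import Crest.Agent.T170.EllB_61
import Crest.Agent.T170.W3_90

-- ▼ part T170/W1_9
section

/-!
# Row 170 (T170), task W1 (helper9): embedding into `ℂ` and the valuation on `U`

* `exists_ext'` : an `ℝ≥0`-valued valuation extends to every algebraic extension;
* `gaussP`, `gaussR` : the Gauss valuation on `K[X]` and on `K(X)`;
* `exists_emb` : a field of characteristic zero and of the cardinality of the continuum embeds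
  into `ℂ` with `ℂ` algebraic over the image;
* `w1`.
-/

set_option autoImplicit false
set_option linter.style.haveILetI false

namespace Crest.Agent.T170.W1

open scoped NNReal Polynomial Cardinal
open Crest.Agent.T170.Gal

/-- **extension of a valuation to an algebraic extension** (no completeness) -/
theorem exists_ext' {K L : Type*} [Field K] [Field L] [Algebra K L] [Algebra.IsAlgebraic K L]
    (v : Valuation K ℝ≥0) (h : ∃ x : K, x ≠ 0 ∧ v x ≠ 1) :
    ∃ w : Valuation L ℝ≥0, ∀ a : K, w (algebraMap K L a) = v a := by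
  letI := nnf v h
  have hn : ∀ x : K, ‖x‖ = (v x : ℝ) := fun _ => rfl
  let Kh := UniformSpace.Completion K
  have hadd : ∀ x y : Kh, ‖x + y‖ ≤ max ‖x‖ ‖y‖ := by
    intro x y
    induction x, y using UniformSpace.Completion.induction_on₂ with
    | hp => apply isClosed_le <;> fun_prop
    | ih x y =>
      rw [← UniformSpace.Completion.coe_add, UniformSpace.Completion.norm_coe,
        UniformSpace.Completion.norm_coe, UniformSpace.Completion.norm_coe, hn, hn, hn]
      exact_mod_cast v.map_add x y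
  let vh : Valuation Kh ℝ≥0 :=
    { toFun := fun x => ‖x‖₊
      map_zero' := nnnorm_zero
      map_one' := nnnorm_one
      map_mul' := fun x y => nnnorm_mul x y
      map_add_le_max' := fun x y => by exact_mod_cast hadd x y }
  have hvh : ∀ a : K, vh (algebraMap K Kh a) = v a := by
    intro a
    apply NNReal.eq
    show ‖algebraMap K Kh a‖ = (v a : ℝ)
    rw [← hn, UniformSpace.Completion.algebraMap_def, Algebra.algebraMap_self, RingHom.id_apply,
      UniformSpace.Completion.norm_coe]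
  have hc : Cpl vh := (cpl_iff_aux vh (fun _ => rfl)).2 inferInstance
  obtain ⟨x, hx0, hx1⟩ := h
  obtain ⟨w, hw⟩ := exists_ext (L := AlgebraicClosure Kh) vh
    ⟨algebraMap K Kh x, (map_ne_zero _).2 hx0, by rw [hvh]; exact hx1⟩ hc
  let j : L →ₐ[K] AlgebraicClosure Kh := IsAlgClosed.lift
  refine ⟨w.comap (j : L →+* AlgebraicClosure Kh), fun a => ?_⟩
  rw [Valuation.comap_apply]
  show w (j (algebraMap K L a)) = v a
  rw [AlgHom.commutes, IsScalarTower.algebraMap_apply K Kh (AlgebraicClosure Kh), hw, hvh]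

section Gauss
variable {K : Type*} [Field K] (v : Valuation K ℝ≥0)

theorem av_na : IsNonarchimedean (av v) := by
  intro x y
  change (v (x + y) : ℝ) ≤ max (v x : ℝ) (v y : ℝ)
  exact_mod_cast v.map_add x y

/-- the Gauss valuation on polynomials -/
noncomputable def gaussP : Valuation K[X] ℝ≥0 where
  toFun f := ⟨f.gaussNorm (av v) 1, f.gaussNorm_nonneg (av v) zero_le_one⟩
  map_zero' := NNReal.eq (Polynomial.gaussNorm_zero (av v) 1)
  map_one' := NNReal.eq (by
    show (1 : K[X]).gaussNorm (av v) 1 = 1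
    rw [← Polynomial.C_1, Polynomial.gaussNorm_C]
    simp)
  map_mul' f g := NNReal.eq (Polynomial.gaussNorm_mul (av_na v) one_pos f g)
  map_add_le_max' f g := by
    have := Polynomial.isNonarchimedean_gaussNorm (av v) (av_na v) zero_le_one f g
    exact_mod_cast this

theorem gaussP_C (a : K) : gaussP v (Polynomial.C a) = v a :=
  NNReal.eq (Polynomial.gaussNorm_C (av v) 1 a)

theorem coeff_le_gaussP (f : K[X]) (i : ℕ) : v (f.coeff i) ≤ gaussP v f := by
  have := Polynomial.le_gaussNorm (av v) f zero_le_one i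
  rw [one_pow, mul_one] at this
  exact_mod_cast this

theorem exists_coeff_eq_gaussP (f : K[X]) : ∃ i, gaussP v f = v (f.coeff i) := by
  obtain ⟨i, hi⟩ := Polynomial.exists_eq_gaussNorm (av v) 1 f
  rw [one_pow, mul_one] at hi
  exact ⟨i, NNReal.eq hi⟩

theorem gaussP_le_iff (f : K[X]) (γ : ℝ≥0) : gaussP v f ≤ γ ↔ ∀ i, v (f.coeff i) ≤ γ := by
  refine ⟨fun h i => (coeff_le_gaussP v f i).trans h, fun h => ?_⟩
  obtain ⟨i, hi⟩ := exists_coeff_eq_gaussP v f
  rw [hi]
  exact h i

theorem gaussP_eq_sup (f : K[X]) : gaussP v f = f.support.sup fun i => v (f.coeff i) := by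
  apply le_antisymm
  · rw [gaussP_le_iff]
    intro i
    by_cases hi : i ∈ f.support
    · exact Finset.le_sup (f := fun i => v (f.coeff i)) hi
    · rw [Polynomial.notMem_support_iff.1 hi, map_zero]
      exact zero_le
  · exact Finset.sup_le fun i _ => coeff_le_gaussP v f i

theorem gaussP_supp : nonZeroDivisors K[X] ≤ (gaussP v).supp.primeCompl := by
  intro f hf h0
  have h1 : gaussP v f = 0 := h0
  refine nonZeroDivisors.ne_zero hf ?_
  ext i
  have h2 := coeff_le_gaussP v f i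
  rw [h1, nonpos_iff_eq_zero, map_eq_zero] at h2
  rw [h2, Polynomial.coeff_zero]

/-- the Gauss valuation on rational functions -/
noncomputable def gaussR : Valuation (RatFunc K) ℝ≥0 :=
  (gaussP v).extendToLocalization (gaussP_supp v) (RatFunc K)

theorem gaussR_poly (f : K[X]) : gaussR v (algebraMap K[X] (RatFunc K) f) = gaussP v f :=
  Valuation.extendToLocalization_apply_map_apply _ _ _ f

theorem gaussR_const (a : K) : gaussR v (algebraMap K (RatFunc K) a) = v a := by
  rw [IsScalarTower.algebraMap_apply K K[X] (RatFunc K), gaussR_poly, Polynomial.algebraMap_eq,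
    gaussP_C]

end Gauss

/-- **embedding into `ℂ`** -/
theorem exists_emb (F : Type) [Field F] [CharZero F] (hF : #F = Cardinal.continuum) :
    ∃ ι : F →+* ℂ, ∀ c : ℂ, IsAlgebraic ι.fieldRange c := by
  have h1 : #(AlgebraicClosure F) = Cardinal.continuum := by
    apply le_antisymm
    · refine (Algebra.IsAlgebraic.cardinalMk_le_max F (AlgebraicClosure F)).trans ?_
      rw [hF]
      exact max_le le_rfl Cardinal.aleph0_le_continuum
    · rw [← hF]
      exact Cardinal.mk_le_of_injective (algebraMap F (AlgebraicClosure F)).injective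
  obtain ⟨e⟩ := IsAlgClosed.ringEquiv_of_equiv_of_charZero (K := AlgebraicClosure F) (L := ℂ)
    (by rw [h1]; exact Cardinal.aleph0_lt_continuum)
    (Cardinal.eq.1 (by rw [h1, Cardinal.mk_complex]))
  let ι : F →+* ℂ := (e : AlgebraicClosure F →+* ℂ).comp (algebraMap F (AlgebraicClosure F))
  refine ⟨ι, fun c => ?_⟩
  obtain ⟨z, rfl⟩ := e.surjective c
  have hz : IsAlgebraic F z := Algebra.IsAlgebraic.isAlgebraic z
  exact hz.ringHom_of_comp_eq ι.rangeRestrictField (e : AlgebraicClosure F →+* ℂ)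
    ι.rangeRestrictField.injective (by ext a; rfl)

/-- the universal field -/
abbrev U : Type := AlgebraicClosure (RatFunc ℂ)

/-- the coordinate `x` -/
noncomputable def xU : U := algebraMap (RatFunc ℂ) U RatFunc.X

theorem aeval_xU (f : ℂ[X]) :
    Polynomial.aeval xU f = algebraMap (RatFunc ℂ) U (algebraMap ℂ[X] (RatFunc ℂ) f) := by
  rw [xU, Polynomial.aeval_algebraMap_apply, ← RatFunc.algebraMap_X,
    Polynomial.aeval_algebraMap_apply, Polynomial.aeval_X_left_apply]

theorem xU_trans : Transcendental ℂ xU := by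
  rintro ⟨f, hf, h0⟩
  rw [aeval_xU, map_eq_zero, map_eq_zero_iff _ (RatFunc.algebraMap_injective ℂ)] at h0
  exact hf h0

theorem xU_alg : Algebra.IsAlgebraic (IntermediateField.adjoin ℂ {xU}) U := by
  have hmem : ∀ r : RatFunc ℂ, algebraMap (RatFunc ℂ) U r ∈ IntermediateField.adjoin ℂ {xU} := by
    intro r
    have h1 : r ∈ IntermediateField.adjoin ℂ {(RatFunc.X : RatFunc ℂ)} := by
      rw [RatFunc.adjoin_X]
      exact IntermediateField.mem_top
    have h2 := IntermediateField.adjoin_map ℂ ({RatFunc.X} : Set (RatFunc ℂ))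
      (IsScalarTower.toAlgHom ℂ (RatFunc ℂ) U)
    rw [Set.image_singleton] at h2
    have h3 : (IsScalarTower.toAlgHom ℂ (RatFunc ℂ) U) RatFunc.X = xU := rfl
    rw [h3] at h2
    rw [← h2]
    exact ⟨r, h1, rfl⟩
  let φ : RatFunc ℂ →+* IntermediateField.adjoin ℂ {xU} :=
    (algebraMap (RatFunc ℂ) U).codRestrict (IntermediateField.adjoin ℂ {xU}).toSubfield hmem
  refine ⟨fun z => ?_⟩
  have hz : IsAlgebraic (RatFunc ℂ) z := Algebra.IsAlgebraic.isAlgebraic z
  exact hz.ringHom_of_comp_eq φ (RingHom.id U) φ.injective (by ext a; rfl)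

/-- every nontrivial valuation of `ℂ` extends to `U` as a Gauss valuation on `ℂ[x]` -/
theorem exists_vU (w : Valuation ℂ ℝ≥0) (h : ∃ c : ℂ, c ≠ 0 ∧ w c ≠ 1) :
    ∃ vU : Valuation U ℝ≥0, (∀ c : ℂ, vU (algebraMap ℂ U c) = w c) ∧
      ∀ f : ℂ[X], vU (Polynomial.aeval xU f) = gaussP w f := by
  obtain ⟨c, hc0, hc1⟩ := h
  obtain ⟨vU, hvU⟩ := exists_ext' (L := U) (gaussR w)
    ⟨algebraMap ℂ (RatFunc ℂ) c, (map_ne_zero _).2 hc0, by rw [gaussR_const]; exact hc1⟩
  refine ⟨vU, fun a => ?_, fun f => ?_⟩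
  · rw [IsScalarTower.algebraMap_apply ℂ (RatFunc ℂ) U, hvU, gaussR_const]
  · rw [aeval_xU, hvU, gaussR_poly]

/-- **W1** -/
theorem w1 (F : Type) [Field F] [CharZero F] (hF : #F = Cardinal.continuum)
    (v : Valuation F ℝ≥0) (h : ∃ z : F, z ≠ 0 ∧ v z ≠ 1) :
    ∃ (ι : F →+* ℂ) (vU : Valuation U ℝ≥0), (∀ c : ℂ, IsAlgebraic ι.fieldRange c) ∧
      (∀ z : F, vU (algebraMap ℂ U (ι z)) = v z) ∧ vU xU ≤ 1 ∧
      (∀ c : ℂ, 1 ≤ vU (xU - algebraMap ℂ U c)) ∧
      (∀ f : ℂ[X], vU (Polynomial.aeval xU f) =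
        f.support.sup fun i => vU (algebraMap ℂ U (f.coeff i))) ∧
      ∀ (C : Type) [Field C] [IsAlgClosed C] (j : C →+* F), (∀ z : F, ∃ c : C, v (j c) = v z) →
        ∀ c : ℂ, ∃ z : C, vU (algebraMap ℂ U (ι (j z))) = vU (algebraMap ℂ U c) := by
  obtain ⟨ι, hι⟩ := exists_emb F hF
  letI : Algebra F ℂ := ι.toAlgebra
  have halg : ∀ c : ℂ, IsAlgebraic F c := fun c =>
    (hι c).of_ringHom_of_comp_eq ι.rangeRestrictField (RingHom.id ℂ)
      ι.rangeRestrictField_bijective.2 Function.injective_id (by ext a; rfl)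
  haveI : Algebra.IsAlgebraic F ℂ := ⟨halg⟩
  obtain ⟨w, hw⟩ := exists_ext' (L := ℂ) v h
  obtain ⟨z, hz0, hz1⟩ := h
  obtain ⟨vU, h1, h2⟩ := exists_vU w
    ⟨algebraMap F ℂ z, (map_ne_zero _).2 hz0, by rw [hw]; exact hz1⟩
  refine ⟨ι, vU, hι, fun a => by rw [h1]; exact hw a, ?_, fun c => ?_, fun f => ?_, ?_⟩
  · have h3 := h2 Polynomial.X
    rw [Polynomial.aeval_X] at h3
    rw [h3, gaussP_le_iff]
    intro i
    rw [Polynomial.coeff_X]
    split_ifs <;> simp
  · have h3 := h2 (Polynomial.X - Polynomial.C c)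
    rw [map_sub, Polynomial.aeval_X, Polynomial.aeval_C] at h3
    rw [h3]
    have h4 := coeff_le_gaussP w (Polynomial.X - Polynomial.C c) 1
    simpa using h4
  · rw [h2, gaussP_eq_sup]
    simp only [h1]
  · intro C _ _ j hj c
    obtain ⟨d, hd⟩ := exists_val_eq j w (fun a => by
      obtain ⟨d, hd⟩ := hj a
      exact ⟨d, by rw [hw, hw, hd]⟩) (halg c)
    exact ⟨d, by rw [h1, h1, hd]; rfl⟩

end Crest.Agent.T170.W1
end

-- ▼ part T170/W2_60
section

/-!
# Row 170, task W2 (helper60): the punctures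

* `quad_root`  : Hensel's lemma for `t ^ 2 + u t + c`;
* `der_add`    : translation invariance of `D x / (y - negY)`;
* `punctures`  : the points `O i = ε i + i • P`.
-/

set_option autoImplicit false

namespace Crest.Agent.T170.W2

open scoped NNReal Classical
open WeierstrassCurve WeierstrassCurve.Affine Crest.Agent.T170.Fr Crest.Agent.T170.Ell

section Hensel

variable {F : Type*} [Field F]

theorem quad_root {v : Valuation F ℝ≥0} (hc : Cpl v) {u c : F} (hu : v u = 1) (hc1 : v c < 1) :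
    ∃ t : F, t ^ 2 + u * t + c = 0 ∧ v t ≤ v c := by
  have hu0 : u ≠ 0 := by
    rintro rfl
    simp at hu
  by_cases hc0 : c = 0
  · exact ⟨0, by simp [hc0], by simp⟩
  have hvc : 0 < v c := (Valuation.pos_iff v).2 hc0
  let f : ℕ → F := fun k => Nat.rec 0 (fun _ t => -(c + t ^ 2) / u) k
  have f0 : f 0 = 0 := rfl
  have fs : ∀ k, f (k + 1) = -(c + f k ^ 2) / u := fun _ => rfl
  have hb : ∀ k, v (f k) ≤ v c := by
    intro k
    induction k with
    | zero => simp [f0]
    | succ k ih =>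
      rw [fs, map_div₀, hu, div_one, Valuation.map_neg]
      refine (v.map_add _ _).trans (max_le le_rfl ?_)
      rw [map_pow, sq]
      exact (mul_le_mul' ih (ih.trans hc1.le)).trans (by rw [mul_one])
  have hd : ∀ k, v (f (k + 1) - f k) ≤ v c ^ (k + 1) := by
    intro k
    induction k with
    | zero => simpa [f0] using hb 1
    | succ k ih =>
      have e : f (k + 1 + 1) - f (k + 1) = -((f (k + 1) - f k) * (f (k + 1) + f k)) / u := by
        rw [fs (k + 1)]
        conv_lhs => rw [show f (k + 1) = -(c + f k ^ 2) / u from fs k]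
        rw [← fs k]
        have : f (k + 1) * u = -(c + f k ^ 2) := by rw [fs k]; field_simp
        field_simp
        linear_combination -this
      rw [e, map_div₀, hu, div_one, Valuation.map_neg, map_mul, pow_succ _ (k + 1)]
      exact mul_le_mul' ih ((v.map_add _ _).trans (max_le (hb (k + 1)) (hb k)))
  have hd2 : ∀ N k, v (f (N + k) - f N) ≤ v c ^ (N + 1) := by
    intro N k
    induction k with
    | zero => simp
    | succ k ih =>
      have e : f (N + (k + 1)) - f N = (f (N + k + 1) - f (N + k)) + (f (N + k) - f N) := by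
        rw [← add_assoc]; ring
      rw [e]
      refine (v.map_add _ _).trans (max_le ((hd _).trans ?_) ih)
      exact pow_le_pow_right_of_le_one' hc1.le (by omega)
  obtain ⟨l, hl⟩ := hc f (by
    intro ε hε
    obtain ⟨N, hN⟩ := NNReal.exists_pow_lt_of_lt_one hε hc1
    refine ⟨N, fun m hm m' hm' => ?_⟩
    obtain ⟨k, rfl⟩ := Nat.exists_eq_add_of_le hm
    obtain ⟨k', rfl⟩ := Nat.exists_eq_add_of_le hm'
    have e : f (N + k) - f (N + k') = (f (N + k) - f N) - (f (N + k') - f N) := by ring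
    rw [e]
    refine lt_of_le_of_lt ((v.map_sub _ _).trans (max_le (hd2 _ _) (hd2 _ _))) ?_
    exact lt_of_le_of_lt (pow_le_pow_right_of_le_one' hc1.le (by omega)) hN)
  have hlb : v l ≤ v c := by
    obtain ⟨N, hN⟩ := hl (v c) hvc
    have e : l = f N - (f N - l) := by ring
    rw [e]
    exact (v.map_sub _ _).trans (max_le (hb _) (hN N le_rfl).le)
  refine ⟨l, ?_, hlb⟩
  by_contra hne
  obtain ⟨N, hN⟩ := hl _ ((Valuation.pos_iff v).2 hne)
  have h1 : f (N + 1) * u = -(c + f N ^ 2) := by rw [fs N]; field_simp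
  have e : l ^ 2 + u * l + c = -((f N - l) * (f N + l)) - u * (f (N + 1) - l) := by
    linear_combination h1
  have h2 : v (-((f N - l) * (f N + l))) < v (l ^ 2 + u * l + c) := by
    rw [Valuation.map_neg, map_mul]
    refine lt_of_le_of_lt ?_ (hN N le_rfl)
    refine (mul_le_mul' le_rfl (((v.map_add _ _).trans (max_le (hb _) hlb)).trans hc1.le)).trans ?_
    rw [mul_one]
  have h3 : v (u * (f (N + 1) - l)) < v (l ^ 2 + u * l + c) := by
    rw [map_mul, hu, one_mul]
    exact hN (N + 1) (by omega)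
  have h4 := v.map_sub_lt h2 h3
  rw [← e] at h4
  exact lt_irrefl _ h4

theorem quad_unique {v : Valuation F ℝ≥0} {u c t t' : F} (hu : v u = 1)
    (h : t ^ 2 + u * t + c = 0) (h' : t' ^ 2 + u * t' + c = 0) (ht : v t < 1) (ht' : v t' < 1) :
    t = t' := by
  have e : (t - t') * (u + (t + t')) = 0 := by linear_combination h - h'
  rcases mul_eq_zero.1 e with e | e
  · exact sub_eq_zero.1 e
  · have h1 : v (t + t') < v u := hu ▸ v.map_add_lt ht ht'
    have h2 := v.map_add_eq_of_lt_left h1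
    rw [e, hu, map_zero] at h2
    exact absurd h2 zero_ne_one

end Hensel

section Der

variable {C F : Type*} [Field C] [Field F] [Algebra C F] (D : Derivation C F F) {V : Affine F}

theorem der_eq (h₁ : D V.a₁ = 0) (h₂ : D V.a₂ = 0) (h₃ : D V.a₃ = 0) (h₄ : D V.a₄ = 0)
    (h₆ : D V.a₆ = 0) {x y : F} (h : V.Equation x y) :
    D y * (y - V.negY x y) = D x * (3 * x ^ 2 + 2 * V.a₂ * x + V.a₄ - V.a₁ * y) := by
  rw [equation_iff] at h
  have e := congrArg D h
  simp only [map_add, Derivation.leibniz, Derivation.leibniz_pow, h₁, h₂, h₃, h₄, h₆, smul_eq_mul,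
    nsmul_eq_mul] at e
  simp only [negY]
  push_cast at e
  linear_combination e

theorem der_add (h₁ : D V.a₁ = 0) (h₂ : D V.a₂ = 0) (h₃ : D V.a₃ = 0) (h₄ : D V.a₄ = 0)
    (h₆ : D V.a₆ = 0) {x₁ y₁ x₂ y₂ : F} (e₁ : V.Equation x₁ y₁) (e₂ : V.Equation x₂ y₂)
    (hx : x₁ ≠ x₂) (dx : D x₂ = 0) (dy : D y₂ = 0) :
    D (V.addX x₁ x₂ (V.slope x₁ x₂ y₁ y₂)) * (y₁ - V.negY x₁ y₁) =
      D x₁ * (V.addY x₁ x₂ y₁ (V.slope x₁ x₂ y₁ y₂) -
        V.negY (V.addX x₁ x₂ (V.slope x₁ x₂ y₁ y₂)) (V.addY x₁ x₂ y₁ (V.slope x₁ x₂ y₁ y₂))) := by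
  have hd : x₁ - x₂ ≠ 0 := sub_ne_zero.2 hx
  set l := V.slope x₁ x₂ y₁ y₂ with hl
  have hl2 : l * (x₁ - x₂) = y₁ - y₂ := by
    rw [hl, slope_of_X_ne hx, div_mul_cancel₀ _ hd]
  have hDl : D l * (x₁ - x₂) = D y₁ - l * D x₁ := by
    have e := congrArg D hl2
    simp only [map_sub, Derivation.leibniz, dx, dy, smul_eq_mul] at e
    linear_combination e
  have hE := der_eq D h₁ h₂ h₃ h₄ h₆ e₁
  have hX : D (V.addX x₁ x₂ l) = (2 * l + V.a₁) * D l - D x₁ := by
    simp only [addX, map_add, map_sub, Derivation.leibniz, Derivation.leibniz_pow, h₁, h₂, dx,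
      smul_eq_mul, nsmul_eq_mul]
    push_cast
    ring
  have hy₂ : y₂ = y₁ - l * (x₁ - x₂) := by linear_combination hl2
  have key : 3 * x₁ ^ 2 + 2 * V.a₂ * x₁ + V.a₄ - V.a₁ * y₁ - l * (y₁ - V.negY x₁ y₁) =
      (x₁ - x₂) * (x₁ - V.addX x₁ x₂ l) := by
    rw [equation_iff] at e₁ e₂
    rw [hy₂] at e₂
    apply mul_left_cancel₀ hd
    simp only [negY, addX]
    linear_combination e₂ - e₁
  apply mul_left_cancel₀ hd
  rw [hX]
  simp only [addY, negAddY, negY] at hE key ⊢
  linear_combination (2 * l + V.a₁) * (y₁ - (-y₁ - V.a₁ * x₁ - V.a₃)) * hDl +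
    (2 * l + V.a₁) * hE + (2 * l + V.a₁) * D x₁ * key

end Der

section Main

variable {R C F : Type} [CommRing R] [Field C] [Field F] [Algebra C F] [Algebra R C] [Algebra R F]
  [IsScalarTower R C F]

theorem sp_zero_iff (v : Valuation F ℝ≥0) (z : F) :
    (Place.ofValuationSubring v.valuationSubring).Sp z 0 ↔ v z < 1 := by
  constructor
  · rintro ⟨h, e⟩
    exact (Valuation.mem_maximalIdeal_iff (v := v) (a := ⟨z, h⟩)).1
      ((IsLocalRing.residue_eq_zero_iff _).1 e)
  · intro h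
    exact ⟨h.le, (IsLocalRing.residue_eq_zero_iff _).2
      ((Valuation.mem_maximalIdeal_iff (v := v) (a := ⟨z, h.le⟩)).2 h)⟩

/-- congruent points have congruent translates -/
theorem congr_add (v : Valuation F ℝ≥0) (vR : ∀ r : R, v (algebraMap R F r) ≤ 1) (W : Affine R)
    [W.IsElliptic] {x y x' y' s t : F} (h : (W⁄F).Nonsingular x y) (h' : (W⁄F).Nonsingular x' y')
    (hx' : v x' ≤ 1) (hx : v (x - x') < 1) (hy : v (y - y') < 1) (T : (W⁄F).Point)
    (hs : (W⁄F).Nonsingular s t) (e : Point.some _ _ h' + T = Point.some _ _ hs) (vs : v s ≤ 1) :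
    ∃ (a b : F) (hab : (W⁄F).Nonsingular a b), Point.some _ _ h + T = Point.some _ _ hab ∧
      v (a - s) < 1 ∧ v (b - t) < 1 := by
  let A := v.valuationSubring
  let Pl := Place.ofValuationSubring A
  let _ : Algebra R (IsLocalRing.ResidueField A) :=
    ((IsLocalRing.residue A).comp ((algebraMap R F).codRestrict A vR)).toAlgebra
  have hP : Pl.Over R := fun r => ⟨vR r, rfl⟩
  have mx' : x' ∈ Pl.A := hx'
  have my' : y' ∈ Pl.A := y_mem hP h'.1 mx'
  have sx : Pl.Sp x (Pl.val x') := by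
    simpa using ((sp_zero_iff v _).2 hx).add (Place.sp_val mx')
  have sy : Pl.Sp y (Pl.val y') := by
    simpa using ((sp_zero_iff v _).2 hy).add (Place.sp_val my')
  have e1 : red W hP (Point.some _ _ h) = red W hP (Point.some _ _ h') := by
    rw [red_some_of_sp hP h sx sy, red_some_of_sp hP h' (Place.sp_val mx') (Place.sp_val my')]
  have ms : s ∈ Pl.A := vs
  have mt : t ∈ Pl.A := y_mem hP hs.1 ms
  have e2 : red W hP (Point.some _ _ h + T) =
      Point.some _ _ (nonsingular_sp hP hs.1 (Place.sp_val ms) (Place.sp_val mt)) := by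
    rw [map_add, e1, ← map_add, e, red_some_of_sp hP hs (Place.sp_val ms) (Place.sp_val mt)]
  rcases hQ : Point.some _ _ h + T with _ | ⟨a, b, hab⟩
  · rw [hQ, ← Point.zero_def, map_zero] at e2
    exact absurd e2.symm (Point.some_ne_zero _)
  · rw [hQ, red_some_eq_some_iff] at e2
    refine ⟨a, b, hab, rfl, (sp_zero_iff v _).1 ?_, (sp_zero_iff v _).1 ?_⟩
    · simpa using e2.1.sub (Place.sp_val ms)
    · simpa using e2.2.sub (Place.sp_val mt)

omit [Algebra C F] [Algebra R C] [IsScalarTower R C F] in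
theorem negY_congr (v : Valuation F ℝ≥0) (vR : ∀ r : R, v (algebraMap R F r) ≤ 1) (W : Affine R)
    {a b s t : F} (hx : v (a - s) < 1) (hy : v (b - t) < 1)
    (h : v (t - (W⁄F).negY s t) = 1) : v (b - (W⁄F).negY a b) = 1 := by
  have e : b - (W⁄F).negY a b =
      (t - (W⁄F).negY s t) + ((b - t) + (b - t) + (W⁄F).a₁ * (a - s)) := by
    simp only [negY]; ring
  have h1 : v ((W⁄F).a₁ * (a - s)) < 1 := by
    rw [map_mul]
    exact lt_of_le_of_lt (mul_le_mul' (vR W.a₁) le_rfl) (by rwa [one_mul])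
  rw [e, v.map_add_eq_of_lt_left (h ▸ v.map_add_lt (v.map_add_lt hy hy) h1), h]

theorem der_add_const (W : Affine R) (D : Derivation C F F) {x y a b : F}
    (h : (W⁄F).Nonsingular x y) (hab : (W⁄F).Nonsingular a b) (T : (W⁄C).Point)
    (hx : ∀ c : C, x ≠ algebraMap C F c)
    (e : Point.some _ _ h + Point.baseChange C F T = Point.some _ _ hab) :
    D a * (y - (W⁄F).negY x y) = D x * (b - (W⁄F).negY a b) := by
  have hR : ∀ r : R, D (algebraMap R F r) = 0 := fun r => by
    rw [IsScalarTower.algebraMap_apply R C F, Derivation.map_algebraMap]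
  rcases T with _ | ⟨s, t, hs⟩
  · rw [← Point.zero_def, map_zero, add_zero, Point.some.injEq] at e
    rw [e.1, e.2]
  · rw [Point.map_some, Point.add_of_X_ne (show x ≠ Algebra.ofId C F s from hx s),
      Point.some.injEq] at e
    rw [← e.2, ← e.1]
    exact der_add D (hR W.a₁) (hR W.a₂) (hR W.a₃) (hR W.a₄) (hR W.a₆) h.1
      (((W.baseChange_nonsingular (Algebra.ofId C F).injective s t).mpr hs).1) (hx s)
      (D.map_algebraMap s) (D.map_algebraMap t)

theorem punctures' {p n : ℕ} [NeZero n] (hp : p ≠ 0) [IsAlgClosed C] [CharZero C]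
    (B : Base p n C F) (vR : ∀ r : R, B.v (algebraMap R F r) ≤ 1) (W : Affine R) [W.IsElliptic]
    (P R₀ : (W⁄C).Point) (nP : n • P = 0)
    (Rint : ∀ j : ℕ, ∃ s t h, R₀ + j • P = .some s t h ∧ B.v (algebraMap C F s) ≤ 1 ∧
      B.v (algebraMap C F (t - (W⁄C).negY s t)) = 1) :
    ∃ (a b : Fin n → F) (a' b' : Fin n → C) (nsO : ∀ i, (W⁄F).Nonsingular (a i) (b i))
      (ns' : ∀ i, (W⁄C).Nonsingular (a' i) (b' i)),
      (∀ i, B.v (b i - (W⁄F).negY (a i) (b i)) = 1) ∧
      (∀ i, B.v (algebraMap C F (a' i)) ≤ 1) ∧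
      (∀ i, B.v (a i - algebraMap C F (a' i)) < 1) ∧
      (∀ i, B.v (b i - algebraMap C F (b' i)) < 1) ∧
      (∀ i, Point.some _ _ (ns' (i + 1)) = Point.some _ _ (ns' i) + P) ∧
      (∀ i j, j ≠ i → B.D j (a i) = 0) ∧ (∀ i j, j ≠ i → B.D j (b i) = 0) ∧
      (∀ i, B.v (p : F) < B.v (B.D i (a i))) ∧
      (∀ i, Point.map (B.σ : F →ₐ[C] F) (Point.some _ _ (nsO i)) + Point.baseChange C F P =
        Point.some _ _ (nsO (i + 1))) := by
  set v := B.v with hv
  have hR : ∀ (D : Derivation C F F) (r : R), D (algebraMap R F r) = 0 := fun D r => by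
    rw [IsScalarTower.algebraMap_apply R C F, Derivation.map_algebraMap]
  -- the constant `ϖ`
  obtain ⟨w, hw⟩ := IsAlgClosed.exists_pow_nat_eq (p : C) two_pos
  set ϖ := algebraMap C F w with hϖ
  have hw2 : ϖ ^ 2 = (p : F) := by rw [hϖ, ← map_pow, hw, map_natCast]
  have hϖ0 : ϖ ≠ 0 := by
    rw [hϖ, map_ne_zero]
    rintro rfl
    exact (Nat.cast_ne_zero.2 hp : (p : C) ≠ 0) (by rw [← hw]; simp)
  have hvp : v (p : F) = v ϖ * v ϖ := by rw [← hw2, map_pow, sq]
  have hϖ1 : v ϖ < 1 := by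
    by_contra hcon
    have h1 : 1 ≤ v ϖ := not_lt.1 hcon
    have h2 := B.vp
    rw [← hv, hvp] at h2
    exact absurd (one_le_mul h1 h1) (not_le.2 h2)
  have hϖp : v (p : F) < v ϖ := by
    rw [hvp]
    exact mul_lt_of_lt_one_right ((Valuation.pos_iff v).2 hϖ0) hϖ1
  -- the points `R₀ + j P`
  choose sa sb sn hs hsa hsb using Rint
  have hsb' : ∀ j, v (algebraMap C F (sb j) -
      (W⁄F).negY (algebraMap C F (sa j)) (algebraMap C F (sb j))) = 1 := fun j => by
    have e := W.baseChange_negY (Algebra.ofId C F) (sa j) (sb j)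
    rw [← hsb j, map_sub (algebraMap C F)]
    exact congrArg (fun z => v (algebraMap C F (sb j) - z)) e
  have nsF : ∀ j, (W⁄F).Nonsingular (algebraMap C F (sa j)) (algebraMap C F (sb j)) := fun j =>
    (W.baseChange_nonsingular (Algebra.ofId C F).injective _ _).mpr (sn j)
  set x₀ := algebraMap C F (sa 0) with hx₀
  set y₀ := algebraMap C F (sb 0) with hy₀
  have hy₀1 : v y₀ ≤ 1 := by
    let A := v.valuationSubring
    let Pl := Place.ofValuationSubring A
    let _ : Algebra R (IsLocalRing.ResidueField A) :=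
      ((IsLocalRing.residue A).comp ((algebraMap R F).codRestrict A vR)).toAlgebra
    have hP : Pl.Over R := fun r => ⟨vR r, rfl⟩
    exact y_mem hP (nsF 0).1 (hsa 0)
  -- the points `ε i`
  set X : Fin n → F := fun i => x₀ + ϖ * B.s i with hX
  have hXx : ∀ i, v (X i - x₀) < 1 := fun i => by
    rw [hX]
    simp only [add_sub_cancel_left, map_mul]
    exact lt_of_le_of_lt (mul_le_mul' le_rfl (B.vs i)) (by rwa [mul_one])
  have hX1 : ∀ i, v (X i) ≤ 1 := fun i => by
    have e : X i = x₀ + (X i - x₀) := by ring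
    rw [e]
    exact v.map_add_le (hsa 0) (hXx i).le
  set u : Fin n → F := fun i => y₀ - (W⁄F).negY (X i) y₀ with hu
  set c : Fin n → F := fun i => y₀ ^ 2 + (W⁄F).a₁ * X i * y₀ + (W⁄F).a₃ * y₀ -
    (X i ^ 3 + (W⁄F).a₂ * X i ^ 2 + (W⁄F).a₄ * X i + (W⁄F).a₆) with hc
  have hu1 : ∀ i, v (u i) = 1 := fun i =>
    negY_congr v vR W (t := y₀) (hXx i) (by rw [sub_self, map_zero]; exact zero_lt_one) (hsb' 0)
  have hc1 : ∀ i, v (c i) < 1 := fun i => by
    have e0 := (nsF 0).1
    rw [equation_iff, ← hx₀, ← hy₀] at e0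
    have e : c i = (X i - x₀) * ((W⁄F).a₁ * y₀ - (X i * X i + X i * x₀ + x₀ * x₀) -
        (W⁄F).a₂ * (X i + x₀) - (W⁄F).a₄) := by
      rw [hc]
      linear_combination e0
    have m1 : ∀ {z z' : F}, v z ≤ 1 → v z' ≤ 1 → v (z * z') ≤ 1 := fun h h' => by
      rw [map_mul]; exact mul_le_one' h h'
    have h1 : v ((W⁄F).a₁ * y₀ - (X i * X i + X i * x₀ + x₀ * x₀) -
        (W⁄F).a₂ * (X i + x₀) - (W⁄F).a₄) ≤ 1 :=
      v.map_sub_le (v.map_sub_le (v.map_sub_le (m1 (vR W.a₁) hy₀1)
        (v.map_add_le (v.map_add_le (m1 (hX1 i) (hX1 i)) (m1 (hX1 i) (hsa 0)))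
          (m1 (hsa 0) (hsa 0)))) (m1 (vR W.a₂) (v.map_add_le (hX1 i) (hsa 0)))) (vR W.a₄)
    rw [e, map_mul]
    exact lt_of_le_of_lt (mul_le_mul' le_rfl h1) (by rw [mul_one]; exact hXx i)
  have hroot : ∀ i, ∃ t : F, t ^ 2 + u i * t + c i = 0 ∧ v t ≤ v (c i) := fun i =>
    quad_root B.cpl (hu1 i) (hc1 i)
  choose t ht htv using hroot
  have ht1 : ∀ i, v (t i) < 1 := fun i => (htv i).trans_lt (hc1 i)
  set Y : Fin n → F := fun i => y₀ + t i with hY
  have hYy : ∀ i, v (Y i - y₀) < 1 := fun i => by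
    rw [hY]
    simpa using ht1 i
  have nsε : ∀ i, (W⁄F).Nonsingular (X i) (Y i) := fun i => by
    rw [← equation_iff_nonsingular, equation_iff]
    have e := ht i
    simp only [hu, hc, negY] at e
    simp only [hY]
    linear_combination e
  have hψ : ∀ i, v (Y i - (W⁄F).negY (X i) (Y i)) = 1 := fun i =>
    negY_congr v vR W (hXx i) (hYy i) (hsb' 0)
  have hσR : ∀ r : R, B.σ (algebraMap R F r) = algebraMap R F r := fun r => by
    rw [IsScalarTower.algebraMap_apply R C F, AlgEquiv.commutes]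
  have hσX : ∀ i, B.σ (X i) = X (i + 1) := fun i => by
    simp only [hX, map_add, map_mul, B.σs, hx₀, hϖ, AlgEquiv.commutes]
  have hσy : B.σ y₀ = y₀ := by rw [hy₀, AlgEquiv.commutes]
  have hσt : ∀ i, B.σ (t i) = t (i + 1) := fun i => by
    refine quad_unique (hu1 (i + 1)) ?_ (ht (i + 1)) (by rw [B.vσ]; exact ht1 i) (ht1 _)
    have e := congrArg B.σ (ht i)
    have a1 : B.σ (W⁄F).a₁ = (W⁄F).a₁ := hσR W.a₁
    have a2 : B.σ (W⁄F).a₂ = (W⁄F).a₂ := hσR W.a₂
    have a3 : B.σ (W⁄F).a₃ = (W⁄F).a₃ := hσR W.a₃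
    have a4 : B.σ (W⁄F).a₄ = (W⁄F).a₄ := hσR W.a₄
    have a6 : B.σ (W⁄F).a₆ = (W⁄F).a₆ := hσR W.a₆
    simp only [hu, hc, negY, map_add, map_sub, map_mul, map_pow, map_neg, map_zero, hσX, hσy, a1,
      a2, a3, a4, a6] at e
    simp only [hu, hc, negY]
    exact e
  have hσY : ∀ i, B.σ (Y i) = Y (i + 1) := fun i => by
    simp only [hY, map_add, hσy, hσt]
  have hDX : ∀ i j, B.D j (X i) = if j = i then ϖ else 0 := fun i j => by
    simp only [hX, map_add, Derivation.leibniz, B.Ds, hx₀, hϖ, Derivation.map_algebraMap,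
      smul_eq_mul]
    split_ifs <;> simp
  have hXc : ∀ i (z : C), X i ≠ algebraMap C F z := fun i z h => by
    have e := hDX i i
    rw [h, Derivation.map_algebraMap, if_pos rfl] at e
    exact hϖ0 e.symm
  -- the punctures
  have hR₀ : R₀ = Point.some _ _ (sn 0) := by simpa using hs 0
  have hO : ∀ i : Fin n, ∃ (a b : F) (hab : (W⁄F).Nonsingular a b),
      Point.some _ _ (nsε i) + Point.baseChange C F (i.val • P) = Point.some _ _ hab ∧
      v (a - algebraMap C F (sa i.val)) < 1 ∧ v (b - algebraMap C F (sb i.val)) < 1 := fun i => by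
    refine congr_add v vR W (nsε i) (nsF 0) (hsa 0) (hXx i) (hYy i) _ (nsF i.val) ?_ (hsa _)
    have e := congrArg (Point.baseChange C F) (hs i.val)
    rw [map_add, hR₀] at e
    exact e
  choose a b nsO hO hOa hOb using hO
  have hvW : ∀ i, v (b i - (W⁄F).negY (a i) (b i)) = 1 := fun i =>
    negY_congr v vR W (hOa i) (hOb i) (hsb' _)
  have hstep : ∀ i : Fin n, (i + 1).val • P = i.val • P + P := fun i => by
    have h1 : (i + 1).val ≡ i.val + 1 [MOD n] := by
      rw [Fin.val_add, Fin.val_one']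
      exact (Nat.mod_modEq _ _).trans (Nat.ModEq.add_left _ (Nat.mod_modEq _ _))
    rw [← succ_nsmul, nsmul_eq_nsmul_iff_modEq]
    exact h1.of_dvd (addOrderOf_dvd_of_nsmul_eq_zero nP)
  have hinv : ∀ i j, B.D j (a i) * (Y i - (W⁄F).negY (X i) (Y i)) =
      B.D j (X i) * (b i - (W⁄F).negY (a i) (b i)) := fun i j =>
    der_add_const W (B.D j) (nsε i) (nsO i) _ (hXc i) (hO i)
  have ne1 : ∀ {z : F}, v z = 1 → z ≠ 0 := fun h h0 => by
    rw [h0, map_zero] at h
    exact zero_ne_one h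
  have hDa : ∀ i j, j ≠ i → B.D j (a i) = 0 := fun i j hj => by
    have e := hinv i j
    rw [hDX, if_neg hj, zero_mul] at e
    exact (mul_eq_zero.1 e).resolve_right (ne1 (hψ i))
  refine ⟨a, b, fun i => sa i.val, fun i => sb i.val, nsO, fun i => sn i.val, hvW,
    fun i => hsa _, hOa, hOb, fun i => ?_, hDa, fun i j hj => ?_, fun i => ?_, fun i => ?_⟩
  · rw [← hs, ← hs, hstep, add_assoc]
  · have e := der_eq (B.D j) (V := W⁄F) (hR _ W.a₁) (hR _ W.a₂) (hR _ W.a₃) (hR _ W.a₄)
      (hR _ W.a₆) (nsO i).1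
    rw [hDa i j hj, zero_mul] at e
    exact (mul_eq_zero.1 e).resolve_right (ne1 (hvW i))
  · have e := congrArg v (hinv i i)
    rw [map_mul, map_mul, hψ, hvW, hDX, if_pos rfl, mul_one, mul_one] at e
    rw [e]
    exact hϖp
  · rw [← hO, ← hO, map_add, Point.map_baseChange, hstep, map_add, add_assoc]
    congr 1
    rw [Point.map_some, Point.some.injEq]
    exact ⟨hσX i, hσY i⟩


end Main

end Crest.Agent.T170.W2
end

-- ▼ part T170/World_7

/-!
# Row 170, task W5 (helper7): `WorldStmt` from `BaseStmt` and `EllStmt`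
-/

set_option autoImplicit false
set_option linter.style.haveILetI false

namespace Crest.Agent.T170.W5

open scoped NNReal Polynomial Classical
open WeierstrassCurve WeierstrassCurve.Affine Crest.Agent.T170.Fr

section Transport

theorem val_comap_lt_one {F F' : Type*} [Field F] [Field F'] (V : ValuationSubring F)
    (f : F' →+* F) (z : F') : (V.comap f).valuation z < 1 ↔ V.valuation (f z) < 1 := by
  rw [← ValuationSubring.mem_nonunits_iff, ← ValuationSubring.mem_nonunits_iff,
    ValuationSubring.mem_nonunits_iff_or, ValuationSubring.mem_nonunits_iff_or,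
    ValuationSubring.mem_comap, map_inv₀, map_eq_zero]

variable {C F C' F' : Type} [Field C] [Field F] [Algebra C F] [Field C'] [Field F'] [Algebra C' F']

/-- transport of an automorphism -/
noncomputable def trAut (eC : C ≃+* C') (eF : F ≃+* F')
    (h : ∀ c, eF (algebraMap C F c) = algebraMap C' F' (eC c)) (σ : F ≃ₐ[C] F) : F' ≃ₐ[C'] F' :=
  AlgEquiv.ofRingEquiv (f := (eF.symm.trans (σ : F ≃+* F)).trans eF) fun c => by
    obtain ⟨c, rfl⟩ := eC.surjective c
    rw [← h]
    simp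

theorem trAut_apply (eC : C ≃+* C') (eF : F ≃+* F')
    (h : ∀ c, eF (algebraMap C F c) = algebraMap C' F' (eC c)) (σ : F ≃ₐ[C] F) (z : F) :
    trAut eC eF h σ (eF z) = eF (σ z) := by
  simp [trAut]

theorem trAut_pow (eC : C ≃+* C') (eF : F ≃+* F')
    (h : ∀ c, eF (algebraMap C F c) = algebraMap C' F' (eC c)) (σ : F ≃ₐ[C] F) (k : ℕ) (z : F) :
    (trAut eC eF h σ ^ k) (eF z) = eF ((σ ^ k) z) := by
  induction k with
  | zero => simp
  | succ k ih => rw [pow_succ', pow_succ', AlgEquiv.mul_apply, AlgEquiv.mul_apply, ih, trAut_apply]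

/-- transport of a derivation -/
noncomputable def trDer (eC : C ≃+* C') (eF : F ≃+* F')
    (h : ∀ c, eF (algebraMap C F c) = algebraMap C' F' (eC c)) (D : Derivation C F F) :
    Derivation C' F' F' :=
  Derivation.mk'
    { toFun := fun z => eF (D (eF.symm z))
      map_add' := fun z w => by simp
      map_smul' := fun c z => by
        obtain ⟨c, rfl⟩ := eC.surjective c
        obtain ⟨z, rfl⟩ := eF.surjective z
        rw [Algebra.smul_def, ← h, ← map_mul, RingEquiv.symm_apply_apply,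
          RingEquiv.symm_apply_apply, ← Algebra.smul_def, D.map_smul, Algebra.smul_def, map_mul,
          RingHom.id_apply, Algebra.smul_def, h] }
    fun z w => by simp

theorem trDer_apply (eC : C ≃+* C') (eF : F ≃+* F')
    (h : ∀ c, eF (algebraMap C F c) = algebraMap C' F' (eC c)) (D : Derivation C F F) (z : F) :
    trDer eC eF h D (eF z) = eF (D z) := by
  change eF (D (eF.symm (eF z))) = _
  rw [RingEquiv.symm_apply_apply]

/-- transport of the base datum -/
theorem exists_base {p n : ℕ} [NeZero n] (B : Base p n C F) (eC : C ≃+* C') (eF : F ≃+* F')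
    (h : ∀ c, eF (algebraMap C F c) = algebraMap C' F' (eC c)) :
    ∃ B' : Base p n C' F', ∀ z, B'.v (eF z) = B.v z := by
  let v' : Valuation F' ℝ≥0 := B.v.comap (eF.symm : F' →+* F)
  have hv : ∀ z, v' (eF z) = B.v z := fun z => by
    change B.v (eF.symm (eF z)) = _
    rw [RingEquiv.symm_apply_apply]
  have hV : ∀ z, eF z ∈ B.V.comap (eF.symm : F' →+* F) ↔ z ∈ B.V := fun z => by
    rw [ValuationSubring.mem_comap]
    change eF.symm (eF z) ∈ _ ↔ _
    rw [RingEquiv.symm_apply_apply]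
  refine ⟨
    { v := v'
      vp := by rw [← map_natCast eF, hv]; exact B.vp
      vgrp := fun z => ?_
      cpl := fun f hf => ?_
      s := fun i => eF (B.s i)
      vs := fun i => by rw [hv]; exact B.vs i
      vss := fun i j hij => by rw [← map_sub, hv]; exact B.vss i j hij
      σ := trAut eC eF h B.σ
      σn := AlgEquiv.ext fun z => ?_
      σs := fun i => by rw [trAut_apply, B.σs]
      vσ := fun z => ?_
      D := fun i => trDer eC eF h (B.D i)
      Ds := fun i j => by rw [trDer_apply, B.Ds]; split_ifs <;> simp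
      vD := fun i z => ?_
      Dcomm := fun i j z => ?_
      σD := fun i z => ?_
      V := B.V.comap (eF.symm : F' →+* F)
      fine := ⟨fun z hz => ?_, fun c hc => ?_, fun z hz => ?_⟩
      σV := fun z => ?_ }, hv⟩
  · obtain ⟨z, rfl⟩ := eF.surjective z
    obtain ⟨c, hc⟩ := B.vgrp z
    exact ⟨eC c, by rw [← h, hv, hv, hc]⟩
  · obtain ⟨l, hl⟩ := B.cpl (fun m => eF.symm (f m)) fun ε hε => by
      obtain ⟨N, hN⟩ := hf ε hε
      refine ⟨N, fun m hm m' hm' => ?_⟩
      rw [← map_sub]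
      exact hN m hm m' hm'
    refine ⟨eF l, fun ε hε => ?_⟩
    obtain ⟨N, hN⟩ := hl ε hε
    refine ⟨N, fun m hm => ?_⟩
    have h1 := hN m hm
    rwa [← hv, map_sub, RingEquiv.apply_symm_apply] at h1
  · obtain ⟨z, rfl⟩ := eF.surjective z
    rw [trAut_pow, B.σn, AlgEquiv.one_apply, AlgEquiv.one_apply]
  · obtain ⟨z, rfl⟩ := eF.surjective z
    rw [trAut_apply, hv, hv, B.vσ]
  · obtain ⟨z, rfl⟩ := eF.surjective z
    rw [trDer_apply, hv, hv]
    exact B.vD i z
  · obtain ⟨z, rfl⟩ := eF.surjective z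
    simp only [trDer_apply]
    rw [B.Dcomm]
  · obtain ⟨z, rfl⟩ := eF.surjective z
    simp only [trDer_apply, trAut_apply]
    rw [B.σD]
  · obtain ⟨z, rfl⟩ := eF.surjective z
    rw [hv]
    exact B.fine.le z ((hV z).1 hz)
  · obtain ⟨c, rfl⟩ := eC.surjective c
    rw [← h, hv] at hc
    rw [← h, hV]
    exact B.fine.const c hc
  · obtain ⟨z, rfl⟩ := eF.surjective z
    obtain ⟨c, hc, hc'⟩ := B.fine.res z ((hV z).1 hz)
    refine ⟨eC c, by rw [← h, hv]; exact hc, ?_⟩
    rw [val_comap_lt_one, ← h, ← map_sub]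
    change B.V.valuation (eF.symm (eF _)) < 1
    rwa [RingEquiv.symm_apply_apply]
  · obtain ⟨z, rfl⟩ := eF.surjective z
    rw [trAut_apply, hV, hV, B.σV]

end Transport

/-- `σ ^ j` moves `s 0` visibly -/
theorem faith {p n : ℕ} [NeZero n] {C F : Type} [Field C] [Field F] [Algebra C F]
    (B : Base p n C F) (j : ℕ) (hj : ¬ n ∣ j) :
    ∃ z : F, B.v z ≤ 1 ∧ B.v ((B.σ ^ j) z - z) = 1 := by
  have key : ∀ k : ℕ, (B.σ ^ k) (B.s 0) = B.s (Fin.ofNat n k) := by
    intro k
    induction k with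
    | zero => rfl
    | succ k ih =>
      rw [pow_succ', AlgEquiv.mul_apply, ih, B.σs]
      congr 1
      ext
      simp [Fin.val_add]
  refine ⟨B.s 0, B.vs 0, ?_⟩
  rw [key]
  refine B.vss _ _ fun h => hj ?_
  have h1 := congrArg Fin.val h
  simp only [Fin.val_ofNat, Fin.val_zero] at h1
  exact Nat.dvd_of_mod_eq_zero h1

theorem exists_y {U : Type*} [Field U] [IsAlgClosed U] (V : Affine U) (x : U) :
    ∃ y, V.Equation x y := by
  obtain ⟨y, hy⟩ := IsAlgClosed.exists_root
    (Polynomial.X ^ 2 + Polynomial.C (V.a₁ * x + V.a₃) * Polynomial.X -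
      Polynomial.C (x ^ 3 + V.a₂ * x ^ 2 + V.a₄ * x + V.a₆)) (by
      have : (Polynomial.X ^ 2 + Polynomial.C (V.a₁ * x + V.a₃) * Polynomial.X -
        Polynomial.C (x ^ 3 + V.a₂ * x ^ 2 + V.a₄ * x + V.a₆) : U[X]).degree = 2 := by
        compute_degree!
      rw [this]
      decide)
  refine ⟨y, (equation_iff _ _).2 ?_⟩
  simp only [Polynomial.IsRoot.def, Polynomial.eval_sub, Polynomial.eval_add, Polynomial.eval_pow,
    Polynomial.eval_X, Polynomial.eval_mul, Polynomial.eval_C] at hy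
  linear_combination hy

/-- punctures, derivations and `g` over abstract fields (any `DecidableEq C`) -/
theorem mid {p n : ℕ} [NeZero n] (hp : p ≠ 0) {R C F U : Type} [CommRing R] [Field C] [Field F]
    [Field U] [Algebra R C] [Algebra R F] [Algebra R U] [Algebra C F] [Algebra C U] [Algebra F U]
    [IsScalarTower R C F] [IsScalarTower R C U] [IsScalarTower R F U] [IsScalarTower C F U]
    [dC : DecidableEq C] [IsAlgClosed C] [CharZero C] [IsAlgClosed U] [CharZero U]
    (B : Base p n C F) (vR : ∀ r : R, B.v (algebraMap R F r) ≤ 1) (W : Affine R) [W.IsElliptic]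
    (x : U) (htr : Transcendental F x)
    (halg : Algebra.IsAlgebraic (IntermediateField.adjoin F {x}) U)
    (P R₀ : (W⁄C).Point) (nP : n • P = 0)
    (Rint : ∀ j : ℕ, ∃ s t h, R₀ + j • P = .some s t h ∧ B.v (algebraMap C F s) ≤ 1 ∧
      B.v (algebraMap C F (t - (W⁄C).negY s t)) = 1) :
    ∃ (y : U) (ns : (W⁄U).Nonsingular x y) (a b : Fin n → F) (a' b' : Fin n → C)
      (nsO : ∀ i, (W⁄U).Nonsingular (algebraMap F U (a i)) (algebraMap F U (b i)))
      (ns' : ∀ i, (W⁄C).Nonsingular (a' i) (b' i)) (D : Fin n → Derivation C U U)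
      (g : U ≃ₐ[C] U),
      (∀ i, ∃ z : F, B.v z = 1 ∧ algebraMap F U (b i) -
        (W⁄U).negY (algebraMap F U (a i)) (algebraMap F U (b i)) = algebraMap F U z) ∧
      (∀ i, B.v (algebraMap C F (a' i)) ≤ 1) ∧
      (∀ i, B.v (a i - algebraMap C F (a' i)) < 1) ∧
      (∀ i, B.v (b i - algebraMap C F (b' i)) < 1) ∧
      (∀ i, Point.some _ _ (ns' (i + 1)) = Point.some _ _ (ns' i) + P) ∧
      (∀ i j, j ≠ i → B.D j (a i) = 0) ∧ (∀ i j, j ≠ i → B.D j (b i) = 0) ∧
      (∀ i, B.v (p : F) < B.v (B.D i (a i))) ∧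
      (∀ i, D i x = 0) ∧ (∀ i, D i y = 0) ∧
      (∀ i z, D i (algebraMap F U z) = algebraMap F U (B.D i z)) ∧
      (∀ i j z, D i (D j z) = D j (D i z)) ∧
      (∀ z, g (algebraMap F U z) = algebraMap F U (B.σ z)) ∧
      Point.map (g : U →ₐ[C] U) (Point.some _ _ ns) =
        Point.some _ _ ns - Point.baseChange C U P ∧
      (∀ i, Point.map (g : U →ₐ[C] U) (Point.some _ _ (nsO i)) + Point.baseChange C U P =
        Point.some _ _ (nsO (i + 1))) ∧
      ∀ i z, g (D i z) = D (i + 1) (g z) := by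
  obtain rfl : dC = fun a b => Classical.propDecidable (a = b) := Subsingleton.elim _ _
  obtain ⟨a, b, a', b', nsO, ns', vW, va', vaa', vbb', O', Da, Db, big, gO⟩ :=
    W2.punctures' hp B vR W P R₀ nP Rint
  obtain ⟨y, hy⟩ := exists_y (W⁄U) x
  have ns : (W⁄U).Nonsingular x y := equation_iff_nonsingular.1 hy
  obtain ⟨D, g, Dx, Dy, DF, Dcomm, gσ, gξ, gD⟩ := W3.w3 (C := C) (F := F) W ns htr halg P B.D B.σ
    (fun i => i + 1) B.σD B.Dcomm
  let f : F →ₐ[C] U := IsScalarTower.toAlgHom C F U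
  have nsU : ∀ i, (W⁄U).Nonsingular (algebraMap F U (a i)) (algebraMap F U (b i)) := fun i =>
    (W.baseChange_nonsingular (f := f) (algebraMap F U).injective _ _).2 (nsO i)
  refine ⟨y, ns, a, b, a', b', nsU, ns', D, g, fun i => ⟨_, vW i, ?_⟩, va', vaa', vbb', O', Da, Db,
    big, Dx, Dy, DF, Dcomm, gσ, gξ, fun i => ?_, gD⟩
  · have h1 := W.baseChange_negY f (a i) (b i)
    change (W⁄U).negY (algebraMap F U (a i)) (algebraMap F U (b i)) =
      algebraMap F U ((W⁄F).negY (a i) (b i)) at h1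
    rw [h1, ← map_sub]
  · have h2 := congrArg (Point.map f) (gO i)
    rw [map_add, Point.map_baseChange] at h2
    refine Eq.trans ?_ h2
    congr 1
    simp only [Point.map_some]
    congr 1
    · exact gσ (a i)
    · exact gσ (b i)

/-- `EllStmt` for any `DecidableEq C`, over the subring -/
theorem ell_dec {p : ℕ} (hE : EllStmt p) (C : Type) [Field C] [dC : DecidableEq C] [IsAlgClosed C]
    [CharZero C] (v : Valuation C ℝ≥0) (hv : v (p : C) < 1) (a : ℕ) :
    ∃ (R : Subring C) (W : Affine R) (_ : W.IsElliptic) (P R₀ : (W⁄C).Point),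
      (∀ r : R, v (algebraMap R C r) ≤ 1) ∧ (p ^ a) • P = 0 ∧
      (∀ j : ℕ, ¬ p ^ a ∣ j → ∃ x y h, j • P = .some x y h ∧ v x ≤ 1) ∧
      ∀ j : ℕ, ∃ x y h, R₀ + j • P = .some x y h ∧ v x ≤ 1 ∧
        v (y - (W⁄C).negY x y) = 1 := by
  obtain rfl : dC = fun a b => Classical.propDecidable (a = b) := Subsingleton.elim _ _
  obtain ⟨W, ell, P, R₀, nP, Pint, Rint⟩ := hE C v hv a
  exact ⟨v.valuationSubring.toSubring, W, ell, P, R₀, fun r => r.2, nP, Pint, Rint⟩

/-- the world from a base datum inside `ℂ` -/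
theorem world_of {p n : ℕ} [NeZero n] (hp : p ≠ 0) (U : Type) [Field U] [Algebra ℂ U]
    [IsAlgClosed U] (C F : Subfield ℂ) (R : Subring C) (CF : C ≤ F) [Cac : IsAlgClosed C]
    [Algebra C F] (hCF : ∀ c : C, algebraMap C F c = Subfield.inclusion CF c)
    (algF : ∀ c : ℂ, IsAlgebraic F c) (B : Base p n C F) (v : Valuation U ℝ≥0)
    (hv : ∀ z : F, v (algebraMap F U z) = B.v z)
    (vR : ∀ r : R, v (algebraMap R U r) ≤ 1)
    (vgrp : ∀ c : ℂ, ∃ z : C, v (algebraMap C U z) = v (algebraMap ℂ U c))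
    (x : U) (trans : Transcendental ℂ x)
    (alg : Algebra.IsAlgebraic (IntermediateField.adjoin ℂ {x}) U) (vx : v x ≤ 1)
    (gauss : ∀ c : ℂ, 1 ≤ v (x - algebraMap ℂ U c))
    (W : Affine R) [ell : W.IsElliptic] (P R₀ : (W⁄C).Point) (nP : n • P = 0)
    (Pint : ∀ j : ℕ, ¬ n ∣ j → ∃ s t h, j • P = .some s t h ∧ v (algebraMap C U s) ≤ 1)
    (Rint : ∀ j : ℕ, ∃ s t h, R₀ + j • P = .some s t h ∧ v (algebraMap C U s) ≤ 1 ∧
      v (algebraMap C U (t - (W⁄C).negY s t)) = 1) :
    Nonempty (World p n U) := by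
  haveI : CharZero U := charZero_of_injective_algebraMap (algebraMap ℂ U).injective
  have hCU : ∀ c : C, algebraMap C U c = algebraMap F U (algebraMap C F c) := fun c => by
    rw [hCF]; rfl
  haveI : IsScalarTower C F U := IsScalarTower.of_algebraMap_eq hCU
  haveI : IsScalarTower R F U := IsScalarTower.of_algebraMap_eq fun r => hCU r
  have hvC : ∀ c : C, v (algebraMap C U c) = B.v (algebraMap C F c) := fun c => by rw [hCU, hv]
  obtain ⟨y, ns, a, b, a', b', nsO, ns', D, g, vW, va', vaa', vbb', O', Da, Db, big, Dx, Dy, DF,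
      Dcomm, gσ, gξ, gO, gD⟩ :=
    mid (R := R) (U := U) hp B (fun r => by
      have h1 := vR r
      rwa [IsScalarTower.algebraMap_apply R F U, hv] at h1) W x (W3.trans_of trans)
      (W3.alg_adjoin algF alg) P R₀ nP (fun j => by
      obtain ⟨s, t, h, e, h1, h2⟩ := Rint j
      exact ⟨s, t, h, e, by rwa [← hvC], by rwa [← hvC]⟩)
  have hpow : ∀ (k : ℕ) (z : F), ((B.σ : F ≃+* F) ^ k) z = (B.σ ^ k) z := by
    intro k z
    induction k with
    | zero => rfl
    | succ k ih => rw [pow_succ', pow_succ', AlgEquiv.mul_apply, ← ih]; rfl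
  have hvp : v (p : U) = B.v (p : F) := by rw [← hv, map_natCast (algebraMap F U)]
  refine ⟨
    { C := C
      F := F
      R := R
      CF := CF
      algF := algF
      Cac := Cac
      v := v
      vp := by rw [hvp]; exact B.vp
      vR := vR
      vgrp := vgrp
      cpl := ?_
      W := W
      ell := ell
      x := x
      y := y
      ns := ns
      trans := trans
      alg := alg
      vx := vx
      gauss := gauss
      P := P
      nP := nP
      Pint := Pint
      a := a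
      b := b
      nsO := nsO
      vW := fun i => ?_
      a' := a'
      b' := b'
      va' := fun i => by rw [hvC]; exact va' i
      vaa' := fun i => by rw [hCU, ← map_sub, hv]; exact vaa' i
      vbb' := fun i => by rw [hCU, ← map_sub, hv]; exact vbb' i
      ns' := ns'
      O' := O'
      D := D
      Dx := Dx
      Dy := Dy
      DF := fun i z => ⟨_, DF i z⟩
      vD := fun i z => by rw [DF, hv, hv]; exact B.vD i z
      Dcomm := Dcomm
      Da := fun i j hij => by rw [DF, Da i j hij, map_zero]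
      Db := fun i j hij => by rw [DF, Db i j hij, map_zero]
      big := fun i => by rw [DF, hv, hvp]; exact big i
      g := g
      σ := (B.σ : F ≃+* F)
      gσ := gσ
      vσ := fun z => by rw [hv, hv]; exact B.vσ z
      σn := RingEquiv.ext fun z => by rw [hpow, B.σn]; rfl
      faith := fun j hj => ?_
      gξ := gξ
      gO := gO
      gD := gD
      V := B.V
      Vle := fun z hz => by rw [hv]; exact B.fine.le z hz
      Vconst := fun z hz => by rw [← hCF]; exact B.fine.const z (by rwa [← hvC])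
      Vres := fun z hz => ?_
      Vσ := B.σV }⟩
  · have : v.comap (algebraMap F U) = B.v := Valuation.ext hv
    rw [this]
    exact B.cpl
  · obtain ⟨z, h1, h2⟩ := vW i
    rw [h2, hv, h1]
  · obtain ⟨z, h1, h2⟩ := faith B j hj
    exact ⟨z, by rwa [hv], by rwa [hv, hpow]⟩
  · obtain ⟨c, h1, h2⟩ := B.fine.res z hz
    exact ⟨c, by rwa [hvC], by rwa [← hCF]⟩

/-- **W5**: the world exists -/
theorem worldStmt_of {p : ℕ} (hB : BaseStmt p) (hE : EllStmt p) : WorldStmt p := by
  intro a ha _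
  have hp : p ≠ 0 := by
    rintro rfl
    exact NeZero.ne (0 ^ a) (zero_pow ha.ne')
  obtain ⟨C₀, F₀, _, _, _, _, _, hF, ⟨B₀⟩⟩ := hB a ha
  haveI : CharZero F₀ := charZero_of_injective_algebraMap (algebraMap C₀ F₀).injective
  obtain ⟨ι, v, algF, hv₀, vx, gauss, -, vgrp⟩ := W1.w1 F₀ hF B₀.v
    ⟨(p : F₀), Nat.cast_ne_zero.2 hp, B₀.vp.ne⟩
  let F : Subfield ℂ := ι.fieldRange
  let C : Subfield ℂ := (ι.comp (algebraMap C₀ F₀)).fieldRange
  have CF : C ≤ F := by
    rintro _ ⟨c, rfl⟩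
    exact ⟨algebraMap C₀ F₀ c, rfl⟩
  letI : Algebra C F := (Subfield.inclusion CF).toAlgebra
  let eF : F₀ ≃+* F := RingEquiv.ofBijective ι.rangeRestrictField ι.rangeRestrictField_bijective
  let eC : C₀ ≃+* C := RingEquiv.ofBijective (ι.comp (algebraMap C₀ F₀)).rangeRestrictField
    (ι.comp (algebraMap C₀ F₀)).rangeRestrictField_bijective
  haveI : IsAlgClosed C := IsAlgClosed.of_ringEquiv C₀ C eC
  obtain ⟨B, hB⟩ := exists_base B₀ eC eF fun c => rfl
  have hv : ∀ z : F, v (algebraMap F W1.U z) = B.v z := fun z => by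
    obtain ⟨z, rfl⟩ := eF.surjective z
    rw [hB]
    exact hv₀ z
  obtain ⟨R, W, ell, P, R₀, vR, nP, Pint, Rint⟩ := ell_dec hE C (v.comap (algebraMap C W1.U)) (by
    rw [Valuation.comap_apply, map_natCast, ← map_natCast (algebraMap F W1.U), hv]
    exact B.vp) a
  refine ⟨W1.U, inferInstance, inferInstance, inferInstance, ?_⟩
  exact world_of hp W1.U C F R CF (fun c => rfl) algF B v hv vR (fun c => by
      obtain ⟨z, hz⟩ := vgrp C₀ (algebraMap C₀ F₀) B₀.vgrp c
      exact ⟨eC z, hz⟩) W1.xU W1.xU_trans W1.xU_alg vx gauss W P R₀ nP Pint Rint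

end Crest.Agent.T170.W5
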