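import Crest.Agent.T170.BadZ_10_Mg
import Crest.Agent.T170.Eig_93
import Mathlib
import Crest.Agent.T170.BaseFin_64_Mg
import Crest.Agent.T170.OrdC_16
import Crest.Agent.T170.EllC_61
import Crest.Agent.T170.Fr_20
import Crest.Agent.T170.World_7
import Crest.Agent.T170.Smith2_13
import Crest.Agent.T170.RetApi_81

-- ▼ part T170/CoreFin_20
section

/-!
# Row 170 (helper20): the core statement, unconditionally
-/

set_option autoImplicit false

namespace Crest.Agent.T170.Fr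

theorem thetaRot20 : ThetaRot := by
  intro F Ψ V n _ _ _ _ _ _ τb g hg δb hc S hS hrot θ hθ
  exact theta_rot' τb g hg hc S hS hrot hθ

theorem coreStmt20 {p : ℕ} (hp : p.Prime) : CoreStmt p :=
  coreStmt_of hp DM.slopeStmt DM.commonStmt (Eig93.eigStmt hp) (Gaga13.gagaStmt hp)
    (Gaga13.intStmt hp) rotStmt thetaRot20 sfStmt degStmt Bad.zStmt DM.finalStmt

end Crest.Agent.T170.Fr
end

-- ▼ part T170/Base3_49
section

/-!
# Row 170, module E (helper49), part 3: `baseStmt : Fr.BaseStmt p`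
-/

set_option autoImplicit false

namespace Crest.Agent.T170.Base

open scoped NNReal Cardinal

theorem card_padic_le (p : ℕ) [Fact p.Prime] : #ℚ_[p] ≤ 𝔠 := by
  have h1 : #ℚ_[p] ≤ #(CauSeq ℚ (padicNorm p)) := Cardinal.mk_quotient_le
  refine h1.trans ((Cardinal.mk_subtype_le _).trans (le_of_eq ?_))
  simp

theorem card_padicAlgCl_le (p : ℕ) [Fact p.Prime] : #(PadicAlgCl p) ≤ 𝔠 :=
  (Algebra.IsAlgebraic.cardinalMk_le_max ℚ_[p] (PadicAlgCl p)).trans
    (max_le (card_padic_le p) Cardinal.aleph0_le_continuum)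

theorem baseStmt {p : ℕ} (hp : p.Prime) : Fr.BaseStmt p := by
  intro a _ _
  have : Fact p.Prime := ⟨hp⟩
  have hv : (Valued.v : Valuation (PadicAlgCl p) ℝ≥0) (p : PadicAlgCl p) < 1 := by
    rw [PadicAlgCl.valuation_p, one_div]
    exact inv_lt_one_of_one_lt₀ (by exact_mod_cast hp.one_lt)
  obtain ⟨B⟩ := preBase_of_lex hp (lexStmt hp) a (PadicAlgCl p) Valued.v hv
  have hK : #(FractionRing (MvPolynomial (Fin (p ^ a)) (PadicAlgCl p))) ≤ 𝔠 := by
    refine (IsLocalization.cardinalMk_le (nonZeroDivisors (MvPolynomial (Fin (p ^ a))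
      (PadicAlgCl p)))).trans (MvPolynomial.cardinalMk_le_max.trans ?_)
    refine max_le (max_le (card_padicAlgCl_le p) ?_) Cardinal.aleph0_le_continuum
    exact (Cardinal.lt_aleph0_of_finite _).le.trans Cardinal.aleph0_le_continuum
  obtain ⟨F, _, _, hF, hB⟩ := cplStmt hp.ne_zero (p ^ a) (PadicAlgCl p) _ B hK
  exact ⟨PadicAlgCl p, F, inferInstance, inferInstance, inferInstance, inferInstance,
    inferInstance, hF, hB⟩

end Crest.Agent.T170.Base
end

-- ▼ part T170/OrdD_16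
section

/-!
# Row 170, module D4 (helper16), part D: `EllStmt`
-/

set_option autoImplicit false

namespace Crest.Agent.T170.Ord

open scoped NNReal Classical
open WeierstrassCurve WeierstrassCurve.Affine Polynomial Crest.Agent.T170.Ell
  Crest.Agent.T170.Ell.Place

/-- The residue field of a valuation ring of an algebraically closed field is algebraically
closed. -/
theorem isAlgClosed_residueField {C : Type*} [Field C] [IsAlgClosed C] (A : ValuationSubring C) :
    IsAlgClosed (IsLocalRing.ResidueField A) := by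
  refine IsAlgClosed.of_exists_root _ fun f hf hirr => ?_
  obtain ⟨g, hg, hdeg, hmon⟩ := Polynomial.lifts_and_degree_eq_and_monic
    (f := IsLocalRing.residue A) ((Polynomial.mem_lifts f).mpr
      (Polynomial.map_surjective _ IsLocalRing.residue_surjective f)) hf
  obtain ⟨z, hz⟩ := IsAlgClosed.exists_aeval_eq_zero C g
    (by rw [hdeg]; exact (degree_pos_of_irreducible hirr).ne')
  obtain ⟨z, rfl⟩ := (IsIntegrallyClosed.isIntegral_iff (R := A) (K := C)).mp ⟨g, hmon, hz⟩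
  refine ⟨IsLocalRing.residue A z, ?_⟩
  rw [aeval_algebraMap_apply, coe_aeval_eq_eval,
    map_eq_zero_iff _ (IsFractionRing.injective A C)] at hz
  rw [← hg, eval_map, eval₂_at_apply, hz, map_zero]

theorem charP_residueField {C Γ : Type*} [Field C] [LinearOrderedCommGroupWithZero Γ]
    (v : Valuation C Γ) {p : ℕ} (hp : p.Prime) (hv : v (p : C) < 1) :
    CharP (IsLocalRing.ResidueField v.valuationSubring) p := by
  refine (CharP.charP_iff_prime_eq_zero hp).mpr ?_
  exact (sp_natCast p).unique ((isOf_ofValuationSubring v).sp_zero_iff.mpr hv)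

/-- **The ordinary curve of the frame.** -/
theorem ellStmt {p : ℕ} (hp : p.Prime) : Fr.EllStmt p := by
  intro C _ _ _ v hv a
  have : Fact p.Prime := ⟨hp⟩
  have := isAlgClosed_residueField v.valuationSubring
  have := charP_residueField v hp hv
  have hI := isOf_ofValuationSubring v
  have hP : (Place.ofValuationSubring v.valuationSubring).Over v.valuationSubring :=
    fun r => ⟨r.2, rfl⟩
  obtain ⟨W, hW, h⟩ := exists_ordinary_lift p hP IsLocalRing.residue_surjective fun r hr => by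
    by_contra hu
    exact hr ((IsLocalRing.residue_eq_zero_iff r).mpr hu)
  obtain ⟨T, hT, oT⟩ := h a
  obtain ⟨S, -, oS⟩ := h (a + 2)
  have fin : ∀ U : (W⁄C).Point, red W hP U ≠ 0 → ∃ x y h, U = .some x y h ∧ v x ≤ 1 := by
    rintro (_ | ⟨x, y, hxy⟩) hU
    · exact absurd (map_zero _) hU
    · rw [Ne, red_some_eq_zero_iff, not_not] at hU
      exact ⟨x, y, hxy, rfl, hU⟩
  refine ⟨W, hW, T, S, hT, fun j hj => fin _ ?_, fun j => ?_⟩
  · rw [map_nsmul, Ne, ← addOrderOf_dvd_iff_nsmul_eq_zero, oT]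
    exact hj
  · have h2 : (2 : ℕ) • red W hP (S + j • T) ≠ 0 := by
      intro h0
      have h1 : p ^ a • (2 : ℕ) • red W hP (S + j • T) = 0 := by rw [h0, smul_zero]
      rw [smul_comm, ← map_nsmul, smul_add, smul_comm, hT, smul_zero, add_zero, map_nsmul,
        smul_smul, ← addOrderOf_dvd_iff_nsmul_eq_zero, oS, pow_add, mul_comm 2,
        Nat.mul_dvd_mul_iff_left (pow_pos hp.pos a)] at h1
      have := Nat.le_of_dvd two_pos h1
      nlinarith [hp.two_le]
    obtain ⟨x, y, hxy, e, hx⟩ := fin (S + j • T) fun h0 => h2 (by rw [h0, smul_zero])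
    refine ⟨x, y, hxy, e, hx, ?_⟩
    have sx := sp_val ((hI x).mpr hx)
    have sy := sp_val (y_mem hP hxy.1 sx.mem)
    refine hI.eq_one (sy.sub (sp_negY hP sx sy)) (sub_ne_zero.mpr fun hy => h2 ?_)
    rw [e, red_some_of_sp hP hxy sx sy, two_nsmul, Point.add_self_of_Y_eq hy]

end Crest.Agent.T170.Ord
end

-- ▼ part T170/WorldFin_7
section

/-!
# Row 170 (helper7): `WorldStmt`
-/

set_option autoImplicit false

namespace Crest.Agent.T170.W5

/-- the world exists -/
theorem worldStmt {p : ℕ} (hp : p.Prime) : Fr.WorldStmt p :=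
  worldStmt_of (Base.baseStmt hp) (Ord.ellStmt hp)

end Crest.Agent.T170.W5
end

-- ▼ part T170/WrA_67
section

/-!
# Row 170, wreath step (helper67), file A

* `Wr A`  : the wreath product `A ≀ C₂`;
* `ind K` : the sum of the elements of `K` in the integral group ring, `coeff_prod_ind` (tuple count);
* `Cc`    : the class of the swap; `coeff_Cc4` : `(Cc⁺)⁴ (z ⊗ 1)` at `1` counts commutators.
-/

set_option autoImplicit false
set_option linter.dupNamespace false

open Finset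

noncomputable section

namespace Crest.Agent.T170.Wr

/-- the wreath product `A ≀ C₂` -/
@[ext] structure Wr (A : Type*) where
  /-- left component -/
  l : A
  /-- right component -/
  r : A
  /-- the swap -/
  s : Bool

namespace Wr

variable {A : Type*}

/-- `Wr A` as a product -/
def equivProd (A : Type*) : Wr A ≃ A × A × Bool where
  toFun x := (x.l, x.r, x.s)
  invFun x := ⟨x.1, x.2.1, x.2.2⟩
  left_inv _ := rfl
  right_inv _ := rfl

instance [Finite A] : Finite (Wr A) := Finite.of_equiv _ (equivProd A).symm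

variable [Group A]

instance : Mul (Wr A) :=
  ⟨fun x y => ⟨x.l * (bif x.s then y.r else y.l), x.r * (bif x.s then y.l else y.r), xor x.s y.s⟩⟩
instance : One (Wr A) := ⟨⟨1, 1, false⟩⟩
instance : Inv (Wr A) :=
  ⟨fun x => ⟨bif x.s then x.r⁻¹ else x.l⁻¹, bif x.s then x.l⁻¹ else x.r⁻¹, x.s⟩⟩

lemma mul_def (x y : Wr A) : x * y =
    ⟨x.l * (bif x.s then y.r else y.l), x.r * (bif x.s then y.l else y.r), xor x.s y.s⟩ := rfl
lemma one_def : (1 : Wr A) = ⟨1, 1, false⟩ := rfl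
lemma inv_def (x : Wr A) : x⁻¹ =
    ⟨bif x.s then x.r⁻¹ else x.l⁻¹, bif x.s then x.l⁻¹ else x.r⁻¹, x.s⟩ := rfl

instance : Group (Wr A) := Group.ofLeftAxioms
  (by
    rintro ⟨a, b, s⟩ ⟨c, d, t⟩ ⟨e, f, u⟩
    cases s <;> cases t <;> cases u <;> simp [mul_def, mul_assoc])
  (by rintro ⟨a, b, s⟩; simp [mul_def, one_def])
  (by rintro ⟨a, b, s⟩; cases s <;> simp [mul_def, one_def, inv_def])

@[simp] lemma mk_mul_ff (a b : A) (y : Wr A) :
    (⟨a, b, false⟩ : Wr A) * y = ⟨a * y.l, b * y.r, y.s⟩ := by simp [mul_def]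
@[simp] lemma mk_mul_tt (a b : A) (y : Wr A) :
    (⟨a, b, true⟩ : Wr A) * y = ⟨a * y.r, b * y.l, !y.s⟩ := by simp [mul_def]
@[simp] lemma inv_ff (a b : A) : (⟨a, b, false⟩ : Wr A)⁻¹ = ⟨a⁻¹, b⁻¹, false⟩ := by simp [inv_def]
@[simp] lemma inv_tt (a b : A) : (⟨a, b, true⟩ : Wr A)⁻¹ = ⟨b⁻¹, a⁻¹, true⟩ := by simp [inv_def]
@[simp] lemma one_l : (1 : Wr A).l = 1 := rfl
@[simp] lemma one_r : (1 : Wr A).r = 1 := rfl
@[simp] lemma one_s : (1 : Wr A).s = false := rfl
lemma mul_s (x y : Wr A) : (x * y).s = xor x.s y.s := rfl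
@[simp] lemma inv_s (x : Wr A) : x⁻¹.s = x.s := rfl

/-- left inclusion -/
def inl : A →* Wr A where
  toFun a := ⟨a, 1, false⟩
  map_one' := rfl
  map_mul' a b := by simp
/-- right inclusion -/
def inr : A →* Wr A where
  toFun a := ⟨1, a, false⟩
  map_one' := rfl
  map_mul' a b := by simp

lemma inl_apply (a : A) : inl a = (⟨a, 1, false⟩ : Wr A) := rfl
lemma inr_apply (a : A) : inr a = (⟨1, a, false⟩ : Wr A) := rfl

/-- the class of the swap -/
def sw (a : A) : Wr A := ⟨a, a⁻¹, true⟩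

end Wr

open MonoidAlgebra

section ind

variable {G : Type*} [Group G] [Fintype G]

open Classical in
/-- the sum of the elements of `K` -/
def ind (K : Set G) : MonoidAlgebra ℤ G := ∑ w ∈ univ.filter (· ∈ K), single w 1

open Classical in
lemma coeff_ind_mul (K : Set G) (F : MonoidAlgebra ℤ G) (x : G) :
    (ind K * F).coeff x = ∑ w ∈ univ.filter (· ∈ K), F.coeff (w⁻¹ * x) := by
  unfold ind
  rw [Finset.sum_mul, coeff_sum, Finsupp.finsetSum_apply]
  refine Finset.sum_congr rfl fun w _ => ?_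
  rw [coeff_single_mul_apply, one_mul]


open Classical in
/-- the coefficients of a product of indicator sums count tuples -/
lemma coeff_prod_ind : ∀ (m : ℕ) (C : Fin m → Set G) (x : G),
    ((List.ofFn fun i => ind (C i)).prod).coeff x =
      ((univ.filter fun w : Fin m → G => (∀ i, w i ∈ C i) ∧ (List.ofFn w).prod = x).card : ℤ)
  | 0, C, x => by
    simp only [List.ofFn_zero, List.prod_nil, IsEmpty.forall_iff, true_and]
    rw [MonoidAlgebra.one_def, coeff_single, Finsupp.single_apply]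
    by_cases h : (1 : G) = x
    · simp [h]
    · simp [h]
  | m + 1, C, x => by
    rw [List.ofFn_succ, List.prod_cons, coeff_ind_mul]
    simp only [coeff_prod_ind m]
    rw [← Nat.cast_sum]
    congr 1
    rw [← Finset.card_sigma]
    refine Finset.card_bij' (fun p _ => Fin.cons p.1 p.2)
      (fun w _ => ⟨w 0, fun i => w i.succ⟩) ?_ ?_ ?_ ?_
    · rintro ⟨a, w⟩ h
      simp only [mem_sigma, mem_filter, mem_univ, true_and] at h ⊢
      refine ⟨fun i => Fin.cases (by simpa using h.1) (fun j => by simpa using h.2.1 j) i, ?_⟩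
      rw [List.ofFn_succ, List.prod_cons]
      simp only [Fin.cons_zero, Fin.cons_succ]
      rw [h.2.2]; group
    · intro w h
      simp only [mem_sigma, mem_filter, mem_univ, true_and] at h ⊢
      refine ⟨h.1 0, fun i => h.1 _, ?_⟩
      rw [← h.2, List.ofFn_succ, List.prod_cons]; group
    · rintro ⟨a, w⟩ _
      simp
    · intro w _
      exact Fin.cons_self_tail w

/-- conjugation invariant sets -/
def Cinv (K : Set G) : Prop := ∀ g x, x ∈ K → g * x * g⁻¹ ∈ K

omit [Fintype G] in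
lemma Cinv.iff {K : Set G} (h : Cinv K) (g x : G) : g * x * g⁻¹ ∈ K ↔ x ∈ K :=
  ⟨fun hx => by simpa [mul_assoc] using h g⁻¹ _ hx, h g x⟩

omit [Fintype G] in
lemma mem_center_of_single {F : MonoidAlgebra ℤ G}
    (h : ∀ g : G, single g (1 : ℤ) * F = F * single g 1) :
    F ∈ Subring.center (MonoidAlgebra ℤ G) := by
  rw [Subring.mem_center_iff]
  intro Y
  induction Y using MonoidAlgebra.induction_on with
  | of g => exact h g
  | add a b ha hb => rw [add_mul, mul_add, ha, hb]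
  | smul r a ha => rw [smul_mul_assoc, mul_smul_comm, ha]

open Classical in
lemma ind_mem_center {K : Set G} (h : Cinv K) : ind K ∈ Subring.center (MonoidAlgebra ℤ G) := by
  refine mem_center_of_single fun g => ?_
  unfold ind
  rw [Finset.mul_sum, Finset.sum_mul]
  refine Finset.sum_bij' (fun w _ => g * w * g⁻¹) (fun w _ => g⁻¹ * w * g) ?_ ?_ ?_ ?_ ?_
  · intro w hw
    simp only [mem_filter, mem_univ, true_and] at hw ⊢
    exact h g w hw
  · intro w hw
    simp only [mem_filter, mem_univ, true_and] at hw ⊢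
    simpa using h g⁻¹ w hw
  · intro w _; group
  · intro w _; group
  · intro w _
    rw [single_mul_single, single_mul_single]; congr 1; group

omit [Fintype G] in
lemma coeff_conj {F : MonoidAlgebra ℤ G} (h : F ∈ Subring.center (MonoidAlgebra ℤ G)) (g x : G) :
    F.coeff (g * x * g⁻¹) = F.coeff x := by
  have := congrArg (fun Y : MonoidAlgebra ℤ G => Y.coeff (g * x))
    (Subring.mem_center_iff.1 h (single g 1))
  simp only [coeff_single_mul_apply, coeff_mul_single_apply, one_mul, mul_one] at this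
  rw [← this]; congr 1; group

open Classical in
lemma ind_singleton_one : ind ({1} : Set G) = 1 := by
  unfold ind
  rw [Finset.sum_eq_single (1 : G), MonoidAlgebra.one_def]
  · intro b hb hb1
    simp only [mem_filter, mem_univ, true_and, Set.mem_singleton_iff] at hb
    exact absurd hb hb1
  · intro h; simp at h

end ind

section swap

open Wr

variable {A : Type*} [Group A] [Fintype A]

instance : Fintype (Wr A) := Fintype.ofFinite _

/-- the class of the swap -/
def Cc (A : Type*) [Group A] : Set (Wr A) := {w | w.s = true ∧ w.l * w.r = 1}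

omit [Fintype A] in
lemma cinv_Cc : Cinv (Cc A) := by
  rintro ⟨a, b, s⟩ ⟨c, d, t⟩ ⟨h1, h2⟩
  simp only at h1 h2
  subst h1
  have hd : d = c⁻¹ := (eq_inv_of_mul_eq_one_right h2)
  subst hd
  cases s <;> simp [Cc, mul_assoc]

omit [Fintype A] in
lemma inv_mem_Cc {w : Wr A} : w⁻¹ ∈ Cc A ↔ w ∈ Cc A := by
  obtain ⟨a, b, s⟩ := w
  cases s
  · simp [Cc]
  · simp only [Cc, inv_tt, Set.mem_ofPred_eq, true_and]
    rw [← mul_inv_rev, inv_eq_one]

omit [Fintype A] in
lemma mem_Cc_iff {w : Wr A} (hw : w.s = true) : w ∈ Cc A ↔ (w * w).l = 1 := by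
  obtain ⟨a, b, s⟩ := w
  simp only at hw
  subst hw
  simp [Cc]

open Classical in
lemma ind_Cc : ind (Cc A) = ∑ a : A, single (sw a) 1 := by
  unfold ind
  symm
  refine Finset.sum_bij' (fun a _ => sw a) (fun w _ => w.l) ?_ ?_ ?_ ?_ ?_
  · intro a _
    exact mem_filter.2 ⟨mem_univ _, rfl, mul_inv_cancel a⟩
  · intro w _; simp
  · intro a _; rfl
  · rintro ⟨a, b, s⟩ hw
    obtain ⟨h1, h2⟩ : s = true ∧ a * b = 1 := (mem_filter.1 hw).2
    subst h1
    simp [sw, (eq_inv_of_mul_eq_one_right h2)]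
  · intro a _; rfl

/-- `ℤ[A] → ℤ[Wr A]`, left -/
def iL : MonoidAlgebra ℤ A →+* MonoidAlgebra ℤ (Wr A) := mapDomainRingHom ℤ (inl : A →* Wr A)
/-- `ℤ[A] → ℤ[Wr A]`, right -/
def iR : MonoidAlgebra ℤ A →+* MonoidAlgebra ℤ (Wr A) := mapDomainRingHom ℤ (inr : A →* Wr A)

omit [Fintype A] in
lemma iL_single (a : A) (r : ℤ) : iL (single a r) = single (inl a : Wr A) r := by
  simp [iL]
omit [Fintype A] in
lemma iR_single (a : A) (r : ℤ) : iR (single a r) = single (inr a : Wr A) r := by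
  simp [iR]

omit [Fintype A] in
lemma sw_mul_iR (a : A) (z : MonoidAlgebra ℤ A) :
    single (sw a) (1 : ℤ) * iR z = iL (single a 1 * z * single a⁻¹ 1) * single (sw a) 1 := by
  induction z using MonoidAlgebra.induction_on with
  | of g =>
    simp only [of_apply, single_mul_single, iL_single, iR_single, mul_one]
    congr 1
    simp [sw, inl_apply, inr_apply]
  | add x y hx hy => simp only [map_add, mul_add, add_mul, hx, hy]
  | smul r x hx =>
    simp only [zsmul_eq_mul, map_mul, map_intCast] at hx ⊢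
    rw [← (Int.cast_commute r _).left_comm, hx, ← (Int.cast_commute r (iL (single a 1))).left_comm]
    simp only [mul_assoc]

lemma Cc_mul_iR {z : MonoidAlgebra ℤ A} (hz : z ∈ Subring.center (MonoidAlgebra ℤ A)) :
    ind (Cc A) * iR z = ind (Cc A) * iL z := by
  have hc : ind (Cc A) ∈ Subring.center (MonoidAlgebra ℤ (Wr A)) := ind_mem_center cinv_Cc
  rw [← Subring.mem_center_iff.1 hc (iL z), ind_Cc, Finset.sum_mul, Finset.mul_sum]
  refine Finset.sum_congr rfl fun a _ => ?_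
  rw [sw_mul_iR, Subring.mem_center_iff.1 hz (single a 1), mul_assoc z, single_mul_single]
  simp [← MonoidAlgebra.one_def]

/-- pairs of labels -/
def Pr (K L : Set A) : Set (Wr A) := {w | w.s = false ∧ w.l ∈ K ∧ w.r ∈ L}

open Classical in
lemma ind_Pr (K L : Set A) : ind (Pr K L) = iL (ind K) * iR (ind L) := by
  unfold ind
  rw [map_sum, map_sum, Finset.sum_mul_sum, ← Finset.sum_product']
  symm
  refine Finset.sum_bij' (fun p _ => (⟨p.1, p.2, false⟩ : Wr A)) (fun w _ => (w.l, w.r))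
    ?_ ?_ ?_ ?_ ?_
  · rintro ⟨a, b⟩ h
    simp only [mem_product, mem_filter, mem_univ, true_and] at h
    exact mem_filter.2 ⟨mem_univ _, rfl, h.1, h.2⟩
  · rintro ⟨a, b, s⟩ h
    obtain ⟨_, h2, h3⟩ : s = false ∧ a ∈ K ∧ b ∈ L := (mem_filter.1 h).2
    simp [h2, h3]
  · rintro ⟨a, b⟩ _; rfl
  · rintro ⟨a, b, s⟩ h
    obtain ⟨h1, _, _⟩ : s = false ∧ a ∈ K ∧ b ∈ L := (mem_filter.1 h).2
    simp [h1]
  · rintro ⟨a, b⟩ _
    rw [iL_single, iR_single, single_mul_single]
    simp [inl_apply, inr_apply]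

omit [Fintype A] in
open Classical in
lemma coeff_iL (z : MonoidAlgebra ℤ A) (a b : A) :
    (iL z).coeff ⟨a, b, false⟩ = if b = 1 then z.coeff a else 0 := by
  have hinj : Function.Injective (inl : A → Wr A) := fun x y h => congrArg Wr.l h
  split_ifs with h
  · subst h
    exact Finsupp.mapDomain_apply hinj z.coeff a
  · refine Finsupp.mapDomain_of_notMem_range _ _ ?_
    rintro ⟨x, hx⟩
    exact h (congrArg Wr.r hx).symm

lemma coeff_Cc_mul (F : MonoidAlgebra ℤ (Wr A)) (x : Wr A) :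
    (ind (Cc A) * F).coeff x = ∑ a : A, F.coeff ((sw a)⁻¹ * x) := by
  rw [ind_Cc, Finset.sum_mul, coeff_sum, Finsupp.finsetSum_apply]
  refine Finset.sum_congr rfl fun w _ => ?_
  rw [coeff_single_mul_apply, one_mul]

/-- `(Cc⁺)⁴ (z ⊗ 1)` at `1` counts commutators -/
lemma coeff_Cc4 {z : MonoidAlgebra ℤ A} (hz : z ∈ Subring.center (MonoidAlgebra ℤ A)) :
    (ind (Cc A) ^ 4 * iL z).coeff 1 =
      Fintype.card A * ∑ x : A, ∑ y : A, z.coeff ((x * y * x⁻¹ * y⁻¹)⁻¹) := by
  classical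
  have h4 : ind (Cc A) ^ 4 * iL z =
      ind (Cc A) * (ind (Cc A) * (ind (Cc A) * (ind (Cc A) * iL z))) := by
    simp only [pow_succ, pow_zero, one_mul, mul_assoc]
  rw [h4]
  simp only [coeff_Cc_mul, sw, inv_tt, mul_one, mk_mul_tt, inv_inv, Bool.not_true, Bool.not_false,
    coeff_iL]
  have h1 : ∀ a b c : A, (∑ d : A, if d⁻¹ * (c * (b⁻¹ * a)) = 1 then
      z.coeff (d * (c⁻¹ * (b * a⁻¹))) else 0) = z.coeff (c * b⁻¹ * a * c⁻¹ * b * a⁻¹) := by
    intro a b c
    rw [Finset.sum_eq_single (c * (b⁻¹ * a))]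
    · simp [mul_assoc]
    · intro d _ hd
      rw [if_neg]
      intro h
      exact hd (inv_mul_eq_one.1 h)
    · simp
  simp only [h1]
  rw [Finset.sum_comm, ← nsmul_eq_mul, ← Finset.card_univ, ← Finset.sum_const]
  refine Finset.sum_congr rfl fun b _ => ?_
  rw [← Equiv.sum_comp (Equiv.mulLeft b)]
  refine Finset.sum_congr rfl fun x _ => ?_
  rw [← Equiv.sum_comp (Equiv.mulLeft b)]
  refine Finset.sum_congr rfl fun y _ => ?_
  rw [← coeff_conj hz b (x * y * x⁻¹ * y⁻¹)⁻¹]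
  congr 1
  simp only [Equiv.coe_mulLeft]
  group

end swap

end Crest.Agent.T170.Wr
end
end

-- ▼ part T170/WrB_67
section

/-!
# Row 170, wreath step (helper67), file B: the group theoretic count

`P` of index two in `Γ`, `Hom (Γ, Wr G) = (Wr G) ^ m` through `g`.  The labelled homomorphisms
`P → H ≤ G` are as many as the tuples `[x, y] = u_1 ⋯ u_n` in `H` (`count_le`).
-/

set_option autoImplicit false
set_option linter.dupNamespace false

open Finset MonoidAlgebra

noncomputable section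

namespace Crest.Agent.T170.Wr

open Wr

variable {Γ : Type} [Group Γ] {P : Subgroup Γ} {A : Type} [Group A]

open Classical in
/-- extension of `ρ` by the junk value `1` -/
def ex (ρ : P →* A) (x : Γ) : A := if h : x ∈ P then ρ ⟨x, h⟩ else 1

lemma ex_of_mem (ρ : P →* A) {x : Γ} (h : x ∈ P) : ex ρ x = ρ ⟨x, h⟩ := dif_pos h

lemma ex_coe (ρ : P →* A) (x : P) : ex ρ x = ρ x := ex_of_mem ρ x.2

lemma ex_one (ρ : P →* A) : ex ρ 1 = 1 := by
  rw [ex_of_mem ρ P.one_mem]; exact map_one ρ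

lemma ex_mul (ρ : P →* A) {x y z : Γ} (hx : x ∈ P) (hy : y ∈ P) (h : z = x * y) :
    ex ρ z = ex ρ x * ex ρ y := by
  subst h
  rw [ex_of_mem ρ hx, ex_of_mem ρ hy, ex_of_mem ρ (P.mul_mem hx hy), ← map_mul]; rfl

lemma ex_comp {A' : Type} [Group A'] (f : A →* A') (ρ : P →* A) (x : Γ) :
    ex (f.comp ρ) x = f (ex ρ x) := by
  unfold ex
  split_ifs <;> simp

section ind

variable (hP : P.index = 2) {ω : Γ} (hω : ω ∉ P)
include hP hω

lemma mem_a {x : Γ} (hx : x ∈ P) : ω * x * ω⁻¹ ∈ P := by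
  simp [Subgroup.mul_mem_iff_of_index_two hP, hω, hx]
lemma mem_b {x : Γ} (hx : x ∉ P) : x * ω⁻¹ ∈ P := by
  simp [Subgroup.mul_mem_iff_of_index_two hP, hω, hx]
lemma mem_c {x : Γ} (hx : x ∉ P) : ω * x ∈ P := by
  simp [Subgroup.mul_mem_iff_of_index_two hP, hω, hx]

open Classical in
/-- the induced homomorphism -/
def indHom (ρ : P →* A) (u : A) : Γ →* Wr A where
  toFun x := if x ∈ P then ⟨ex ρ x, u⁻¹ * ex ρ (ω * x * ω⁻¹) * u, false⟩
    else ⟨ex ρ (x * ω⁻¹) * u, u⁻¹ * ex ρ (ω * x), true⟩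
  map_one' := by simp [ex_one, Wr.one_def]
  map_mul' x y := by
    by_cases hx : x ∈ P <;> by_cases hy : y ∈ P
    · rw [if_pos (P.mul_mem hx hy), if_pos hx, if_pos hy, mk_mul_ff,
        ex_mul ρ hx hy rfl, ex_mul ρ (z := ω * (x * y) * ω⁻¹) (mem_a hP hω hx) (mem_a hP hω hy)
          (by group)]
      simp [mul_assoc]
    · have hxy : x * y ∉ P := by simp [Subgroup.mul_mem_iff_of_index_two hP, hx, hy]
      rw [if_neg hxy, if_pos hx, if_neg hy, mk_mul_ff,
        ex_mul ρ (z := x * y * ω⁻¹) hx (mem_b hP hω hy) (by group),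
        ex_mul ρ (z := ω * (x * y)) (mem_a hP hω hx) (mem_c hP hω hy) (by group)]
      simp [mul_assoc]
    · have hxy : x * y ∉ P := by simp [Subgroup.mul_mem_iff_of_index_two hP, hx, hy]
      rw [if_neg hxy, if_neg hx, if_pos hy, mk_mul_tt,
        ex_mul ρ (z := x * y * ω⁻¹) (mem_b hP hω hx) (mem_a hP hω hy) (by group),
        ex_mul ρ (z := ω * (x * y)) (mem_c hP hω hx) hy (by group)]
      simp [mul_assoc]
    · have hxy : x * y ∈ P := by simp [Subgroup.mul_mem_iff_of_index_two hP, hx, hy]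
      rw [if_pos hxy, if_neg hx, if_neg hy, mk_mul_tt,
        ex_mul ρ (z := x * y) (mem_b hP hω hx) (mem_c hP hω hy) (by group),
        ex_mul ρ (z := ω * (x * y) * ω⁻¹) (mem_c hP hω hx) (mem_b hP hω hy) (by group)]
      simp [mul_assoc]

lemma indHom_mem (ρ : P →* A) (u : A) {x : Γ} (hx : x ∈ P) :
    indHom hP hω ρ u x = ⟨ex ρ x, u⁻¹ * ex ρ (ω * x * ω⁻¹) * u, false⟩ := by
  classical
  exact if_pos hx

lemma indHom_not (ρ : P →* A) (u : A) {x : Γ} (hx : x ∉ P) :
    indHom hP hω ρ u x = ⟨ex ρ (x * ω⁻¹) * u, u⁻¹ * ex ρ (ω * x), true⟩ := by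
  classical
  exact if_neg hx

lemma indHom_inj {ρ ρ' : P →* A} {u u' : A} (h : indHom hP hω ρ u = indHom hP hω ρ' u') :
    ρ = ρ' ∧ u = u' := by
  constructor
  · ext x
    have := congrArg (fun φ : Γ →* Wr A => (φ x).l) h
    simpa only [indHom_mem hP hω _ _ x.2, ex_coe] using this
  · have := congrArg (fun φ : Γ →* Wr A => (φ ω).l) h
    simpa only [indHom_not hP hω _ _ hω, mul_inv_cancel, ex_one, one_mul] using this

lemma exists_indHom (φ : Γ →* Wr A) (hs : ∀ x, (φ x).s = true ↔ x ∉ P) :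
    ∃ (ρ : P →* A) (u : A), φ = indHom hP hω ρ u := by
  have hf : ∀ x, x ∈ P → (φ x).s = false := fun x hx => by
    rw [← Bool.not_eq_true, hs]; simpa using hx
  have e1 : ∀ x, x ∈ P → φ x = ⟨(φ x).l, (φ x).r, false⟩ := fun x hx => by
    ext <;> simp [hf x hx]
  have e2 : ∀ x, x ∉ P → φ x = ⟨(φ x).l, (φ x).r, true⟩ := fun x hx => by
    ext <;> simp [(hs x).2 hx]
  let ρ : P →* A :=
    { toFun := fun x => (φ x).l
      map_one' := by simp
      map_mul' := fun x y => by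
        rw [Subgroup.coe_mul, map_mul, e1 x x.2, mk_mul_ff] }
  have hρ : ∀ x, x ∈ P → ex ρ x = (φ x).l := fun x hx => ex_of_mem ρ hx
  refine ⟨ρ, (φ ω).l, ?_⟩
  ext1 x
  by_cases hx : x ∈ P
  · rw [indHom_mem hP hω _ _ hx, hρ _ hx, hρ _ (mem_a hP hω hx), map_mul, map_mul, map_inv,
      e2 ω hω, e1 x hx]
    simp [mul_assoc]
  · rw [indHom_not hP hω _ _ hx, hρ _ (mem_b hP hω hx), hρ _ (mem_c hP hω hx), map_mul, map_mul,
      map_inv, e2 ω hω, e2 x hx]
    simp [mul_assoc]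

lemma indHom_mem_Cc (ρ : P →* A) (u : A) {x : Γ} (hx : x ∉ P) :
    indHom hP hω ρ u x ∈ Cc A ↔ ex ρ (x * x) = 1 := by
  have hxx : x * x ∈ P := by simp [Subgroup.mul_mem_iff_of_index_two hP]
  rw [mem_Cc_iff (by rw [indHom_not hP hω _ _ hx]), ← map_mul, indHom_mem hP hω _ _ hxx]

lemma indHom_mem_Pr (ρ : P →* A) (u : A) {x : Γ} (hx : x ∈ P) {K L : Set A} (hL : Cinv L) :
    indHom hP hω ρ u x ∈ Pr K L ↔ ex ρ x ∈ K ∧ ex ρ (ω * x * ω⁻¹) ∈ L := by
  rw [indHom_mem hP hω _ _ hx]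
  have := hL.iff u⁻¹ (ex ρ (ω * x * ω⁻¹))
  rw [inv_inv] at this
  simp [Pr, this]

end ind

/-- the labelled homomorphisms -/
def LabP {m : ℕ} (g : Fin m → Γ) (ω : Γ) (B : Finset (Fin m)) (K : Fin m × Bool → Set A)
    (ρ : P →* A) : Prop :=
  (∀ i, i ∉ B → ex ρ (g i) ∈ K (i, false) ∧ ex ρ (ω * g i * ω⁻¹) ∈ K (i, true)) ∧
    (∀ i ∈ B, ex ρ (g i * g i) = 1) ∧
    ex ρ ((List.ofFn g).prod⁻¹ * (List.ofFn g).prod⁻¹) = 1

/-- the product of the generators is outside `P` -/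
lemma prod_not_mem (hP : P.index = 2) {m : ℕ} {g : Fin m → Γ} {B : Finset (Fin m)}
    (hB : B.card = 3) (hBm : ∀ i, g i ∉ P ↔ i ∈ B) : (List.ofFn g).prod ∉ P := by
  classical
  let χ : Γ →* ℤˣ :=
    { toFun := fun x => if x ∈ P then 1 else -1
      map_one' := by simp
      map_mul' := fun x y => by
        by_cases hx : x ∈ P <;> by_cases hy : y ∈ P <;>
          simp [Subgroup.mul_mem_iff_of_index_two hP, hx, hy] }
  have h1 : χ (List.ofFn g).prod = -1 := by
    rw [map_list_prod, List.map_ofFn, List.prod_ofFn]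
    have : ∀ i, (χ ∘ g) i = if i ∈ B then -1 else 1 := fun i => by
      by_cases hi : i ∈ B
      · simp [χ, hi, (hBm i).2 hi]
      · have : g i ∈ P := by
          by_contra h
          exact hi ((hBm i).1 h)
        simp [χ, hi, this]
    simp only [this]
    rw [Finset.prod_ite_mem, Finset.univ_inter, Finset.prod_const, hB]
    rfl
  intro h
  simp [χ, h] at h1

/-- the sign of a homomorphism is determined on the generators -/
lemma sgn_of_gen (hP : P.index = 2) {m : ℕ} {g : Fin m → Γ}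
    (hg : Subgroup.closure (Set.range g) = ⊤) (φ : Γ →* Wr A)
    (h : ∀ i, (φ (g i)).s = true ↔ g i ∉ P) (x : Γ) : (φ x).s = true ↔ x ∉ P := by
  have hx : x ∈ Subgroup.closure (Set.range g) := hg ▸ Subgroup.mem_top x
  induction hx using Subgroup.closure_induction with
  | mem y hy => obtain ⟨i, rfl⟩ := hy; exact h i
  | one => simp
  | mul y z _ _ hy hz =>
    rw [map_mul, mul_s, Subgroup.mul_mem_iff_of_index_two hP]
    by_cases h1 : y ∈ P <;> by_cases h2 : z ∈ P <;> simp_all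
  | inv y _ hy => rw [map_inv, inv_s, inv_mem_iff]; exact hy

section count

variable [Fintype A]

open Classical in
/-- the label sets in the wreath product -/
def CW {m : ℕ} (B : Finset (Fin m)) (K : Fin m × Bool → Set A) (i : Fin m) : Set (Wr A) :=
  if i ∈ B then Cc A else Pr (K (i, false)) (K (i, true))

omit [Fintype A] in
lemma card_lab_mul (hP : P.index = 2) {ω : Γ} (hω : ω ∉ P) {m : ℕ} {g : Fin m → Γ}
    (hg : Subgroup.closure (Set.range g) = ⊤)
    (hs : Function.Surjective fun (φ : Γ →* Wr A) (i : Fin m) => φ (g i))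
    {B : Finset (Fin m)} (hB : B.card = 3) (hBm : ∀ i, g i ∉ P ↔ i ∈ B)
    {K : Fin m × Bool → Set A} (hK : ∀ q, Cinv (K q)) :
    Nat.card {ρ : P →* A // LabP g ω B K ρ} * Nat.card A =
      Nat.card {w : Fin m → Wr A // (∀ i, w i ∈ CW B K i) ∧ (List.ofFn w).prod ∈ Cc A} := by
  have hn := prod_not_mem hP hB hBm
  have hmem : ∀ i, i ∉ B → g i ∈ P := fun i hi => by
    by_contra h
    exact hi ((hBm i).1 h)
  have hpr : ∀ φ : Γ →* Wr A, (List.ofFn fun i => φ (g i)).prod = φ (List.ofFn g).prod := by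
    intro φ
    rw [map_list_prod, List.map_ofFn]; rfl
  have key : ∀ (ρ : P →* A) (u : A), ((∀ i, indHom hP hω ρ u (g i) ∈ CW B K i) ∧
      (List.ofFn fun i => indHom hP hω ρ u (g i)).prod ∈ Cc A) ↔ LabP g ω B K ρ := by
    intro ρ u
    rw [hpr, ← inv_mem_Cc, ← map_inv, indHom_mem_Cc hP hω ρ u (by rwa [inv_mem_iff]), LabP,
      ← and_assoc]
    refine and_congr_left fun _ => ⟨fun h => ⟨fun i hi => ?_, fun i hi => ?_⟩, fun h i => ?_⟩
    · have := h i
      rwa [CW, if_neg hi, indHom_mem_Pr hP hω ρ u (hmem i hi) (hK _)] at this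
    · have := h i
      rwa [CW, if_pos hi, indHom_mem_Cc hP hω ρ u ((hBm i).2 hi)] at this
    · by_cases hi : i ∈ B
      · rw [CW, if_pos hi, indHom_mem_Cc hP hω ρ u ((hBm i).2 hi)]; exact h.2 i hi
      · rw [CW, if_neg hi, indHom_mem_Pr hP hω ρ u (hmem i hi) (hK _)]; exact h.1 i hi
  rw [← Nat.card_prod]
  refine Nat.card_eq_of_bijective
    (fun q => ⟨fun i => indHom hP hω q.1.1 q.2 (g i), (key _ _).2 q.1.2⟩) ⟨?_, ?_⟩
  · rintro ⟨⟨ρ, h⟩, u⟩ ⟨⟨ρ', h'⟩, u'⟩ he
    have h1 : indHom hP hω ρ u = indHom hP hω ρ' u' := by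
      refine MonoidHom.eq_of_eqOn_dense hg ?_
      rintro _ ⟨i, rfl⟩
      exact congrFun (congrArg Subtype.val he) i
    obtain ⟨rfl, rfl⟩ := indHom_inj hP hω h1
    rfl
  · rintro ⟨w, hw⟩
    obtain ⟨φ, rfl⟩ := hs w
    obtain ⟨ρ, u, rfl⟩ := exists_indHom hP hω φ (sgn_of_gen hP hg φ fun i => by
      have h := hw.1 i
      by_cases hi : i ∈ B
      · rw [CW, if_pos hi] at h
        exact ⟨fun _ => (hBm i).2 hi, fun _ => h.1⟩
      · rw [CW, if_neg hi] at h
        have h1 : (φ (g i)).s = false := h.1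
        simp [h1, hmem i hi])
    exact ⟨⟨⟨ρ, (key ρ u).1 hw⟩, u⟩, rfl⟩

open Classical in
lemma card_tuples_eq {m : ℕ} (C : Fin m → Set (Wr A)) :
    (Nat.card {w : Fin m → Wr A // (∀ i, w i ∈ C i) ∧ (List.ofFn w).prod ∈ Cc A} : ℤ) =
      (ind (Cc A) * (List.ofFn fun i => ind (C i)).prod).coeff 1 := by
  rw [coeff_ind_mul, Nat.card_eq_fintype_card, Fintype.card_subtype]
  simp only [coeff_prod_ind, mul_one]
  rw [← Nat.cast_sum, Finset.card_eq_sum_card_fiberwise
    (f := fun w : Fin m → Wr A => (List.ofFn w).prod⁻¹) (t := univ.filter (· ∈ Cc A))]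
  · congr 1
    refine Finset.sum_congr rfl fun c hc => ?_
    congr 1
    ext w
    simp only [mem_filter, mem_univ, true_and] at hc ⊢
    constructor
    · rintro ⟨⟨h1, _⟩, h3⟩
      exact ⟨h1, by rw [← h3, inv_inv]⟩
    · rintro ⟨h1, h2⟩
      exact ⟨⟨h1, by rw [h2]; exact inv_mem_Cc.2 hc⟩, by rw [h2, inv_inv]⟩
  · intro w hw
    simp only [coe_filter, mem_univ, true_and, Set.mem_ofPred_eq] at hw ⊢
    exact inv_mem_Cc.2 hw.2

open Classical in
lemma Cc_mul_prod : ∀ (m : ℕ) (b : Fin m → Prop)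
    (k l : Fin m → Subring.center (MonoidAlgebra ℤ A)),
    ind (Cc A) * (List.ofFn fun i => if b i then ind (Cc A) else iL (k i) * iR (l i)).prod =
      ind (Cc A) ^ (1 + ∑ i, if b i then 1 else 0) *
        iL ((∏ i, if b i then 1 else k i * l i : Subring.center (MonoidAlgebra ℤ A)) :
          MonoidAlgebra ℤ A)
  | 0, _, _, _ => by simp
  | m + 1, b, k, l => by
    have hc : ind (Cc A) ∈ Subring.center (MonoidAlgebra ℤ (Wr A)) := ind_mem_center cinv_Cc
    have ih := Cc_mul_prod m (fun i => b i.succ) (fun i => k i.succ) (fun i => l i.succ)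
    rw [List.ofFn_succ, List.prod_cons, Fin.sum_univ_succ, Fin.prod_univ_succ]
    by_cases h : b 0
    · rw [if_pos h, if_pos h, if_pos h, ih, one_mul, ← mul_assoc, ← pow_succ']
      congr 2; omega
    · rw [if_neg h, if_neg h, if_neg h, zero_add]
      have e1 : ind (Cc A) * (iL (k 0 : MonoidAlgebra ℤ A) * iR (l 0 : MonoidAlgebra ℤ A)) =
          iL ((k 0 * l 0 : Subring.center (MonoidAlgebra ℤ A)) : MonoidAlgebra ℤ A) *
            ind (Cc A) := by
        rw [← mul_assoc, ← Subring.mem_center_iff.1 hc, mul_assoc, Cc_mul_iR (l 0).2,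
          ← Subring.mem_center_iff.1 hc, ← mul_assoc, ← map_mul]
        rfl
      rw [← mul_assoc, e1, mul_assoc, ih, ← mul_assoc,
        Subring.mem_center_iff.1 (pow_mem hc _), mul_assoc, ← map_mul]
      rfl

open Classical in
lemma card_tup {n : ℕ} (K : Fin n → Set A) :
    (Nat.card (Smith13.Tup A fun j a => a ∈ K j) : ℤ) =
      ∑ x : A, ∑ y : A, ((List.ofFn fun j => ind (K j)).prod).coeff ((x * y * x⁻¹ * y⁻¹)⁻¹) := by
  rw [Finset.sum_comm]
  simp only [coeff_prod_ind, mul_inv_rev, inv_inv, ← mul_assoc]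
  unfold Smith13.Tup
  rw [Nat.card_eq_fintype_card, Fintype.card_subtype, ← Finset.sum_product', ← Nat.cast_sum,
    Finset.card_eq_sum_card_fiberwise
      (f := fun w : A × A × (Fin n → A) => (w.1, w.2.1)) (t := univ ×ˢ univ)]
  · congr 1
    refine Finset.sum_congr rfl fun c _ => ?_
    refine Finset.card_bij' (fun w _ => w.2.2) (fun u _ => (c.1, c.2, u)) ?_ ?_ ?_ ?_
    · rintro ⟨x, y, u⟩ h
      simp only [mem_filter, mem_univ, true_and] at h ⊢
      obtain ⟨⟨h1, h2⟩, rfl⟩ := h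
      exact ⟨h2, h1.symm⟩
    · intro u h
      simp only [mem_filter, mem_univ, true_and] at h ⊢
      exact ⟨⟨h.2.symm, h.1⟩, trivial⟩
    · rintro ⟨x, y, u⟩ h
      simp only [mem_filter, mem_univ, true_and] at h
      obtain ⟨_, rfl⟩ := h
      rfl
    · intro u _; rfl
  · intro w _; simp

/-- **the count for one group** -/
theorem count_one (hP : P.index = 2) {ω : Γ} (hω : ω ∉ P) {m : ℕ} {g : Fin m → Γ}
    (hg : Subgroup.closure (Set.range g) = ⊤)
    (hs : Function.Surjective fun (φ : Γ →* Wr A) (i : Fin m) => φ (g i))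
    {B : Finset (Fin m)} (hB : B.card = 3) (hBm : ∀ i, g i ∉ P ↔ i ∈ B)
    {K : Fin m × Bool → Set A} (hK : ∀ q, Cinv (K q))
    {n : ℕ} (e : Fin n → Fin m × Bool) (he : Function.Injective e) (heB : ∀ j, (e j).1 ∉ B)
    (h1 : ∀ q, q ∉ Set.range e → K q = {1}) :
    Nat.card {ρ : P →* A // LabP g ω B K ρ} =
      Nat.card (Smith13.Tup A fun j a => a ∈ K (e j)) := by
  classical
  let k : Fin m × Bool → Subring.center (MonoidAlgebra ℤ A) :=
    fun q => ⟨ind (K q), ind_mem_center (hK q)⟩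
  have hk1 : ∀ q, q ∉ Set.range e → k q = 1 := fun q hq => by
    apply Subtype.ext
    change ind (K q) = 1
    rw [h1 q hq, ind_singleton_one]
  have hz : (∏ i, if i ∈ B then 1 else k (i, false) * k (i, true)) = ∏ j, k (e j) := by
    have h2 : ∀ i, (if i ∈ B then 1 else k (i, false) * k (i, true)) = ∏ s : Bool, k (i, s) := by
      intro i
      rw [Fintype.prod_bool, mul_comm]
      split_ifs with hi
      · have hr : ∀ s, (i, s) ∉ Set.range e := by
          rintro s ⟨j, hj⟩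
          exact heB j (by rw [hj]; exact hi)
        rw [hk1 _ (hr _), hk1 _ (hr _), mul_one]
      · rfl
    simp only [h2]
    rw [← Fintype.prod_prod_type']
    exact (Fintype.prod_of_injective e he _ _ hk1 fun _ => rfl).symm
  have h3 := card_lab_mul hP hω hg hs hB hBm hK
  have h4 := card_tuples_eq (CW B K)
  have h5 : (fun i => ind (CW B K i)) = fun i => if i ∈ B then ind (Cc A) else
      iL (k (i, false) : MonoidAlgebra ℤ A) * iR (k (i, true) : MonoidAlgebra ℤ A) := by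
    funext i
    unfold CW
    split_ifs
    · rfl
    · exact ind_Pr _ _
  have h6 := Cc_mul_prod m (· ∈ B) (fun i => k (i, false)) (fun i => k (i, true))
  have h7 : (∑ i : Fin m, if i ∈ B then 1 else 0) = 3 := by
    rw [Finset.sum_ite_mem, Finset.univ_inter, Finset.sum_const, hB]; rfl
  have h8 : ((∏ j, k (e j) : Subring.center (MonoidAlgebra ℤ A)) : MonoidAlgebra ℤ A) =
      (List.ofFn fun j => ind (K (e j))).prod := by
    rw [← List.prod_ofFn]
    exact (map_list_prod (Subring.center (MonoidAlgebra ℤ A)).subtype _).trans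
      (by rw [List.map_ofFn]; rfl)
  rw [h5] at h4
  have h9 : (Nat.card {ρ : P →* A // LabP g ω B K ρ} : ℤ) * Nat.card A =
      Nat.card A * Nat.card (Smith13.Tup A fun j a => a ∈ K (e j)) := by
    rw [← Nat.cast_mul, h3, h4]
    convert congrArg (fun F : MonoidAlgebra ℤ (Wr A) => F.coeff 1) h6 using 1
    · congr!
    · have h10 := coeff_Cc4 (∏ j, k (e j)).2
      rw [card_tup, ← h8, Nat.card_eq_fintype_card, ← h10, ← hz]
      congr!
      exact (by convert (congrArg (1 + ·) h7).symm)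
  have hA : (Nat.card A : ℤ) ≠ 0 := by exact_mod_cast (Nat.card_pos (α := A)).ne'
  rw [mul_comm] at h9
  exact_mod_cast mul_left_cancel₀ hA h9

end count

/-- functoriality of the wreath product -/
def Wr.map {A' : Type} [Group A'] (f : A →* A') : Wr A →* Wr A' where
  toFun w := ⟨f w.l, f w.r, w.s⟩
  map_one' := by simp [Wr.one_def]
  map_mul' := by
    rintro ⟨a, b, s⟩ ⟨c, d, t⟩
    cases s <;> simp

/-- **the count for the subgroups** -/
theorem count_le {G : Type} [Group G] [Finite G] (hP : P.index = 2) {ω : Γ} (hω : ω ∉ P)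
    {m : ℕ} {g : Fin m → Γ} (hg : Subgroup.closure (Set.range g) = ⊤)
    (hs : Function.Surjective fun (φ : Γ →* Wr G) (i : Fin m) => φ (g i))
    {B : Finset (Fin m)} (hB : B.card = 3) (hBm : ∀ i, g i ∉ P ↔ i ∈ B)
    {K : Fin m × Bool → Set G} (hK : ∀ q, Cinv (K q))
    {n : ℕ} (e : Fin n → Fin m × Bool) (he : Function.Injective e) (heB : ∀ j, (e j).1 ∉ B)
    (h1 : ∀ q, q ∉ Set.range e → K q = {1}) (H : Subgroup G) :
    Nat.card {ρ : P →* G // LabP g ω B K ρ ∧ ρ.range ≤ H} =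
      Nat.card (Smith13.Tup H fun j (a : H) => (a : G) ∈ K (e j)) := by
  have := Fintype.ofFinite H
  have hinj : Function.Injective (Wr.map H.subtype) := by
    rintro ⟨a, b, s⟩ ⟨c, d, t⟩ h
    simp only [Wr.map, MonoidHom.coe_mk, OneHom.coe_mk, Subgroup.subtype_apply, Wr.mk.injEq,
      SetLike.coe_eq_coe] at h
    obtain ⟨rfl, rfl, rfl⟩ := h
    rfl
  have hs' : Function.Surjective fun (φ : Γ →* Wr H) (i : Fin m) => φ (g i) := by
    intro w
    obtain ⟨φ, hφ⟩ := hs fun i => Wr.map H.subtype (w i)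
    have hr : ∀ x, φ x ∈ (Wr.map H.subtype).range := by
      intro x
      have : Subgroup.closure (Set.range g) ≤ (Wr.map H.subtype).range.comap φ := by
        rw [Subgroup.closure_le]
        rintro _ ⟨i, rfl⟩
        exact ⟨w i, (congrFun hφ i).symm⟩
      exact this (hg ▸ Subgroup.mem_top x)
    refine ⟨(MonoidHom.ofInjective hinj).symm.toMonoidHom.comp (φ.codRestrict _ hr), ?_⟩
    funext i
    apply hinj
    have := congrFun hφ i
    simp only at this
    rw [← this]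
    exact MonoidHom.apply_ofInjective_symm hinj _
  have hc := count_one (A := H) hP hω hg hs' hB hBm (K := fun q => {a : H | (a : G) ∈ K q})
    (fun q a x hx => hK q a x hx) e he heB (fun q hq => by
      ext a
      simp [h1 q hq])
  refine Eq.trans ?_ hc
  symm
  have hl : ∀ ρ : P →* H, LabP g ω B (fun q => {a : H | (a : G) ∈ K q}) ρ ↔
      LabP g ω B K (H.subtype.comp ρ) := fun ρ => by
    simp only [LabP, ex_comp, Subgroup.subtype_apply, Set.mem_ofPred_eq, OneMemClass.coe_eq_one]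
  refine Nat.card_eq_of_bijective (fun ρ => ⟨H.subtype.comp ρ.1, (hl _).1 ρ.2, ?_⟩) ⟨?_, ?_⟩
  · rintro _ ⟨x, rfl⟩
    exact (ρ.1 x).2
  · rintro ⟨ρ, h⟩ ⟨ρ', h'⟩ he'
    have h2 : H.subtype.comp ρ = H.subtype.comp ρ' := congrArg Subtype.val he'
    apply Subtype.ext
    ext x
    exact DFunLike.congr_fun h2 x
  · rintro ⟨ρ, h, hr⟩
    have h2 : H.subtype.comp (ρ.codRestrict H fun x => hr ⟨x, rfl⟩) = ρ := by
      ext x; rfl
    exact ⟨⟨ρ.codRestrict H fun x => hr ⟨x, rfl⟩, (hl _).2 (by rw [h2]; exact h)⟩,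
      Subtype.ext h2⟩

end Crest.Agent.T170.Wr
end
end

-- ▼ part T170/WrC_67
section

/-!
# Row 170, wreath step (helper67), file C: places

* `Tr u`, `Pl u` : `u` is trivial on `ℂ`; a normalised place;
* `eq_one_of_ext`, `ext_of_one` : unramified iff the canonical generator is trivial;
* `Pl.conj` : normalised places over the same point of the line are conjugate;
* `Pl.centre` : every place has a centre on the line;
* the values of `z`, `z ^ 2 = (X - e₀) (X - e₁) (X - e₂)`.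
-/

set_option autoImplicit false
set_option linter.dupNamespace false
set_option linter.unusedSectionVars false

noncomputable section

namespace Crest.Agent.T170.Wr

open Crest.Agent.T170.Ret Crest.Agent.T170.RetU

section place

variable {B N : Type*} [Field B] [Field N] [Algebra ℂ B] [Algebra B N]

/-- trivial on the constants -/
def Tr (u : AV B) : Prop := ∀ c : ℂ, c ≠ 0 → u (algebraMap ℂ B c) = 0

/-- a normalised place -/
def Pl (u : AV B) : Prop := Tr u ∧ ∃ t : B, u t = 1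

lemma Tr.nat {u : AV B} (h : Tr u) (r : ℕ) (hr : r ≠ 0) : u (r : B) = 0 := by
  rw [← map_natCast (algebraMap ℂ B)]
  exact h _ (Nat.cast_ne_zero.2 hr)

lemma Tr.nonneg {u : AV B} (h : Tr u) (c : ℂ) : 0 ≤ u (algebraMap ℂ B c) := by
  by_cases hc : c = 0
  · simp [hc]
  · rw [h c hc]

lemma Tr.mul {u : AV B} (h : Tr u) (n : ℕ) (hn : 0 < n) : Tr (u.mul n hn) := fun c hc => by
  rw [AV.mul_apply, ← map_pow]
  exact h _ (pow_ne_zero _ hc)

omit [Algebra ℂ B] in
lemma mul_pos_iff (u : AV B) (n : ℕ) (hn : 0 < n) (f : B) : 0 < u.mul n hn f ↔ 0 < u f := by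
  by_cases hf : f = 0
  · simp [hf]
  obtain ⟨k, hk⟩ := exists_int u hf
  rw [AV.mul_of_eq n hn hk, hk, ← WithTop.coe_zero, WithTop.coe_lt_coe, WithTop.coe_lt_coe]
  have : (0 : ℤ) < n := by exact_mod_cast hn
  exact mul_pos_iff_of_pos_left this

omit [Algebra ℂ B] in
lemma mul_inj {u u' : AV B} (n : ℕ) (hn : 0 < n) (h : u.mul n hn = u'.mul n hn) : u = u' := by
  refine AddValuation.ext fun f => ?_
  by_cases hf : f = 0
  · simp [hf]
  obtain ⟨k, hk⟩ := exists_int u hf
  obtain ⟨l, hl⟩ := exists_int u' hf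
  have h1 := AV.mul_of_eq n hn hk
  rw [h, AV.mul_of_eq n hn hl, WithTop.coe_inj] at h1
  have : (n : ℤ) ≠ 0 := by exact_mod_cast hn.ne'
  rw [hk, hl, mul_left_cancel₀ this h1]

lemma Pl.exists_pos {u : AV B} (h : Pl u) (n : ℕ) (hn : 0 < n) :
    ∃ t : B, t ≠ 0 ∧ 0 < u.mul n hn t := by
  obtain ⟨t, ht⟩ := h.2
  refine ⟨t, ?_, (mul_pos_iff u n hn t).2 (by rw [ht]; exact zero_lt_one)⟩
  rintro rfl
  simp at ht

/-- canonical generators over the same place are conjugate -/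
lemma Pl.isConj [FiniteDimensional B N] [IsGalois B N] {u : AV B} (hu : Pl u) {n : ℕ} (hn : 0 < n)
    {ζ : ℂ} (hζ : ζ ≠ 0) {g g' : N ≃ₐ[B] N} (hg : GenOver (u.mul n hn) (algebraMap ℂ B ζ) g)
    (hg' : GenOver (u.mul n hn) (algebraMap ℂ B ζ) g') : IsConj g g' :=
  uniq' (hu.1.mul n hn).nat (hu.1.mul n hn ζ hζ) (hu.exists_pos n hn) hg hg'

lemma genOver_one_of_ext {u : AV B} {v : AV N} (hv : ∀ f : B, v (algebraMap B N f) = u f) {n : ℕ}
    (hn : 0 < n) {ζ : ℂ} (hζ : ζ ^ n = 1) :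
    GenOver (u.mul n hn) (algebraMap ℂ B ζ) (1 : N ≃ₐ[B] N) := by
  refine ⟨v.mul n hn, fun f => ?_, rot_mul_one v hn ?_⟩
  · rw [AV.mul_apply, AV.mul_apply, ← map_pow, hv]
  · rw [← map_pow, ← map_pow, hζ, map_one, map_one]

/-- unramified: the generator is trivial -/
lemma eq_one_of_ext [FiniteDimensional B N] [IsGalois B N] {u : AV B} (hu : Pl u) {v : AV N}
    (hv : ∀ f : B, v (algebraMap B N f) = u f) {n : ℕ} (hn : 0 < n) {ζ : ℂ} (hζ : ζ ^ n = 1)
    {g : N ≃ₐ[B] N} (hg : GenOver (u.mul n hn) (algebraMap ℂ B ζ) g) : g = 1 := by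
  have hζ0 : ζ ≠ 0 := by
    rintro rfl
    rw [zero_pow hn.ne'] at hζ
    exact zero_ne_one hζ
  exact isConj_one_left.1 (hu.isConj hn hζ0 hg (genOver_one_of_ext hv hn hζ))

/-- values of fixed elements -/
lemma dvd_of_rot {v : AV N} (hv : Tr (v.comap (algebraMap B N))) {ζ : ℂ} {n : ℕ}
    (hζ : IsPrimitiveRoot ζ n) {g : N → N} (h : Rot v (algebraMap B N (algebraMap ℂ B ζ)) g)
    {f : N} (hf : g f = f) {k : ℤ} (hk : v f = k) : (n : ℤ) ∣ k := by
  let _ : Algebra ℂ N := ((algebraMap B N).comp (algebraMap ℂ B)).toAlgebra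
  exact Rot.dvd (C := ℂ) (v := v) hv hζ h hf hk

/-- trivial generator: unramified -/
lemma ext_of_one {u : AV B} (hu : Tr u) {n : ℕ} (hn : 0 < n) {ζ : ℂ} (hζ : IsPrimitiveRoot ζ n)
    (hg : GenOver (u.mul n hn) (algebraMap ℂ B ζ) (1 : N ≃ₐ[B] N)) :
    ∃ v : AV N, ∀ f : B, v (algebraMap B N f) = u f := by
  obtain ⟨v, hv, hr⟩ := hg
  have hd : ∀ y (k : ℤ), v y = k → (n : ℤ) ∣ k := fun y k hk =>
    dvd_of_rot (B := B) (fun c hc => (hv _).trans (hu.mul n hn c hc)) hζ hr rfl hk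
  refine ⟨v.div n hn hd, fun f => ?_⟩
  have h1 : AV.mul ((v.div n hn hd).comap (algebraMap B N)) n hn = u.mul n hn := by
    refine AddValuation.ext fun f => ?_
    rw [← hv, AV.mul_apply]
    change v.div n hn hd (algebraMap B N (f ^ n)) = _
    rw [map_pow, ← AV.mul_apply _ n hn, AV.mul_div]
  exact congrArg (fun w : AV B => w f) (mul_inj n hn h1)

/-- a generator fixing `B` is a generator over a normalised place of `B` -/
lemma exists_pl {v : AV N} (hv : Tr (v.comap (algebraMap B N))) {ζ : ℂ} {n : ℕ} (hn : 0 < n)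
    (hζ : IsPrimitiveRoot ζ n) {g : N ≃ₐ[B] N} (h : Rot v (algebraMap B N (algebraMap ℂ B ζ)) g)
    {s : B} (hs : v (algebraMap B N s) = ((n : ℤ) : WithTop ℤ)) :
    ∃ u : AV B, Pl u ∧ ∀ f, v (algebraMap B N f) = u.mul n hn f := by
  have hd : ∀ y (k : ℤ), (v.comap (algebraMap B N)) y = k → (n : ℤ) ∣ k := fun y k hk =>
    dvd_of_rot hv hζ h (g.commutes y) hk
  refine ⟨AV.div _ n hn hd, ⟨fun c hc => ?_, s, ?_⟩, fun f => ?_⟩
  · have h1 := AV.div_of_eq hn hd (k := 0) (hv c hc)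
    rw [Int.zero_ediv] at h1
    exact h1
  · rw [AV.div_of_eq hn hd hs, Int.ediv_self (by exact_mod_cast hn.ne')]
    rfl
  · rw [AV.mul_div]
    rfl

/-- the square of a generator -/
lemma rot_sq {v : AV N} {ξ : N} (hξ : v ξ = 0) {g : N →+* N} (h : Rot v ξ g) :
    Rot (v.mul 2 two_pos) ξ (fun y => g (g y)) := by
  intro f k hk
  have hf : f ≠ 0 := by
    rintro rfl
    simp at hk
  obtain ⟨l, hl⟩ := exists_int v hf
  rw [AV.mul_of_eq 2 two_pos hl, WithTop.coe_inj] at hk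
  have h1 := h f l hl
  have h2 := h (g f) l ((h.val_map hξ g.map_zero f).trans hl)
  have h3 : g (g f) - ξ ^ k * f = (g (g f) - ξ ^ l * g f) + ξ ^ l * (g f - ξ ^ l * f) := by
    have hξ0 : ξ ≠ 0 := by
      rintro rfl
      simp at hξ
    rw [← hk, Nat.cast_ofNat, two_mul, zpow_add₀ hξ0]
    ring
  have h4 : v (ξ ^ l) = 0 := by
    rw [val_zpow v (k := 0) hξ, mul_zero]
    rfl
  have h5 : (l : WithTop ℤ) < v (g (g f) - ξ ^ k * f) := by
    rw [h3]
    refine v.map_lt_add h2 ?_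
    rw [v.map_mul, h4, zero_add]
    exact h1
  by_cases h6 : g (g f) - ξ ^ k * f = 0
  · rw [h6, AddValuation.map_zero]
    exact WithTop.coe_lt_top _
  obtain ⟨j, hj⟩ := exists_int v h6
  rw [hj, WithTop.coe_lt_coe] at h5
  rw [AV.mul_of_eq 2 two_pos hj, WithTop.coe_lt_coe, ← hk]
  push_cast
  omega

/-- the sign of a generator on `Z` -/
lemma rot_fix {v : AV N} (h2 : v 2 = 0) {ξ Z : N} {g : N → N} (h : Rot v ξ g) {k : ℤ}
    (hk : v Z = k) (hg : g Z = Z ∨ g Z = -Z) (hξ : ξ ^ k = 1) : g Z = Z := by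
  refine hg.resolve_right fun h1 => ?_
  have h3 := h Z k hk
  have h4 : g Z - ξ ^ k * Z = -(2 * Z) := by rw [h1, hξ]; ring
  rw [h4, v.map_neg, v.map_mul, h2, zero_add, hk] at h3
  exact lt_irrefl _ h3

lemma rot_neg {v : AV N} (h2 : v 2 = 0) {ξ Z : N} {g : N → N} (h : Rot v ξ g) {k : ℤ}
    (hk : v Z = k) (hg : g Z = Z ∨ g Z = -Z) (hξ : ξ ^ k = -1) : g Z = -Z := by
  refine hg.resolve_left fun h1 => ?_
  have h3 := h Z k hk
  have h4 : g Z - ξ ^ k * Z = 2 * Z := by rw [h1, hξ]; ring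
  rw [h4, v.map_mul, h2, zero_add, hk] at h3
  exact lt_irrefl _ h3

end place

section line

variable {K B : Type*} [Field K] [Field B] [Algebra ℂ K] [Algebra K B] [Algebra ℂ B]
  [IsScalarTower ℂ K B]

lemma Tr.ctr {u : AV B} (h : Tr u) {t : K} {k : ℕ}
    (hk : u (algebraMap K B t) = ((k : ℤ) : WithTop ℤ)) : Ctr ℂ (u.comap (algebraMap K B)) t k :=
  ⟨fun c hc => by
    change u (algebraMap K B _) = 0
    rw [← IsScalarTower.algebraMap_apply]
    exact h c hc, hk⟩

omit [Algebra ℂ B] in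
lemma exists_nat_of_pos (u : AV B) {f : B} (hf : f ≠ 0) (h : 0 < u f) :
    ∃ k : ℕ, 0 < k ∧ u f = ((k : ℤ) : WithTop ℤ) := by
  obtain ⟨k, hk⟩ := exists_int u hf
  rw [hk, ← WithTop.coe_zero, WithTop.coe_lt_coe] at h
  obtain ⟨k, rfl⟩ := Int.eq_ofNat_of_zero_le h.le
  exact ⟨k, by exact_mod_cast h, hk⟩

/-- normalised places over the same point of the line are conjugate -/
lemma Pl.conj [FiniteDimensional K B] [IsGalois K B] {u w : AV B} (hu : Pl u) (hw : Pl w) {t : K}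
    (ht : IsRat ℂ K t) (h1 : 0 < u (algebraMap K B t)) (h2 : 0 < w (algebraMap K B t)) :
    ∃ τ : B ≃ₐ[K] B, ∀ f, u f = w (τ f) := by
  have ht0 : algebraMap K B t ≠ 0 := (map_ne_zero _).2 ht.ne_zero
  obtain ⟨k, hk0, hk⟩ := exists_nat_of_pos u ht0 h1
  obtain ⟨l, hl0, hl⟩ := exists_nat_of_pos w ht0 h2
  have e1 : (u.mul l hl0) (algebraMap K B t) = (((l * k : ℕ) : ℤ) : WithTop ℤ) := by
    rw [AV.mul_of_eq l hl0 hk]; push_cast; rfl
  have e2 : (w.mul k hk0) (algebraMap K B t) = (((l * k : ℕ) : ℤ) : WithTop ℤ) := by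
    rw [AV.mul_of_eq k hk0 hl, mul_comm]; push_cast; rfl
  have e3 := ((hw.1.mul k hk0).ctr e2).unique ht (Nat.mul_pos hl0 hk0) ((hu.1.mul l hl0).ctr e1)
  obtain ⟨τ, hτ⟩ := exists_conj_val' (K := K) (w.mul k hk0) (u.mul l hl0) (hw.1.mul k hk0).nat
    (fun f => congrArg (fun a : AV K => a f) e3) (Nat.mul_pos hl0 hk0) e2
  have key : ∀ f (a b : ℤ), u f = a → w (τ f) = b → l * a = k * b := fun f a b ha hb => by
    have := hτ f
    rwa [AV.mul_of_eq l hl0 ha, AV.mul_of_eq k hk0 hb, WithTop.coe_inj] at this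
  obtain ⟨s, hs⟩ := hu.2
  obtain ⟨s', hs'⟩ := hw.2
  have hs0 : s ≠ 0 := by
    rintro rfl
    simp at hs
  have hs0' : s' ≠ 0 := by
    rintro rfl
    simp at hs'
  obtain ⟨b, hb⟩ := exists_int w ((map_ne_zero τ).2 hs0)
  obtain ⟨a, ha⟩ := exists_int u ((map_ne_zero τ.symm).2 hs0')
  have e4 := key s 1 b hs hb
  have e5 := key _ a 1 ha (by rw [τ.apply_symm_apply]; exact hs')
  have e6 : (k : ℤ) = l :=
    Int.dvd_antisymm (by positivity) (by positivity) ⟨b, by rw [← e4, mul_one]⟩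
      ⟨a, by rw [e5, mul_one]⟩
  refine ⟨τ, fun f => ?_⟩
  by_cases hf : f = 0
  · simp [hf]
  obtain ⟨a', ha'⟩ := exists_int u hf
  obtain ⟨b', hb'⟩ := exists_int w ((map_ne_zero τ).2 hf)
  have e7 := key f a' b' ha' hb'
  rw [e6] at e7
  rw [ha', hb', mul_left_cancel₀ (by exact_mod_cast hl0.ne') e7]

/-- every place has a centre on the line -/
lemma Pl.centre [Algebra.IsAlgebraic K B] {u : AV B} (hu : Pl u) {x : K} (hx : IsRat ℂ K x) :
    (∃ b : ℂ, 0 < u (algebraMap K B x - algebraMap ℂ B b)) ∨ 0 < u (algebraMap K B x)⁻¹ := by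
  by_contra hne
  push Not at hne
  obtain ⟨h1, h2⟩ := hne
  have hX0 : algebraMap K B x ≠ 0 := (map_ne_zero _).2 hx.ne_zero
  have hX : 0 ≤ u (algebraMap K B x) := by
    obtain ⟨k, hk⟩ := exists_int u hX0
    rw [val_inv u hk, ← WithTop.coe_zero, WithTop.coe_le_coe] at h2
    rw [hk, ← WithTop.coe_zero, WithTop.coe_le_coe]
    omega
  have h3 : ∀ b : ℂ, u (algebraMap K B x - algebraMap ℂ B b) = 0 := fun b =>
    le_antisymm (h1 b) (u.map_le_sub hX (hu.1.nonneg b))
  have h4 : ∀ p : Polynomial ℂ, p ≠ 0 → u (Polynomial.aeval (algebraMap K B x) p) = 0 := by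
    intro p hp
    induction hd : p.natDegree generalizing p with
    | zero =>
      rw [Polynomial.eq_C_of_natDegree_eq_zero hd] at hp ⊢
      rw [Polynomial.aeval_C]
      exact hu.1 _ (fun h => hp (by rw [h, map_zero]))
    | succ d ih =>
      obtain ⟨b, hb⟩ := IsAlgClosed.exists_root p (by
        rw [Polynomial.degree_eq_natDegree hp, hd]
        exact_mod_cast Nat.succ_ne_zero d)
      obtain ⟨q, rfl⟩ := Polynomial.dvd_iff_isRoot.2 hb
      have hq : q ≠ 0 := right_ne_zero_of_mul hp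
      rw [Polynomial.natDegree_mul (Polynomial.X_sub_C_ne_zero b) hq,
        Polynomial.natDegree_X_sub_C] at hd
      rw [map_mul, u.map_mul, ih q hq (by omega), map_sub, Polynomial.aeval_X, Polynomial.aeval_C,
        h3, add_zero]
  have h5 : ∀ f : K, 0 ≤ u (algebraMap K B f) := by
    intro f
    have hf : f ∈ IntermediateField.adjoin ℂ {x} := by rw [hx.2]; trivial
    obtain ⟨r, s, rfl⟩ := (IntermediateField.mem_adjoin_simple_iff ℂ f).1 hf
    by_cases hr : r = 0
    · simp [hr]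
    by_cases hs : s = 0
    · simp [hs]
    rw [map_div₀, ← Polynomial.aeval_algebraMap_apply, ← Polynomial.aeval_algebraMap_apply,
      u.map_div, h4 r hr, h4 s hs]
    simp
  have h6 : ∀ f : B, 0 ≤ u f := fun f =>
    nonneg_of_monic u (P := (minpoly K f).map (algebraMap K B))
      ((minpoly.monic (Algebra.IsIntegral.isIntegral f)).map _)
      (fun i => by rw [Polynomial.coeff_map]; exact h5 _)
      (by rw [Polynomial.eval_map_algebraMap, minpoly.aeval])
  obtain ⟨s, hs⟩ := hu.2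
  have h7 := h6 s⁻¹
  rw [val_inv u (k := 1) hs, ← WithTop.coe_zero, WithTop.coe_le_coe] at h7
  omega

end line

section curve

variable {B : Type*} [Field B] [Algebra ℂ B] {u : AV B} {X z : B} {e : Fin 3 → ℂ}

lemma Tr.centre_eq (hu : Tr u) {f : B} {b b' : ℂ} (h : 0 < u (f - algebraMap ℂ B b))
    (h' : 0 < u (f - algebraMap ℂ B b')) : b = b' := by
  by_contra hne
  have h1 : 0 < u ((f - algebraMap ℂ B b') - (f - algebraMap ℂ B b)) := by
    rw [sub_eq_add_neg]
    exact u.map_lt_add h' (by rw [u.map_neg]; exact h)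
  rw [sub_sub_sub_cancel_left, ← map_sub, hu _ (sub_ne_zero.2 hne)] at h1
  exact lt_irrefl _ h1

lemma Tr.sub_eq_zero (hu : Tr u) {f : B} {b b' : ℂ} (h : 0 < u (f - algebraMap ℂ B b))
    (hne : b ≠ b') : u (f - algebraMap ℂ B b') = 0 := by
  have h1 : f - algebraMap ℂ B b' = (f - algebraMap ℂ B b) + algebraMap ℂ B (b - b') := by
    rw [map_sub]; ring
  have h2 := hu _ (sub_ne_zero.2 hne)
  rw [h1, u.map_add_eq_of_lt_right (by rw [h2]; exact h), h2]

lemma Tr.not_inf (hu : Tr u) {f : B} {b : ℂ} (h : 0 < u (f - algebraMap ℂ B b))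
    (hf : f ≠ 0) : ¬ 0 < u f⁻¹ := by
  intro h1
  have h2 : 0 ≤ u f := by
    have := u.map_le_add h.le (hu.nonneg b)
    rwa [sub_add_cancel] at this
  obtain ⟨k, hk⟩ := exists_int u hf
  rw [val_inv u hk, ← WithTop.coe_zero, WithTop.coe_lt_coe] at h1
  rw [hk, ← WithTop.coe_zero, WithTop.coe_le_coe] at h2
  omega

omit [Algebra ℂ B] in
lemma val_of_sq {k : ℤ} (h : u (z ^ 2) = ((2 * k : ℤ) : WithTop ℤ)) : u z = k := by
  have hz : z ≠ 0 := by
    rintro rfl
    rw [zero_pow two_ne_zero, u.map_zero] at h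
    exact WithTop.top_ne_coe h
  obtain ⟨l, hl⟩ := exists_int u hz
  rw [val_pow u hl, WithTop.coe_inj] at h
  rw [hl]
  congr 1
  push_cast at h
  omega

variable (hz : z ^ 2 = ∏ j, (X - algebraMap ℂ B (e j)))
include hz

lemma val_z_ord (hu : Tr u) {b : ℂ} (hb : b ∉ Set.range e) (h : 0 < u (X - algebraMap ℂ B b)) :
    u z = ((0 : ℤ) : WithTop ℤ) := by
  refine val_of_sq ?_
  have h1 : ∀ j, u (X - algebraMap ℂ B (e j)) = 0 := fun j =>
    hu.sub_eq_zero h fun h2 => hb ⟨j, h2.symm⟩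
  rw [hz, Fin.prod_univ_three, u.map_mul, u.map_mul, h1, h1, h1]
  rfl

lemma val_z_br (he : Function.Injective e) (hu : Tr u) {j : Fin 3} {n : ℕ} (hn : 0 < n)
    (h : u (X - algebraMap ℂ B (e j)) = (((2 * n : ℕ) : ℤ) : WithTop ℤ)) :
    u z = ((n : ℤ) : WithTop ℤ) := by
  refine val_of_sq ?_
  have h0 : 0 < u (X - algebraMap ℂ B (e j)) := by
    rw [h]
    exact_mod_cast Nat.mul_pos two_pos hn
  have h1 : ∀ i, i ≠ j → u (X - algebraMap ℂ B (e i)) = 0 := fun i hi =>
    hu.sub_eq_zero h0 fun h2 => hi (he h2).symm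
  rw [hz, Fin.prod_univ_three, u.map_mul, u.map_mul]
  fin_cases j
  · rw [h1 1 (by decide), h1 2 (by decide)]
    simpa using h
  · rw [h1 0 (by decide), h1 2 (by decide)]
    simpa using h
  · rw [h1 0 (by decide), h1 1 (by decide)]
    simpa using h

lemma val_z_inf (hu : Tr u) {n : ℕ} (hn : 0 < n) (h : u X⁻¹ = (((2 * n : ℕ) : ℤ) : WithTop ℤ)) :
    u z = ((-(3 * n) : ℤ) : WithTop ℤ) ∧ u (X / z) = ((n : ℤ) : WithTop ℤ) := by
  have h0 := val_inv u h
  rw [inv_inv] at h0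
  have h1 : ∀ j, u (X - algebraMap ℂ B (e j)) = ((-((2 * n : ℕ) : ℤ) : ℤ) : WithTop ℤ) := by
    intro j
    rw [sub_eq_add_neg, u.map_add_eq_of_lt_left, h0]
    rw [u.map_neg, h0]
    refine lt_of_lt_of_le ?_ (hu.nonneg _)
    rw [← WithTop.coe_zero, WithTop.coe_lt_coe]
    omega
  have h2 : u z = ((-(3 * n) : ℤ) : WithTop ℤ) := by
    refine val_of_sq ?_
    rw [hz, Fin.prod_univ_three, u.map_mul, u.map_mul, h1, h1, h1, ← WithTop.coe_add,
      ← WithTop.coe_add]
    congr 1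
    push_cast
    ring
  refine ⟨h2, ?_⟩
  rw [div_eq_mul_inv, u.map_mul, h0, val_inv u h2, ← WithTop.coe_add]
  congr 1
  push_cast
  ring

lemma sign_z (hu : Tr u) {b c : ℂ} (hc : c ^ 2 = ∏ j, (b - e j))
    (h : 0 < u (X - algebraMap ℂ B b)) :
    0 < u (z - algebraMap ℂ B c) ∨ 0 < u (-z - algebraMap ℂ B c) := by
  set t := X - algebraMap ℂ B b with ht
  have h1 : (z - algebraMap ℂ B c) * (-z - algebraMap ℂ B c) =
      -(t * (t * t + algebraMap ℂ B ((b - e 0) + (b - e 1) + (b - e 2)) * t +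
        algebraMap ℂ B ((b - e 0) * (b - e 1) + (b - e 0) * (b - e 2) + (b - e 1) * (b - e 2)))) := by
    have h2 := congrArg (algebraMap ℂ B) hc
    rw [Fin.prod_univ_three] at h2 hz
    simp only [map_pow, map_mul, map_sub, map_add, ht] at h2 ⊢
    linear_combination h2 - hz
  have h3 : 0 < u ((z - algebraMap ℂ B c) * (-z - algebraMap ℂ B c)) := by
    rw [h1, u.map_neg, u.map_mul]
    refine h.trans_le (le_add_of_nonneg_right ?_)
    refine u.map_le_add (u.map_le_add ?_ ?_) (hu.nonneg _)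
    · rw [u.map_mul]; exact add_nonneg h.le h.le
    · rw [u.map_mul]; exact add_nonneg (hu.nonneg _) h.le
  by_contra hne
  push Not at hne
  rw [u.map_mul] at h3
  exact absurd (add_nonpos hne.1 hne.2) (not_le.2 h3)

omit hz in
lemma not_both (hu : Tr u) {c : ℂ} (hc : c ≠ 0) (h : 0 < u (z - algebraMap ℂ B c)) :
    ¬ 0 < u (-z - algebraMap ℂ B c) := by
  intro h'
  have h1 := u.map_lt_add h h'
  have h2 : z - algebraMap ℂ B c + (-z - algebraMap ℂ B c) = algebraMap ℂ B (-(2 * c)) := by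
    rw [map_neg, map_mul, map_ofNat]; ring
  rw [h2, hu _ (by simpa using hc)] at h1
  exact lt_irrefl _ h1

end curve

end Crest.Agent.T170.Wr
end
end

-- ▼ part T170/WrD_67
section

/-!
# Row 170, wreath step (helper67), file D: the double cover `B = K(z)` of the line

* `Cv x z e` : `K = ℂ(x)`, `B = K(z)`, `z ^ 2 = (x - e₀) (x - e₁) (x - e₂)`;
* `PP z`, `Cv.eP` : the subgroup `Gal(M/B)` of `Gal(M/K)`;
* `Cv.loc_ord`, `Cv.loc_br`, `Cv.loc_inf` : generators on the line give generators on the curve;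
* `Cv.resW_nc`, `Cv.unr_nc` : the normal closure over `K` of an extension of `B`.
-/

set_option autoImplicit false
set_option linter.dupNamespace false
set_option linter.unusedSectionVars false

noncomputable section

namespace Crest.Agent.T170.Wr

open Crest.Agent.T170.Ret Crest.Agent.T170.RetU Polynomial

variable {K B M : Type} [Field K] [Field B] [Field M] [Algebra ℂ K] [Algebra K B] [Algebra ℂ B]
  [IsScalarTower ℂ K B] [Algebra K M] [Algebra B M] [IsScalarTower K B M]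

/-- the double cover -/
structure Cv (x : K) (z : B) (e : Fin 3 → ℂ) : Prop where
  rat : IsRat ℂ K x
  inj : Function.Injective e
  sq : z ^ 2 = ∏ j, (algebraMap K B x - algebraMap ℂ B (e j))
  gen : IntermediateField.adjoin K {z} = ⊤

variable (K M) in
/-- the automorphisms fixing `z` -/
def PP (z : B) : Subgroup (M ≃ₐ[K] M) := MulAction.stabilizer _ (algebraMap B M z)

lemma mem_PP {z : B} {g : M ≃ₐ[K] M} : g ∈ PP K M z ↔ g (algebraMap B M z) = algebraMap B M z :=
  Iff.rfl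

variable (M) in
/-- `g` is a generator over the place `N • u` of `B` -/
def Gn (u : AV B) (ζ : ℂ) (N : ℕ) (hN : 0 < N) (g : M → M) : Prop :=
  ∃ v : AV M, (∀ f : B, v (algebraMap B M f) = u.mul N hN f) ∧
    Rot v (algebraMap B M (algebraMap ℂ B ζ)) g

/-- the place lies over one of the points `(a i, c i)` -/
def OnD (X z : B) {n : ℕ} (a c : Fin n → ℂ) (u : AV B) : Prop :=
  ∃ i, 0 < u (X - algebraMap ℂ B (a i)) ∧ 0 < u (z - algebraMap ℂ B (c i))

variable (M) in
/-- unramified outside the points `(a i, c i)` -/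
def UnrZ (X z : B) {n : ℕ} (a c : Fin n → ℂ) : Prop :=
  ∀ u : AV B, Pl u → ¬ OnD X z a c u → ∃ v : AV M, ∀ f : B, v (algebraMap B M f) = u f

lemma comap_app {F F' : Type} [Field F] [Field F'] (φ : F →+* F') (v : AV F') (y : F) :
    v.comap φ y = v (φ y) := rfl

lemma algKB (c : ℂ) : algebraMap K B (algebraMap ℂ K c) = algebraMap ℂ B c :=
  (IsScalarTower.algebraMap_apply ℂ K B c).symm

lemma algBM (f : K) : algebraMap B M (algebraMap K B f) = algebraMap K M f :=
  (IsScalarTower.algebraMap_apply K B M f).symm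

lemma Pl.comap {u : AV B} (hu : Pl u) (τ : B ≃ₐ[K] B) : Pl (u.comap (τ : B →+* B)) := by
  obtain ⟨t, ht⟩ := hu.2
  refine ⟨fun c hc => ?_, τ.symm t, ?_⟩
  · change u (τ _) = 0
    rw [← algKB (K := K), τ.commutes, algKB]
    exact hu.1 c hc
  · change u (τ _) = _
    rw [τ.apply_symm_apply, ht]

lemma Gn.conj [Normal K B] {u : AV B} {ζ : ℂ} {N : ℕ} {hN : 0 < N} {g : M ≃ₐ[K] M}
    (h : Gn M u ζ N hN g) (ω : M ≃ₐ[K] M) :
    Gn M (u.comap ((ω⁻¹.restrictNormal B : B ≃ₐ[K] B) : B →+* B)) ζ N hN ⇑(ω * g * ω⁻¹) := by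
  obtain ⟨v, hv, hg⟩ := h
  refine ⟨v.comap (ω⁻¹ : M ≃ₐ[K] M), fun f => ?_, fun f j hj => ?_⟩
  · change v (ω⁻¹ (algebraMap B M f)) = u (ω⁻¹.restrictNormal B (f ^ N))
    rw [← AlgEquiv.restrictNormal_commutes, hv, map_pow]
    rfl
  · change _ < v (ω⁻¹ ((ω * g * ω⁻¹) f - algebraMap B M (algebraMap ℂ B ζ) ^ j * f))
    rw [map_sub, map_mul, map_zpow₀, ← algKB (K := K), algBM, AlgEquiv.commutes,
      ← AlgEquiv.mul_apply, ← mul_assoc, ← mul_assoc, inv_mul_cancel, one_mul, AlgEquiv.mul_apply,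
      ← algBM (B := B), algKB]
    exact hg _ j hj

/-- unpacking a generator on the line -/
lemma unpack {t : K} {ζ : ℂ} {N : ℕ} {g : M ≃ₐ[K] M} (h : IsGen ℂ t ζ N g) :
    ∃ v : AV M, Tr (v.comap (algebraMap B M)) ∧
      v (algebraMap B M (algebraMap K B t)) = ((N : ℤ) : WithTop ℤ) ∧
      Rot v (algebraMap B M (algebraMap ℂ B ζ)) g := by
  obtain ⟨u, hu, v, hv, hg⟩ := h
  refine ⟨v, fun c hc => ?_, ?_, ?_⟩
  · change v (algebraMap B M _) = 0
    rw [← algKB (K := K), algBM, hv, hu.1 c hc]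
  · rw [algBM, hv, hu.2]
  · rw [← algKB (K := K), algBM]
    exact hg

lemma two_val {v : AV M} (hv : Tr (v.comap (algebraMap B M))) : v 2 = 0 := by
  have := hv.nat 2 two_ne_zero
  rwa [comap_app, map_natCast, Nat.cast_ofNat] at this

lemma prim_half {ζ : ℂ} {n : ℕ} (hn : 0 < n) (hζ : IsPrimitiveRoot ζ (2 * n)) : ζ ^ n = -1 :=
  (hζ.pow (Nat.mul_pos two_pos hn) (mul_comm _ _)).eq_neg_one_of_two_right

namespace Cv

variable {x : K} {z : B} {e : Fin 3 → ℂ} (h : Cv x z e)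
include h

lemma sqK : z ^ 2 = algebraMap K B (∏ j, (x - algebraMap ℂ K (e j))) := by
  rw [h.sq, map_prod]
  simp only [map_sub, algKB]

lemma z_ne : z ≠ 0 := by
  intro hz
  have h1 := h.sqK
  rw [hz, zero_pow two_ne_zero, eq_comm, map_eq_zero, Finset.prod_eq_zero_iff] at h1
  obtain ⟨j, -, hj⟩ := h1
  exact (h.rat.sub (e j)).ne_zero hj

lemma isIntegral : IsIntegral K z :=
  ⟨X ^ 2 - C (∏ j, (x - algebraMap ℂ K (e j))), monic_X_pow_sub_C _ two_ne_zero, by
    rw [eval₂_sub, eval₂_X_pow, eval₂_C, h.sqK, sub_self]⟩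

lemma fin : FiniteDimensional K B := by
  have h1 := IntermediateField.adjoin.finiteDimensional h.isIntegral
  rw [h.gen] at h1
  exact IntermediateField.topEquiv.toLinearEquiv.finiteDimensional

lemma gal : IsGalois K B := by
  have := h.fin
  have : CharZero K := charZero_of_injective_algebraMap (algebraMap ℂ K).injective
  have h1 : IsSplittingField K B (X ^ 2 - C (∏ j, (x - algebraMap ℂ K (e j)))) := by
    rw [isSplittingField_iff_intermediateField]
    constructor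
    · have h2 : (X ^ 2 - C (∏ j, (x - algebraMap ℂ K (e j)))).map (algebraMap K B) =
          (X - C z) * (X - C (-z)) := by
        rw [Polynomial.map_sub, Polynomial.map_pow, map_X, map_C, ← h.sqK, map_pow, map_neg]
        ring
      rw [h2]
      exact (Splits.X_sub_C _).mul (Splits.X_sub_C _)
    · rw [eq_top_iff, ← h.gen]
      refine IntermediateField.adjoin.mono _ _ _ (Set.singleton_subset_iff.2 ?_)
      rw [mem_rootSet]
      exact ⟨(monic_X_pow_sub_C _ two_ne_zero).ne_zero, by simp [h.sqK]⟩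
  have := Normal.of_isSplittingField (hFEp := h1)
  exact ⟨⟩

lemma ext' {f g : B →ₐ[K] M} (hz : f z = g z) : f = g := by
  have h1 : f.comp (⊤ : IntermediateField K B).val = g.comp (⊤ : IntermediateField K B).val :=
    IntermediateField.algHom_ext_of_eq_adjoin K h.gen.symm fun y hy => by
      rw [Set.mem_singleton_iff] at hy
      subst hy
      exact hz
  ext y
  exact congrArg (fun φ : (⊤ : IntermediateField K B) →ₐ[K] M => φ ⟨y, trivial⟩) h1

lemma pm (g : M ≃ₐ[K] M) :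
    g (algebraMap B M z) = algebraMap B M z ∨ g (algebraMap B M z) = -algebraMap B M z := by
  refine sq_eq_sq_iff_eq_or_eq_neg.1 ?_
  rw [← map_pow, ← map_pow, h.sqK, algBM, g.commutes]

lemma Z_ne_neg : algebraMap B M z ≠ -algebraMap B M z := by
  have : CharZero B := charZero_of_injective_algebraMap (algebraMap ℂ B).injective
  rw [← map_neg, Ne, (algebraMap B M).injective.eq_iff, self_eq_neg]
  exact h.z_ne

lemma fix {g : M ≃ₐ[K] M} (hg : g ∈ PP K M z) (f : B) : g (algebraMap B M f) = algebraMap B M f :=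
  congrArg (fun φ : B →ₐ[K] M => φ f)
    (h.ext' (f := (g : M →ₐ[K] M).comp (IsScalarTower.toAlgHom K B M))
      (g := IsScalarTower.toAlgHom K B M) hg)

/-- `PP z = Gal(M/B)` -/
def eP : PP K M z ≃* (M ≃ₐ[B] M) where
  toFun g := AlgEquiv.ofRingEquiv (f := g.1.toRingEquiv) (h.fix g.2)
  invFun g := ⟨g.restrictScalars K, g.commutes z⟩
  left_inv _ := rfl
  right_inv _ := rfl
  map_mul' _ _ := rfl


lemma not_mem_iff {g : M ≃ₐ[K] M} :
    g ∉ PP K M z ↔ g (algebraMap B M z) = -algebraMap B M z :=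
  ⟨fun h1 => (h.pm g).resolve_left h1, fun h1 h2 => h.Z_ne_neg ((mem_PP.1 h2).symm.trans h1)⟩

lemma index {ω : M ≃ₐ[K] M} (hω : ω ∉ PP K M z) : (PP K M z).index = 2 := by
  refine Subgroup.index_eq_two_iff.2 ⟨ω, fun b => ?_⟩
  have h1 : (b * ω) (algebraMap B M z) = -b (algebraMap B M z) := by
    rw [AlgEquiv.mul_apply, h.not_mem_iff.1 hω, map_neg]
  by_cases hb : b ∈ PP K M z
  · exact Or.inr ⟨hb, h.not_mem_iff.2 (by rw [h1, mem_PP.1 hb])⟩
  · exact Or.inl ⟨mem_PP.2 (by rw [h1, h.not_mem_iff.1 hb, neg_neg]), hb⟩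

lemma iota_z [Normal K B] {ω : M ≃ₐ[K] M} (hω : ω ∉ PP K M z) : ω.restrictNormal B z = -z :=
  (algebraMap B M).injective (by
    rw [AlgEquiv.restrictNormal_commutes, h.not_mem_iff.1 hω, map_neg])

/-- the two places over a point of the line -/
lemma cls {u w : AV B} (hu : Pl u) (hw : Pl w) {t : K} (ht : IsRat ℂ K t)
    (h1 : 0 < u (algebraMap K B t)) (h2 : 0 < w (algebraMap K B t)) {ι : B ≃ₐ[K] B}
    (hι : ι z = -z) : u = w ∨ u = w.comap (ι : B →+* B) := by
  have := h.fin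
  have := h.gal
  obtain ⟨τ, hτ⟩ := hu.conj hw ht h1 h2
  rcases h.pm (M := B) τ with h3 | h3
  · have h4 := h.ext' (M := B) (f := (τ : B →ₐ[K] B)) (g := AlgHom.id K B) h3
    exact Or.inl (AddValuation.ext fun f =>
      (hτ f).trans (congrArg (fun φ : B →ₐ[K] B => w (φ f)) h4))
  · have h4 := h.ext' (M := B) (f := (τ : B →ₐ[K] B)) (g := (ι : B →ₐ[K] B)) (h3.trans hι.symm)
    exact Or.inr (AddValuation.ext fun f =>
      (hτ f).trans (congrArg (fun φ : B →ₐ[K] B => w (φ f)) h4))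

/-- an ordinary point of the line -/
lemma loc_ord {b ζ : ℂ} (hb : b ∉ Set.range e) {N : ℕ} (hN : 0 < N) (hζ : IsPrimitiveRoot ζ N)
    {g : M ≃ₐ[K] M} (hg : IsGen ℂ (x - algebraMap ℂ K b) ζ N g) :
    g ∈ PP K M z ∧ ∃ w : AV B, Pl w ∧
      w.mul N hN (algebraMap K B x - algebraMap ℂ B b) = ((N : ℤ) : WithTop ℤ) ∧
      Gn M w ζ N hN g := by
  obtain ⟨v, hv, ht, hr⟩ := unpack (B := B) hg
  rw [map_sub, algKB] at ht
  have h1 := val_z_ord h.sq hv hb (by
    rw [comap_app, ht]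
    exact_mod_cast hN)
  have h2 : g ∈ PP K M z := rot_fix (two_val hv) hr h1 (h.pm g) (zpow_zero _)
  obtain ⟨w, hw, hvw⟩ := exists_pl hv hN hζ (g := h.eP ⟨g, h2⟩) hr ht
  exact ⟨h2, w, hw, (hvw _).symm.trans ht, v, hvw, hr⟩

lemma loc_sq {ζ : ℂ} {n : ℕ} (hn : 0 < n) (hζ : IsPrimitiveRoot ζ (2 * n)) {g : M ≃ₐ[K] M}
    {v : AV M} (hv : Tr (v.comap (algebraMap B M)))
    (hr : Rot v (algebraMap B M (algebraMap ℂ B ζ)) g) (hg : g ∉ PP K M z) {s t : B}
    (hs : v (algebraMap B M s) = ((n : ℤ) : WithTop ℤ)) (ht : 0 < v (algebraMap B M t)) :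
    ∃ w : AV B, Pl w ∧ 0 < w t ∧ Gn M w ζ (2 * n) (Nat.mul_pos two_pos hn) ⇑(g * g) ∧
      ∀ ι : B ≃ₐ[K] B, ι z = -z → w.comap (ι : B →+* B) = w := by
  have hN := Nat.mul_pos two_pos hn
  have hζ0 : v (algebraMap B M (algebraMap ℂ B ζ)) = 0 := hv ζ (hζ.ne_zero hN.ne')
  have h1 : g * g ∈ PP K M z := by simp [Subgroup.mul_mem_iff_of_index_two (h.index hg)]
  have h2 : Rot (v.mul 2 two_pos) (algebraMap B M (algebraMap ℂ B ζ)) ⇑(g * g) :=
    rot_sq (g := (g : M →+* M)) hζ0 hr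
  have h3 : Tr (AddValuation.comap (algebraMap B M) (v.mul 2 two_pos)) := fun c hc => by
    rw [comap_app, AV.mul_apply, ← map_pow, ← map_pow]
    exact hv _ (pow_ne_zero _ hc)
  obtain ⟨w, hw, hvw⟩ := exists_pl h3 hN hζ (g := h.eP ⟨g * g, h1⟩) h2 (s := s) (by
    rw [AV.mul_of_eq 2 two_pos hs]
    push_cast
    rfl)
  refine ⟨w, hw, ?_, ⟨v.mul 2 two_pos, hvw, h2⟩, fun ι hι => mul_inj _ hN (AddValuation.ext fun f => ?_)⟩
  · rw [← mul_pos_iff w _ hN, ← hvw, mul_pos_iff]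
    exact ht
  · have h4 := h.ext' (f := (IsScalarTower.toAlgHom K B M).comp (ι : B →ₐ[K] B))
      (g := (g : M →ₐ[K] M).comp (IsScalarTower.toAlgHom K B M)) (by
        change algebraMap B M (ι z) = g (algebraMap B M z)
        rw [hι, map_neg, h.not_mem_iff.1 hg])
    have h5 : ∀ y, algebraMap B M (ι y) = g (algebraMap B M y) := fun y =>
      congrArg (fun φ : B →ₐ[K] M => φ y) h4
    rw [← hvw, AV.mul_apply]
    change w (ι (f ^ (2 * n))) = _
    rw [map_pow, ← AV.mul_apply _ _ hN, ← hvw, h5, AV.mul_apply, AV.mul_apply, ← map_pow,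
      hr.val_map hζ0 (map_zero g)]

/-- a branch point -/
lemma loc_br {ζ : ℂ} {n : ℕ} (hn : 0 < n) (hζ : IsPrimitiveRoot ζ (2 * n)) {g : M ≃ₐ[K] M}
    {j : Fin 3} (hg : IsGen ℂ (x - algebraMap ℂ K (e j)) ζ (2 * n) g) :
    g ∉ PP K M z ∧ ∃ w : AV B, Pl w ∧ 0 < w (algebraMap K B x - algebraMap ℂ B (e j)) ∧
      Gn M w ζ (2 * n) (Nat.mul_pos two_pos hn) ⇑(g * g) ∧
      ∀ ι : B ≃ₐ[K] B, ι z = -z → w.comap (ι : B →+* B) = w := by
  obtain ⟨v, hv, ht, hr⟩ := unpack (B := B) hg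
  rw [map_sub, algKB] at ht
  have h1 := val_z_br h.sq h.inj hv hn ht
  have h2 : g ∉ PP K M z := h.not_mem_iff.2 (rot_neg (two_val hv) hr h1 (h.pm g) (by
    rw [zpow_natCast, ← map_pow, ← map_pow, prim_half hn hζ, map_neg, map_neg, map_one, map_one]))
  refine ⟨h2, h.loc_sq hn hζ hv hr h2 h1 ?_⟩
  rw [ht]
  exact_mod_cast Nat.mul_pos two_pos hn

/-- the point at infinity -/
lemma loc_inf {ζ : ℂ} {n : ℕ} (hn : 0 < n) (hζ : IsPrimitiveRoot ζ (2 * n)) {g : M ≃ₐ[K] M}
    (hg : IsGen ℂ x⁻¹ ζ (2 * n) g) (h2 : g ∉ PP K M z) :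
    ∃ w : AV B, Pl w ∧ 0 < w (algebraMap K B x)⁻¹ ∧
      Gn M w ζ (2 * n) (Nat.mul_pos two_pos hn) ⇑(g * g) ∧
      ∀ ι : B ≃ₐ[K] B, ι z = -z → w.comap (ι : B →+* B) = w := by
  obtain ⟨v, hv, ht, hr⟩ := unpack (B := B) hg
  rw [map_inv₀] at ht
  refine h.loc_sq hn hζ hv hr h2 (val_z_inf h.sq hv hn ht).2 ?_
  rw [ht]
  exact_mod_cast Nat.mul_pos two_pos hn

lemma exists_not_mem (hG : GStmt) [FiniteDimensional K M] [IsGalois K M] :
    ∃ ω : M ≃ₐ[K] M, ω ∉ PP K M z := by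
  have hn : 0 < Nat.card (M ≃ₐ[K] M) := Nat.card_pos
  obtain ⟨m, a, g, -, h2, h3, -⟩ := hG K M x h.rat _ (Nat.mul_pos two_pos hn)
    (fun g => by rw [mul_comm, pow_mul, pow_card_eq_one', one_pow]) {e 0}
  obtain ⟨i, hi⟩ := h2 (e 0) (Finset.mem_singleton_self _)
  have h4 := h3 i
  rw [hi] at h4
  exact ⟨g i, (h.loc_br hn (Complex.isPrimitiveRoot_exp _ (Nat.mul_pos two_pos hn).ne') h4).1⟩

section nc

variable {N : Type} [Field N] [Algebra B N] [Algebra N M] [IsScalarTower B N M]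
  [FiniteDimensional B N] [IsGalois B N] [FiniteDimensional K M] [IsGalois K M]
  (hgen : ∀ γ : M ≃ₐ[K] M,
    (∀ (k : M ≃ₐ[K] M) (y : N), (k * γ * k⁻¹) (algebraMap N M y) = algebraMap N M y) → γ = 1)
include hgen

lemma resW_nc (hG : GStmt) {G : Type} [Group G] (hN : ResW (N ≃ₐ[B] N) G) :
    ResW (M ≃ₐ[K] M) (Wr G) := by
  obtain ⟨ω, hω⟩ := h.exists_not_mem (M := M) hG
  have hP := h.index hω
  intro γ hγ
  refine hgen γ fun k y => ?_
  have h1 : ∀ φ : (M ≃ₐ[K] M) →* Wr G, φ (k * γ * k⁻¹) = 1 := fun φ => by simp [hγ φ]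
  have h2 : k * γ * k⁻¹ ∈ PP K M z := by
    by_contra h2
    have h3 := h1 (indHom hP hω 1 1)
    rw [indHom_not hP hω _ _ h2] at h3
    exact absurd (congrArg Wr.s h3) (by simp [Wr.one_def])
  have h3 : AlgEquiv.restrictNormalHom N (h.eP ⟨_, h2⟩) = 1 := by
    refine hN _ fun ρ => ?_
    have h4 := h1 (indHom hP hω (ρ.comp ((AlgEquiv.restrictNormalHom N).comp h.eP.toMonoidHom)) 1)
    rw [indHom_mem hP hω _ _ h2, ex_of_mem _ h2] at h4
    exact congrArg Wr.l h4
  have h4 := AlgEquiv.restrictNormal_commutes (h.eP ⟨_, h2⟩) N y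
  change algebraMap N M (AlgEquiv.restrictNormalHom N (h.eP ⟨_, h2⟩) y) = _ at h4
  rw [h3] at h4
  exact h4.symm

lemma unr_nc (hG : GStmt) {n : ℕ} {a c : Fin n → ℂ} (hN : UnrZ N (algebraMap K B x) z a c)
    {b : ℂ} (hb : b ∉ Set.range e) (hb' : b ∉ Set.range a) : Unr ℂ M (x - algebraMap ℂ K b) := by
  have hn : 0 < Nat.card (M ≃ₐ[K] M) := Nat.card_pos
  obtain ⟨m, α, g, -, h2, h3, -⟩ := hG K M x h.rat _ hn (fun g => pow_card_eq_one') {b}
  obtain ⟨i, hi⟩ := h2 b (Finset.mem_singleton_self _)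
  have h4 := h3 i
  rw [hi] at h4
  have hζ : IsPrimitiveRoot (zt (Nat.card (M ≃ₐ[K] M))) (Nat.card (M ≃ₐ[K] M)) :=
    Complex.isPrimitiveRoot_exp _ hn.ne'
  have h5 : g i = 1 := by
    refine hgen _ fun k y => ?_
    obtain ⟨h6, w, hw, h7, h8⟩ := h.loc_ord hb hn hζ (h4.conj k)
    have h9 : 0 < w (algebraMap K B x - algebraMap ℂ B b) := by
      rw [← mul_pos_iff w _ hn, h7]
      exact_mod_cast hn
    obtain ⟨v, hv⟩ := hN w hw fun ⟨j, hj, _⟩ => hb' ⟨j, hw.1.centre_eq hj h9⟩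
    have h10 : GenOver (w.mul _ hn) (algebraMap ℂ B _) (h.eP ⟨_, h6⟩) := h8
    have h11 := eq_one_of_ext hw hv hn hζ.pow_eq_one (h10.restrictNormal N)
    have h12 := AlgEquiv.restrictNormal_commutes (h.eP ⟨_, h6⟩) N y
    rw [h11] at h12
    exact h12.symm
  rw [h5] at h4
  exact h4.unr hn hζ

end nc

end Cv

/-- the conjugates of `N` generate the normal closure -/
lemma hgen_nc {N U : Type} [Field N] [Field U] [Algebra K N] [Algebra K U] [Algebra N U]
    [IsScalarTower K N U] [Normal K U]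
    (γ : IntermediateField.normalClosure K N U ≃ₐ[K] IntermediateField.normalClosure K N U)
    (hγ : ∀ (k : IntermediateField.normalClosure K N U ≃ₐ[K] IntermediateField.normalClosure K N U)
      (y : N), (k * γ * k⁻¹) (algebraMap N _ y) = algebraMap N _ y) : γ = 1 := by
  have h1 : IntermediateField.normalClosure K N U ≤
      IntermediateField.lift (IntermediateField.fixedField (Subgroup.zpowers γ)) := by
    refine normalClosure_le_iff.2 fun f => ?_
    rintro _ ⟨y, rfl⟩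
    let φ := (normalClosure.algHomEquiv K N U).symm f
    let k := AlgEquiv.ofBijective (φ.liftNormal (IntermediateField.normalClosure K N U))
      (AlgHom.normal_bijective K _ _ _)
    have h2 : k (algebraMap N _ y) = φ y := φ.liftNormal_commutes _ y
    have h3 : γ (φ y) = φ y := by
      have h4 := congrArg k (hγ k⁻¹ y)
      rw [inv_inv, ← AlgEquiv.mul_apply, ← mul_assoc, ← mul_assoc, mul_inv_cancel, one_mul,
        AlgEquiv.mul_apply, h2] at h4
      exact h4
    refine (IntermediateField.mem_lift (φ y)).2 ((IntermediateField.mem_fixedField_iff _ _).2 ?_)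
    intro g hg
    exact (Subgroup.zpowers_le (H := MulAction.stabilizer _ (φ y))).2 h3 hg
  ext1 y
  exact (IntermediateField.mem_fixedField_iff _ _).1 ((IntermediateField.mem_lift y).1 (h1 y.2)) γ
    (Subgroup.mem_zpowers γ)

end Crest.Agent.T170.Wr
end
end

-- ▼ part T170/WrE_67
section

/-!
# Row 170, wreath step (helper67), file E: the field over the curve inside the field over the line

* `Spec` : the inertia generators of `Gal(M/B)` outside the punctures;
* `Cv.exists_data` : the local data on the curve;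
* `Cv.core` : the fixed field `E₀`, with maximality, local generators and the count.
-/

set_option autoImplicit false
set_option linter.dupNamespace false
set_option linter.unusedSectionVars false

noncomputable section

namespace Crest.Agent.T170.Wr

open Crest.Agent.T170.Ret Crest.Agent.T170.RetU

section group

variable {Γ : Type} [Group Γ] {P : Subgroup Γ} {G : Type} [Group G] {m n : ℕ}

/-- the generator at the point `q` of the curve -/
def gq (g : Fin m → Γ) (ω : Γ) (q : Fin m × Bool) : Γ := cond q.2 (ω * g q.1 * ω⁻¹) (g q.1)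

/-- the generators outside the punctures -/
def Spec (g : Fin m → Γ) (ω : Γ) (Bs : Finset (Fin m)) (lab : Fin n → Fin m × Bool) : Set Γ :=
  {s | (∃ q : Fin m × Bool, q.1 ∉ Bs ∧ q ∉ Set.range lab ∧ s = gq g ω q) ∨
    (∃ i ∈ Bs, s = g i * g i) ∨ s = (List.ofFn g).prod⁻¹ * (List.ofFn g).prod⁻¹}

open Classical in
/-- the labels -/
def Kc (lab : Fin n → Fin m × Bool) (c : G) (q : Fin m × Bool) : Set G :=
  if q ∈ Set.range lab then {a | IsConj a c} else {1}

lemma Kc_lab (lab : Fin n → Fin m × Bool) (c : G) (j : Fin n) :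
    Kc lab c (lab j) = {a | IsConj a c} := if_pos ⟨j, rfl⟩

lemma Kc_not {lab : Fin n → Fin m × Bool} (c : G) {q : Fin m × Bool} (hq : q ∉ Set.range lab) :
    Kc lab c q = {1} := if_neg hq

lemma Kc_cinv (lab : Fin n → Fin m × Bool) (c : G) (q : Fin m × Bool) : Cinv (Kc lab c q) := by
  intro g x hx
  by_cases hq : q ∈ Set.range lab
  · obtain ⟨j, rfl⟩ := hq
    rw [Kc_lab] at hx ⊢
    exact (isConj_iff.2 ⟨g, rfl⟩).symm.trans hx
  · rw [Kc_not c hq] at hx ⊢
    rw [Set.mem_singleton_iff.1 hx]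
    simp

lemma labP_iff {g : Fin m → Γ} {ω : Γ} {Bs : Finset (Fin m)} {lab : Fin n → Fin m × Bool}
    (hl : ∀ j, (lab j).1 ∉ Bs) (c : G) (ρ : P →* G) :
    LabP g ω Bs (Kc lab c) ρ ↔
      (∀ s ∈ Spec g ω Bs lab, ex ρ s = 1) ∧ ∀ j, IsConj (ex ρ (gq g ω (lab j))) c := by
  constructor
  · rintro ⟨h1, h2, h3⟩
    have h4 : ∀ q : Fin m × Bool, q.1 ∉ Bs → ex ρ (gq g ω q) ∈ Kc lab c q := by
      rintro ⟨i, _ | _⟩ hi
      · exact (h1 i hi).1
      · exact (h1 i hi).2
    refine ⟨?_, fun j => ?_⟩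
    · rintro s (⟨q, hq, hq', rfl⟩ | ⟨i, hi, rfl⟩ | rfl)
      · have := h4 q hq
        rwa [Kc_not c hq'] at this
      · exact h2 i hi
      · exact h3
    · have := h4 _ (hl j)
      rwa [Kc_lab] at this
  · rintro ⟨h1, h2⟩
    have h4 : ∀ q : Fin m × Bool, q.1 ∉ Bs → ex ρ (gq g ω q) ∈ Kc lab c q := by
      intro q hq
      by_cases hq' : q ∈ Set.range lab
      · obtain ⟨j, rfl⟩ := hq'
        rw [Kc_lab]
        exact h2 j
      · rw [Kc_not c hq']
        exact h1 _ (Or.inl ⟨q, hq, hq', rfl⟩)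
    exact ⟨fun i hi => ⟨h4 (i, false) hi, h4 (i, true) hi⟩,
      fun i hi => h1 _ (Or.inr (Or.inl ⟨i, hi, rfl⟩)), h1 _ (Or.inr (Or.inr rfl))⟩

lemma exists_lift {Q R : Type} [Group Q] [Group R] {π : R →* Q} (hπ : Function.Surjective π)
    {ρ : R →* G} (h : ∀ p, π p = 1 → ρ p = 1) : ∃ ρ' : Q →* G, ρ'.comp π = ρ :=
  ⟨π.liftOfSurjective hπ ⟨ρ, h⟩, π.liftOfRightInverse_comp _ _ _⟩

lemma card_quot {Q R : Type} [Group Q] [Group R] {π : R →* Q} (hπ : Function.Surjective π)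
    (p : (Q →* G) → Prop) (p' : (R →* G) → Prop) (h1 : ∀ ρ, p ρ ↔ p' (ρ.comp π))
    (h2 : ∀ ρ, p' ρ → ∀ y, π y = 1 → ρ y = 1) (A : Subgroup G) :
    Nat.card {ρ : Q →* G // p ρ ∧ ρ.range ≤ A} = Nat.card {ρ : R →* G // p' ρ ∧ ρ.range ≤ A} := by
  have h3 : ∀ ρ : Q →* G, (ρ.comp π).range = ρ.range := fun ρ => by
    rw [← MonoidHom.map_range, MonoidHom.range_eq_top.2 hπ, ← MonoidHom.range_eq_map]
  refine Nat.card_congr (Equiv.ofBijective
    (fun ρ => ⟨ρ.1.comp π, (h1 _).1 ρ.2.1, (h3 _).trans_le ρ.2.2⟩) ⟨fun ρ ρ' h => ?_, ?_⟩)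
  · refine Subtype.ext (MonoidHom.ext fun y => ?_)
    obtain ⟨y, rfl⟩ := hπ y
    exact congrArg (fun φ : {ρ : R →* G // p' ρ ∧ ρ.range ≤ A} => φ.1 y) h
  · rintro ⟨ρ, h4, h5⟩
    obtain ⟨ρ', rfl⟩ := exists_lift hπ (h2 ρ h4)
    exact ⟨⟨ρ', (h1 _).2 h4, (h3 _).symm.trans_le h5⟩, rfl⟩

end group

variable {K B M : Type} [Field K] [Field B] [Field M] [Algebra ℂ K] [Algebra K B] [Algebra ℂ B]
  [IsScalarTower ℂ K B] [Algebra K M] [Algebra B M] [IsScalarTower K B M]
  [FiniteDimensional K M] [IsGalois K M]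

namespace Cv

variable {x : K} {z : B} {e : Fin 3 → ℂ} (h : Cv x z e) {r : ℕ} (hr : 0 < r) {ζ : ℂ}
  (hζ : IsPrimitiveRoot ζ (2 * r)) {m : ℕ} {α : Fin m → ℂ} (hα : Function.Injective α)
  (heα : ∀ j, e j ∈ Set.range α) {n : ℕ} {a c : Fin n → ℂ} (ha : Function.Injective a)
  (haα : ∀ j, a j ∈ Set.range α) (hc0 : ∀ j, c j ≠ 0) (hc : ∀ j, c j ^ 2 = ∏ i, (a j - e i))
  {g : Fin m → (M ≃ₐ[K] M)} (hg : ∀ i, IsGen ℂ (x - algebraMap ℂ K (α i)) ζ (2 * r) (g i))
  (hinf : IsGen ℂ x⁻¹ ζ (2 * r) (List.ofFn g).prod⁻¹)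
  (hun : ∀ b : ℂ, b ∉ Set.range α → Unr ℂ M (x - algebraMap ℂ K b))
include h hr hζ hα heα ha haα hc0 hc hg hinf hun

/-- the local data on the curve -/
theorem exists_data :
    ∃ (ω : M ≃ₐ[K] M) (Bs : Finset (Fin m)) (lab : Fin n → Fin m × Bool), ω ∉ PP K M z ∧
      Bs.card = 3 ∧ (∀ i, g i ∉ PP K M z ↔ i ∈ Bs) ∧ Function.Injective lab ∧
      (∀ j, (lab j).1 ∉ Bs) ∧
      (∀ j, gq g ω (lab j) ∈ PP K M z ∧ ∃ u : AV B, Pl u ∧
        u.mul _ (Nat.mul_pos two_pos hr) (algebraMap K B x - algebraMap ℂ B (a j)) =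
          (((2 * r : ℕ) : ℤ) : WithTop ℤ) ∧ 0 < u (z - algebraMap ℂ B (c j)) ∧
        Gn M u ζ _ (Nat.mul_pos two_pos hr) ⇑(gq g ω (lab j))) ∧
      (∀ s ∈ Spec g ω Bs lab, s ∈ PP K M z ∧ ∃ u : AV B, Pl u ∧
        ¬ OnD (algebraMap K B x) z a c u ∧ Gn M u ζ _ (Nat.mul_pos two_pos hr) ⇑s) ∧
      (∀ u : AV B, Pl u → ¬ OnD (algebraMap K B x) z a c u →
        ∃ s : M ≃ₐ[K] M, (s ∈ Spec g ω Bs lab ∨ s = 1) ∧
          Gn M u ζ _ (Nat.mul_pos two_pos hr) ⇑s) := by
  classical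
  have hN := Nat.mul_pos two_pos hr
  have := h.fin
  have := h.gal
  have hNpos : (0 : WithTop ℤ) < (((2 * r : ℕ) : ℤ) : WithTop ℤ) := by exact_mod_cast hN
  choose ie hie using heα
  choose ia hia using haα
  have hbr := fun j => h.loc_br hr hζ (j := j) (g := g (ie j)) (by rw [← hie j]; exact hg _)
  set ω := g (ie 0) with hωdef
  have hω : ω ∉ PP K M z := (hbr 0).1
  have hP := h.index hω
  set Bs : Finset (Fin m) := Finset.univ.image ie with hBs
  have hmem : ∀ i, i ∈ Bs ↔ α i ∈ Set.range e := fun i => by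
    simp only [hBs, Finset.mem_image, Finset.mem_univ, true_and]
    exact ⟨fun ⟨j, hj⟩ => ⟨j, by rw [← hj, hie]⟩, fun ⟨j, hj⟩ => ⟨j, hα (by rw [hie, hj])⟩⟩
  have hcard : Bs.card = 3 := by
    rw [hBs, Finset.card_image_of_injective _ fun j j' hj => h.inj (by rw [← hie, ← hie, hj])]
    rfl
  have hord := fun i (hi : i ∉ Bs) => h.loc_ord (fun h1 => hi ((hmem i).2 h1)) hN hζ (hg i)
  have hBm : ∀ i, g i ∉ PP K M z ↔ i ∈ Bs := fun i => by
    refine ⟨fun h1 => by_contra fun hi => h1 (hord i hi).1, fun hi => ?_⟩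
    obtain ⟨j, -, rfl⟩ := Finset.mem_image.1 hi
    exact (hbr j).1
  have hae : ∀ j, a j ∉ Set.range e := by
    rintro j ⟨i, hi⟩
    refine pow_ne_zero 2 (hc0 j) ?_
    rw [hc]
    exact Finset.prod_eq_zero (Finset.mem_univ i) (by rw [hi, sub_self])
  have hiaB : ∀ j, ia j ∉ Bs := fun j h1 => hae j (by rw [← hia]; exact (hmem _).1 h1)
  set ι : B ≃ₐ[K] B := ω⁻¹.restrictNormal B with hιdef
  have hι : ι z = -z := h.iota_z (by simpa using hω)
  have hιX : ∀ b, ι (algebraMap K B x - algebraMap ℂ B b) = algebraMap K B x - algebraMap ℂ B b := by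
    intro b
    rw [← algKB (K := K), ← map_sub, ι.commutes]
  have hιz : ∀ b, ι (z - algebraMap ℂ B b) = -z - algebraMap ℂ B b := by
    intro b
    rw [map_sub, hι, ← algKB (K := K), ι.commutes]
  choose w hw1 hw2 hw3 using fun i hi => (hord i hi).2
  -- the two places over an ordinary point
  let pl : ∀ q : Fin m × Bool, q.1 ∉ Bs → AV B := fun q hq =>
    cond q.2 ((w q.1 hq).comap (ι : B →+* B)) (w q.1 hq)
  have hpl : ∀ q hq, gq g ω q ∈ PP K M z ∧ Pl (pl q hq) ∧
      (pl q hq).mul _ hN (algebraMap K B x - algebraMap ℂ B (α q.1)) =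
        (((2 * r : ℕ) : ℤ) : WithTop ℤ) ∧ Gn M (pl q hq) ζ _ hN ⇑(gq g ω q) := by
    rintro ⟨i, _ | _⟩ hi
    · exact ⟨(hord i hi).1, hw1 i hi, hw2 i hi, hw3 i hi⟩
    · refine ⟨mem_a hP hω (hord i hi).1, (hw1 i hi).comap ι, ?_, (hw3 i hi).conj ω⟩
      change w i hi (ι (_ ^ (2 * r))) = _
      rw [map_pow, hιX]
      exact hw2 i hi
  have hplpos : ∀ q hq, 0 < pl q hq (algebraMap K B x - algebraMap ℂ B (α q.1)) := fun q hq => by
    rw [← mul_pos_iff _ _ hN, (hpl q hq).2.2.1]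
    exact hNpos
  let lab : Fin n → Fin m × Bool := fun j =>
    (ia j, decide (¬ 0 < w (ia j) (hiaB j) (z - algebraMap ℂ B (c j))))
  have hlab : ∀ j, 0 < pl (lab j) (hiaB j) (z - algebraMap ℂ B (c j)) := by
    intro j
    by_cases h1 : 0 < w (ia j) (hiaB j) (z - algebraMap ℂ B (c j))
    · have h3 : pl (lab j) (hiaB j) = w (ia j) (hiaB j) := by
        simp only [pl, lab, decide_eq_false (not_not.2 h1), cond_false]
      rw [h3]
      exact h1
    · have h2 := sign_z h.sq (hw1 _ (hiaB j)).1 (hc j)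
        (by rw [← hia]; exact hplpos (ia j, false) (hiaB j))
      have h3 : pl (lab j) (hiaB j) = (w (ia j) (hiaB j)).comap (ι : B →+* B) := by
        simp only [pl, lab, decide_eq_true h1, cond_true]
      rw [h3]
      change 0 < w (ia j) (hiaB j) (ι _)
      rw [hιz]
      exact h2.resolve_left h1
  have hOn : ∀ q hq, OnD (algebraMap K B x) z a c (pl q hq) ↔ q ∈ Set.range lab := by
    intro q hq
    constructor
    · rintro ⟨j, h1, h2⟩
      obtain ⟨i, s⟩ := q
      obtain rfl : i = ia j := hα (by rw [hia]; exact (hpl _ hq).2.1.1.centre_eq (hplpos _ hq) h1)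
      refine ⟨j, Prod.ext rfl ?_⟩
      cases s
      · exact decide_eq_false (not_not.2 h2)
      · refine decide_eq_true fun h3 => not_both (hw1 _ hq).1 (hc0 j) h3 ?_
        rw [← hιz]
        exact h2
    · rintro ⟨j, rfl⟩
      exact ⟨j, by rw [← hia]; exact hplpos _ _, hlab j⟩
  have hprod : (List.ofFn g).prod⁻¹ ∉ PP K M z := by simpa using prod_not_mem hP hcard hBm
  obtain ⟨wi, hwi1, hwi2, hwi3, hwi4⟩ := h.loc_inf hr hζ hinf hprod
  have hX0 : algebraMap K B x ≠ 0 := (map_ne_zero _).2 h.rat.ne_zero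
  refine ⟨ω, Bs, lab, hω, hcard, hBm, fun j j' hj => ha ?_, hiaB, fun j => ?_, ?_, ?_⟩
  · rw [← hia, ← hia]
    exact congrArg (fun q => α q.1) hj
  · obtain ⟨h1, h2, h3, h4⟩ := hpl (lab j) (hiaB j)
    exact ⟨h1, _, h2, by rw [← hia]; exact h3, hlab j, h4⟩
  · rintro s (⟨q, hq, hq', rfl⟩ | ⟨i, hi, rfl⟩ | rfl)
    · obtain ⟨h1, h2, -, h4⟩ := hpl q hq
      exact ⟨h1, _, h2, fun h5 => hq' ((hOn q hq).1 h5), h4⟩
    · obtain ⟨j, -, rfl⟩ := Finset.mem_image.1 hi
      obtain ⟨u, h1, h2, h3, -⟩ := (hbr j).2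
      refine ⟨by simp [Subgroup.mul_mem_iff_of_index_two hP], u, h1, ?_, h3⟩
      rintro ⟨j', h4, -⟩
      exact hae j' ⟨j, h1.1.centre_eq h2 h4⟩
    · refine ⟨by simp [Subgroup.mul_mem_iff_of_index_two hP], wi, hwi1, ?_, hwi3⟩
      rintro ⟨j', h4, -⟩
      exact hwi1.1.not_inf h4 hX0 hwi2
  · intro u hu hOff
    have hcl : ∀ (b : ℂ) (w' : AV B), Pl w' → 0 < u (algebraMap K B x - algebraMap ℂ B b) →
        0 < w' (algebraMap K B x - algebraMap ℂ B b) → u = w' ∨ u = w'.comap (ι : B →+* B) :=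
      fun b w' h1 h2 h3 => h.cls hu h1 (h.rat.sub b) (by rwa [map_sub, algKB])
        (by rwa [map_sub, algKB]) hι
    rcases hu.centre h.rat with ⟨b, hb⟩ | hb
    · by_cases hbα : b ∈ Set.range α
      · obtain ⟨i, rfl⟩ := hbα
        by_cases hi : i ∈ Bs
        · obtain ⟨j, -, rfl⟩ := Finset.mem_image.1 hi
          obtain ⟨w', h1, h2, h3, h4⟩ := (hbr j).2
          rw [hie] at hb
          have h5 : u = w' := by simpa only [h4 ι hι, or_self] using hcl _ w' h1 hb h2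
          exact ⟨_, Or.inl (Or.inr (Or.inl ⟨_, hi, rfl⟩)), h5 ▸ h3⟩
        · have h5 : ∃ s, u = pl (i, s) hi :=
            (hcl _ _ (hw1 i hi) hb (hplpos (i, false) hi)).elim (fun h6 => ⟨false, h6⟩)
              fun h6 => ⟨true, h6⟩
          obtain ⟨s, rfl⟩ := h5
          exact ⟨_, Or.inl (Or.inl ⟨(i, s), hi, fun h6 => hOff ((hOn _ hi).2 h6), rfl⟩),
            (hpl _ hi).2.2.2⟩
      · obtain ⟨-, w', h1, h2, h3⟩ := h.loc_ord (fun ⟨j, hj⟩ => hbα ⟨ie j, (hie j).trans hj⟩) hN hζ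
          ((hun b hbα).isGen_one hN hζ.pow_eq_one)
        refine ⟨1, Or.inr rfl, ?_⟩
        rcases hcl b w' h1 hb (by rw [← mul_pos_iff _ _ hN, h2]; exact hNpos) with rfl | rfl
        · exact h3
        · have h4 := h3.conj ω
          rwa [mul_one, mul_inv_cancel] at h4
    · have h5 : u = wi := by
        simpa only [hwi4 ι hι, or_self] using
          h.cls hu hwi1 h.rat.inv (by rwa [map_inv₀]) (by rwa [map_inv₀]) hι
      exact ⟨_, Or.inl (Or.inr (Or.inr rfl)), h5 ▸ hwi3⟩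

/-- **the field over the curve** -/
theorem core {G : Type} [Group G] [Finite G] (hcl : Subgroup.closure (Set.range g) = ⊤)
    (hs : Function.Surjective fun (φ : (M ≃ₐ[K] M) →* Wr G) (i : Fin m) => φ (g i)) :
    ∃ E₀ : IntermediateField B M,
      (∀ (N : Type) [Field N] [Algebra B N] [FiniteDimensional B N] [IsGalois B N]
        (j : N →ₐ[B] M), ResW (N ≃ₐ[B] N) G → UnrZ N (algebraMap K B x) z a c → ∀ y, j y ∈ E₀) ∧
      ∀ (E : Type) [Field E] [Algebra B E] (_ : E ≃ₐ[B] E₀),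
        FiniteDimensional B E ∧ IsGalois B E ∧ ResW (E ≃ₐ[B] E) G ∧
        UnrZ E (algebraMap K B x) z a c ∧ ∃ γ : Fin n → (E ≃ₐ[B] E),
          (∀ i, ∃ u : AV B, Ctr ℂ u (algebraMap K B x - algebraMap ℂ B (a i)) (2 * r) ∧
            0 < u (z - algebraMap ℂ B (c i)) ∧ GenOver u (algebraMap ℂ B ζ) (γ i)) ∧
          ∀ (A : Subgroup G) (c₀ : G),
            Nat.card {ρ : (E ≃ₐ[B] E) →* G // (∀ i, IsConj (ρ (γ i)) c₀) ∧ ρ.range ≤ A} =
              Nat.card (Smith13.Tup A fun (_ : Fin n) (y : A) => IsConj (y : G) c₀) := by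
  have hN := Nat.mul_pos two_pos hr
  obtain ⟨ω, Bs, lab, hω, hcard, hBm, hlab, hlB, h1, h2, h3⟩ :=
    h.exists_data hr hζ hα heα ha haα hc0 hc hg hinf hun
  have hP := h.index hω
  have : FiniteDimensional B M := FiniteDimensional.right K B M
  have : IsGalois B M := IsGalois.tower_top_of_isGalois K B M
  let V : Subgroup (M ≃ₐ[B] M) :=
    { carrier := {k | ∀ ρ : PP K M z →* G, (∀ s ∈ Spec g ω Bs lab, ex ρ s = 1) →
        ρ (h.eP.symm k) = 1}
      mul_mem' := fun {k k'} hk hk' ρ hρ => by rw [map_mul, map_mul, hk ρ hρ, hk' ρ hρ, mul_one]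
      one_mem' := fun ρ _ => by rw [map_one, map_one]
      inv_mem' := fun {k} hk ρ hρ => by rw [map_inv, map_inv, hk ρ hρ, inv_one] }
  have hVn : V.Normal := ⟨fun k hk k' ρ hρ => by
    rw [map_mul, map_mul, map_mul, map_mul, hk ρ hρ, mul_one, ← map_mul, ← map_mul, mul_inv_cancel,
      map_one, map_one]⟩
  have hSV : ∀ s (hs : s ∈ Spec g ω Bs lab), h.eP ⟨s, (h2 s hs).1⟩ ∈ V := fun s hs ρ hρ => by
    rw [MulEquiv.symm_apply_apply, ← ex_of_mem ρ]
    exact hρ s hs
  refine ⟨IntermediateField.fixedField V, fun N _ _ _ _ j hres hun y => ?_, fun E _ _ φ => ?_⟩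
  · let _ : Algebra N M := (j : N →+* M).toAlgebra
    have : IsScalarTower B N M := IsScalarTower.of_algebraMap_eq fun b => (j.commutes b).symm
    refine (IntermediateField.mem_fixedField_iff _ _).2 fun k hk => ?_
    have h4 : AlgEquiv.restrictNormalHom N k = 1 := by
      refine hres _ fun ρ => ?_
      have h5 := hk (ρ.comp ((AlgEquiv.restrictNormalHom N).comp h.eP.toMonoidHom)) fun s hs => by
        obtain ⟨hs', u, hu, hOff, hGn⟩ := h2 s hs
        obtain ⟨v, hv⟩ := hun u hu hOff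
        have h6 : GenOver (u.mul _ hN) (algebraMap ℂ B ζ) (h.eP ⟨s, hs'⟩) := hGn
        have h7 := eq_one_of_ext hu hv hN hζ.pow_eq_one (h6.restrictNormal N)
        rw [ex_of_mem _ hs']
        exact (congrArg ρ h7).trans (map_one ρ)
      exact h5
    have h5 := AlgEquiv.restrictNormal_commutes k N y
    change algebraMap N M (AlgEquiv.restrictNormalHom N k y) = _ at h5
    rw [h4] at h5
    exact h5.symm
  · let j : E →ₐ[B] M := (IntermediateField.fixedField V).val.comp φ.toAlgHom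
    let _ : Algebra E M := (j : E →+* M).toAlgebra
    have : IsScalarTower B E M := IsScalarTower.of_algebraMap_eq fun b => (j.commutes b).symm
    have hfin : FiniteDimensional B E := φ.symm.toLinearEquiv.finiteDimensional
    have hgal : IsGalois B E := IsGalois.of_algEquiv φ.symm
    have hker : ∀ k : M ≃ₐ[B] M, AlgEquiv.restrictNormalHom E k = 1 ↔ k ∈ V := by
      intro k
      have h4 : ∀ y, algebraMap E M (AlgEquiv.restrictNormalHom E k y) = k (φ y) :=
        AlgEquiv.restrictNormal_commutes k E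
      constructor
      · intro h5
        rw [← IntermediateField.fixingSubgroup_fixedField V, IntermediateField.mem_fixingSubgroup_iff]
        intro y hy
        have h6 := h4 (φ.symm ⟨y, hy⟩)
        rw [h5] at h6
        change ((φ (φ.symm ⟨y, hy⟩) : IntermediateField.fixedField V) : M) = _ at h6
        rw [φ.apply_symm_apply] at h6
        exact h6.symm
      · intro h5
        ext y
        refine (algebraMap E M).injective ((h4 y).trans ?_)
        exact (IntermediateField.mem_fixedField_iff _ _).1 (φ y).2 k h5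
    let π : PP K M z →* (E ≃ₐ[B] E) := (AlgEquiv.restrictNormalHom E).comp h.eP.toMonoidHom
    have hπ : Function.Surjective π :=
      (AlgEquiv.restrictNormalHom_surjective M).comp h.eP.surjective
    have hπ1 : ∀ ρ : PP K M z →* G, (∀ s ∈ Spec g ω Bs lab, ex ρ s = 1) →
        ∀ p, π p = 1 → ρ p = 1 := fun ρ hρ p hp => (hker _).1 hp ρ hρ
    refine ⟨hfin, hgal, fun γ hγ => ?_, fun u hu hOff => ?_, fun i => π ⟨_, (h1 i).1⟩,
      fun i => ?_, fun A c₀ => ?_⟩
    · obtain ⟨p, rfl⟩ := hπ γ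
      refine (hker _).2 fun ρ hρ => ?_
      obtain ⟨ρ', rfl⟩ := exists_lift hπ (hπ1 ρ hρ)
      exact hγ ρ'
    · obtain ⟨s, hs, hGn⟩ := h3 u hu hOff
      have h4 : ∃ k ∈ V, GenOver (u.mul _ hN) (algebraMap ℂ B ζ) k := by
        rcases hs with hs | rfl
        · exact ⟨_, hSV s hs, hGn⟩
        · exact ⟨1, V.one_mem, hGn⟩
      obtain ⟨k, hk, h5⟩ := h4
      have h6 : GenOver (u.mul _ hN) (algebraMap ℂ B ζ) (AlgEquiv.restrictNormalHom E k) :=
        h5.restrictNormal E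
      rw [(hker k).2 hk] at h6
      exact ext_of_one hu.1 hN hζ h6
    · obtain ⟨h4, u, hu, h5, h6, h7⟩ := h1 i
      have h8 : GenOver (u.mul _ hN) (algebraMap ℂ B ζ) (h.eP ⟨_, h4⟩) := h7
      exact ⟨u.mul _ hN, ⟨hu.1.mul _ hN, h5⟩, (mul_pos_iff u _ hN _).2 h6, h8.restrictNormal E⟩
    · have h4 := count_le hP hω hcl hs hcard hBm (Kc_cinv lab c₀) lab hlab hlB
        (fun q hq => Kc_not c₀ hq) A
      simp only [Kc_lab, Set.mem_ofPred_eq] at h4
      rw [← h4]
      refine card_quot hπ _ _ (fun ρ => ?_) (fun ρ hρ => hπ1 ρ ((labP_iff hlB c₀ ρ).1 hρ).1) A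
      rw [labP_iff hlB]
      refine ⟨fun h5 => ⟨fun s hs => ?_, fun j => ?_⟩, fun h5 j => ?_⟩
      · rw [ex_of_mem _ (h2 s hs).1]
        exact (congrArg ρ ((hker _).2 (hSV s hs))).trans (map_one ρ)
      · rw [ex_of_mem _ (h1 j).1]
        exact h5 j
      · have h6 := h5.2 j
        rw [ex_of_mem _ (h1 j).1] at h6
        exact h6

end Cv

end Crest.Agent.T170.Wr
end
end

-- ▼ part T170/WrF_67

/-!
# Row 170, wreath step (helper67), file F: `RetE` from `RetP1` and `GStmt`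
-/

set_option autoImplicit false
set_option linter.dupNamespace false
set_option linter.unusedSectionVars false

noncomputable section

namespace Crest.Agent.T170.Wr

open Crest.Agent.T170.Ret Crest.Agent.T170.RetU

section abs

variable {K B U : Type} [Field K] [Field B] [Field U] [Algebra ℂ K] [Algebra K B] [Algebra ℂ B]
  [IsScalarTower ℂ K B] [Algebra K U] [Algebra B U] [IsScalarTower K B U] [IsAlgClosure B U]
  {x : K} {z : B} {e : Fin 3 → ℂ}

lemma Cv.isAlgClosure (h : Cv x z e) : IsAlgClosure K U :=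
  have := h.fin
  ⟨IsAlgClosure.isAlgClosed B, Algebra.IsAlgebraic.trans K B U⟩

/-- maximality on the line gives maximality on the curve -/
lemma Cv.mem_of_max (h : Cv x z e) (hG : GStmt) {G : Type} [Group G] {n : ℕ} {a c : Fin n → ℂ}
    {S : Set ℂ} (he : ∀ j, e j ∈ S) (ha : ∀ j, a j ∈ S) {M : IntermediateField K U}
    (hmax : ∀ N : IntermediateField K U, FiniteDimensional K N → IsGalois K N →
      ResW (N ≃ₐ[K] N) (Wr G) → (∀ b : ℂ, b ∉ S → Unr ℂ N (x - algebraMap ℂ K b)) → N ≤ M)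
    (N : Type) [Field N] [Algebra B N] [Algebra N U] [IsScalarTower B N U] [FiniteDimensional B N]
    [IsGalois B N] (hres : ResW (N ≃ₐ[B] N) G) (hun : UnrZ N (algebraMap K B x) z a c) (y : N) :
    algebraMap N U y ∈ M := by
  have := h.fin
  have := h.isAlgClosure (U := U)
  have : CharZero K := charZero_of_injective_algebraMap (algebraMap ℂ K).injective
  let _ : Algebra K N := ((algebraMap B N).comp (algebraMap K B)).toAlgebra
  have : IsScalarTower K B N := IsScalarTower.of_algebraMap_eq' rfl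
  have : IsScalarTower K N U := IsScalarTower.of_algebraMap_eq fun f => by
    rw [IsScalarTower.algebraMap_apply K B U, IsScalarTower.algebraMap_apply B N U]
    rfl
  have : FiniteDimensional K N := FiniteDimensional.trans K B N
  let N' := IntermediateField.normalClosure K N U
  let _ : Algebra B N' := ((algebraMap N N').comp (algebraMap B N)).toAlgebra
  have : IsScalarTower B N N' := IsScalarTower.of_algebraMap_eq' rfl
  have : IsScalarTower K B N' := IsScalarTower.of_algebraMap_eq fun f =>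
    IsScalarTower.algebraMap_apply K N N' f
  have : IsGalois K N' := ⟨⟩
  refine hmax N' inferInstance inferInstance (h.resW_nc hgen_nc hG hres)
    (fun b hb => h.unr_nc hgen_nc hG hun ?_ ?_) (algebraMap N N' y).2
  · rintro ⟨j, rfl⟩
    exact hb (he j)
  · rintro ⟨j, rfl⟩
    exact hb (ha j)

theorem Cv.ret (h : Cv x z e) (hR : RetP1) (hG : GStmt) {n : ℕ} {a c : Fin n → ℂ}
    (ha : Function.Injective a) (hc0 : ∀ j, c j ≠ 0) (hc : ∀ j, c j ^ 2 = ∏ i, (a j - e i))
    (G : Type) [Group G] [Finite G] :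
    ∃ (n₀ : ℕ) (ζ : ℂ) (M : IntermediateField B U), 0 < n₀ ∧ IsPrimitiveRoot ζ n₀ ∧
      FiniteDimensional B M ∧ IsGalois B M ∧ ResW (M ≃ₐ[B] M) G ∧
      UnrZ M (algebraMap K B x) z a c ∧
      (∀ N : IntermediateField B U, FiniteDimensional B N → IsGalois B N → ResW (N ≃ₐ[B] N) G →
        UnrZ N (algebraMap K B x) z a c → N ≤ M) ∧
      ∃ γ : Fin n → (M ≃ₐ[B] M),
        (∀ i, ∃ u : AV B, Ctr ℂ u (algebraMap K B x - algebraMap ℂ B (a i)) n₀ ∧
          0 < u (z - algebraMap ℂ B (c i)) ∧ GenOver u (algebraMap ℂ B ζ) (γ i)) ∧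
        ∀ (A : Subgroup G) (c₀ : G),
          Nat.card {ρ : (M ≃ₐ[B] M) →* G // (∀ i, IsConj (ρ (γ i)) c₀) ∧ ρ.range ≤ A} =
            Nat.card (Smith13.Tup A fun (_ : Fin n) (y : A) => IsConj (y : G) c₀) := by
  classical
  have := h.isAlgClosure (U := U)
  let S : Finset ℂ := Finset.univ.image a ∪ Finset.univ.image e
  let α : Fin S.card → ℂ := fun i => S.equivFin.symm i
  have hα : Function.Injective α := Subtype.val_injective.comp S.equivFin.symm.injective
  have hS : ∀ b ∈ S, b ∈ Set.range α := fun b hb => ⟨S.equivFin ⟨b, hb⟩, by simp [α]⟩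
  have he : ∀ j, e j ∈ Set.range α := fun j => hS _ (by simp [S])
  have ha' : ∀ j, a j ∈ Set.range α := fun j => hS _ (by simp [S])
  have hr : 0 < Nat.card (Wr G) := Nat.card_pos
  obtain ⟨ζ, M, hζ, hfin, hgal, -, hun, hmax, σ, g, hg, hinf, hcl, hbij⟩ :=
    hR ℂ K U Cardinal.mk_complex x h.rat _ α hα (Wr G) _ (Nat.mul_pos two_pos hr)
      (fun w => by rw [mul_comm, pow_mul, pow_card_eq_one', one_pow])
  have hBM : ∀ y : B, algebraMap B U y ∈ M := h.mem_of_max (a := a) (c := c) hG he ha' hmax B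
    (fun γ _ => AlgEquiv.ext fun y => γ.commutes y) (fun u _ _ => ⟨u, fun _ => rfl⟩)
  let _ : Algebra B M := ((algebraMap B U).codRestrict M hBM).toAlgebra
  have : IsScalarTower K B M := IsScalarTower.of_algebraMap_eq fun f =>
    Subtype.ext (IsScalarTower.algebraMap_apply K B U f)
  have hrange : Set.range (α ∘ σ) = Set.range α := σ.surjective.range_comp α
  obtain ⟨E₀, h1, h2⟩ := h.core (α := α ∘ σ) hr hζ (hα.comp σ.injective) (by rwa [hrange]) ha
    (by rwa [hrange]) hc0 hc hg hinf (by rwa [hrange]) hcl hbij.2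
  let jM : M →ₐ[B] U := { (M.val : M →+* U) with commutes' := fun _ => rfl }
  obtain ⟨h3, h4, h5, h6, h7⟩ := h2 (E₀.map jM) (E₀.equivMap jM).symm
  refine ⟨_, ζ, E₀.map jM, Nat.mul_pos two_pos hr, hζ, h3, h4, h5, h6,
    fun N _ _ hres hun' y hy => ?_, h7⟩
  have h8 : ∀ y : N, (y : U) ∈ M := h.mem_of_max hG he ha' hmax N hres hun'
  let j : N →ₐ[B] M := { (N.val : N →+* U).codRestrict M h8 with commutes' := fun _ => rfl }
  exact ⟨j ⟨y, hy⟩, h1 N j hres hun' _, rfl⟩

end abs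

section curve

open WeierstrassCurve WeierstrassCurve.Affine

lemma exists_roots67 (W : Affine ℂ) [W.IsElliptic] : ∃ e : Fin 3 → ℂ, Function.Injective e ∧
    ∀ (F : Type) [Field F] [Algebra ℂ F] (x y : F), (W⁄F).Equation x y →
      (y + (algebraMap ℂ F (W.a₁ / 2) * x + algebraMap ℂ F (W.a₃ / 2))) ^ 2 =
        ∏ j, (x - algebraMap ℂ F (e j)) := by
  have ha : W.twoTorsionPolynomial.a ≠ 0 := by simp [twoTorsionPolynomial]
  obtain ⟨e0, e1, e2, h3⟩ := (Cubic.splits_iff_roots_eq_three (φ := RingHom.id ℂ) ha).1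
    (IsAlgClosed.splits _)
  obtain ⟨h01, h02, h12⟩ := (Cubic.discr_ne_zero_iff_roots_ne ha h3).1
    (W.twoTorsionPolynomial_discr_ne_zero two_ne_zero.isUnit W.isUnit_Δ)
  have hb := Cubic.b_eq_three_roots ha h3
  have hc := Cubic.c_eq_three_roots ha h3
  have hd := Cubic.d_eq_three_roots ha h3
  simp only [twoTorsionPolynomial, RingHom.id_apply, b₂, b₄, b₆] at hb hc hd
  refine ⟨![e0, e1, e2], ?_, fun F _ _ x y h => ?_⟩
  · intro i j
    fin_cases i <;> fin_cases j <;> simp [h01, h02, h12, h01.symm, h02.symm, h12.symm]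
  · have h1 : W.a₂ = -(e0 + e1 + e2) - (W.a₁ / 2) ^ 2 := by linear_combination hb / 4
    have h2 : W.a₄ = (e0 * e1 + e0 * e2 + e1 * e2) - 2 * (W.a₁ / 2) * (W.a₃ / 2) := by
      linear_combination hc / 4
    have h4 : W.a₆ = -(e0 * e1 * e2) - (W.a₃ / 2) ^ 2 := by linear_combination hd / 4
    have h5 : W.a₁ = 2 * (W.a₁ / 2) := by ring
    have h6 : W.a₃ = 2 * (W.a₃ / 2) := by ring
    rw [equation_iff] at h
    change y ^ 2 + algebraMap ℂ F W.a₁ * x * y + algebraMap ℂ F W.a₃ * y =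
      x ^ 3 + algebraMap ℂ F W.a₂ * x ^ 2 + algebraMap ℂ F W.a₄ * x + algebraMap ℂ F W.a₆ at h
    generalize W.a₁ / 2 = p at h1 h2 h5 ⊢
    generalize W.a₃ / 2 = q at h2 h4 h6 ⊢
    rw [h1, h2, h4, h5, h6] at h
    simp only [map_sub, map_neg, map_add, map_mul, map_pow, map_ofNat] at h
    rw [Fin.prod_univ_three]
    simp only [Matrix.cons_val_zero, Matrix.cons_val_one, Matrix.cons_val]
    linear_combination h

lemma pos_iff67 {B : Type} [Field B] [Algebra ℂ B] {u : AV B} (hu : Tr u) {x y : B} {a b : ℂ}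
    (p q : ℂ) (h : 0 < u (x - algebraMap ℂ B a)) :
    0 < u (y + (algebraMap ℂ B p * x + algebraMap ℂ B q) - algebraMap ℂ B (b + (p * a + q))) ↔
      0 < u (y - algebraMap ℂ B b) := by
  have h1 : 0 < u (algebraMap ℂ B p * (x - algebraMap ℂ B a)) := by
    rw [u.map_mul]
    exact h.trans_le (le_add_of_nonneg_left (hu.nonneg p))
  have h2 : y + (algebraMap ℂ B p * x + algebraMap ℂ B q) - algebraMap ℂ B (b + (p * a + q)) =
      (y - algebraMap ℂ B b) + algebraMap ℂ B p * (x - algebraMap ℂ B a) := by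
    simp only [map_add, map_mul]
    ring
  rw [h2]
  refine ⟨fun h3 => ?_, fun h3 => u.map_lt_add h3 h1⟩
  have h4 := u.map_lt_add h3 (y := -(algebraMap ℂ B p * (x - algebraMap ℂ B a)))
    (by rw [u.map_neg]; exact h1)
  rwa [add_neg_cancel_right] at h4

/-- **Riemann existence on the punctured elliptic curve** from the line -/
theorem retE_of (hR : RetP1) (hG : GStmt) : Fr.RetE := by
  intro B U _ _ _ _ _ W _ x y hx heq hgen n a b ha hab hneg G _ _
  obtain ⟨e, he, hsq⟩ := exists_roots67 W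
  let K := IntermediateField.adjoin ℂ {x}
  let x' : K := ⟨x, IntermediateField.mem_adjoin_simple_self ℂ x⟩
  let z : B := y + (algebraMap ℂ B (W.a₁ / 2) * x + algebraMap ℂ B (W.a₃ / 2))
  let c : Fin n → ℂ := fun i => b i + (W.a₁ / 2 * a i + W.a₃ / 2)
  have h : Cv x' z e := by
    refine ⟨⟨fun h1 => hx (IntermediateField.isAlgebraic_iff.1 h1), ?_⟩, he, hsq B x y heq, ?_⟩
    · apply IntermediateField.lift_injective
      rw [IntermediateField.lift_adjoin_simple, IntermediateField.lift_top]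
    · rw [← IntermediateField.restrictScalars_eq_top_iff (K := ℂ), eq_top_iff, ← hgen,
        IntermediateField.adjoin_le_iff]
      have h1 : x ∈ IntermediateField.adjoin K {z} := IntermediateField.algebraMap_mem _ x'
      have h2 : ∀ t : ℂ, algebraMap ℂ B t ∈ IntermediateField.adjoin K {z} := fun t =>
        IntermediateField.algebraMap_mem _ (algebraMap ℂ K t)
      rintro _ (rfl | rfl)
      · exact h1
      · have h3 := sub_mem (IntermediateField.mem_adjoin_simple_self K z)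
          (add_mem (mul_mem (h2 (W.a₁ / 2)) h1) (h2 (W.a₃ / 2)))
        rwa [add_sub_cancel_right] at h3
  have hc0 : ∀ j, c j ≠ 0 := fun j h1 => hneg j (by
    simp only [negY]
    linear_combination 2 * h1)
  have hc : ∀ j, c j ^ 2 = ∏ i, (a j - e i) := fun j => hsq ℂ (a j) (b j) (hab j)
  have hU : ∀ (N : Type) [Field N] [Algebra B N],
      UnrZ N (algebraMap K B x') z a c ↔ Fr.UnrE N x y a b := by
    intro N _ _
    have h1 : ∀ u : AV B, Tr u → (¬ OnD (algebraMap K B x') z a c u ↔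
        ∀ i, ¬ (0 < u (x - algebraMap ℂ B (a i)) ∧ 0 < u (y - algebraMap ℂ B (b i)))) := by
      intro u hu
      rw [OnD, not_exists]
      exact forall_congr' fun i => not_congr (and_congr_right fun h2 => pos_iff67 hu _ _ h2)
    exact ⟨fun h2 u hu ht hoff => h2 u ⟨hu, ht⟩ ((h1 u hu).2 hoff),
      fun h2 u hu hoff => h2 u hu.1 hu.2 ((h1 u hu.1).1 hoff)⟩
  obtain ⟨n₀, ζ, M, h1, h2, h3, h4, h5, h6, h7, γ, h8, h9⟩ :=
    h.ret (U := U) hR hG ha hc0 hc G
  refine ⟨n₀, ζ, M, h1, h2, h3, h4, h5, (hU M).1 h6,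
    fun N k1 k2 k3 k4 => h7 N k1 k2 k3 ((hU N).2 k4), γ, fun i => ?_, h9⟩
  obtain ⟨u, k1, k2, k3⟩ := h8 i
  refine ⟨u, ⟨k1, (pos_iff67 k1.1 _ _ ?_).1 k2⟩, k3⟩
  have k4 : u (x - algebraMap ℂ B (a i)) = ((n₀ : ℤ) : WithTop ℤ) := k1.2
  rw [k4]
  exact_mod_cast h1

end curve

end Crest.Agent.T170.Wr
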