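import Crest.Agent.T170.Plumb_9
import Crest.Agent.T170.WrF_67_Mg
import Crest.Agent.T170.DsGeo_74_Mg
import Crest.Agent.T170.RetApi_81

/-!
# Row 170 (helper20): everything except the descent
-/

set_option autoImplicit false

namespace Crest.Agent.T170

/-- Riemann existence on the punctured elliptic curve -/
theorem retE20 : Fr.RetE := Wr.retE_of Ret.retP1 Ret.gStmt

theorem cnt_of_descent {p : ℕ} (hp : p.Prime) (hD : Fr.DescentStmt p) : CNT p :=
  hD (W5.worldStmt hp) retE20 Ret.uniq (Fr.coreStmt20 hp)

end Crest.Agent.T170
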