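import Crest.Agent.T170.BadA_10

/-!
# Row 170, item (5) (helper10), part B: the joint spectrum `Theta` of a commuting family

* `ev δ hc : MvPolynomial ι F →ₐ[F] End F V` evaluation at a commuting family;
* `Theta Ψ δ` : common zeros in `Ψ` of all polynomials killing the family;
* `Theta.aeval_eq_zero`, `Theta.finite`, `Theta.ncard_le`, `exists_sep`;
* `isPre_ev` : `q(0) = 1`, `q = 0` on `Theta \ 0` gives a pre-idempotent for the joint nilspace.
-/

set_option autoImplicit false

namespace Crest.Agent.T170.Bad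

open Module

section ev

variable {F A ι : Type*} [CommRing F] [Ring A] [Algebra F A]

open scoped IsMulCommutative in
theorem exists_ev (δ : ι → A) (hc : ∀ i j, δ i * δ j = δ j * δ i) :
    ∃ φ : MvPolynomial ι F →ₐ[F] A, ∀ i, φ (MvPolynomial.X i) = δ i := by
  have := Algebra.isMulCommutative_adjoin F (s := Set.range δ) (by
    rintro _ ⟨i, rfl⟩ _ ⟨j, rfl⟩
    exact hc i j)
  let _ : CommRing (Algebra.adjoin F (Set.range δ)) := inferInstance
  refine ⟨(Algebra.adjoin F (Set.range δ)).val.comp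
    (MvPolynomial.aeval fun i => ⟨δ i, Algebra.subset_adjoin ⟨i, rfl⟩⟩), fun i => ?_⟩
  simp

variable (F) in
/-- Evaluation of polynomials at a commuting family. -/
noncomputable def ev (δ : ι → A) (hc : ∀ i j, δ i * δ j = δ j * δ i) :
    MvPolynomial ι F →ₐ[F] A := (exists_ev δ hc).choose

@[simp] theorem ev_X (δ : ι → A) (hc : ∀ i j, δ i * δ j = δ j * δ i) (i : ι) :
    ev F δ hc (MvPolynomial.X i) = δ i := (exists_ev δ hc).choose_spec i

theorem eq_ev {δ : ι → A} (hc : ∀ i j, δ i * δ j = δ j * δ i)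
    {φ : MvPolynomial ι F →ₐ[F] A} (hφ : ∀ i, φ (MvPolynomial.X i) = δ i) : φ = ev F δ hc := by
  ext1 i
  rw [hφ, ev_X]

end ev

section theta

variable {F ι : Type*} [Field F] {A : Type*} [Ring A] [Algebra F A]

/-- The joint spectrum: the common zeros in `Ψ` of the polynomials that kill the family `δ`. -/
def Theta (F : Type*) [Field F] (Ψ : Type*) [Field Ψ] [Algebra F Ψ] {A : Type*} [Ring A]
    [Algebra F A] (δ : ι → A) : Set (ι → Ψ) :=
  {θ | ∀ φ : MvPolynomial ι F →ₐ[F] A, (∀ i, φ (MvPolynomial.X i) = δ i) →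
    ∀ g, φ g = 0 → MvPolynomial.aeval θ g = 0}

variable {Ψ : Type*} [Field Ψ] [Algebra F Ψ]

theorem mem_Theta {δ : ι → A} (hc : ∀ i j, δ i * δ j = δ j * δ i) {θ : ι → Ψ} :
    θ ∈ Theta F Ψ δ ↔ ∀ g, ev F δ hc g = 0 → MvPolynomial.aeval θ g = 0 :=
  ⟨fun h => h _ (ev_X δ hc), fun h φ hφ g hg => h g (by rw [← eq_ev hc hφ, hg])⟩

theorem Theta_eq_zeroLocus {δ : ι → A} (hc : ∀ i j, δ i * δ j = δ j * δ i) :
    Theta F Ψ δ = MvPolynomial.zeroLocus Ψ (RingHom.ker (ev F δ hc)) := by
  ext θ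
  rw [mem_Theta hc, MvPolynomial.mem_zeroLocus_iff]
  rfl

/-- A polynomial relation satisfied by `g(δ)` is satisfied by `g(θ)`. -/
theorem Theta.aeval_eq_zero {δ : ι → A} (hc : ∀ i j, δ i * δ j = δ j * δ i) {θ : ι → Ψ}
    (hθ : θ ∈ Theta F Ψ δ) (g : MvPolynomial ι F) {P : Polynomial F}
    (hP : Polynomial.aeval (ev F δ hc g) P = 0) :
    Polynomial.aeval (MvPolynomial.aeval θ g) P = 0 := by
  rw [Polynomial.aeval_algHom_apply] at hP ⊢
  exact (mem_Theta hc).1 hθ _ hP

theorem Theta.aeval_mul_eq_zero {δ : ι → A} (hc : ∀ i j, δ i * δ j = δ j * δ i) {θ : ι → Ψ}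
    (hθ : θ ∈ Theta F Ψ δ) (f : F) (i : ι) {P : Polynomial F}
    (hP : Polynomial.aeval (algebraMap F A f * δ i) P = 0) :
    Polynomial.aeval (algebraMap F Ψ f * θ i) P = 0 := by
  have := Theta.aeval_eq_zero hc hθ (MvPolynomial.C f * MvPolynomial.X i) (P := P) (by simpa using hP)
  simpa using this

/-- Nullstellensatz: a polynomial vanishing on `Theta` is nilpotent on the family. -/
theorem isNilpotent_ev [IsAlgClosed Ψ] [Finite ι] {δ : ι → A}
    (hc : ∀ i j, δ i * δ j = δ j * δ i) {g : MvPolynomial ι F}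
    (hg : ∀ θ ∈ Theta F Ψ δ, MvPolynomial.aeval θ g = 0) : IsNilpotent (ev F δ hc g) := by
  have : g ∈ MvPolynomial.vanishingIdeal F
      (MvPolynomial.zeroLocus Ψ (RingHom.ker (ev F δ hc))) := by
    rw [← Theta_eq_zeroLocus hc]
    exact hg
  rw [MvPolynomial.vanishingIdeal_zeroLocus_eq_radical] at this
  obtain ⟨m, hm⟩ := this
  exact ⟨m, by rw [← map_pow]; exact hm⟩


/-- A linear form with coefficients in an infinite field that does not vanish at finitely many
nonzero vectors. -/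
theorem exists_sep (k : Type*) [Field k] [Infinite k] [Algebra k Ψ] [Fintype ι]
    {S : Set (ι → Ψ)} (hS : S.Finite) :
    ∃ l : ι → k, ∀ θ ∈ S, θ ≠ 0 → ∑ i, algebraMap k Ψ (l i) * θ i ≠ 0 := by
  classical
  have : Finite {θ : ι → Ψ // θ ∈ S ∧ θ ≠ 0} := (hS.subset fun _ h => h.1).to_subtype
  let f : {θ : ι → Ψ // θ ∈ S ∧ θ ≠ 0} → (ι → k) →ₗ[k] Ψ := fun θ =>
    Fintype.linearCombination k θ.1
  obtain ⟨l, hl⟩ := Submodule.exists_forall_notMem_of_forall_ne_top
    (fun θ => LinearMap.ker (f θ)) (fun θ h => by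
      apply θ.2.2
      ext i
      have : Pi.single i (1 : k) ∈ LinearMap.ker (f θ) := h ▸ Submodule.mem_top
      simpa [f, Fintype.linearCombination_apply_single] using this)
  refine ⟨l, fun θ h1 h2 h3 => hl ⟨θ, h1, h2⟩ ?_⟩
  rw [LinearMap.mem_ker]
  simpa [f, Fintype.linearCombination_apply, Algebra.smul_def] using h3

variable {V : Type*} [AddCommGroup V] [Module F V] [FiniteDimensional F V]

theorem Theta.aeval_charpoly {δ : ι → End F V} (hc : ∀ i j, δ i * δ j = δ j * δ i) {θ : ι → Ψ}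
    (hθ : θ ∈ Theta F Ψ δ) (g : MvPolynomial ι F) :
    Polynomial.aeval (MvPolynomial.aeval θ g) (ev F δ hc g).charpoly = 0 :=
  Theta.aeval_eq_zero hc hθ g (LinearMap.aeval_self_charpoly _)

theorem Theta.aeval_charpoly_self {δ : ι → End F V} (hc : ∀ i j, δ i * δ j = δ j * δ i)
    {θ : ι → Ψ} (hθ : θ ∈ Theta F Ψ δ) (i : ι) : Polynomial.aeval (θ i) (δ i).charpoly = 0 := by
  simpa using Theta.aeval_charpoly hc hθ (MvPolynomial.X i)


theorem Theta.natDegree_minpoly_le {δ : ι → End F V} (hc : ∀ i j, δ i * δ j = δ j * δ i)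
    {θ : ι → Ψ} (hθ : θ ∈ Theta F Ψ δ) (i : ι) :
    (minpoly F (θ i)).natDegree ≤ finrank F V := by
  rw [← LinearMap.charpoly_natDegree (δ i)]
  exact Polynomial.natDegree_le_of_dvd (minpoly.dvd F _ (Theta.aeval_charpoly_self hc hθ i))
    (LinearMap.charpoly_monic _).ne_zero

theorem Theta.finite [Finite ι] {δ : ι → End F V} (hc : ∀ i j, δ i * δ j = δ j * δ i) :
    (Theta F Ψ δ).Finite := by
  refine (Set.Finite.pi' (t := fun i => (δ i).charpoly.rootSet Ψ)
    fun i => Polynomial.rootSet_finite _ _).subset fun θ hθ i => ?_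
  exact (Polynomial.mem_rootSet_of_ne (LinearMap.charpoly_monic _).ne_zero).2
    (Theta.aeval_charpoly_self hc hθ i)

theorem Theta.ncard_le [Finite ι] [Infinite F] {δ : ι → End F V}
    (hc : ∀ i j, δ i * δ j = δ j * δ i) : (Theta F Ψ δ).ncard ≤ finrank F V := by
  classical
  have := Fintype.ofFinite ι
  have hfin := Theta.finite (Ψ := Ψ) hc
  obtain ⟨l, hl⟩ := exists_sep F ((hfin.prod hfin).image fun z => z.1 - z.2)
  let g : MvPolynomial ι F := ∑ i, MvPolynomial.C (l i) * MvPolynomial.X i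
  have hg : ∀ θ : ι → Ψ, MvPolynomial.aeval θ g = ∑ i, algebraMap F Ψ (l i) * θ i := by
    intro θ
    simp [g]
  have h1 : (Theta F Ψ δ).ncard ≤ ((ev F δ hc g).charpoly.rootSet Ψ).ncard := by
    refine Set.ncard_le_ncard_of_injOn (fun θ => MvPolynomial.aeval θ g) (fun θ hθ => ?_)
      (fun θ hθ θ' hθ' h => ?_) (Polynomial.rootSet_finite _ _)
    · exact (Polynomial.mem_rootSet_of_ne (LinearMap.charpoly_monic _).ne_zero).2
        (Theta.aeval_charpoly hc hθ g)
    · by_contra hne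
      refine hl (θ - θ') ⟨(θ, θ'), ⟨hθ, hθ'⟩, rfl⟩ (sub_ne_zero.2 hne) ?_
      simp only [hg] at h
      simp only [Pi.sub_apply, mul_sub, Finset.sum_sub_distrib, h, sub_self]
  refine h1.trans ?_
  rw [← LinearMap.charpoly_natDegree (ev F δ hc g)]
  exact Polynomial.ncard_rootSet_le _ _

omit [FiniteDimensional F V] in
theorem ev_pow_apply_eq_zero_of_constantCoeff {δ : ι → End F V}
    (hc : ∀ i j, δ i * δ j = δ j * δ i) {g : MvPolynomial ι F}
    (hg : MvPolynomial.constantCoeff g = 0) {v : V} (hv : ∀ i, ∃ m, (δ i ^ m) v = 0) :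
    ∃ m, (ev F δ hc g ^ m) v = 0 := by
  let I : Ideal (MvPolynomial ι F) :=
    { carrier := {h | ev F δ hc h v = 0}
      zero_mem' := by simp
      add_mem' := fun {a b} ha hb => by
        simp only [Set.mem_ofPred_eq] at ha hb ⊢
        rw [map_add, LinearMap.add_apply, ha, hb, add_zero]
      smul_mem' := fun a b hb => by
        simp only [Set.mem_ofPred_eq] at hb ⊢
        rw [smul_eq_mul, map_mul, Module.End.mul_apply, hb, map_zero] }
  have h1 : Ideal.span (Set.range (MvPolynomial.X : ι → MvPolynomial ι F)) ≤ I.radical := by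
    rw [Ideal.span_le]
    rintro _ ⟨i, rfl⟩
    obtain ⟨m, hm⟩ := hv i
    refine ⟨m, ?_⟩
    change ev F δ hc _ v = 0
    rw [map_pow, ev_X, hm]
  have h2 : g ∈ Ideal.span (Set.range (MvPolynomial.X : ι → MvPolynomial ι F)) := by
    have : ∀ g : MvPolynomial ι F, g - MvPolynomial.C (MvPolynomial.constantCoeff g) ∈
        Ideal.span (Set.range (MvPolynomial.X : ι → MvPolynomial ι F)) := by
      intro g
      induction g using MvPolynomial.induction_on with
      | C a => simp
      | add p q hp hq =>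
        have := add_mem hp hq
        rw [map_add, map_add]
        convert this using 1
        ring
      | mul_X p i _ =>
        simpa using Ideal.mul_mem_left _ p (Ideal.subset_span (Set.mem_range_self (f := MvPolynomial.X) i))
    simpa [hg] using this g
  obtain ⟨m, hm⟩ := h1 h2
  exact ⟨m, by rw [← map_pow]; exact hm⟩

omit [FiniteDimensional F V] in
/-- if `(g h)(δ)` is nilpotent and `g(δ) - 1` kills `v` after iteration then so does `h(δ)`. -/
theorem ev_pow_apply_eq_zero_of_unit {δ : ι → End F V}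
    (hc : ∀ i j, δ i * δ j = δ j * δ i) {g h u : MvPolynomial ι F} (hgu : IsCoprime g u)
    (hgh : IsNilpotent (ev F δ hc (h * g))) {v : V} (hv : ∃ m, (ev F δ hc u ^ m) v = 0) :
    ∃ m, (ev F δ hc h ^ m) v = 0 := by
  obtain ⟨m, hm⟩ := hgh
  obtain ⟨m', hm'⟩ := hv
  obtain ⟨a, b, hab⟩ := hgu.pow (m := m) (n := m')
  refine ⟨m, ?_⟩
  have e : h ^ m = a * (h * g) ^ m + h ^ m * b * u ^ m' := by
    rw [mul_pow]
    linear_combination (-h ^ m) * hab
  rw [← map_pow, e, map_add, map_mul, map_mul _ _ (u ^ m'), map_pow _ (h * g), hm, map_pow _ u,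
    LinearMap.add_apply, mul_zero, Module.End.mul_apply, hm']
  simp

omit [FiniteDimensional F V] in
/-- **The pre-idempotent.** -/
theorem isPre_ev [IsAlgClosed Ψ] [Finite ι] {δ : ι → End F V}
    (hc : ∀ i j, δ i * δ j = δ j * δ i) {g : MvPolynomial ι F}
    (h0 : MvPolynomial.constantCoeff g = 1)
    (hg : ∀ θ ∈ Theta F Ψ δ, θ ≠ 0 → MvPolynomial.aeval θ g = 0) :
    IsNilpotent (ev F δ hc g * ev F δ hc g - ev F δ hc g) ∧
      (ev F δ hc g).maxGenEigenspace 1 = ⨅ i, (δ i).maxGenEigenspace 0 := by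
  have h00 : MvPolynomial.aeval (0 : ι → Ψ) g = 1 := by
    rw [MvPolynomial.aeval_zero, h0, map_one]
  constructor
  · rw [← map_mul, ← map_sub]
    refine isNilpotent_ev (Ψ := Ψ) hc fun θ hθ => ?_
    by_cases h : θ = 0
    · subst h
      rw [map_sub, map_mul, h00]
      simp
    · rw [map_sub, map_mul, hg θ hθ h]
      simp
  · ext v
    simp only [Submodule.mem_iInf, Module.End.mem_maxGenEigenspace, one_smul, zero_smul, sub_zero]
    have e : ev F δ hc g - 1 = ev F δ hc (g - 1) := by rw [map_sub, map_one]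
    rw [e]
    constructor
    · intro hv i
      have := ev_pow_apply_eq_zero_of_unit hc (g := g) (u := g - 1) (h := MvPolynomial.X i)
        ⟨1, -1, by ring⟩ (isNilpotent_ev (Ψ := Ψ) hc fun θ hθ => by
          by_cases h : θ = 0
          · subst h
            simp
          · rw [map_mul, hg θ hθ h, mul_zero]) hv
      simpa using this
    · intro hv
      exact ev_pow_apply_eq_zero_of_constantCoeff hc (by simp [h0]) hv


end theta

end Crest.Agent.T170.Bad
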