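import Mathlib

/-!
# Row 170, module D (helper61), part A: places and the reduction homomorphism

* `Place L Om` : a valuation subring `A` of `L` with a local homomorphism `A → Om`;
  `P.Sp x a` : `x ∈ A` and its value is `a`.
* `red W P hP : (W⁄L).Point →+ (W⁄Om).Point` for an elliptic curve `W` over a ring `R` and a place
  `P` over `R`; `red_some_of_sp`, `red_some_of_not_mem`.
-/

set_option autoImplicit false

namespace Crest.Agent.T170.Ell

open WeierstrassCurve WeierstrassCurve.Affine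

/-- A place of the field `L` with values in the field `Om`. -/
structure Place (L Om : Type*) [Field L] [Field Om] where
  A : ValuationSubring L
  φ : A →+* Om
  loc : ∀ a : A, φ a ≠ 0 → (a : L)⁻¹ ∈ A

namespace Place

variable {L Om : Type*} [Field L] [Field Om] (P : Place L Om)

/-- `x` is finite at the place `P` with value `a`. -/
def Sp (x : L) (a : Om) : Prop := ∃ h : x ∈ P.A, P.φ ⟨x, h⟩ = a

open Classical in
/-- The value of `x` at `P` (`0` at the poles). -/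
noncomputable def val (x : L) : Om := if h : x ∈ P.A then P.φ ⟨x, h⟩ else 0

/-- The place is compatible with the structure maps from `R`. -/
def Over (R : Type*) [CommRing R] [Algebra R L] [Algebra R Om] : Prop :=
  ∀ r : R, P.Sp (algebraMap R L r) (algebraMap R Om r)

variable {P}

theorem Sp.mem {x : L} {a : Om} (h : P.Sp x a) : x ∈ P.A := h.1

theorem sp_val {x : L} (h : x ∈ P.A) : P.Sp x (P.val x) := ⟨h, by simp [val, h]⟩

theorem Sp.unique {x : L} {a b : Om} (h : P.Sp x a) (h' : P.Sp x b) : a = b := by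
  obtain ⟨_, rfl⟩ := h
  obtain ⟨_, rfl⟩ := h'
  rfl

theorem Sp.val_eq {x : L} {a : Om} (h : P.Sp x a) : P.val x = a := (sp_val h.mem).unique h

theorem sp_coe (a : P.A) : P.Sp a (P.φ a) := ⟨a.2, rfl⟩

theorem sp_zero : P.Sp 0 0 := ⟨zero_mem _, map_zero P.φ⟩

theorem sp_one : P.Sp 1 1 := ⟨one_mem _, map_one P.φ⟩

theorem Sp.add {x y : L} {a b : Om} (h : P.Sp x a) (h' : P.Sp y b) : P.Sp (x + y) (a + b) := by
  obtain ⟨hx, rfl⟩ := h
  obtain ⟨hy, rfl⟩ := h'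
  exact ⟨add_mem hx hy, by rw [← map_add]; rfl⟩

theorem Sp.mul {x y : L} {a b : Om} (h : P.Sp x a) (h' : P.Sp y b) : P.Sp (x * y) (a * b) := by
  obtain ⟨hx, rfl⟩ := h
  obtain ⟨hy, rfl⟩ := h'
  exact ⟨mul_mem hx hy, by rw [← map_mul]; rfl⟩

theorem Sp.neg {x : L} {a : Om} (h : P.Sp x a) : P.Sp (-x) (-a) := by
  obtain ⟨hx, rfl⟩ := h
  exact ⟨neg_mem hx, by rw [← map_neg]; rfl⟩

theorem Sp.sub {x y : L} {a b : Om} (h : P.Sp x a) (h' : P.Sp y b) : P.Sp (x - y) (a - b) := by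
  simpa only [sub_eq_add_neg] using h.add h'.neg

theorem Sp.pow {x : L} {a : Om} (h : P.Sp x a) (n : ℕ) : P.Sp (x ^ n) (a ^ n) := by
  induction n with
  | zero => simpa using sp_one
  | succ n ih => simpa only [pow_succ] using ih.mul h

theorem sp_natCast (n : ℕ) : P.Sp (n : L) (n : Om) := by
  induction n with
  | zero => simpa using sp_zero
  | succ n ih => simpa only [Nat.cast_succ] using ih.add sp_one

theorem sp_ofNat (n : ℕ) [n.AtLeastTwo] : P.Sp (OfNat.ofNat n : L) (OfNat.ofNat n : Om) :=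
  sp_natCast n

theorem sp_intCast (n : ℤ) : P.Sp (n : L) (n : Om) := by
  obtain ⟨m, rfl | rfl⟩ := n.eq_nat_or_neg
  · simpa using sp_natCast m
  · simpa using (sp_natCast (P := P) m).neg

theorem sp_sum {ι : Type*} (s : Finset ι) {x : ι → L} {a : ι → Om}
    (h : ∀ i ∈ s, P.Sp (x i) (a i)) : P.Sp (∑ i ∈ s, x i) (∑ i ∈ s, a i) := by
  classical
  induction s using Finset.induction_on with
  | empty => simpa using sp_zero
  | insert i s hi ih =>
    rw [Finset.sum_insert hi, Finset.sum_insert hi]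
    exact (h i (Finset.mem_insert_self _ _)).add (ih fun j hj => h j (Finset.mem_insert_of_mem hj))

theorem sp_prod {ι : Type*} (s : Finset ι) {x : ι → L} {a : ι → Om}
    (h : ∀ i ∈ s, P.Sp (x i) (a i)) : P.Sp (∏ i ∈ s, x i) (∏ i ∈ s, a i) := by
  classical
  induction s using Finset.induction_on with
  | empty => simpa using sp_one
  | insert i s hi ih =>
    rw [Finset.prod_insert hi, Finset.prod_insert hi]
    exact (h i (Finset.mem_insert_self _ _)).mul (ih fun j hj => h j (Finset.mem_insert_of_mem hj))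

theorem Sp.ne_zero {x : L} {a : Om} (h : P.Sp x a) (ha : a ≠ 0) : x ≠ 0 := by
  rintro rfl
  exact ha (h.unique sp_zero)

theorem Sp.inv {x : L} {a : Om} (h : P.Sp x a) (ha : a ≠ 0) : P.Sp x⁻¹ a⁻¹ := by
  have hx := h.ne_zero ha
  have hi : x⁻¹ ∈ P.A := by
    obtain ⟨hx, rfl⟩ := h
    exact P.loc ⟨x, hx⟩ ha
  have h1 := h.mul (sp_val hi)
  rw [mul_inv_cancel₀ hx] at h1
  have h2 : a * P.val x⁻¹ = 1 := h1.unique sp_one
  have h3 : P.val x⁻¹ = a⁻¹ := eq_inv_of_mul_eq_one_right h2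
  exact h3 ▸ sp_val hi

theorem Sp.div {x y : L} {a b : Om} (h : P.Sp x a) (h' : P.Sp y b) (hb : b ≠ 0) :
    P.Sp (x / y) (a / b) := by
  simpa only [div_eq_mul_inv] using h.mul (h'.inv hb)

/-- The inverse of a pole has value `0`. -/
theorem sp_inv_of_not_mem {x : L} (h : x ∉ P.A) : P.Sp x⁻¹ 0 := by
  have hi : x⁻¹ ∈ P.A := (P.A.mem_or_inv_mem x).resolve_left h
  by_contra hne
  have h0 : P.val x⁻¹ ≠ 0 := fun h0 => hne (h0 ▸ sp_val hi)
  exact h (by simpa using ((sp_val hi).inv h0).mem)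

theorem Sp.inv_not_mem {x : L} (h : P.Sp x 0) (hx : x ≠ 0) : x⁻¹ ∉ P.A := by
  intro hi
  have h1 := h.mul (sp_val hi)
  rw [mul_inv_cancel₀ hx, zero_mul] at h1
  exact one_ne_zero (sp_one.unique h1)

/-- A quotient `unit / (element with value 0)` is a pole. -/
theorem Sp.div_not_mem {x y : L} {a : Om} (h : P.Sp x a) (ha : a ≠ 0) (h' : P.Sp y 0)
    (hy : y ≠ 0) : x / y ∉ P.A := by
  intro hm
  have h1 := (sp_val hm).mul h'
  rw [div_mul_cancel₀ _ hy, mul_zero] at h1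
  exact ha (h.unique h1)

theorem not_mem_iff {x : L} : x ∉ P.A ↔ x ≠ 0 ∧ P.Sp x⁻¹ 0 := by
  refine ⟨fun h => ⟨fun h0 => h (h0 ▸ zero_mem _), sp_inv_of_not_mem h⟩, fun h => ?_⟩
  simpa using h.2.inv_not_mem (inv_ne_zero h.1)

theorem Over.sp_aeval {R : Type*} [CommRing R] [Algebra R L] [Algebra R Om] (hP : P.Over R)
    {x : L} {a : Om} (h : P.Sp x a) (f : Polynomial R) :
    P.Sp (Polynomial.aeval x f) (Polynomial.aeval a f) := by
  rw [Polynomial.aeval_eq_sum_range, Polynomial.aeval_eq_sum_range]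
  refine sp_sum _ fun i _ => ?_
  rw [Algebra.smul_def, Algebra.smul_def]
  exact (hP _).mul (h.pow i)

/-- An element integral over the valuation ring belongs to it (monic equation with finite
coefficients of degree two). -/
theorem mem_of_sq {y b c : L} (hb : b ∈ P.A) (hc : c ∈ P.A) (h : y ^ 2 + b * y = c) :
    y ∈ P.A := by
  by_contra hy
  obtain ⟨hy0, hi⟩ := not_mem_iff.mp hy
  have h1 : (1 : L) = c * y⁻¹ ^ 2 - b * y⁻¹ := by
    rw [← h]; field_simp; ring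
  have h2 := ((sp_val hc).mul (hi.pow 2)).sub ((sp_val hb).mul hi)
  rw [← h1] at h2
  simpa using sp_one.unique h2

end Place

open Place

section Red

variable {R L Om : Type*} [CommRing R] [Field L] [Field Om] [Algebra R L] [Algebra R Om]
  (W : Affine R) {P : Place L Om}

theorem sp_a₁ (hP : P.Over R) : P.Sp (W⁄L).a₁ (W⁄Om).a₁ := hP _
theorem sp_a₂ (hP : P.Over R) : P.Sp (W⁄L).a₂ (W⁄Om).a₂ := hP _
theorem sp_a₃ (hP : P.Over R) : P.Sp (W⁄L).a₃ (W⁄Om).a₃ := hP _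
theorem sp_a₄ (hP : P.Over R) : P.Sp (W⁄L).a₄ (W⁄Om).a₄ := hP _
theorem sp_a₆ (hP : P.Over R) : P.Sp (W⁄L).a₆ (W⁄Om).a₆ := hP _

variable {W}

theorem y_mem (hP : P.Over R) {x y : L} (h : (W⁄L).Equation x y) (hx : x ∈ P.A) : y ∈ P.A := by
  rw [equation_iff] at h
  refine mem_of_sq (b := (W⁄L).a₁ * x + (W⁄L).a₃)
    (c := x ^ 3 + (W⁄L).a₂ * x ^ 2 + (W⁄L).a₄ * x + (W⁄L).a₆) ?_ ?_ ?_
  · exact add_mem (mul_mem (sp_a₁ W hP).mem hx) (sp_a₃ W hP).mem
  · exact add_mem (add_mem (add_mem (pow_mem hx 3) (mul_mem (sp_a₂ W hP).mem (pow_mem hx 2)))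
      (mul_mem (sp_a₄ W hP).mem hx)) (sp_a₆ W hP).mem
  · rw [← h]; ring

theorem equation_sp (hP : P.Over R) {x y : L} {a b : Om} (h : (W⁄L).Equation x y)
    (hx : P.Sp x a) (hy : P.Sp y b) : (W⁄Om).Equation a b := by
  rw [equation_iff] at h ⊢
  have h1 := ((hy.pow 2).add (((sp_a₁ W hP).mul hx).mul hy)).add ((sp_a₃ W hP).mul hy)
  have h2 := (((hx.pow 3).add ((sp_a₂ W hP).mul (hx.pow 2))).add ((sp_a₄ W hP).mul hx)).add
    (sp_a₆ W hP)
  rw [h] at h1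
  exact h1.unique h2

theorem sp_negY (hP : P.Over R) {x y : L} {a b : Om} (hx : P.Sp x a) (hy : P.Sp y b) :
    P.Sp ((W⁄L).negY x y) ((W⁄Om).negY a b) :=
  (hy.neg.sub ((sp_a₁ W hP).mul hx)).sub (sp_a₃ W hP)

theorem sp_addX (hP : P.Over R) {x₁ x₂ l : L} {a₁ a₂ m : Om} (h₁ : P.Sp x₁ a₁) (h₂ : P.Sp x₂ a₂)
    (hl : P.Sp l m) : P.Sp ((W⁄L).addX x₁ x₂ l) ((W⁄Om).addX a₁ a₂ m) :=
  ((((hl.pow 2).add ((sp_a₁ W hP).mul hl)).sub (sp_a₂ W hP)).sub h₁).sub h₂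

theorem sp_addY (hP : P.Over R) {x₁ x₂ y₁ l : L} {a₁ a₂ b₁ m : Om} (h₁ : P.Sp x₁ a₁)
    (h₂ : P.Sp x₂ a₂) (hy : P.Sp y₁ b₁) (hl : P.Sp l m) :
    P.Sp ((W⁄L).addY x₁ x₂ y₁ l) ((W⁄Om).addY a₁ a₂ b₁ m) :=
  sp_negY hP (sp_addX hP h₁ h₂ hl) ((hl.mul ((sp_addX hP h₁ h₂ hl).sub h₁)).add hy)

theorem addX_not_mem (hP : P.Over R) {x₁ x₂ l : L} (h₁ : x₁ ∈ P.A) (h₂ : x₂ ∈ P.A)
    (hl : l ∉ P.A) : (W⁄L).addX x₁ x₂ l ∉ P.A := by
  intro h
  refine hl (mem_of_sq (b := (W⁄L).a₁) (c := (W⁄L).addX x₁ x₂ l + (W⁄L).a₂ + x₁ + x₂)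
    (sp_a₁ W hP).mem (add_mem (add_mem (add_mem h (sp_a₂ W hP).mem) h₁) h₂) ?_)
  simp only [addX]
  ring

/-- The second formula for the slope of a chord. -/
theorem slope_mul {F : Type*} [Field F] [DecidableEq F] {V : Affine F} {x₁ x₂ y₁ y₂ : F}
    (h₁ : V.Equation x₁ y₁) (h₂ : V.Equation x₂ y₂) (hxy : ¬(x₁ = x₂ ∧ y₁ = V.negY x₂ y₂)) :
    V.slope x₁ x₂ y₁ y₂ * (y₁ - V.negY x₂ y₂) =
      x₁ ^ 2 + x₁ * x₂ + x₂ ^ 2 + V.a₂ * (x₁ + x₂) + V.a₄ - V.a₁ * y₁ := by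
  by_cases hx : x₁ = x₂
  · have hy : y₁ ≠ V.negY x₂ y₂ := fun h => hxy ⟨hx, h⟩
    have hyy := Y_eq_of_Y_ne h₁ h₂ hx hy
    subst hx hyy
    rw [slope_of_Y_ne rfl hy, div_mul_cancel₀ _ (sub_ne_zero.mpr hy)]
    ring
  · rw [slope_of_X_ne hx, div_mul_eq_mul_div, div_eq_iff (sub_ne_zero.mpr hx)]
    rw [equation_iff] at h₁ h₂
    simp only [negY]
    linear_combination h₁ - h₂

variable [W.IsElliptic]

instance isElliptic_baseChange (S : Type*) [CommRing S] [Algebra R S] :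
    WeierstrassCurve.IsElliptic (W⁄S) :=
  inferInstanceAs (WeierstrassCurve.IsElliptic (WeierstrassCurve.map W (algebraMap R S)))

theorem nonsingular_sp (hP : P.Over R) {x y : L} {a b : Om} (h : (W⁄L).Equation x y)
    (hx : P.Sp x a) (hy : P.Sp y b) : (W⁄Om).Nonsingular a b :=
  equation_iff_nonsingular.mp (equation_sp hP h hx hy)

open Classical in
/-- The reduction map on points. -/
noncomputable def redFun (hP : P.Over R) : (W⁄L).Point → (W⁄Om).Point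
  | .zero => 0
  | .some x y h => if hx : x ∈ P.A then
      .some (P.val x) (P.val y) (nonsingular_sp hP h.1 (sp_val hx) (sp_val (y_mem hP h.1 hx)))
    else 0

theorem redFun_zero (hP : P.Over R) : redFun (W := W) hP 0 = 0 := rfl

theorem redFun_of_sp (hP : P.Over R) {x y : L} {a b : Om} (h : (W⁄L).Nonsingular x y)
    (hx : P.Sp x a) (hy : P.Sp y b) :
    redFun hP (.some x y h) = .some a b (nonsingular_sp hP h.1 hx hy) := by
  simp only [redFun, dif_pos hx.mem, hx.val_eq, hy.val_eq]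

theorem redFun_of_not_mem (hP : P.Over R) {x y : L} (h : (W⁄L).Nonsingular x y)
    (hx : x ∉ P.A) : redFun hP (.some x y h) = 0 := by
  simp only [redFun, dif_neg hx]

theorem redFun_neg (hP : P.Over R) (T : (W⁄L).Point) : redFun hP (-T) = -redFun hP T := by
  rcases T with _ | ⟨x, y, h⟩
  · rfl
  · by_cases hx : x ∈ P.A
    · have hy := y_mem hP h.1 hx
      rw [Point.neg_some, redFun_of_sp hP _ (sp_val hx) (sp_negY hP (sp_val hx) (sp_val hy)),
        redFun_of_sp hP _ (sp_val hx) (sp_val hy), Point.neg_some]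
    · rw [Point.neg_some, redFun_of_not_mem hP _ hx, redFun_of_not_mem hP _ hx, Point.neg_zero]

variable [DecidableEq L] [DecidableEq Om]

theorem redFun_add_of_mem (hP : P.Over R) {x₁ y₁ x₂ y₂ : L} (h₁ : (W⁄L).Nonsingular x₁ y₁)
    (h₂ : (W⁄L).Nonsingular x₂ y₂) (hx₁ : x₁ ∈ P.A) (hx₂ : x₂ ∈ P.A) :
    redFun hP (.some _ _ h₁ + .some _ _ h₂) =
      redFun hP (.some _ _ h₁) + redFun hP (.some _ _ h₂) := by
  have sx₁ := sp_val hx₁
  have sx₂ := sp_val hx₂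
  have sy₁ := sp_val (y_mem hP h₁.1 hx₁)
  have sy₂ := sp_val (y_mem hP h₂.1 hx₂)
  rw [redFun_of_sp hP _ sx₁ sy₁, redFun_of_sp hP _ sx₂ sy₂]
  set a₁ := P.val x₁
  set a₂ := P.val x₂
  set b₁ := P.val y₁
  set b₂ := P.val y₂
  have n₁ := nonsingular_sp hP h₁.1 sx₁ sy₁
  have n₂ := nonsingular_sp hP h₂.1 sx₂ sy₂
  have sN : P.Sp (x₁ ^ 2 + x₁ * x₂ + x₂ ^ 2 + (W⁄L).a₂ * (x₁ + x₂) + (W⁄L).a₄ - (W⁄L).a₁ * y₁)
      (a₁ ^ 2 + a₁ * a₂ + a₂ ^ 2 + (W⁄Om).a₂ * (a₁ + a₂) + (W⁄Om).a₄ - (W⁄Om).a₁ * b₁) :=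
    (((((sx₁.pow 2).add (sx₁.mul sx₂)).add (sx₂.pow 2)).add
      ((sp_a₂ W hP).mul (sx₁.add sx₂))).add (sp_a₄ W hP)).sub ((sp_a₁ W hP).mul sy₁)
  have sD : P.Sp (y₁ - (W⁄L).negY x₂ y₂) (b₁ - (W⁄Om).negY a₂ b₂) := sy₁.sub (sp_negY hP sx₂ sy₂)
  by_cases hxy : x₁ = x₂ ∧ y₁ = (W⁄L).negY x₂ y₂
  · rw [Point.add_of_Y_eq hxy.1 hxy.2, redFun_zero, Point.add_of_Y_eq]
    · exact sx₁.unique (by rw [hxy.1]; exact sx₂)
    · exact sy₁.unique (by rw [hxy.2]; exact sp_negY hP sx₂ sy₂)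
  rw [Point.add_some hxy]
  by_cases hab : a₁ = a₂ ∧ b₁ = (W⁄Om).negY a₂ b₂
  · rw [Point.add_of_Y_eq hab.1 hab.2]
    refine redFun_of_not_mem hP _ (addX_not_mem hP hx₁ hx₂ ?_)
    have sD0 : P.Sp (y₁ - (W⁄L).negY x₂ y₂) 0 := by simpa only [← hab.2, sub_self] using sD
    by_cases hb : b₁ = b₂
    · -- the reductions coincide and are `2`-torsion
      have hN : a₁ ^ 2 + a₁ * a₂ + a₂ ^ 2 + (W⁄Om).a₂ * (a₁ + a₂) + (W⁄Om).a₄ -
          (W⁄Om).a₁ * b₁ ≠ 0 := by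
        rcases ((nonsingular_iff _ _).mp n₂).2 with h | h
        · intro h0
          apply h
          rw [hab.1, hb] at h0
          linear_combination -h0
        · exact absurd (hb.symm.trans hab.2) h
      intro hm
      have h1 := (sp_val hm).mul sD0
      rw [slope_mul h₁.1 h₂.1 hxy, mul_zero] at h1
      exact hN (sN.unique h1)
    · have hx : x₁ ≠ x₂ := by
        intro hx
        have hy := Y_eq_of_Y_ne h₁.1 h₂.1 hx fun h => hxy ⟨hx, h⟩
        exact hb (sy₁.unique (hy ▸ sy₂))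
      rw [slope_of_X_ne hx]
      refine (sy₁.sub sy₂).div_not_mem (sub_ne_zero.mpr hb) ?_ (sub_ne_zero.mpr hx)
      simpa only [hab.1, sub_self] using sx₁.sub sx₂
  · rw [Point.add_some hab]
    have sl : P.Sp ((W⁄L).slope x₁ x₂ y₁ y₂) ((W⁄Om).slope a₁ a₂ b₁ b₂) := by
      by_cases ha : a₁ = a₂
      · have hb : b₁ - (W⁄Om).negY a₂ b₂ ≠ 0 := sub_ne_zero.mpr fun h => hab ⟨ha, h⟩
        have e1 := eq_div_of_mul_eq (sD.ne_zero hb) (slope_mul h₁.1 h₂.1 hxy)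
        have e2 := eq_div_of_mul_eq hb (slope_mul n₁.1 n₂.1 hab)
        rw [e1, e2]
        exact sN.div sD hb
      · have hx : x₁ ≠ x₂ := fun hx => ha (sx₁.unique (hx ▸ sx₂))
        rw [slope_of_X_ne hx, slope_of_X_ne ha]
        exact (sy₁.sub sy₂).div (sx₁.sub sx₂) (sub_ne_zero.mpr ha)
    exact redFun_of_sp hP _ (sp_addX hP sx₁ sx₂ sl) (sp_addY hP sx₁ sx₂ sy₁ sl)

omit [W.IsElliptic] [DecidableEq L] [DecidableEq Om] in
/-- On a point at infinity of the place, `y / x ^ 2` has value `0`. -/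
theorem sp_y_div (hP : P.Over R) {x y : L} (h : (W⁄L).Equation x y) (hx : x ∉ P.A) :
    P.Sp (y / x ^ 2) 0 := by
  obtain ⟨hx0, hu⟩ := not_mem_iff.mp hx
  rw [equation_iff] at h
  have key : (y / x ^ 2) ^ 2 + ((W⁄L).a₁ * x⁻¹ + (W⁄L).a₃ * x⁻¹ ^ 2) * (y / x ^ 2) =
      x⁻¹ + (W⁄L).a₂ * x⁻¹ ^ 2 + (W⁄L).a₄ * x⁻¹ ^ 3 + (W⁄L).a₆ * x⁻¹ ^ 4 := by
    field_simp
    linear_combination h
  have sb := ((sp_a₁ W hP).mul hu).add ((sp_a₃ W hP).mul (hu.pow 2))
  have sc := ((hu.add ((sp_a₂ W hP).mul (hu.pow 2))).add ((sp_a₄ W hP).mul (hu.pow 3))).add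
    ((sp_a₆ W hP).mul (hu.pow 4))
  have hm : y / x ^ 2 ∈ P.A := mem_of_sq sb.mem sc.mem key
  have s1 := ((sp_val hm).pow 2).add (sb.mul (sp_val hm))
  rw [key] at s1
  have e := s1.unique sc
  have e0 : P.val (y / x ^ 2) = 0 := by simpa using e
  exact e0 ▸ sp_val hm

omit [W.IsElliptic] [DecidableEq Om] in
/-- finite point + point at infinity of the place = finite point. -/
theorem addX_mem (hP : P.Over R) {x₁ y₁ x₂ y₂ : L} (h₁ : (W⁄L).Equation x₁ y₁)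
    (h₂ : (W⁄L).Equation x₂ y₂) (hx₁ : x₁ ∈ P.A) (hx₂ : x₂ ∉ P.A) :
    (W⁄L).addX x₁ x₂ ((W⁄L).slope x₁ x₂ y₁ y₂) ∈ P.A := by
  have hx : x₁ ≠ x₂ := fun h => hx₂ (h ▸ hx₁)
  have hy₁ := y_mem hP h₁ hx₁
  obtain ⟨hx0, hu⟩ := not_mem_iff.mp hx₂
  have hw := sp_y_div hP h₂ hx₂
  rw [equation_iff] at h₂
  have hd : P.Sp (1 - x₁ * x₂⁻¹) 1 := by simpa using sp_one.sub ((sp_val hx₁).mul hu)
  have hd0 : 1 - x₁ * x₂⁻¹ ≠ 0 := hd.ne_zero one_ne_zero
  have hsub : x₁ - x₂ ≠ 0 := sub_ne_zero.mpr hx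
  have hsub' : x₂ - x₁ ≠ 0 := sub_ne_zero.mpr hx.symm
  have key : (W⁄L).addX x₁ x₂ ((W⁄L).slope x₁ x₂ y₁ y₂) =
      (x₁ + ((W⁄L).a₄ + 2 * (W⁄L).a₂ * x₁ + x₁ ^ 2 - (W⁄L).a₁ * y₁) * x₂⁻¹
        + ((W⁄L).a₆ + y₁ ^ 2 + (W⁄L).a₁ * x₁ * y₁ - (W⁄L).a₂ * x₁ ^ 2 - x₁ ^ 3) * x₂⁻¹ ^ 2
        - ((W⁄L).a₃ + 2 * y₁ + (W⁄L).a₁ * x₁) * (y₂ / x₂ ^ 2)) / (1 - x₁ * x₂⁻¹) ^ 2 := by
    rw [slope_of_X_ne hx, addX]
    have e : 1 - x₁ * x₂⁻¹ = (x₂ - x₁) / x₂ := by field_simp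
    rw [e]
    field_simp
    linear_combination (x₂ - x₁) ^ 2 * h₂
  rw [key]
  have a1 := (sp_a₁ W hP).mem
  have a2 := (sp_a₂ W hP).mem
  have a3 := (sp_a₃ W hP).mem
  have a4 := (sp_a₄ W hP).mem
  have a6 := (sp_a₆ W hP).mem
  have h2 : (2 : L) ∈ P.A := (sp_ofNat (P := P) 2).mem
  rw [div_eq_mul_inv]
  refine mul_mem ?_ ((hd.pow 2).inv (by simp)).mem
  refine sub_mem (add_mem (add_mem hx₁ (mul_mem ?_ hu.mem)) (mul_mem ?_ (pow_mem hu.mem 2)))
    (mul_mem ?_ hw.mem)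
  · exact sub_mem (add_mem (add_mem a4 (mul_mem (mul_mem h2 a2) hx₁)) (pow_mem hx₁ 2))
      (mul_mem a1 hy₁)
  · exact sub_mem (sub_mem (add_mem (add_mem a6 (pow_mem hy₁ 2)) (mul_mem (mul_mem a1 hx₁) hy₁))
      (mul_mem a2 (pow_mem hx₁ 2))) (pow_mem hx₁ 3)
  · exact add_mem (add_mem a3 (mul_mem h2 hy₁)) (mul_mem a1 hx₁)

omit [DecidableEq L] [DecidableEq Om] in
theorem redFun_eq_zero_iff (hP : P.Over R) {x y : L} (h : (W⁄L).Nonsingular x y) :
    redFun hP (.some x y h) = 0 ↔ x ∉ P.A := by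
  refine ⟨fun h0 hx => ?_, redFun_of_not_mem hP h⟩
  rw [redFun_of_sp hP h (sp_val hx) (sp_val (y_mem hP h.1 hx))] at h0
  exact Point.some_ne_zero _ h0

theorem redFun_add_of_ne (hP : P.Over R) {S T : (W⁄L).Point} (hS : redFun hP S ≠ 0)
    (hT : redFun hP T ≠ 0) : redFun hP (S + T) = redFun hP S + redFun hP T := by
  rcases S with _ | ⟨x₁, y₁, h₁⟩
  · exact absurd rfl hS
  rcases T with _ | ⟨x₂, y₂, h₂⟩
  · exact absurd rfl hT
  exact redFun_add_of_mem hP h₁ h₂ (not_not.mp (mt (redFun_eq_zero_iff hP h₁).mpr hS))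
    (not_not.mp (mt (redFun_eq_zero_iff hP h₂).mpr hT))

omit [DecidableEq Om] in
theorem redFun_add_ne_zero (hP : P.Over R) {S T : (W⁄L).Point} (hS : redFun hP S ≠ 0)
    (hT : redFun hP T = 0) : redFun hP (S + T) ≠ 0 := by
  rcases S with _ | ⟨x₁, y₁, h₁⟩
  · exact absurd rfl hS
  rcases T with _ | ⟨x₂, y₂, h₂⟩
  · rwa [← Point.zero_def, add_zero]
  have hx₁ := not_not.mp (mt (redFun_eq_zero_iff hP h₁).mpr hS)
  have hx₂ := (redFun_eq_zero_iff hP h₂).mp hT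
  have hx : x₁ ≠ x₂ := fun h => hx₂ (h ▸ hx₁)
  rw [Point.add_of_X_ne hx, Ne, redFun_eq_zero_iff, not_not]
  exact addX_mem hP h₁.1 h₂.1 hx₁ hx₂

theorem redFun_add_of_eq (hP : P.Over R) {S T : (W⁄L).Point} (hT : redFun hP T = 0) :
    redFun hP (S + T) = redFun hP S := by
  have hT' : redFun hP (-T) = 0 := by rw [redFun_neg, hT, neg_zero]
  by_cases hS : redFun hP S = 0
  · rw [hS]
    by_contra h
    have h1 := redFun_add_ne_zero hP h hT'
    rw [add_neg_cancel_right] at h1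
    exact h1 hS
  · have h1 := redFun_add_ne_zero hP hS hT
    have hS' : redFun hP (-S) ≠ 0 := by rwa [redFun_neg, neg_ne_zero]
    have h2 := redFun_add_of_ne hP h1 hS'
    rw [add_comm S T, add_neg_cancel_right, hT, redFun_neg, add_comm T S] at h2
    exact (add_neg_eq_zero.mp h2.symm)

variable (W) in
/-- **Reduction of points along a place** is a group homomorphism. -/
noncomputable def red (hP : P.Over R) : (W⁄L).Point →+ (W⁄Om).Point :=
  AddMonoidHom.mk' (redFun hP) fun S T => by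
    by_cases hT : redFun hP T = 0
    · rw [redFun_add_of_eq hP hT, hT, add_zero]
    by_cases hS : redFun hP S = 0
    · rw [add_comm S T, redFun_add_of_eq hP hS, hS, zero_add]
    exact redFun_add_of_ne hP hS hT

theorem red_some_of_sp (hP : P.Over R) {x y : L} {a b : Om} (h : (W⁄L).Nonsingular x y)
    (hx : P.Sp x a) (hy : P.Sp y b) :
    red W hP (.some x y h) = .some a b (nonsingular_sp hP h.1 hx hy) :=
  redFun_of_sp hP h hx hy

theorem red_some_of_not_mem (hP : P.Over R) {x y : L} (h : (W⁄L).Nonsingular x y)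
    (hx : x ∉ P.A) : red W hP (.some x y h) = 0 :=
  redFun_of_not_mem hP h hx

theorem red_some_eq_zero_iff (hP : P.Over R) {x y : L} (h : (W⁄L).Nonsingular x y) :
    red W hP (.some x y h) = 0 ↔ x ∉ P.A :=
  redFun_eq_zero_iff hP h

theorem red_some_eq_some_iff (hP : P.Over R) {x y : L} (h : (W⁄L).Nonsingular x y) {a b : Om}
    (h' : (W⁄Om).Nonsingular a b) :
    red W hP (.some x y h) = .some a b h' ↔ P.Sp x a ∧ P.Sp y b := by
  refine ⟨fun e => ?_, fun e => red_some_of_sp hP h e.1 e.2⟩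
  have hx : x ∈ P.A := by
    by_contra hx
    rw [red_some_of_not_mem hP h hx] at e
    exact Point.some_ne_zero _ e.symm
  have hy := y_mem hP h.1 hx
  rw [red_some_of_sp hP h (sp_val hx) (sp_val hy), Point.some.injEq] at e
  exact ⟨e.1 ▸ sp_val hx, e.2 ▸ sp_val hy⟩

/-- Compatibility of reduction with homomorphisms of fields: if `f` and `g` intertwine the places,
they intertwine the reductions. -/
theorem red_map {L' Om' : Type*} [Field L'] [Field Om'] [Algebra R L'] [Algebra R Om']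
    [DecidableEq L'] [DecidableEq Om'] {P' : Place L' Om'} (hP : P.Over R) (hP' : P'.Over R)
    (f : L →ₐ[R] L') (g : Om →ₐ[R] Om') (hfg : ∀ x a, P.Sp x a → P'.Sp (f x) (g a))
    (T : (W⁄L).Point) :
    red W hP' (Point.map f T) = Point.map g (red W hP T) := by
  rcases T with _ | ⟨x, y, h⟩
  · simp only [← Point.zero_def, map_zero]
  by_cases hx : x ∈ P.A
  · have hy := y_mem hP h.1 hx
    rw [Point.map_some, red_some_of_sp hP h (sp_val hx) (sp_val hy),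
      red_some_of_sp hP' _ (hfg _ _ (sp_val hx)) (hfg _ _ (sp_val hy)), Point.map_some]
  · rw [Point.map_some, red_some_of_not_mem hP h hx, map_zero, red_some_of_not_mem]
    obtain ⟨hx0, hi⟩ := not_mem_iff.mp hx
    refine not_mem_iff.mpr ⟨(map_ne_zero f).mpr hx0, ?_⟩
    simpa using hfg _ _ hi

end Red

end Crest.Agent.T170.Ell
private theorem rz_bf80c18bc9 : type_of% @_root_.Crest.Agent.T170.Ell.redFun.eq_1 := @_root_.Crest.Agent.T170.Ell.redFun.eq_1 -- L259
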