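import Crest.Agent.T170.DMStm_38
import Crest.Agent.T170.BadB_10
import Crest.Agent.T170.BadA_10
import Crest.Agent.T170.Fr_20
import Crest.Agent.T170.CoreDefs_20
import Crest.Agent.T170.CoreK2Def_62
import Crest.Agent.T170.Idem_38
import Crest.Agent.T170.CoreK1_37

-- ▼ part T170/CoreK5_20
section

/-!
# Row 170 (helper20): the pre-idempotent on a chart
-/

set_option autoImplicit false

namespace Crest.Agent.T170.K5

open Module Crest.Agent.T170.DM Crest.Agent.T170.Bad

variable {O N F Ψ ι n J : Type} [CommRing O] [AddCommGroup N] [Module O N] [Field F] [Field Ψ]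
  [Algebra F Ψ] [Fintype ι]

/-- the scalars preserving `B` -/
def stabRing (O : Type) [CommRing O] {N : Type} [AddCommGroup N] [Module O N]
    (B : AddSubgroup N) : Subring O where
  carrier := {a | ∀ z ∈ B, a • z ∈ B}
  mul_mem' := fun {a b} ha hb z hz => by rw [mul_smul]; exact ha _ (hb z hz)
  one_mem' := fun z hz => by rw [one_smul]; exact hz
  add_mem' := fun {a b} ha hb z hz => by rw [add_smul]; exact B.add_mem (ha z hz) (hb z hz)
  zero_mem' := fun z _ => by rw [zero_smul]; exact B.zero_mem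
  neg_mem' := fun {a} ha z hz => by rw [neg_smul]; exact B.neg_mem (ha z hz)

theorem exists_chart_op [IsAlgClosed Ψ] [Finite n] (res : O →+* F) (b : ι → N)
    (δ : n → AddMonoid.End N) (δb : n → Module.End F (ι → F)) (hred : ∀ i, Red res b (δ i) (δb i))
    (hc : ∀ i j, δb i * δb j = δb j * δb i) (B : AddSubgroup N) (idx : J → n) (h : J → O)
    (hB : ∀ j, ∀ z ∈ B, h j • δ (idx j) z ∈ B)
    (hbad : ∀ θ ∈ Theta F Ψ δb, θ ≠ 0 → ∀ w : ValuationSubring Ψ,
      (∀ a ∈ stabRing O B, algebraMap F Ψ (res a) ∈ w) →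
      ∃ j, algebraMap F Ψ (res (h j)) * θ (idx j) ∉ w.nonunits) :
    ∃ (T : AddMonoid.End N) (Tb : Module.End F (ι → F)), T ∈ opRing O δ ∧ Set.MapsTo T B B ∧
      Red res b T Tb ∧ IsPre δb Tb := by
  classical
  let φ : stabRing O B →+* Ψ := ((algebraMap F Ψ).comp res).comp (stabRing O B).subtype
  let A : Subring Ψ := φ.range
  have hfin := Theta.finite (Ψ := Ψ) hc
  obtain ⟨q, hq0, hq⟩ := exists_chart_poly A (hfin.toFinset.erase 0)
    (fun (θ : n → Ψ) (j : J) => algebraMap F Ψ (res (h j)) * θ (idx j)) (by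
      intro θ hθ w hw _
      rw [Finset.mem_erase, Set.Finite.mem_toFinset] at hθ
      exact hbad θ hθ.2 hθ.1 w fun a ha => hw ⟨⟨a, ha⟩, rfl⟩)
  obtain ⟨q₀, rfl⟩ := MvPolynomial.map_surjective φ.rangeRestrict φ.rangeRestrict_surjective q
  let ψ : MvPolynomial J (stabRing O B) →+* MvPolynomial n F :=
    MvPolynomial.eval₂Hom (MvPolynomial.C.comp (res.comp (stabRing O B).subtype))
      fun j => MvPolynomial.C (res (h j)) * MvPolynomial.X (idx j)
  have hψC : ∀ a, ψ (MvPolynomial.C a) = MvPolynomial.C (res a) := fun a => by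
    simp [ψ]
  have hψX : ∀ j, ψ (MvPolynomial.X j) = MvPolynomial.C (res (h j)) * MvPolynomial.X (idx j) :=
    fun j => by simp [ψ]
  have key : ∀ r : MvPolynomial J (stabRing O B), ∃ T : AddMonoid.End N, T ∈ opRing O δ ∧
      Set.MapsTo T B B ∧ Red res b T (ev F δb hc (ψ r)) := by
    intro r
    induction r using MvPolynomial.induction_on with
    | C a =>
      refine ⟨sc N (a : O), sc_mem_opRing δ _, fun z hz => a.2 z hz, ?_⟩
      rw [hψC, ← MvPolynomial.algebraMap_eq, AlgHom.commutes]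
      exact Red.sc res b _
    | add r s hr hs =>
      obtain ⟨T, h1, h2, h3⟩ := hr
      obtain ⟨T', h1', h2', h3'⟩ := hs
      refine ⟨T + T', (opRing O δ).add_mem h1 h1', fun z hz => B.add_mem (h2 hz) (h2' hz), ?_⟩
      rw [map_add, map_add]
      exact h3.add h3'
    | mul_X r j hr =>
      obtain ⟨T, h1, h2, h3⟩ := hr
      refine ⟨T * (sc N (h j) * δ (idx j)), (opRing O δ).mul_mem h1 ((opRing O δ).mul_mem
        (sc_mem_opRing δ _) (self_mem_opRing δ _)), fun z hz => h2 (hB j z hz), ?_⟩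
      rw [map_mul, map_mul, hψX, map_mul, ev_X, ← MvPolynomial.algebraMap_eq, AlgHom.commutes]
      exact h3.mul ((Red.sc res b _).mul (hred _))
  have hev : ∀ (θ : n → Ψ) (r : MvPolynomial J (stabRing O B)), MvPolynomial.aeval θ (ψ r) =
      MvPolynomial.aeval (fun j => algebraMap F Ψ (res (h j)) * θ (idx j))
        (MvPolynomial.map φ.rangeRestrict r) := by
    intro θ r
    induction r using MvPolynomial.induction_on with
    | C a => rw [hψC, MvPolynomial.map_C, MvPolynomial.aeval_C, MvPolynomial.aeval_C]; rfl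
    | add r s hr hs => rw [map_add, map_add, map_add, map_add, hr, hs]
    | mul_X r j hr =>
      rw [map_mul, map_mul, map_mul, map_mul, hr, hψX, MvPolynomial.map_X, MvPolynomial.aeval_X,
        map_mul, MvPolynomial.aeval_C, MvPolynomial.aeval_X]
  have hcc : ∀ r : MvPolynomial J (stabRing O B),
      MvPolynomial.constantCoeff (ψ r) = res (MvPolynomial.constantCoeff r : stabRing O B) := by
    intro r
    induction r using MvPolynomial.induction_on with
    | C a => rw [hψC, MvPolynomial.constantCoeff_C, MvPolynomial.constantCoeff_C]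
    | add r s hr hs => rw [map_add, map_add, map_add, hr, hs, Subring.coe_add, map_add]
    | mul_X r j _ => simp [hψX]
  obtain ⟨T, h1, h2, h3⟩ := key q₀
  refine ⟨T, _, h1, h2, h3, isPre_ev (Ψ := Ψ) hc ?_ ?_⟩
  · rw [hcc]
    apply (algebraMap F Ψ).injective
    rw [map_one]
    rw [MvPolynomial.constantCoeff_map] at hq0
    exact congrArg Subtype.val hq0
  · intro θ hθ h0
    rw [hev]
    exact hq θ (by rw [Finset.mem_erase, Set.Finite.mem_toFinset]; exact ⟨h0, hθ⟩)

end Crest.Agent.T170.K5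
end

-- ▼ part T170/CoreK7_20
section

/-!
# Row 170 (helper20): assembly of the core, part 1 (no bad place)
-/

set_option autoImplicit false
set_option linter.unusedSectionVars false

namespace Crest.Agent.T170.Fr

open scoped NNReal Polynomial Classical
open Module Crest.Agent.T170.DM Crest.Agent.T170.Bad CoreData

/-- the joint spectrum is stable under a rotating semilinear automorphism -/
def ThetaRot : Prop :=
  ∀ (F Ψ V : Type) (n : ℕ) [NeZero n] [Field F] [Field Ψ] [Algebra F Ψ] [AddCommGroup V]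
    [Module F V] (τb : F ≃+* F) (g : Ψ ≃+* Ψ),
    (∀ f, g (algebraMap F Ψ f) = algebraMap F Ψ (τb f)) →
    ∀ (δb : Fin n → Module.End F V), (∀ i j, δb i * δb j = δb j * δb i) →
    ∀ S : V ≃+ V, (∀ (a : F) u, S (a • u) = τb a • S u) → (∀ i u, S (δb i u) = δb (i + 1) (S u)) →
    ∀ θ ∈ Theta F Ψ δb, (fun i => g (θ (i - 1))) ∈ Theta F Ψ δb

variable {p n : ℕ} [NeZero n] {R C K E N : Type} [CommRing R] [Field C] [Field K]
  [Field E] [Field N] [Algebra C K] [Algebra K E] [Algebra E N] [Algebra C E] [Algebra C N]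
  [Algebra K N] [Algebra R C] [Algebra R E] [IsScalarTower R C E]
  {X : CoreData p n R C K E N} {k Fb Ω : Type} [Field k] [Field Fb] [Field Ω]
  [Algebra k Ω] [Algebra Fb Ω] [Algebra R k] [Algebra R Ω] [IsScalarTower R k Ω]

namespace SF

variable (S : SF X k Fb Ω)

/-- the residue map on `v.integer` -/
noncomputable def rI : X.v.integer →+* Fb where
  toFun a := S.red ⟨a.1, a.2⟩
  map_one' := S.red.map_one
  map_mul' a b := S.red.map_mul ⟨a.1, a.2⟩ ⟨b.1, b.2⟩
  map_zero' := S.red.map_zero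
  map_add' a b := S.red.map_add ⟨a.1, a.2⟩ ⟨b.1, b.2⟩

theorem rI_surj : Function.Surjective S.rI := fun f =>
  let ⟨a, ha⟩ := S.red_surj f
  ⟨⟨a.1, a.2⟩, ha⟩

theorem rI_eq_zero (a : X.v.integer) : S.rI a = 0 ↔ ¬ IsUnit a := by
  rw [int_nonunit_iff]
  exact S.red_eq_zero ⟨a.1, a.2⟩

theorem sp_rI (a : X.v.integer) : S.pl.Sp (a : E) (algebraMap Fb Ω (S.rI a)) :=
  S.sp_res ⟨a.1, a.2⟩

theorem rI_eq {a : X.v.integer} {t : Ω} (h : S.pl.Sp (a : E) t) : algebraMap Fb Ω (S.rI a) = t :=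
  (S.sp_rI a).unique h

end SF

/-- `γE` on the ring of integers -/
noncomputable def CoreData.τ (X : CoreData p n R C K E N) : X.v.integer ≃+* X.v.integer where
  toFun a := ⟨X.γE a, by
    show X.v (X.γE a) ≤ 1
    rw [X.vγ]; exact a.2⟩
  invFun a := ⟨X.γE.symm a, by
    show X.v (X.γE.symm a) ≤ 1
    rw [← X.vγ, AlgEquiv.apply_symm_apply]; exact a.2⟩
  left_inv a := Subtype.ext (X.γE.symm_apply_apply a)
  right_inv a := Subtype.ext (X.γE.apply_symm_apply a)
  map_mul' a b := Subtype.ext (map_mul X.γE (a : E) b)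
  map_add' a b := Subtype.ext (map_add X.γE (a : E) b)

theorem SF.exists_τb (S : SF X k Fb Ω) : ∃ τb : Fb ≃+* Fb, (∀ a, S.rI (X.τ a) = τb (S.rI a)) ∧
    ∀ f, S.gb (algebraMap Fb Ω f) = algebraMap Fb Ω (τb f) := by
  have h1 : ∀ a, algebraMap Fb Ω (S.rI (X.τ a)) = S.gb (algebraMap Fb Ω (S.rI a)) := fun a =>
    S.rI_eq (S.gb_sp _ _ (S.sp_rI a))
  choose s hs using S.rI_surj
  have h2 : ∀ f, algebraMap Fb Ω (S.rI (X.τ (s f))) = S.gb (algebraMap Fb Ω f) := fun f => by
    rw [h1, hs]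
  have hinj := (algebraMap Fb Ω).injective
  let t : Fb →+* Fb :=
    { toFun := fun f => S.rI (X.τ (s f))
      map_one' := hinj (by rw [h2, map_one, map_one])
      map_mul' := fun a b => hinj (by rw [h2, map_mul, map_mul, map_mul, h2, h2])
      map_zero' := hinj (by rw [h2, map_zero, map_zero])
      map_add' := fun a b => hinj (by rw [h2, map_add, map_add, map_add, h2, h2]) }
  have h3 : ∀ a, S.rI (X.τ a) = t (S.rI a) := fun a => hinj (by
    show _ = algebraMap Fb Ω (S.rI (X.τ (s _)))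
    rw [h1, h2])
  have hb : Function.Bijective t := ⟨t.injective, fun f => ⟨S.rI (X.τ.symm (s f)), by
    rw [← h3, RingEquiv.apply_symm_apply, hs]⟩⟩
  exact ⟨RingEquiv.ofBijective t hb, h3, fun f => (h2 f).symm⟩

theorem SF.kt_le (S : SF X k Fb Ω) {t : E} {tb : Ω} (ht : S.pl.Sp t tb) {f : Fb}
    (hf : f ∈ X.kt S.rI t) : algebraMap Fb Ω f ∈ Algebra.adjoin S.κ {tb} := by
  have : X.kt S.rI t ≤ (Algebra.adjoin S.κ {tb}).toSubring.comap (algebraMap Fb Ω) := by
    rw [kt, Subring.closure_le]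
    rintro _ ⟨a, ha | ha, rfl⟩
    · obtain ⟨z, hz⟩ := ha
      have h1 : algebraMap Fb Ω (S.rI a) ∈ S.κ := (S.mem_κ _).2 ⟨z, hz ▸ S.sp_rI a⟩
      exact (Algebra.adjoin S.κ {tb}).algebraMap_mem ⟨_, h1⟩
    · have h1 : algebraMap Fb Ω (S.rI a) = tb := S.rI_eq (by rw [show (a : E) = t from ha]; exact ht)
      show algebraMap Fb Ω (S.rI a) ∈ Algebra.adjoin S.κ {tb}
      rw [h1]
      exact Algebra.subset_adjoin rfl
  exact this hf

theorem isIntegral_of_coeff {F Ψ : Type} [Field F] [Field Ψ] [Algebra F Ψ] (A : Subring Ψ)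
    {P : F[X]} (hP : P.Monic) (hc : ∀ j, algebraMap F Ψ (P.coeff j) ∈ A) {z : Ψ}
    (hz : Polynomial.aeval z P = 0) : IsIntegral A z := by
  have hl : P.map (algebraMap F Ψ) ∈ Polynomial.lifts (algebraMap A Ψ) := by
    rw [Polynomial.lifts_iff_coeff_lifts]
    intro j
    rw [Polynomial.coeff_map]
    exact ⟨⟨_, hc j⟩, rfl⟩
  obtain ⟨Q, hQ, -, hQm⟩ := Polynomial.lifts_and_degree_eq_and_monic hl (hP.map _)
  refine ⟨Q, hQm, ?_⟩
  rw [← Polynomial.eval_map, hQ, Polynomial.eval_map_algebraMap, hz]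

/-- eigenvalues of `h δ i` are integral over `κ[t̄]` -/
theorem SF.isIntegral_theta (S : SF X k Fb Ω) {ι : Type} [Fintype ι] {b : ι → N} {c : E}
    {δb : Fin n → Module.End Fb (ι → Fb)} (hred : ∀ i, Red S.rI b (X.δ c i) (δb i))
    (hc : ∀ i j, δb i * δb j = δb j * δb i) {t : E} {tb : Ω} (ht : S.pl.Sp t tb)
    (hI : ∀ (T : AddMonoid.End N) (Tb : Module.End Fb (ι → Fb)), Red S.rI b T Tb →
      Set.MapsTo T (Bt K N t) (Bt K N t) →
      ∃ P : Fb[X], P.Monic ∧ (∀ j, P.coeff j ∈ X.kt S.rI t) ∧ Polynomial.aeval Tb P = 0)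
    (h : X.v.integer) (i : Fin n) (hB : ∀ z ∈ Bt K N t, h • X.δ c i z ∈ Bt K N t)
    {θ : Fin n → Ω} (hθ : θ ∈ Theta Fb Ω δb) :
    IsIntegral (Algebra.adjoin S.κ {tb}) (algebraMap Fb Ω (S.rI h) * θ i) := by
  obtain ⟨P, hP, hPc, hP0⟩ := hI _ _ ((Red.sc S.rI b h).mul (hred i)) (fun z hz => hB z hz)
  exact isIntegral_of_coeff (Algebra.adjoin S.κ {tb}).toSubring hP (fun j => S.kt_le ht (hPc j))
    (Theta.aeval_mul_eq_zero hc hθ _ i hP0)

end Crest.Agent.T170.Fr
end

-- ▼ part T170/CoreK8_20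
section

/-!
# Row 170 (helper20): assembly of the core, part 2
-/

set_option autoImplicit false
set_option linter.unusedSectionVars false

namespace Crest.Agent.T170.Fr

open scoped NNReal Polynomial Classical
open Module Crest.Agent.T170.DM Crest.Agent.T170.Bad CoreData

section

variable {p n : ℕ} [NeZero n] {R C K E N : Type} [CommRing R] [Field C] [Field K]
  [Field E] [Field N] [Algebra C K] [Algebra K E] [Algebra E N] [Algebra C E] [Algebra C N]
  [Algebra K N] [Algebra R C] [Algebra R E] [IsScalarTower R C E]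

variable [IsScalarTower C K E] [IsScalarTower K E N] [IsScalarTower C E N]
  {X : CoreData p n R C K E N}

theorem smul_mem_Bt {t a : E}
    (ha : IsIntegral (Algebra.adjoin K {algebraMap E N t}) (algebraMap E N a)) {z : N}
    (hz : z ∈ Bt K N t) : a • z ∈ Bt K N t := by
  rw [mem_Bt, Algebra.smul_def]
  exact ha.mul hz

theorem isIntegral_K (t : E) (a : K) :
    IsIntegral (Algebra.adjoin K {algebraMap E N t}) (algebraMap E N (algebraMap K E a)) := by
  rw [← IsScalarTower.algebraMap_apply]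
  exact isIntegral_algebraMap
    (x := (⟨_, Subalgebra.algebraMap_mem _ a⟩ : Algebra.adjoin K {algebraMap E N t}))

theorem δ_mem_Bt {t h : E} (c₀ : C) (i : Fin n)
    (hh : ∀ z : N, IsIntegral (Algebra.adjoin K {algebraMap E N t}) z →
      IsIntegral (Algebra.adjoin K {algebraMap E N t}) (h • X.D i z)) {z : N}
    (hz : z ∈ Bt K N t) : h • X.δ (algebraMap C E c₀) i z ∈ Bt K N t := by
  rw [δ_apply, smul_comm, IsScalarTower.algebraMap_apply C K E]
  exact smul_mem_Bt (isIntegral_K t _) (hh z hz)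

variable {k Fb Ω : Type} [Field k] [Field Fb] [Field Ω]
  [Algebra k Ω] [Algebra Fb Ω] [Algebra R k] [Algebra R Ω] [IsScalarTower R k Ω]

theorem val_mul_not_lt {Ψ : Type} [Field Ψ] (w : ValuationSubring Ψ) {s t : Ψ}
    (hs : ¬ w.valuation s < 1) (ht : ¬ w.valuation t < 1) : s * t ∉ w.nonunits := by
  rw [ValuationSubring.mem_nonunits_iff, map_mul, not_lt]
  exact one_le_mul (not_lt.1 hs) (not_lt.1 ht)

/-- the pre-idempotents on the two charts -/
theorem SF.exists_ops [IsAlgClosed Ω] (S : SF X k Fb Ω) {ι : Type} [Fintype ι]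
    {b : ι → N} (c₀ : C) {δb : Fin n → Module.End Fb (ι → Fb)}
    (hred : ∀ i, Red S.rI b (X.δ (algebraMap C E c₀) i) (δb i))
    (hc : ∀ i j, δb i * δb j = δb j * δb i)
    (hZ : ∀ w : ValuationSubring Ω, (∀ z : S.κ, (z : Ω) ∈ w) → ∀ θ ∈ Theta Fb Ω δb, θ ≠ 0 →
      ∃ i, ¬ (w.valuation (S.xb - algebraMap k Ω (S.ab i)) < 1 ∧
        w.valuation (S.yb - algebraMap k Ω (S.bb i)) < 1) ∧ ¬ w.valuation (θ i) < 1) :
    (∃ (T : AddMonoid.End N) (Tb : Module.End Fb (ι → Fb)),
      T ∈ opRing X.v.integer (X.δ (algebraMap C E c₀)) ∧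
      Set.MapsTo T (Bt K N X.x) (Bt K N X.x) ∧ Red S.rI b T Tb ∧ IsPre δb Tb) ∧
    ∃ (T : AddMonoid.End N) (Tb : Module.End Fb (ι → Fb)),
      T ∈ opRing X.v.integer (X.δ (algebraMap C E c₀)) ∧
      Set.MapsTo T (Bt K N X.x⁻¹) (Bt K N X.x⁻¹) ∧ Red S.rI b T Tb ∧ IsPre δb Tb := by
  have hκ : ∀ (t : E) (w : ValuationSubring Ω),
      (∀ a ∈ K5.stabRing X.v.integer (Bt K N t), algebraMap Fb Ω (S.rI a) ∈ w) →
      ∀ z : S.κ, (z : Ω) ∈ w := by
    intro t w hw z
    obtain ⟨z', hz'⟩ := (S.mem_κ _).1 z.2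
    have := hw ⟨algebraMap K E z', S.v_le hz'⟩ fun u hu => smul_mem_Bt (isIntegral_K t z') hu
    rwa [S.rI_eq (a := ⟨algebraMap K E z', S.v_le hz'⟩) hz'] at this
  have hx0 := S.xb_ne_zero
  constructor
  · refine K5.exists_chart_op (Ψ := Ω) (J := Fin n × Bool) S.rI b _ δb hred hc _ Prod.fst
      (fun j => if j.2 then ⟨_, S.v_le (S.sp_x_sub j.1)⟩ else ⟨_, S.v_le (S.sp_y_sub j.1)⟩) ?_ ?_
    · rintro ⟨i, _ | _⟩ z hz
      · exact δ_mem_Bt c₀ i (X.pres₀ i _ (Or.inr rfl)) hz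
      · exact δ_mem_Bt c₀ i (X.pres₀ i _ (Or.inl rfl)) hz
    · intro θ hθ h0 w hw
      obtain ⟨i, hi, hi'⟩ := hZ w (hκ _ w hw) θ hθ h0
      rcases not_and_or.1 hi with h | h
      · refine ⟨(i, true), ?_⟩
        simp only [if_true]
        rw [S.rI_eq (a := ⟨_, S.v_le (S.sp_x_sub i)⟩) (S.sp_x_sub i)]
        exact val_mul_not_lt w h hi'
      · refine ⟨(i, false), ?_⟩
        simp only [Bool.false_eq_true, if_false]
        rw [S.rI_eq (a := ⟨_, S.v_le (S.sp_y_sub i)⟩) (S.sp_y_sub i)]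
        exact val_mul_not_lt w h hi'
  · have s1 : ∀ i, S.pl.Sp (1 - algebraMap K E (X.a i) / X.x)
        (1 - algebraMap k Ω (S.ab i) / S.xb) := fun i =>
      Ell.Place.sp_one.sub ((S.sp_a i).div S.sp_x hx0)
    have s2 : ∀ i, S.pl.Sp ((X.y - algebraMap K E (X.b i)) / X.x ^ 2)
        ((S.yb - algebraMap k Ω (S.bb i)) / S.xb ^ 2) := fun i =>
      (S.sp_y_sub i).div (S.sp_x.pow 2) (pow_ne_zero 2 hx0)
    have hp : ∀ i, ∀ h ∈ ({1 - algebraMap K E (X.a i) / X.x,
        (X.y - algebraMap K E (X.b i)) / X.x ^ 2} : Set E), ∀ z : N,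
        IsIntegral (Algebra.adjoin K {algebraMap E N X.x⁻¹}) z →
        IsIntegral (Algebra.adjoin K {algebraMap E N X.x⁻¹}) (h • X.D i z) := by
      rw [map_inv₀]
      exact X.pres₁
    refine K5.exists_chart_op (Ψ := Ω) (J := Fin n × Bool) S.rI b _ δb hred hc _ Prod.fst
      (fun j => if j.2 then ⟨_, S.v_le (s1 j.1)⟩ else ⟨_, S.v_le (s2 j.1)⟩) ?_ ?_
    · rintro ⟨i, _ | _⟩ z hz
      · exact δ_mem_Bt c₀ i (hp i _ (Or.inr rfl)) hz
      · exact δ_mem_Bt c₀ i (hp i _ (Or.inl rfl)) hz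
    · intro θ hθ h0 w hw
      obtain ⟨i, hi, hi'⟩ := hZ w (hκ _ w hw) θ hθ h0
      by_cases h : w.valuation (1 - algebraMap k Ω (S.ab i) / S.xb) < 1
      · refine ⟨(i, false), ?_⟩
        simp only [Bool.false_eq_true, if_false]
        rw [S.rI_eq (a := ⟨_, S.v_le (s2 i)⟩) (s2 i)]
        refine val_mul_not_lt w (fun h' => hi ?_) hi'
        have ha : w.valuation (algebraMap k Ω (S.ab i)) ≤ 1 :=
          (w.valuation_le_one_iff _).2 (hκ _ w hw ⟨_, S.κ.algebraMap_mem _⟩)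
        have hq : w.valuation (algebraMap k Ω (S.ab i) / S.xb) = 1 := by
          have := w.valuation.map_one_sub_of_lt h
          rwa [sub_sub_cancel] at this
        have hxv : w.valuation S.xb ≤ 1 := by
          rw [map_div₀, div_eq_one_iff_eq ((Valuation.ne_zero_iff _).2 hx0)] at hq
          exact hq ▸ ha
        constructor
        · have e : S.xb - algebraMap k Ω (S.ab i) =
              S.xb * (1 - algebraMap k Ω (S.ab i) / S.xb) := by field_simp
          rw [e, map_mul]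
          exact lt_of_le_of_lt (mul_le_of_le_one_left' hxv) h
        · have e : S.yb - algebraMap k Ω (S.bb i) =
              S.xb ^ 2 * ((S.yb - algebraMap k Ω (S.bb i)) / S.xb ^ 2) := by field_simp
          rw [e, map_mul, map_pow]
          exact lt_of_le_of_lt (mul_le_of_le_one_left' (pow_le_one' hxv 2)) h'
      · refine ⟨(i, true), ?_⟩
        simp only [if_true]
        rw [S.rI_eq (a := ⟨_, S.v_le (s1 i)⟩) (s1 i)]
        exact val_mul_not_lt w h hi'

end

end Crest.Agent.T170.Fr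
end

-- ▼ part T170/CoreK3_9
section

/-!
# Row 170 (T170), task K3 (helper9): the optimal scalar and a `γ`-stable common lattice

`lat_of` : the conclusion of `LatStmt` from `SlopeStmt`, `CommonStmt`, `EigStmt` and the two facts
(c), (d) of K1.
-/

set_option autoImplicit false

namespace Crest.Agent.T170.Fr

open scoped NNReal Polynomial
open Module Crest.Agent.T170.DM

/-- symmetrisation of a stable lattice under a semilinear automorphism of finite order -/
theorem exists_symm_lattice {O E V ι Γ : Type*} [CommRing O] [Field E] [Algebra O E]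
    [AddCommGroup V] [Module E V] [Module O V] [IsScalarTower O E V] [Group Γ]
    (act : Γ →* AddMonoid.End V) (γ : Γ) (hγ : IsOfFinOrder γ) (π : O)
    (δ : ι → AddMonoid.End V) (hconn : ∀ i, IsConn π 1 (δ i))
    (hsemi : ∀ a : O, ∃ a' : O, ∀ z, act γ (a • z) = a' • act γ z)
    (hrot : ∀ i, ∃ i', ∀ z, δ i (act γ z) = act γ (δ i' z))
    (L : Submodule O V) (hL : L.IsLattice E) (hst : ∀ i, Stab L (δ i)) :
    ∃ L' : Submodule O V, L'.IsLattice E ∧ (∀ i, Stab L' (δ i)) ∧
      ∀ z, act γ z ∈ L' ↔ z ∈ L' := by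
  obtain ⟨s, hs⟩ := hL.fg
  have hsemi' : ∀ g ∈ Submonoid.powers γ, ∀ a : O, ∃ a' : O, ∀ z,
      act g (a • z) = a' • act g z := by
    rintro _ ⟨j, rfl⟩
    induction j with
    | zero => exact fun a => ⟨a, fun z => by simp⟩
    | succ j ih =>
      intro a
      obtain ⟨a1, h1⟩ := hsemi a
      obtain ⟨a2, h2⟩ := ih a1
      refine ⟨a2, fun z => ?_⟩
      show act (γ ^ (j + 1)) (a • z) = a2 • act (γ ^ (j + 1)) z
      rw [pow_succ, map_mul, End_mul_apply, End_mul_apply, h1]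
      exact h2 _
  have hrot' : ∀ g ∈ Submonoid.powers γ, ∀ i, ∃ i', ∀ z, δ i (act g z) = act g (δ i' z) := by
    rintro _ ⟨j, rfl⟩
    induction j with
    | zero => exact fun i => ⟨i, fun z => by simp⟩
    | succ j ih =>
      intro i
      obtain ⟨i1, h1⟩ := ih i
      obtain ⟨i2, h2⟩ := hrot i1
      refine ⟨i2, fun z => ?_⟩
      show δ i (act (γ ^ (j + 1)) z) = act (γ ^ (j + 1)) (δ i2 z)
      rw [pow_succ, map_mul, End_mul_apply, End_mul_apply, ← h2]
      exact h1 _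
  let S : Set V := Set.image2 (fun g x => act g x) (Submonoid.powers γ : Set Γ) (s : Set V)
  have hS : S.Finite := Set.Finite.image2 _ hγ.finite_powers s.finite_toSet
  have hle : L ≤ Submodule.span O S := by
    rw [← hs]
    refine Submodule.span_mono fun x hx => ?_
    exact ⟨1, (Submonoid.powers γ).one_mem, x, hx, by simp⟩
  have hA : ∀ g ∈ Submonoid.powers γ, ∀ z ∈ Submodule.span O S, act g z ∈ Submodule.span O S := by
    intro g hg z hz
    induction hz using Submodule.span_induction with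
    | mem x hx =>
      obtain ⟨h, hh, y, hy, rfl⟩ := hx
      refine Submodule.subset_span ⟨g * h, (Submonoid.powers γ).mul_mem hg hh, y, hy, ?_⟩
      show act (g * h) y = act g (act h y)
      rw [map_mul, End_mul_apply]
    | zero => rw [map_zero]; exact Submodule.zero_mem _
    | add x y _ _ hx hy => rw [map_add]; exact Submodule.add_mem _ hx hy
    | smul a x _ hx =>
      obtain ⟨a', ha'⟩ := hsemi' g hg a
      rw [ha']
      exact Submodule.smul_mem _ _ hx
  refine ⟨Submodule.span O S,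
    Submodule.IsLattice.of_le_of_isLattice_of_fg E hle (Submodule.fg_span hS), fun i => ?_,
    fun z => ⟨fun hz => ?_, hA γ (Submonoid.mem_powers γ) z⟩⟩
  · refine (hconn i).map_span (L := Submodule.span O S) Submodule.subset_span ?_
    rintro _ ⟨g, hg, x, hx, rfl⟩
    obtain ⟨i', hi'⟩ := hrot' g hg i
    show δ i (act g x) ∈ _
    rw [hi']
    exact hA g hg _ (hle (hst i' x (hs ▸ Submodule.subset_span hx)))
  · have h1 : γ⁻¹ ∈ Submonoid.powers γ :=
      hγ.mem_powers_iff_mem_zpowers.2 ((Subgroup.zpowers γ).inv_mem (Subgroup.mem_zpowers γ))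
    have h2 := hA _ h1 _ hz
    rwa [← End_mul_apply, ← map_mul, inv_mul_cancel, map_one] at h2

/-- algebra automorphisms as additive endomorphisms -/
def actEnd (C N : Type*) [Field C] [Field N] [Algebra C N] : (N ≃ₐ[C] N) →* AddMonoid.End N where
  toFun g := (g : N →+* N).toAddMonoidHom
  map_one' := rfl
  map_mul' _ _ := rfl


section
variable {p n : ℕ} [NeZero n] {R C K E N : Type} [CommRing R] [Field C] [Field K]
  [Field E] [Field N] [Algebra C K] [Algebra K E] [Algebra E N] [Algebra C E] [Algebra C N]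
  [Algebra K N] [Algebra R C] [Algebra R E] [IsScalarTower R C E]
  [IsScalarTower C E N] (X : CoreData p n R C K E N)

omit [IsScalarTower C E N] in
theorem CoreData.vConn_of
    (hd : ∀ i (z : E), ∃ z' : E, X.D i (algebraMap E N z) = algebraMap E N z' ∧ X.v z' ≤ X.v z)
    (i : Fin n) : VConn X.v (X.Dop i) := by
  intro a
  obtain ⟨a', h1, h2⟩ := hd i a
  refine ⟨a', h2, fun z => ?_⟩
  rw [CoreData.Dop_apply, CoreData.Dop_apply, Algebra.smul_def, Derivation.leibniz, h1,
    Algebra.smul_def a, Algebra.smul_def a', smul_eq_mul, smul_eq_mul, mul_comm z]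

theorem CoreData.Dop_const (c : C) (i : Fin n) (z : N) :
    X.Dop i (algebraMap C E c • z) = algebraMap C E c • X.Dop i z := by
  rw [CoreData.Dop_apply, CoreData.Dop_apply, algebraMap_smul, algebraMap_smul,
    Derivation.map_smul]

omit [IsScalarTower C E N] in
theorem CoreData.γ_smul (a : E) (z : N) : X.γ (a • z) = X.γE a • X.γ z := by
  rw [Algebra.smul_def, Algebra.smul_def, map_mul, X.γγE]

variable [IsScalarTower C K E] [IsScalarTower K E N] [IsScalarTower C K N]
  [IsAlgClosed C] [CharZero C] [FiniteDimensional E N] [IsGalois E N]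

/-- the conclusion of `LatStmt` from K1 (c), (d) -/
theorem lat_of (hp : p.Prime) (hS : SlopeStmt) (hC : CommonStmt) (hE : EigStmt p)
    (hc : ∀ z : E, ∃ c : C, X.v (algebraMap C E c) = X.v z)
    (hd : ∀ i (z : E), ∃ z' : E, X.D i (algebraMap E N z) = algebraMap E N z' ∧ X.v z' ≤ X.v z) :
    ∃ (c : X.v.integer) (c₀ : C) (b : Basis (Fin (finrank E N)) E N),
      algebraMap C E c₀ = c ∧ c ≠ 0 ∧ X.v c < 1 ∧
      (∀ i, Stab (lat X.v.integer b) (X.δ c i)) ∧
      (∃ i z, ¬ TNil c (lat X.v.integer b) (X.δ c i) z) ∧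
      ∀ z, X.γ z ∈ lat X.v.integer b ↔ z ∈ lat X.v.integer b := by
  have : CharZero E := charZero_of_injective_algebraMap (algebraMap C E).injective
  have hV := X.vConn_of hd
  have hp0 : 0 < X.v (p : E) := by
    rw [pos_iff_ne_zero, Ne, Valuation.zero_iff]
    exact_mod_cast hp.ne_zero
  have hda : 0 < X.v (algebraMap K E (X.d X.i₀ (X.a X.i₀))) := hp0.trans X.big
  obtain ⟨c, ⟨c₀, rfl⟩, hc0, hc1, hst, hnil⟩ := hS E N (Fin n) X.v X.Dop
    (algebraMap C E).fieldRange hV
    (by rintro _ ⟨c₀, rfl⟩ i z; exact X.Dop_const c₀ i z)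
    (fun a j hj => by
      obtain ⟨c₁, h1⟩ := hc a
      obtain ⟨c₂, h2⟩ := IsAlgClosed.exists_pow_nat_eq c₁ hj
      exact ⟨algebraMap C E c₂, ⟨c₂, rfl⟩, by rw [← map_pow, ← map_pow, h2, h1]⟩)
    ⟨(p : E), hp0, X.vp⟩
    ⟨X.v (p : E) / X.v (algebraMap K E (X.d X.i₀ (X.a X.i₀))), (div_lt_one hda).2 X.big, by
      rintro _ ⟨c₀, rfl⟩ h
      exact (le_div_iff₀ hda).2 (hE n R C K E N X c₀ (h X.i₀))⟩
  let c : X.v.integer := ⟨algebraMap C E c₀, hc1.le⟩
  have hcu : ¬ IsUnit c := (int_nonunit_iff X.v c).2 hc1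
  have hcne : c ≠ 0 := by
    intro h
    have h1 : algebraMap C E c₀ = 0 := congrArg Subtype.val h
    rw [h1, map_zero] at hc0
    exact lt_irrefl _ hc0
  have hconn : ∀ i, IsConn c 1 (X.δ c i) := fun i => (hV i).isConn X.v c (X.Dop_const c₀ i)
  obtain ⟨L, hL, hLst⟩ := hC X.v.integer E N (Fin n) c (X.δ c) (int_arch X.v) hcne hcu hconn
    (fun i j => AddMonoidHom.ext fun z => by
      show algebraMap C E c₀ • X.Dop i (algebraMap C E c₀ • X.Dop j z) =
        algebraMap C E c₀ • X.Dop j (algebraMap C E c₀ • X.Dop i z)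
      rw [X.Dop_const, X.Dop_const, CoreData.Dop_apply, CoreData.Dop_apply, CoreData.Dop_apply,
        CoreData.Dop_apply, X.Dcomm])
    hst
  obtain ⟨L', hL', hst', hγ'⟩ := exists_symm_lattice (E := E) (actEnd C N) X.γ X.γfin c (X.δ c)
    hconn
    (fun a => ⟨⟨X.γE a, by
      show X.v (X.γE a) ≤ 1
      rw [X.vγ]
      exact a.2⟩, fun z => X.γ_smul a z⟩)
    (fun i => ⟨i - 1, fun z => by
      show algebraMap C E c₀ • X.D i (X.γ z) = X.γ (algebraMap C E c₀ • X.D (i - 1) z)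
      rw [X.γ_smul, AlgEquiv.commutes, X.γD, sub_add_cancel]⟩)
    L hL hLst
  obtain ⟨b, hb⟩ := exists_basis (ι := Fin (finrank E N)) (K := E) L' hL' (by simp)
  refine ⟨c, c₀, b, rfl, hcne, hc1, ?_, ?_, ?_⟩
  · rw [hb]
    exact hst'
  · rw [hb]
    exact hnil c L' hcu hL'
  · rw [hb]
    exact hγ'

end

end Crest.Agent.T170.Fr
end

-- ▼ part T170/CoreK9_20

/-!
# Row 170 (helper20): assembly of the core, part 3
-/

set_option autoImplicit false
set_option linter.unusedSectionVars false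

namespace Crest.Agent.T170.Fr

open scoped NNReal Polynomial Classical
open Module Crest.Agent.T170.DM Crest.Agent.T170.Bad CoreData

/-- degree over `κ(x̄)` of a root of a polynomial over `Fb` -/
def DegStmt : Prop :=
  ∀ (p n : ℕ) [NeZero n] (R C K E N : Type) [CommRing R] [Field C] [Field K]
    [Field E] [Field N] [Algebra C K] [Algebra K E] [Algebra E N] [Algebra C E] [Algebra C N]
    [Algebra K N] [Algebra R C] [Algebra R E] [IsScalarTower R C E]
    (X : CoreData p n R C K E N) (k Fb Ω : Type) [Field k] [Field Fb] [Field Ω]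
    [Algebra k Ω] [Algebra Fb Ω] [Algebra R k] [Algebra R Ω] [IsScalarTower R k Ω]
    (S : SF X k Fb Ω) (P : Fb[X]) (z : Ω), P ≠ 0 → Polynomial.aeval z P = 0 →
    (minpoly (IntermediateField.adjoin S.κ {S.xb}) z).natDegree ≤ 2 * P.natDegree

theorem coreStmt_of {p : ℕ} (hp : p.Prime) (hS : SlopeStmt) (hC : CommonStmt) (hE : EigStmt p)
    (hG : GagaStmt p) (hI : IntStmt p) (hR : RotStmt) (hT : ThetaRot) (hSF : SFStmt)
    (hD : DegStmt) (hZ : ZStmt) (hF : FinalStmt) : CoreStmt p := by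
  intro n _ R C K E N _ _ _ _ _ _ _ _ _ _ _ _ _ _ _ _ _ _ _ _ _ _ ⟨X⟩ hn
  haveI : Fact p.Prime := ⟨hp⟩
  have hd : ∀ i (z : E), ∃ z' : E, X.D i (algebraMap E N z) = algebraMap E N z' ∧
      X.v z' ≤ X.v z := fun i z => ⟨_, X.D_algebraMap i z, X.v_dE i z⟩
  obtain ⟨c, c₀, b, hc₀, hc0, hc1, hstab, hnil, hγ⟩ := lat_of X hp hS hC hE X.exists_val_eq hd
  obtain ⟨k, Fb, Ω, _, _, _, _, _, _, _, _, _, hcl, hch, -, _, ⟨S⟩⟩ := hSF p n R C K E N X
  haveI : IsAlgClosed Ω := IsAlgClosure.isAlgClosed Fb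
  haveI := X.ell
  have hconst : ∀ (e : C) i z, X.δ c i (algebraMap C E e • z) = algebraMap C E e • X.δ c i z := by
    intro e i z
    rw [δ, scK_apply, scK_apply, X.Dop_const, smul_comm]
  have hconn : ∀ i, IsConn c 1 (X.δ c i) := fun i =>
    (X.vConn_of hd i).isConn X.v c fun z => by rw [← hc₀]; exact X.Dop_const c₀ i z
  have hcomm : ∀ i j, X.δ c i * X.δ c j = X.δ c j * X.δ c i := by
    intro i j
    refine AddMonoidHom.ext fun z => ?_
    show X.δ c i ((c : E) • X.D j z) = X.δ c j ((c : E) • X.D i z)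
    have h1 := hconst c₀
    rw [hc₀] at h1
    rw [h1, h1, δ_apply, δ_apply, X.Dcomm]
  have hcu : ¬ IsUnit c := (int_nonunit_iff X.v c).2 hc1
  have hrc : S.rI c = 0 := (S.rI_eq_zero c).2 hcu
  choose A hA using fun i => exists_isMat (hstab i)
  let δb : Fin n → Module.End Fb (Fin (finrank E N) → Fb) := fun i =>
    Matrix.toLin' ((A i).map S.rI)
  have hred : ∀ i, Red S.rI b (X.δ c i) (δb i) := fun i => (hA i).red (hconn i) hrc
  have hcb : ∀ i j, δb i * δb j = δb j * δb i := fun i j =>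
    Red.unique S.rI_surj (vec_injective b) ((hred i).mul (hred j))
      (by rw [hcomm]; exact (hred j).mul (hred i))
  have hset : Setup p X.v.integer S.rI c (X.δ c) :=
    { arch := int_arch X.v
      surj := S.rI_surj
      ker := S.rI_eq_zero
      char := hch
      pi_ne := hc0
      pi_nonunit := hcu
      pi_split := by
        obtain ⟨e, he⟩ := IsAlgClosed.exists_pow_nat_eq c₀ two_pos
        have h1 : X.v (algebraMap C E e) ^ 2 = X.v c := by rw [← map_pow, ← map_pow, he, hc₀]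
        have h2 : X.v (algebraMap C E e) < 1 := by
          by_contra h
          exact absurd (h1 ▸ one_le_pow₀ (not_lt.1 h)) (not_le.2 hc1)
        refine ⟨⟨_, h2.le⟩, ⟨_, h2.le⟩, (int_nonunit_iff X.v _).2 h2,
          (int_nonunit_iff X.v _).2 h2, Subtype.ext ?_⟩
        show (c : E) = algebraMap C E e * algebraMap C E e
        rw [← map_mul, ← pow_two, he, hc₀]
      conn := hconn
      comm := hcomm
      cst := fun a => by
        obtain ⟨e, he⟩ := X.exists_val_eq a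
        exact ⟨⟨algebraMap C E e, he.le.trans a.2⟩, fun i z => hconst e i z,
          (int_associated_iff X.v _ _).2 he.symm⟩ }
  -- the spectrum
  have hfin := Theta.finite (Ψ := Ω) hcb
  obtain ⟨τb, hτ1, hτ2⟩ := S.exists_τb
  obtain ⟨T, hT1, hT2⟩ := hR X.v.integer E N Fb _ n S.rI S.rI_surj X.τ τb hτ1 b
    X.γ.toRingEquiv.toAddEquiv (fun a z => X.γ_smul a z) hγ (X.δ c) δb hred (fun i z => by
      show X.γ ((c : E) • X.D i z) = (c : E) • X.D (i + 1) (X.γ z)
      rw [X.γ_smul, X.γD, ← hc₀, AlgEquiv.commutes])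
  have hI' := hI n R C K E N X Fb _ S.rI S.rI_surj S.rI_eq_zero b
  have hx0 := S.xb_ne_zero
  have hp₁ : ∀ i, ∀ z : N, IsIntegral (Algebra.adjoin K {algebraMap E N X.x⁻¹}) z →
      IsIntegral (Algebra.adjoin K {algebraMap E N X.x⁻¹})
        ((1 - algebraMap K E (X.a i) / X.x) • X.D i z) := by
    rw [map_inv₀]
    exact fun i => X.pres₁ i _ (Or.inl rfl)
  have hbad := hZ R k Ω S.κ X.W n (finrank E N) S.xb S.yb S.nsb S.Pb S.ord S.ab S.bb S.nsab S.Ob
    S.gb S.gb_κ S.gb_ξ S.Vb S.Vb_k S.Vb_res S.Vb_g hfin.toFinset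
    (by
      rw [← Set.ncard_eq_toFinset_card _ hfin]
      simpa using Theta.ncard_le (Ψ := Ω) hcb)
    (fun θ hθ => hfin.mem_toFinset.2
      (hT Fb Ω _ n τb S.gb.toRingEquiv hτ2 δb hcb T hT1 hT2 θ (hfin.mem_toFinset.1 hθ)))
    (by
      intro θ hθ i hi
      have hθ' := hfin.mem_toFinset.1 hθ
      have s1 : S.pl.Sp (1 - algebraMap K E (X.a i) / X.x)
          (1 - algebraMap k Ω (S.ab i) / S.xb) :=
        Ell.Place.sp_one.sub ((S.sp_a i).div S.sp_x hx0)
      have i0 := S.isIntegral_theta hred hcb S.sp_x (hI' _ (Or.inl rfl))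
        ⟨_, S.v_le (S.sp_x_sub i)⟩ i
        (fun z hz => by rw [← hc₀]; exact δ_mem_Bt c₀ i (X.pres₀ i _ (Or.inl rfl)) hz) hθ'
      have i1 := S.isIntegral_theta hred hcb (S.sp_x.inv hx0) (hI' _ (Or.inr rfl))
        ⟨_, S.v_le s1⟩ i (fun z hz => by rw [← hc₀]; exact δ_mem_Bt c₀ i (hp₁ i) hz) hθ'
      rw [S.rI_eq (a := ⟨_, S.v_le (S.sp_x_sub i)⟩) (S.sp_x_sub i)] at i0
      rw [S.rI_eq (a := ⟨_, S.v_le s1⟩) s1, div_eq_mul_inv] at i1
      have hdeg := hD p n R C K E N X k Fb Ω S _ _ (LinearMap.charpoly_monic _).ne_zero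
        (Theta.aeval_charpoly_self hcb hθ' i)
      rw [LinearMap.charpoly_natDegree, finrank_fin_fun] at hdeg
      obtain ⟨β, hβ0, hβ1, hβ2⟩ := exists_beta S.trans (algebraMap k S.κ (S.ab i)) hi hdeg i0 i1
      refine ⟨β, hβ0, hβ1, fun w hw hx hv => ?_⟩
      refine (ValuationSubring.mem_nonunits_iff w).1 (hβ2 w hw hx (mul_mem_nonunits w ?_ ?_))
      · exact sub_mem hx (hw _)
      · exact (ValuationSubring.mem_nonunits_iff w).2 hv)
    hn
  obtain ⟨⟨T₀, Tb₀, a1, a2, a3, a4⟩, T₁, Tb₁, b1, b2, b3, b4⟩ :=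
    S.exists_ops c₀ (by rw [hc₀]; exact hred) hcb
      (fun w hw θ hθ h0 => hbad w hw θ (hfin.mem_toFinset.2 hθ) h0)
  rw [hc₀] at a1 b1
  obtain ⟨W, w1, w2, w3⟩ := hF p X.v.integer E N Fb _ _ S.rI c (X.δ c) hset
    (fun i x y => by
      rw [δ_apply, δ_apply, δ_apply, Derivation.leibniz, smul_add, smul_eq_mul, smul_eq_mul,
        Algebra.smul_def, Algebra.smul_def, Algebra.smul_def, Algebra.smul_def]
      ring)
    (fun i g z => by rw [δ_apply, δ_apply, map_smul, X.D_comm_aut])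
    b δb hred hnil _ _ (fun ϖ h0 h1 _ => hG n R C K E N X _ b ϖ h0 h1) T₀ T₁ Tb₀ Tb₁ a1 b1 a2 b2
    a3 b3 a4 b4
  exact ⟨W, w1, w3, w2⟩

end Crest.Agent.T170.Fr
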