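import Mathlib
import Crest.Agent.T170.DM2_38
import Crest.Agent.T170.Fr_20

-- ▼ part T170/Gaga_13
section

/-!
# Row 170 (T170): GAGA on the line by the trace form (helper13)

`K` is a complete valued field, `F = K(x)` carries the Gauss valuation `w`, `N / F` is finite
separable.

* `Cpl v`, `Gauss v w x`, `IsInt N x z` (`z` integral over `K[x]`), `Null w z` (the sequence `z`
  of `N` tends to zero weakly, i.e. for all lattices);
* `poly_limit` : polynomials which are Gauss-Cauchy and close to `x^M K[1/x]` converge to a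
  polynomial;
* `exists_limit` : the same for sequences of `N`;
* `gaga` : two asymptotically equal, asymptotically linear Cauchy sequences of additive operators,
  preserving the integral closures of `K[x]`, resp. `K[1/x]`, converge to an `F`-linear operator;
* `Bdd`, `null_of_bdd`, `Null.eventually_coord` : comparison with lattices.
-/

set_option autoImplicit false
open scoped BigOperators NNReal Topology
open Polynomial Filter

namespace Crest.Agent.T170.Gaga13

section Poly
variable {K F : Type*} [Field K] [Field F] [Algebra K F]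

/-- sequential completeness of a valued field -/
def Cpl (v : Valuation K ℝ≥0) : Prop :=
  ∀ a : ℕ → K, Tendsto (fun k => v (a (k + 1) - a k)) atTop (𝓝 0) →
    ∃ b, Tendsto (fun k => v (a k - b)) atTop (𝓝 0)

/-- `w` is a Gauss valuation over `v` with respect to `x` -/
def Gauss (v : Valuation K ℝ≥0) (w : Valuation F ℝ≥0) (x : F) : Prop :=
  (∀ a, w (algebraMap K F a) = v a) ∧ w x = 1 ∧ ∀ (f : K[X]) (i : ℕ), v (f.coeff i) ≤ w (aeval x f)

theorem tendsto_zero_of_le {f g : ℕ → ℝ≥0} (hg : Tendsto g atTop (𝓝 0)) (h : ∀ k, f k ≤ g k) :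
    Tendsto f atTop (𝓝 0) :=
  tendsto_of_tendsto_of_tendsto_of_le_of_le tendsto_const_nhds hg (fun _ => zero_le) h

variable {v : Valuation K ℝ≥0} {w : Valuation F ℝ≥0} {x : F}

theorem Gauss.ne_zero (hg : Gauss v w x) : x ≠ 0 := by
  rintro rfl
  have := hg.2.1
  rw [map_zero] at this
  exact zero_ne_one this

theorem Gauss.transcendental (hg : Gauss v w x) : Transcendental K x := by
  rintro ⟨f, hf, h⟩
  apply hf
  ext i
  have := hg.2.2 f i
  rw [h, map_zero, nonpos_iff_eq_zero] at this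
  simpa using this

theorem Gauss.aeval_le (hg : Gauss v w x) (f : K[X]) (t : ℝ≥0) (h : ∀ i, v (f.coeff i) ≤ t) :
    w (aeval x f) ≤ t := by
  rw [aeval_eq_sum_range]
  refine Valuation.map_sum_le _ (fun i _ => ?_)
  rw [Algebra.smul_def, map_mul, map_pow, hg.1, hg.2.1, one_pow, mul_one]
  exact h i

theorem aeval_reflect (hx : x ≠ 0) (d : ℕ) (g : K[X]) (hd : g.natDegree ≤ d) :
    aeval x (reflect d g) = x ^ d * aeval x⁻¹ g := by
  let _ : Invertible x⁻¹ := invertibleOfNonzero (inv_ne_zero hx)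
  have h := eval₂_reflect_mul_pow (algebraMap K F) x⁻¹ d g hd
  rw [invOf_eq_inv, inv_inv] at h
  rw [aeval_def, aeval_def, ← h, mul_comm, mul_assoc, ← mul_pow, inv_mul_cancel₀ hx, one_pow,
    mul_one]

theorem Gauss.inv (hg : Gauss v w x) : Gauss v w x⁻¹ := by
  refine ⟨hg.1, by rw [map_inv₀, hg.2.1, inv_one], fun f i => ?_⟩
  by_cases hi : i ≤ f.natDegree
  · have h := hg.2.2 (reflect f.natDegree f) (f.natDegree - i)
    rw [aeval_reflect hg.ne_zero _ _ le_rfl, map_mul, map_pow, hg.2.1, one_pow, one_mul,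
      coeff_reflect, revAt_le (Nat.sub_le _ _), Nat.sub_sub_self hi] at h
    exact h
  · rw [coeff_eq_zero_of_natDegree_lt (not_le.1 hi), map_zero]
    exact zero_le

/-- the high coefficients are controlled by the distance to `x ^ M K[1/x]` -/
theorem Gauss.coeff_le (hg : Gauss v w x) (M : ℕ) (f g : K[X]) (i : ℕ) (hi : M < i) :
    v (f.coeff i) ≤ w (aeval x f - x ^ M * aeval x⁻¹ g) := by
  have h := hg.2.2 (f * X ^ g.natDegree - X ^ M * reflect g.natDegree g) (i + g.natDegree)
  have h1 : (X ^ M * reflect g.natDegree g : K[X]).coeff (i + g.natDegree) = 0 := by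
    apply coeff_eq_zero_of_natDegree_lt
    have h2 : (reflect g.natDegree g).natDegree ≤ g.natDegree :=
      natDegree_reflect_le.trans (max_le le_rfl le_rfl)
    have h3 : (X ^ M * reflect g.natDegree g : K[X]).natDegree ≤ M + g.natDegree :=
      natDegree_mul_le.trans (add_le_add (natDegree_X_pow_le M) h2)
    omega
  rw [coeff_sub, h1, sub_zero, coeff_mul_X_pow] at h
  have e : aeval x (f * X ^ g.natDegree - X ^ M * reflect g.natDegree g) =
      x ^ g.natDegree * (aeval x f - x ^ M * aeval x⁻¹ g) := by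
    rw [map_sub, map_mul, map_mul, map_pow, map_pow, aeval_X,
      aeval_reflect hg.ne_zero _ _ le_rfl]
    ring
  rw [e, map_mul, map_pow, hg.2.1, one_pow, one_mul] at h
  exact h

/-- **GAGA for polynomials** -/
theorem poly_limit (hc : Cpl v) (hg : Gauss v w x) (M : ℕ) (f g : ℕ → K[X])
    (h1 : Tendsto (fun k => w (aeval x (f k) - x ^ M * aeval x⁻¹ (g k))) atTop (𝓝 0))
    (h2 : Tendsto (fun k => w (aeval x (f (k + 1)) - aeval x (f k))) atTop (𝓝 0)) :
    ∃ f0 : K[X], f0.natDegree ≤ M ∧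
      Tendsto (fun k => w (aeval x (f k) - aeval x f0)) atTop (𝓝 0) := by
  have hb : ∀ i, ∃ b, Tendsto (fun k => v ((f k).coeff i - b)) atTop (𝓝 0) := by
    intro i
    refine hc (fun k => (f k).coeff i) (tendsto_zero_of_le h2 (fun k => ?_))
    rw [← coeff_sub, ← map_sub]
    exact hg.2.2 _ i
  choose b hb using hb
  refine ⟨∑ i ∈ Finset.range (M + 1), monomial i (b i), ?_, ?_⟩
  · refine natDegree_sum_le_of_forall_le _ _ (fun i hi => ?_)
    exact (natDegree_monomial_le _).trans (Nat.lt_succ_iff.1 (Finset.mem_range.1 hi))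
  · have h3 : Tendsto (fun k => w (aeval x (f k) - x ^ M * aeval x⁻¹ (g k)) +
        ∑ i ∈ Finset.range (M + 1), v ((f k).coeff i - b i)) atTop (𝓝 0) := by
      have := h1.add (tendsto_finsetSum (Finset.range (M + 1)) (fun i _ => hb i))
      simpa using this
    refine tendsto_zero_of_le h3 (fun k => ?_)
    rw [← map_sub]
    refine hg.aeval_le _ _ (fun i => ?_)
    rw [coeff_sub, finsetSum_coeff]
    simp only [coeff_monomial]
    rw [Finset.sum_ite_eq']
    split_ifs with hi
    · exact le_add_left (Finset.single_le_sum (f := fun i => v ((f k).coeff i - b i))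
        (fun _ _ => zero_le) hi)
    · rw [sub_zero]
      exact le_add_right (hg.coeff_le M _ _ i (by
        rw [Finset.mem_range] at hi; omega))

end Poly

section Int
variable {K F : Type*} (N : Type*) [Field K] [Field F] [Field N] [Algebra K F] [Algebra F N]

/-- `g ↦ g(x)` in `N` -/
noncomputable def ev (K : Type*) [Field K] [Algebra K F] (x : F) : K[X] →+* N :=
  (algebraMap F N).comp (aeval x : K[X] →ₐ[K] F).toRingHom

theorem ev_apply (x : F) (g : K[X]) : ev N K x g = algebraMap F N (aeval x g) := rfl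

variable {N}

/-- `z` is integral over `K[x]` -/
def IsInt (K : Type*) [Field K] [Algebra K F] (x : F) (z : N) : Prop := (ev N K x).IsIntegralElem z

theorem IsInt.mul {x : F} {z z' : N} (h : IsInt K x z) (h' : IsInt K x z') : IsInt K x (z * z') :=
  RingHom.IsIntegralElem.mul _ h h'

theorem IsInt.add {x : F} {z z' : N} (h : IsInt K x z) (h' : IsInt K x z') : IsInt K x (z + z') :=
  RingHom.IsIntegralElem.add _ h h'

theorem isInt_aeval (x : F) (g : K[X]) : IsInt K x (algebraMap F N (aeval x g)) :=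
  RingHom.isIntegralElem_map _

theorem isFractionRing {x : F} (ht : Transcendental K x)
    (hx : IntermediateField.adjoin K {x} = ⊤) :
    letI := (aeval x : K[X] →ₐ[K] F).toRingHom.toAlgebra
    IsFractionRing K[X] F := by
  let _ := (aeval x : K[X] →ₐ[K] F).toRingHom.toAlgebra
  have : FaithfulSMul K[X] F := by
    rw [faithfulSMul_iff_algebraMap_injective]
    exact transcendental_iff_injective.1 ht
  refine IsFractionRing.of_field K[X] F (fun z => ?_)
  have hz : z ∈ IntermediateField.adjoin K {x} := by rw [hx]; trivial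
  exact (IntermediateField.mem_adjoin_simple_iff K z).1 hz

theorem adjoin_inv {x : F} (hx : IntermediateField.adjoin K {x} = ⊤) :
    IntermediateField.adjoin K {x⁻¹} = ⊤ := by
  rw [eq_top_iff, ← hx, IntermediateField.adjoin_simple_le_iff]
  have := (IntermediateField.adjoin K {x⁻¹}).inv_mem (IntermediateField.mem_adjoin_simple_self K x⁻¹)
  rwa [inv_inv] at this

theorem IsInt.trace [FiniteDimensional F N] {x : F} (ht : Transcendental K x)
    (hx : IntermediateField.adjoin K {x} = ⊤) {z : N} (h : IsInt K x z) :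
    ∃ g : K[X], Algebra.trace F N z = aeval x g := by
  let _ := (aeval x : K[X] →ₐ[K] F).toRingHom.toAlgebra
  have := isFractionRing ht hx
  let _ : Algebra K[X] N := (ev N K x).toAlgebra
  have : IsScalarTower K[X] F N := IsScalarTower.of_algebraMap_eq (fun _ => rfl)
  have h1 : IsIntegral K[X] z := h
  obtain ⟨g, hg⟩ := IsIntegrallyClosed.isIntegral_iff.1 (Algebra.isIntegral_trace (L := F) h1)
  exact ⟨g, hg.symm⟩

theorem exists_isInt_mul [FiniteDimensional F N] {x : F} (ht : Transcendental K x)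
    (hx : IntermediateField.adjoin K {x} = ⊤) (z : N) :
    ∃ g : K[X], g ≠ 0 ∧ IsInt K x (algebraMap F N (aeval x g) * z) := by
  let _ := (aeval x : K[X] →ₐ[K] F).toRingHom.toAlgebra
  have := isFractionRing ht hx
  let _ : Algebra K[X] N := (ev N K x).toAlgebra
  have : IsScalarTower K[X] F N := IsScalarTower.of_algebraMap_eq (fun _ => rfl)
  have h1 : IsAlgebraic K[X] z :=
    (IsFractionRing.isAlgebraic_iff K[X] F N).2 (Algebra.IsAlgebraic.isAlgebraic z)
  obtain ⟨g, hg, h2⟩ := h1.exists_integral_multiple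
  exact ⟨g, hg, h2⟩

/-- an element integral over `K[x]` has a pole of bounded order at infinity -/
theorem IsInt.exists_inv_pow {x : F} (hx : x ≠ 0) {z : N} (h : IsInt K x z) :
    ∃ M : ℕ, IsInt K x⁻¹ (algebraMap F N (x⁻¹ ^ M) * z) := by
  obtain ⟨P, hP, hz⟩ := h
  let M : ℕ := (Finset.range (P.natDegree + 1)).sup (fun i => (P.coeff i).natDegree)
  let Q : K[X][X] := ∑ i ∈ Finset.range (P.natDegree + 1), monomial i (reflect M (P.coeff i))
  have hQc : ∀ i, Q.coeff i = reflect M (P.coeff i) := by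
    intro i
    simp only [Q, finsetSum_coeff, coeff_monomial]
    rw [Finset.sum_ite_eq']
    split_ifs with hi
    · rfl
    · rw [Finset.mem_range] at hi
      rw [coeff_eq_zero_of_natDegree_lt (by omega), reflect_zero]
  have hQd : Q.natDegree = P.natDegree := by
    apply natDegree_eq_of_le_of_coeff_ne_zero
    · rw [natDegree_le_iff_coeff_eq_zero]
      intro i hi
      rw [hQc, coeff_eq_zero_of_natDegree_lt hi, reflect_zero]
    · rw [hQc, Ne, reflect_eq_zero_iff]
      exact hP.coeff_natDegree ▸ one_ne_zero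
  have hQl : Q.leadingCoeff = X ^ M := by
    rw [leadingCoeff, hQd, hQc, hP.coeff_natDegree, reflect_one]
  have hQz : Q.eval₂ (ev N K x⁻¹) z = 0 := by
    rw [eval₂_eq_sum_range] at hz ⊢
    rw [hQd]
    have : ∀ i ∈ Finset.range (P.natDegree + 1), ev N K x⁻¹ (Q.coeff i) * z ^ i =
        algebraMap F N (x⁻¹ ^ M) * (ev N K x (P.coeff i) * z ^ i) := by
      intro i hi
      rw [hQc, ev_apply, ev_apply, aeval_reflect (inv_ne_zero hx) M _
        (Finset.le_sup (f := fun i => (P.coeff i).natDegree) hi), inv_inv, map_mul, mul_assoc]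
    rw [Finset.sum_congr rfl this, ← Finset.mul_sum, hz, mul_zero]
  have h1 := RingHom.isIntegralElem_leadingCoeff_mul (ev N K x⁻¹) Q z hQz
  rw [hQl, ev_apply, map_pow, aeval_X] at h1
  exact ⟨M, h1⟩


/-- a basis consisting of elements integral over `K[x]` -/
theorem exists_basis [FiniteDimensional F N] {x : F} (ht : Transcendental K x)
    (hx : IntermediateField.adjoin K {x} = ⊤) :
    ∃ b : Module.Basis (Fin (Module.finrank F N)) F N, ∀ i, IsInt K x (b i) := by
  let b0 := Module.finBasis F N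
  choose g hg hi using fun i => exists_isInt_mul (K := K) ht hx (b0 i)
  have hne : ∀ i, aeval x (g i) ≠ 0 := fun i h =>
    hg i (transcendental_iff_injective.1 ht (h.trans (map_zero _).symm))
  refine ⟨b0.unitsSMul (fun i => Units.mk0 _ (hne i)), fun i => ?_⟩
  rw [Module.Basis.unitsSMul_apply, Units.smul_def, Units.val_mk0, Algebra.smul_def]
  exact hi i

end Int

section Null
variable {F N : Type*} [Field F] [Field N] [Algebra F N]

/-- the sequence tends to zero weakly -/
def Null (w : Valuation F ℝ≥0) (z : ℕ → N) : Prop :=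
  ∀ b : N, Tendsto (fun k => w (Algebra.trace F N (b * z k))) atTop (𝓝 0)

variable {w : Valuation F ℝ≥0}

theorem Null.zero : Null w (fun _ => (0 : N)) := fun b => by simp

theorem Null.congr {z z' : ℕ → N} (h : Null w z) (e : ∀ k, z k = z' k) : Null w z' := by
  rw [← funext e]; exact h

theorem Null.add {z z' : ℕ → N} (h : Null w z) (h' : Null w z') :
    Null w (fun k => z k + z' k) := by
  intro b
  have := (h b).add (h' b)
  rw [add_zero] at this
  refine tendsto_zero_of_le this (fun k => ?_)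
  rw [mul_add, map_add]
  exact (w.map_add _ _).trans (max_le le_self_add le_add_self)

theorem Null.mul_left {z : ℕ → N} (h : Null w z) (c : N) : Null w (fun k => c * z k) := by
  intro b
  simpa only [mul_assoc] using h (b * c)

theorem Null.neg {z : ℕ → N} (h : Null w z) : Null w (fun k => - z k) :=
  (h.mul_left (-1)).congr (fun k => by simp)

theorem Null.sub {z z' : ℕ → N} (h : Null w z) (h' : Null w z') :
    Null w (fun k => z k - z' k) :=
  (h.add h'.neg).congr (fun k => by rw [sub_eq_add_neg])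

theorem Null.smul {z : ℕ → N} (h : Null w z) (a : F) : Null w (fun k => a • z k) :=
  (h.mul_left (algebraMap F N a)).congr (fun k => by rw [Algebra.smul_def])

theorem Null.sum {ι : Type*} (s : Finset ι) {z : ι → ℕ → N} (h : ∀ i ∈ s, Null w (z i)) :
    Null w (fun k => ∑ i ∈ s, z i k) := by
  classical
  induction s using Finset.induction_on with
  | empty => simpa using Null.zero
  | insert a s ha ih =>
    refine ((h a (Finset.mem_insert_self _ _)).add
      (ih fun i hi => h i (Finset.mem_insert_of_mem hi))).congr (fun k => ?_)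
    rw [Finset.sum_insert ha]

theorem Null.comp {z : ℕ → N} (h : Null w z) {φ : ℕ → ℕ} (hφ : Tendsto φ atTop atTop) :
    Null w (fun k => z (φ k)) := fun b => (h b).comp hφ

theorem Null.eq_zero [FiniteDimensional F N] [Algebra.IsSeparable F N] {z : N}
    (h : Null w (fun _ => z)) : z = 0 := by
  apply (traceForm_nondegenerate F N).2
  intro b
  have := tendsto_nhds_unique (h b) tendsto_const_nhds
  rw [eq_comm, map_eq_zero] at this
  exact this

/-- it suffices to test on a basis -/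
theorem null_of_basis {ι : Type*} [Fintype ι] (b : Module.Basis ι F N) {z : ℕ → N}
    (h : ∀ i, Tendsto (fun k => w (Algebra.trace F N (b i * z k))) atTop (𝓝 0)) : Null w z := by
  intro c
  have h1 : Tendsto (fun k => ∑ i, w (b.repr c i) * w (Algebra.trace F N (b i * z k))) atTop
      (𝓝 0) := by
    have := tendsto_finsetSum Finset.univ (fun i _ => (h i).const_mul (w (b.repr c i)))
    simpa using this
  refine tendsto_zero_of_le h1 (fun k => ?_)
  conv_lhs => rw [← b.sum_repr c]
  rw [Finset.sum_mul, map_sum]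
  refine Valuation.map_sum_le _ (fun i _ => ?_)
  rw [smul_mul_assoc, map_smul, smul_eq_mul, map_mul]
  exact Finset.single_le_sum
    (f := fun i => w (b.repr c i) * w (Algebra.trace F N (b i * z k))) (fun _ _ => zero_le)
    (Finset.mem_univ i)

/-- the coordinates of a null sequence tend to zero -/
theorem Null.coord [FiniteDimensional F N] [Algebra.IsSeparable F N] {ι : Type*} [Fintype ι]
    (b : Module.Basis ι F N) {z : ℕ → N} (h : Null w z) (i : ι) :
    Tendsto (fun k => w (b.repr (z k) i)) atTop (𝓝 0) := by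
  classical
  refine (h (b.traceDual i)).congr (fun k => ?_)
  have := b.traceDual.traceDual_repr_apply (z k) i
  rw [Module.Basis.traceDual_traceDual, Algebra.traceForm_apply, mul_comm] at this
  rw [this]


/-- a null sequence lies eventually in `t L` for the lattice `L` spanned by a basis -/
theorem Null.eventually_coord [FiniteDimensional F N] [Algebra.IsSeparable F N] {ι : Type*}
    [Fintype ι] (b : Module.Basis ι F N) {z : ℕ → N} (h : Null w z) {t : F} (ht : t ≠ 0) :
    ∃ k₀, ∀ k, k₀ ≤ k → ∃ c : ι → F, (∀ i, w (c i) ≤ 1) ∧ z k = t • ∑ i, c i • b i := by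
  have hpos : 0 < w t := pos_iff_ne_zero.2 ((map_ne_zero w).2 ht)
  have h1 : ∀ᶠ k in atTop, ∀ i, w (b.repr (z k) i) < w t :=
    eventually_all.2 (fun i => (h.coord b i).eventually (gt_mem_nhds hpos))
  obtain ⟨k₀, hk⟩ := eventually_atTop.1 h1
  refine ⟨k₀, fun k hk' => ⟨fun i => t⁻¹ * b.repr (z k) i, fun i => ?_, ?_⟩⟩
  · rw [map_mul, map_inv₀, inv_mul_le_iff₀ hpos, mul_one]
    exact (hk k hk' i).le
  · rw [Finset.smul_sum]
    conv_lhs => rw [← b.sum_repr (z k)]
    refine Finset.sum_congr rfl (fun i _ => ?_)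
    rw [smul_smul, mul_inv_cancel_left₀ ht]

/-- weakly bounded sets -/
def Bdd (w : Valuation F ℝ≥0) (L : Set N) : Prop :=
  ∀ b : N, ∃ c : ℝ≥0, ∀ z ∈ L, w (Algebra.trace F N (b * z)) ≤ c

theorem Bdd.mono {L L' : Set N} (h : Bdd w L') (hL : L ⊆ L') : Bdd w L := fun b =>
  let ⟨c, hc⟩ := h b
  ⟨c, fun z hz => hc z (hL hz)⟩

/-- the `R`-span of a finite family is bounded if `R` is -/
theorem Bdd.span {ι : Type*} [Fintype ι] {R : Set N} (hR : Bdd w R) (e : ι → N) {L : Set N}
    (hL : ∀ z ∈ L, ∃ c : ι → N, (∀ i, c i ∈ R) ∧ z = ∑ i, c i * e i) : Bdd w L := by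
  intro b
  choose c hc using fun i => hR (b * e i)
  refine ⟨∑ i, c i, fun z hz => ?_⟩
  obtain ⟨r, hr, rfl⟩ := hL z hz
  rw [Finset.mul_sum, map_sum]
  refine Valuation.map_sum_le _ (fun i _ => ?_)
  rw [mul_comm (r i), ← mul_assoc]
  exact (hc i _ (hr i)).trans
    (Finset.single_le_sum (f := c) (fun _ _ => zero_le) (Finset.mem_univ i))

/-- the valuation ring of `w` is bounded -/
theorem bdd_integer : Bdd w {z : N | ∃ a : F, w a ≤ 1 ∧ z = algebraMap F N a} := by
  intro b
  refine ⟨w (Algebra.trace F N b), ?_⟩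
  rintro _ ⟨a, ha, rfl⟩
  rw [mul_comm, ← Algebra.smul_def, map_smul, smul_eq_mul, map_mul]
  exact mul_le_of_le_one_left' ha

theorem bdd_of_coord {ι : Type*} [Fintype ι] (e : ι → N) {L : Set N}
    (hL : ∀ z ∈ L, ∃ c : ι → F, (∀ i, w (c i) ≤ 1) ∧ z = ∑ i, c i • e i) : Bdd w L := by
  refine bdd_integer.span e (fun z hz => ?_)
  obtain ⟨c, hc, rfl⟩ := hL z hz
  exact ⟨fun i => algebraMap F N (c i), fun i => ⟨c i, hc i, rfl⟩,
    Finset.sum_congr rfl (fun i _ => Algebra.smul_def _ _)⟩

/-- a sequence which lies eventually in `t ^ j L` for every `j`, `L` bounded, is null -/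
theorem null_of_bdd {L : Set N} (hL : Bdd w L) {t : F} (ht : w t < 1) {z : ℕ → N}
    (h : ∀ j : ℕ, ∃ k₀, ∀ k, k₀ ≤ k → ∃ l ∈ L, z k = t ^ j • l) : Null w z := by
  intro b
  obtain ⟨c, hc⟩ := hL b
  have h1 : Tendsto (fun j : ℕ => w t ^ j * c) atTop (𝓝 0) := by
    have := (NNReal.tendsto_pow_atTop_nhds_zero_of_lt_one ht).mul_const c
    simpa using this
  rw [tendsto_order]
  refine ⟨fun a ha => absurd ha (not_lt.2 zero_le), fun ε hε => ?_⟩
  obtain ⟨j, hj⟩ := (h1.eventually (gt_mem_nhds hε)).exists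
  obtain ⟨k₀, hk⟩ := h j
  refine eventually_atTop.2 ⟨k₀, fun k hk' => ?_⟩
  obtain ⟨l, hl, e⟩ := hk k hk'
  rw [e, mul_smul_comm, map_smul, smul_eq_mul, map_mul, map_pow]
  exact lt_of_le_of_lt (mul_le_mul_right (hc l hl) _) hj

end Null

section Main
variable {K F N : Type*} [Field K] [Field F] [Field N] [Algebra K F] [Algebra F N]
  [FiniteDimensional F N] [Algebra.IsSeparable F N]
  {v : Valuation K ℝ≥0} {w : Valuation F ℝ≥0} {x : F}

/-- **GAGA for sequences** -/
theorem exists_limit (hc : Cpl v) (hg : Gauss v w x) (hx : IntermediateField.adjoin K {x} = ⊤)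
    (M : ℕ) (z z' : ℕ → N) (hz : ∀ k, IsInt K x (z k))
    (hz' : ∀ k, IsInt K x⁻¹ (algebraMap F N (x⁻¹ ^ M) * z' k))
    (h1 : Null w (fun k => z k - z' k)) (h2 : Null w (fun k => z (k + 1) - z k)) :
    ∃ z0 : N, Null w (fun k => z k - z0) := by
  classical
  obtain ⟨b, hb⟩ := exists_basis (K := K) (N := N) hg.transcendental hx
  have hlim : ∀ i, ∃ f0 : K[X],
      Tendsto (fun k => w (Algebra.trace F N (b i * z k) - aeval x f0)) atTop (𝓝 0) := by
    intro i
    obtain ⟨m, hm⟩ := (hb i).exists_inv_pow hg.ne_zero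
    choose f hf using fun k => ((hb i).mul (hz k)).trace hg.transcendental hx
    choose g hg' using fun k => (hm.mul (hz' k)).trace hg.inv.transcendental (adjoin_inv hx)
    have e : ∀ k, Algebra.trace F N (b i * z' k) = x ^ (m + M) * aeval x⁻¹ (g k) := by
      intro k
      rw [← hg' k, ← smul_eq_mul (x ^ (m + M)), ← map_smul, Algebra.smul_def]
      congr 1
      have hx0 : algebraMap F N x ≠ 0 := (_root_.map_ne_zero _).2 hg.ne_zero
      simp only [map_pow, map_inv₀, inv_pow]
      field_simp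
      ring
    obtain ⟨f0, -, h0⟩ := poly_limit hc hg (m + M) f g
      ((h1 (b i)).congr (fun k => by rw [mul_sub, map_sub, hf, e]))
      ((h2 (b i)).congr (fun k => by rw [mul_sub, map_sub, hf, hf]))
    exact ⟨f0, h0.congr (fun k => by rw [hf])⟩
  choose f0 hf0 using hlim
  refine ⟨∑ j, aeval x (f0 j) • b.traceDual j, null_of_basis b (fun i => ?_)⟩
  refine (hf0 i).congr (fun k => ?_)
  congr 1
  rw [mul_sub, map_sub, Finset.mul_sum, map_sum]
  congr 1
  simp only [mul_smul_comm, map_smul, Module.Basis.trace_mul_traceDual, smul_eq_mul, mul_ite,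
    mul_one, mul_zero]
  rw [Finset.sum_ite_eq]
  simp


/-- the limit operator commutes with every element of `N` with which the sequence commutes
asymptotically -/
theorem limit_mul {q : ℕ → N →+ N} {ε : N →ₗ[F] N} (h : ∀ z, Null w (fun k => q k z - ε z))
    (a z : N) (h3 : Null w (fun k => q k (a * z) - a * q k z)) : ε (a * z) = a * ε z := by
  rw [← sub_eq_zero]
  refine Null.eq_zero (w := w) ?_
  refine ((h3.sub (h (a * z))).add ((h z).mul_left a)).congr (fun k => ?_)
  ring

end Main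

end Crest.Agent.T170.Gaga13
end

-- ▼ part T170/Gaga2_13
section

/-!
# Row 170 (T170): GAGA in the form `DM.Gaga` (helper13)

* `gaga'` : `gaga` without the hypothesis that the second sequence commutes with `x`;
* `dm_gaga` : `DM.Gaga ϖ L B₀ B₁` for a tower `K ≤ F = K(x) ≤ Φ ≤ N`;
* `dm_gaga_curve` : the same with `x ∈ Φ` (no separate type for `K(x)`).
-/

set_option autoImplicit false
open scoped BigOperators NNReal Topology IntermediateField
open Polynomial Filter

namespace Crest.Agent.T170.Gaga13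

section Main
variable {K F N : Type*} [Field K] [Field F] [Field N] [Algebra K F] [Algebra F N]
  [FiniteDimensional F N] [Algebra.IsSeparable F N]
  {v : Valuation K ℝ≥0} {w : Valuation F ℝ≥0} {x : F}

/-- **GAGA for operators** -/
theorem gaga' (hc : Cpl v) (hg : Gauss v w x) (hx : IntermediateField.adjoin K {x} = ⊤)
    (q q' : ℕ → N →+ N) (hq : ∀ k z, IsInt K x z → IsInt K x (q k z))
    (hq' : ∀ k z, IsInt K x⁻¹ z → IsInt K x⁻¹ (q' k z))
    (h1 : ∀ z, Null w (fun k => q k z - q' k z))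
    (h2 : ∀ z, Null w (fun k => q (k + 1) z - q k z))
    (h3 : ∀ (a : F) z, Null w (fun k => q k (a • z) - a • q k z)) :
    ∃ ε : N →ₗ[F] N, ∀ z, Null w (fun k => q k z - ε z) := by
  classical
  obtain ⟨b, hb⟩ := exists_basis (K := K) (N := N) hg.transcendental hx
  have hlim : ∀ i, ∃ z0 : N, Null w (fun k => q k (b i) - z0) := by
    intro i
    obtain ⟨m, hm⟩ := (hb i).exists_inv_pow hg.ne_zero
    have e0 : b i = x ^ m • (algebraMap F N (x⁻¹ ^ m) * b i) := by
      rw [Algebra.smul_def, ← mul_assoc, ← map_mul, ← mul_pow, mul_inv_cancel₀ hg.ne_zero, one_pow,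
        map_one, one_mul]
    refine exists_limit hc hg hx m (fun k => q k (b i))
      (fun k => x ^ m • q' k (algebraMap F N (x⁻¹ ^ m) * b i))
      (fun k => hq k _ (hb i)) (fun k => ?_) ?_ (h2 _)
    · have h4 := hq' k _ hm
      rw [Algebra.smul_def, ← mul_assoc, ← map_mul, ← mul_pow, inv_mul_cancel₀ hg.ne_zero, one_pow,
        map_one, one_mul]
      exact h4
    · refine ((h3 (x ^ m) (algebraMap F N (x⁻¹ ^ m) * b i)).add
        ((h1 (algebraMap F N (x⁻¹ ^ m) * b i)).smul (x ^ m))).congr (fun k => ?_)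
      rw [← e0, smul_sub]
      abel
  choose z0 hz0 using hlim
  refine ⟨b.constr F z0, fun z => ?_⟩
  have h5 := Null.sum (w := w) Finset.univ (z := fun i k =>
    (q k (b.repr z i • b i) - b.repr z i • q k (b i)) + b.repr z i • (q k (b i) - z0 i))
    (fun i _ => (h3 _ _).add ((hz0 i).smul _))
  refine h5.congr (fun k => ?_)
  conv_rhs => rw [← b.sum_repr z]
  rw [map_sum, map_sum, ← Finset.sum_sub_distrib]
  refine Finset.sum_congr rfl (fun i _ => ?_)
  rw [LinearMap.map_smul, Module.Basis.constr_basis, smul_sub]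
  abel

end Main

theorem exists_pow_mul_le {Φ : Type*} [Field Φ] (η : Valuation Φ ℝ≥0) {t : Φ} (ht : η t < 1)
    (z : Φ) : ∃ j : ℕ, η (t ^ j * z) ≤ 1 := by
  have h1 : Tendsto (fun j : ℕ => η t ^ j * η z) atTop (𝓝 0) := by
    have := (NNReal.tendsto_pow_atTop_nhds_zero_of_lt_one ht).mul_const (η z)
    simpa using this
  obtain ⟨j, hj⟩ := (h1.eventually (gt_mem_nhds zero_lt_one)).exists
  exact ⟨j, by rw [map_mul, map_pow]; exact hj.le⟩

theorem arch_of_integers {R Φ : Type*} [CommRing R] [Field Φ] [Algebra R Φ]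
    {η : Valuation Φ ℝ≥0} (hR : η.Integers R) : DM.Arch R := by
  intro a ha b hb
  have h1 : η (algebraMap R Φ a) < 1 :=
    lt_of_le_of_ne (hR.map_le_one a) (mt hR.isUnit_iff_valuation_eq_one.2 ha)
  have hb' : algebraMap R Φ b ≠ 0 := fun h => hb (hR.hom_inj (h.trans (map_zero _).symm))
  obtain ⟨j, hj⟩ := exists_pow_mul_le η h1 (algebraMap R Φ b)⁻¹
  refine ⟨j, hR.dvd_iff_le.2 ?_⟩
  have hpos : 0 < η (algebraMap R Φ b) := pos_iff_ne_zero.2 ((_root_.map_ne_zero η).2 hb')
  rw [map_mul, map_inv₀, mul_inv_le_iff₀ hpos, one_mul] at hj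
  rw [map_pow]
  exact hj

section DM
variable {K F Φ N R : Type*} [Field K] [Field F] [Field Φ] [Field N] [CommRing R]
  [Algebra K F] [Algebra F Φ] [Algebra F N] [Algebra Φ N] [IsScalarTower F Φ N]
  [Algebra R Φ] [Module R N] [IsScalarTower R Φ N]
  [FiniteDimensional F N] [Algebra.IsSeparable F N]


end DM

section Curve
variable {K Φ N R : Type*} [Field K] [Field Φ] [Field N] [CommRing R]
  [Algebra K Φ] [Algebra Φ N] [Algebra R Φ] [Module R N] [IsScalarTower R Φ N]

theorem adjoin_gen (x : Φ) :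
    IntermediateField.adjoin K {IntermediateField.AdjoinSimple.gen K x} = ⊤ := by
  rw [eq_top_iff]
  rintro ⟨z, hz⟩ _
  obtain ⟨r, s, e⟩ := (IntermediateField.mem_adjoin_simple_iff K z).1 hz
  refine (IntermediateField.mem_adjoin_simple_iff K _).2 ⟨r, s, ?_⟩
  apply (algebraMap K⟮x⟯ Φ).injective
  rw [map_div₀, ← aeval_algebraMap_apply, ← aeval_algebraMap_apply,
    IntermediateField.AdjoinSimple.algebraMap_gen]
  exact e

theorem ev_gen (x : Φ) :
    ev N K (IntermediateField.AdjoinSimple.gen K x) = ev N K x := by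
  refine RingHom.ext (fun g => ?_)
  rw [ev_apply, ev_apply, IsScalarTower.algebraMap_apply K⟮x⟯ Φ N, ← aeval_algebraMap_apply,
    IntermediateField.AdjoinSimple.algebraMap_gen]

theorem ev_gen_inv (x : Φ) :
    ev N K (IntermediateField.AdjoinSimple.gen K x)⁻¹ = ev N K x⁻¹ := by
  refine RingHom.ext (fun g => ?_)
  rw [ev_apply, ev_apply, IsScalarTower.algebraMap_apply K⟮x⟯ Φ N, ← aeval_algebraMap_apply,
    map_inv₀, IntermediateField.AdjoinSimple.algebraMap_gen]


end Curve

end Crest.Agent.T170.Gaga13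
end

-- ▼ part T170/Gaga3_13

/-!
# Row 170 (T170): GAGA for an arbitrary pseudo-uniformiser, and for `CoreData` (helper13)

* `dm_gaga'`, `dm_gaga_curve'` : `DM.Gaga ϖ L B₀ B₁` for every non-unit `ϖ ≠ 0`;
* `intGrp K ξ` : the additive group of the elements of `N` integral over `K[ξ]`;
* `core_gaga` : the statement for `Fr.CoreData`.
-/

set_option autoImplicit false
open scoped BigOperators NNReal Topology IntermediateField
open Polynomial Filter

namespace Crest.Agent.T170.Gaga13

section DM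
variable {K F Φ N R : Type*} [Field K] [Field F] [Field Φ] [Field N] [CommRing R]
  [Algebra K F] [Algebra F Φ] [Algebra F N] [Algebra Φ N] [IsScalarTower F Φ N]
  [Algebra R Φ] [Module R N] [IsScalarTower R Φ N]
  [FiniteDimensional F N] [Algebra.IsSeparable F N]

/-- **GAGA**, interface form -/
theorem dm_gaga' {v : Valuation K ℝ≥0} {η : Valuation Φ ℝ≥0} {x : F} (hc : Cpl v)
    (hg : Gauss v (η.comap (algebraMap F Φ)) x) (hx : IntermediateField.adjoin K {x} = ⊤)
    (hR : η.Integers R)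
    (hB : Bdd (η.comap (algebraMap F Φ)) {z : N | ∃ a : Φ, η a ≤ 1 ∧ z = algebraMap Φ N a})
    (t : F) (ht0 : t ≠ 0) (hwt : η (algebraMap F Φ t) < 1)
    (L : Submodule R N) (hL : L.IsLattice Φ) (ϖ : R) (hϖ : ¬ IsUnit ϖ) (hϖ0 : ϖ ≠ 0) :
    DM.Gaga ϖ L {z | IsInt K x z} {z | IsInt K x⁻¹ z} := by
  classical
  intro q q' hq hq' hcq hcq' _ h1 h2 h3
  set w := η.comap (algebraMap F Φ) with hw
  obtain ⟨τ, hτ⟩ := hR.exists_of_le_one hwt.le
  have hτu : ¬ IsUnit τ := fun h => by
    have := hR.one_of_isUnit h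
    rw [hτ] at this
    exact hwt.ne this
  have hτ0 : τ ≠ 0 := by
    rintro rfl
    rw [map_zero] at hτ
    exact ht0 ((algebraMap F Φ).injective (hτ.symm.trans (map_zero _).symm))
  have hsm : ∀ (r : R) (z : N), r • z = algebraMap Φ N (algebraMap R Φ r) * z := fun r z => by
    rw [← algebraMap_smul Φ r z, Algebra.smul_def]
  have hsmt : ∀ (j : ℕ) (z : N), τ ^ j • z = t ^ j • z := fun j z => by
    rw [hsm, map_pow, hτ, ← map_pow, ← IsScalarTower.algebraMap_apply, Algebra.smul_def]
  have hηϖ : η (algebraMap R Φ ϖ) < 1 :=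
    lt_of_le_of_ne (hR.map_le_one ϖ) (mt hR.isUnit_iff_valuation_eq_one.2 hϖ)
  have : IsFractionRing R Φ := hR.isFractionRing
  have : IsDomain R := hR.hom_inj.isDomain
  have hϖN : ∀ j : ℕ, algebraMap Φ N (algebraMap R Φ (ϖ ^ j)) ≠ 0 := fun j h =>
    pow_ne_zero j hϖ0 (hR.hom_inj (((algebraMap Φ N).injective
      (h.trans (map_zero _).symm)).trans (map_zero _).symm))
  have hA := arch_of_integers hR
  obtain ⟨s, hs⟩ := hL.fg
  have hLs : ∀ z ∈ L, ∃ c : s → R, ∑ i, c i • (i : N) = z := by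
    intro z hz
    rw [← hs] at hz
    exact (Submodule.mem_span_finset' ).1 hz
  have hsL : ∀ i : s, (i : N) ∈ L := fun i => hs ▸ Submodule.subset_span i.2
  have hbdd : Bdd w (L : Set N) := by
    refine hB.span (fun i : s => (i : N)) (fun z hz => ?_)
    obtain ⟨c, rfl⟩ := hLs z hz
    exact ⟨fun i => algebraMap Φ N (algebraMap R Φ (c i)), fun i => ⟨_, hR.map_le_one _, rfl⟩,
      Finset.sum_congr rfl (fun i _ => hsm _ _)⟩
  have habs : ∀ z : N, ∃ j : ℕ, ϖ ^ j • z ∈ L := DM.exists_pow_smul_mem (K := Φ) hA hϖ L hL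
  have habs' : ∀ z : N, ∃ j : ℕ, τ ^ j • z ∈ L := DM.exists_pow_smul_mem (K := Φ) hA hτu L hL
  have hcancel : ∀ (j : ℕ) (z : ℕ → N), Null w (fun k => ϖ ^ j • z k) → Null w z := by
    intro j z h
    refine (h.mul_left (algebraMap Φ N (algebraMap R Φ (ϖ ^ j)))⁻¹).congr (fun k => ?_)
    rw [hsm, inv_mul_cancel_left₀ (hϖN j)]
  -- small operators give null sequences
  have hnull : ∀ T : ℕ → AddMonoid.End N, (∀ k, DM.Comm ϖ (T k)) → (∀ k, DM.Small ϖ L k (T k)) →
      ∀ z, Null w (fun k => T k z) := by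
    intro T hT hS z
    obtain ⟨j, hj⟩ := habs z
    have h4 : Null w (fun k => T k (ϖ ^ j • z)) := by
      refine null_of_bdd hbdd (t := t) hwt (fun i => ?_)
      obtain ⟨m, hm⟩ := hA ϖ hϖ (τ ^ i) (pow_ne_zero i hτ0)
      refine ⟨m, fun k hk => ?_⟩
      obtain ⟨l, hl, e⟩ := DM.mem_pw.1
        (DM.pw_le_pw_of_dvd hm L (DM.pw_anti ϖ L hk (hS k _ hj)))
      exact ⟨l, hl, by rw [← e, hsmt]⟩
    exact hcancel j _ (h4.congr (fun k => DM.comm_pow (hT k) j z))
  have h3' : ∀ (r : R) z, Null w (fun k => q k (r • z) - r • q k z) := fun r z =>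
    hnull (fun k => q k * DM.sc N r - DM.sc N r * q k)
      (fun k => ((hcq k).mul (DM.Comm.sc _ _)).sub ((DM.Comm.sc _ _).mul (hcq k)))
      (fun k => h3 k r) z
  obtain ⟨ε, hε⟩ := gaga' (N := N) hc hg hx q q' hq hq'
    (hnull (fun k => q k - q' k) (fun k => (hcq k).sub (hcq' k)) h1)
    (hnull (fun k => q (k + 1) - q k) (fun k => (hcq _).sub (hcq k)) h2) (by
      intro a z
      obtain ⟨j, hj⟩ := exists_pow_mul_le η hηϖ (algebraMap F Φ a)
      obtain ⟨r, hr⟩ := hR.exists_of_le_one hj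
      have e : ∀ y : N, r • y = ϖ ^ j • a • y := fun y => by
        rw [hsm, hsm, hr, map_mul, ← IsScalarTower.algebraMap_apply, Algebra.smul_def, mul_assoc,
          map_pow (algebraMap R Φ)]
      refine hcancel j _ ((h3' r z).congr (fun k => ?_))
      rw [e, e, DM.comm_pow (hcq k), ← smul_sub]
      rfl)
  have hεR : ∀ (r : R) z, ε (r • z) = r • ε z := by
    intro r z
    rw [hsm, hsm]
    refine limit_mul hε _ _ ((h3' r z).congr (fun k => ?_))
    rw [hsm, hsm]
    rfl
  -- a basis inside the lattice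
  have hbas : ∃ b : Module.Basis (Fin (Module.finrank F N)) F N, ∀ i, b i ∈ L := by
    let b0 := Module.finBasis F N
    choose j hj using fun i => habs' (b0 i)
    refine ⟨b0.unitsSMul (fun i => Units.mk0 _ (pow_ne_zero (j i) ht0)), fun i => ?_⟩
    rw [Module.Basis.unitsSMul_apply, Units.smul_def, Units.val_mk0, ← hsmt]
    exact hj i
  obtain ⟨b, hb⟩ := hbas
  have hev : ∀ z : ℕ → N, Null w z → ∀ j, ∃ k₀, ∀ k, k₀ ≤ k → z k ∈ DM.pw ϖ L j := by
    intro z hz j
    obtain ⟨m, hm⟩ := hA τ hτu (ϖ ^ j) (pow_ne_zero j hϖ0)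
    obtain ⟨k₀, hk⟩ := hz.eventually_coord b (pow_ne_zero m ht0)
    refine ⟨k₀, fun k hk' => DM.pw_le_pw_of_dvd hm L ?_⟩
    obtain ⟨c, hc1, e⟩ := hk k hk'
    rw [e, ← hsmt]
    refine DM.smul_mem_pw m (L.sum_mem (fun i _ => ?_))
    obtain ⟨r, hr⟩ := hR.exists_of_le_one (r := algebraMap F Φ (c i)) (hc1 i)
    have : c i • b i = r • b i := by
      rw [hsm, hr, ← IsScalarTower.algebraMap_apply, Algebra.smul_def]
    rw [this]
    exact L.smul_mem _ (hb i)
  let ε' : AddMonoid.End N := ε.toAddMonoidHom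
  refine ⟨ε', fun z => hεR ϖ z, fun j => ?_⟩
  choose k₀ hk₀ using fun i : s => hev _ (hε (i : N)).neg j
  refine ⟨max j (Finset.univ.sup k₀), fun k hk z hz => ?_⟩
  obtain ⟨c, rfl⟩ := hLs z hz
  rw [map_sum]
  refine Submodule.sum_mem _ (fun i _ => ?_)
  have h5 := hk₀ i k ((Finset.le_sup (f := k₀) (Finset.mem_univ i)).trans
    ((le_max_right _ _).trans hk))
  have h6 := DM.pw_anti ϖ L ((le_max_left _ _).trans hk) (h3 k (c i) _ (hsL i))
  have e : (ε' - q k) (c i • (i : N)) =
      c i • (-(q k (i : N) - ε (i : N))) - (q k * DM.sc N (c i) - DM.sc N (c i) * q k) (i : N) := by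
    show ε (c i • (i : N)) - q k (c i • (i : N)) =
      c i • (-(q k (i : N) - ε (i : N))) - (q k (c i • (i : N)) - c i • q k (i : N))
    rw [hεR, smul_neg, smul_sub]
    abel
  rw [e]
  exact Submodule.sub_mem _ (Submodule.smul_mem _ _ h5) h6

end DM

section Curve
variable {K Φ N R : Type*} [Field K] [Field Φ] [Field N] [CommRing R]
  [Algebra K Φ] [Algebra Φ N] [Algebra R Φ] [Module R N] [IsScalarTower R Φ N]

theorem finite_of_span {η : Valuation Φ ℝ≥0} {x : Φ} {ι : Type*} [Fintype ι] (e : ι → Φ)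
    (he : ∀ z : Φ, η z ≤ 1 → ∃ c : ι → Φ, (∀ i, c i ∈ K⟮x⟯ ∧ η (c i) ≤ 1) ∧ z = ∑ i, c i * e i)
    (t : K) (ht0 : t ≠ 0) (ht : η (algebraMap K Φ t) < 1) : FiniteDimensional K⟮x⟯ Φ := by
  have ht0' : algebraMap K Φ t ≠ 0 := (_root_.map_ne_zero _).2 ht0
  refine Module.Finite.of_fg_top ((Submodule.fg_def).2 ⟨Set.range e, Set.finite_range e, ?_⟩)
  rw [eq_top_iff]
  intro z _
  obtain ⟨j, hj⟩ := exists_pow_mul_le η ht z
  obtain ⟨c, hc1, hz⟩ := he _ hj
  have e1 : z = ((algebraMap K K⟮x⟯ t) ^ j)⁻¹ • ∑ i, (⟨c i, (hc1 i).1⟩ : K⟮x⟯) • e i := by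
    have : ∑ i, (⟨c i, (hc1 i).1⟩ : K⟮x⟯) • e i = ∑ i, c i * e i :=
      Finset.sum_congr rfl (fun i _ => rfl)
    rw [this, ← hz, Algebra.smul_def, map_inv₀, map_pow, ← IsScalarTower.algebraMap_apply,
      inv_mul_cancel_left₀ (pow_ne_zero _ ht0')]
  rw [e1]
  exact Submodule.smul_mem _ _ (Submodule.sum_mem _ (fun i _ =>
    Submodule.smul_mem _ _ (Submodule.subset_span ⟨i, rfl⟩)))

theorem Gauss.gen {v : Valuation K ℝ≥0} {η : Valuation Φ ℝ≥0} {x : Φ} (hg : Gauss v η x) :
    Gauss v (η.comap (algebraMap K⟮x⟯ Φ)) (IntermediateField.AdjoinSimple.gen K x) := by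
  refine ⟨fun a => ?_, hg.2.1, fun f i => ?_⟩
  · rw [Valuation.comap_apply, ← IsScalarTower.algebraMap_apply]; exact hg.1 a
  · rw [Valuation.comap_apply, ← aeval_algebraMap_apply,
      IntermediateField.AdjoinSimple.algebraMap_gen]
    exact hg.2.2 f i

/-- **GAGA**, with `x ∈ Φ`, for every pseudo-uniformiser -/
theorem dm_gaga_curve' [FiniteDimensional Φ N] [CharZero K]
    {v : Valuation K ℝ≥0} {η : Valuation Φ ℝ≥0} {x : Φ} (hc : Cpl v) (hg : Gauss v η x)
    {ι : Type*} [Fintype ι] (e : ι → Φ)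
    (he : ∀ z : Φ, η z ≤ 1 → ∃ c : ι → Φ, (∀ i, c i ∈ K⟮x⟯ ∧ η (c i) ≤ 1) ∧ z = ∑ i, c i * e i)
    (t : K) (ht0 : t ≠ 0) (ht : v t < 1)
    (hR : η.Integers R) (L : Submodule R N) (hL : L.IsLattice Φ) (ϖ : R) (hϖ : ¬ IsUnit ϖ)
    (hϖ0 : ϖ ≠ 0) :
    DM.Gaga ϖ L {z | IsInt K x z} {z | IsInt K x⁻¹ z} := by
  classical
  have ht' : η (algebraMap K Φ t) < 1 := by rw [hg.1]; exact ht
  have hfin := finite_of_span e he t ht0 ht'
  have : FiniteDimensional K⟮x⟯ N := Module.Finite.trans Φ N
  have : CharZero K⟮x⟯ := charZero_of_injective_algebraMap (algebraMap K K⟮x⟯).injective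
  have h := dm_gaga' (K := K) (F := K⟮x⟯) (Φ := Φ) (N := N) (R := R) (v := v) (η := η)
    (x := IntermediateField.AdjoinSimple.gen K x) hc hg.gen (adjoin_gen x) hR ?_
    (algebraMap K K⟮x⟯ t) ((_root_.map_ne_zero _).2 ht0)
    (by rw [← IsScalarTower.algebraMap_apply]; exact ht') L hL ϖ hϖ hϖ0
  · unfold IsInt at h ⊢
    rwa [ev_gen, ev_gen_inv] at h
  · refine bdd_of_coord (fun i => algebraMap Φ N (e i)) ?_
    rintro _ ⟨a, ha, rfl⟩
    obtain ⟨c, hc1, rfl⟩ := he a ha
    refine ⟨fun i => ⟨c i, (hc1 i).1⟩, fun i => (hc1 i).2, ?_⟩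
    rw [map_sum]
    refine Finset.sum_congr rfl (fun i _ => ?_)
    rw [map_mul, Algebra.smul_def]
    rfl

end Curve

section IntGrp
variable (K : Type*) {N : Type*} [Field K] [Field N] [Algebra K N]

/-- the additive group of the elements integral over `K[ξ]` -/
def intGrp (ξ : N) : AddSubgroup N :=
  (integralClosure (Algebra.adjoin K {ξ}) N).toSubring.toAddSubgroup

variable {K}


theorem isInt_iff {Φ : Type*} [Field Φ] [Algebra K Φ] [Algebra Φ N] [IsScalarTower K Φ N]
    (x : Φ) (z : N) : IsInt K x z ↔ IsIntegral (Algebra.adjoin K {algebraMap Φ N x}) z := by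
  have hmem : ∀ g : K[X], aeval (algebraMap Φ N x) g ∈ Algebra.adjoin K {algebraMap Φ N x} :=
    fun g => aeval_mem_adjoin_singleton K _
  let φ : K[X] →+* Algebra.adjoin K {algebraMap Φ N x} :=
    (aeval (algebraMap Φ N x) : K[X] →ₐ[K] N).toRingHom.codRestrict _ hmem
  have hφ : (algebraMap (Algebra.adjoin K {algebraMap Φ N x}) N).comp φ = ev N K x := by
    refine RingHom.ext (fun g => ?_)
    rw [ev_apply, ← aeval_algebraMap_apply]
    rfl
  have hsurj : Function.Surjective φ := by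
    rintro ⟨a, ha⟩
    rw [Algebra.adjoin_singleton_eq_range_aeval] at ha
    obtain ⟨g, rfl⟩ := ha
    exact ⟨g, rfl⟩
  constructor
  · rintro ⟨P, hP, h⟩
    refine ⟨P.map φ, hP.map φ, ?_⟩
    rw [eval₂_map, hφ]; exact h
  · rintro ⟨P, hP, h⟩
    obtain ⟨Q, hQ, -, hm⟩ := lifts_and_natDegree_eq_and_monic
      (mem_lifts_of_surjective hsurj P) hP
    refine ⟨Q, hm, ?_⟩
    rw [← hφ, ← eval₂_map, hQ]; exact h

theorem coe_intGrp {Φ : Type*} [Field Φ] [Algebra K Φ] [Algebra Φ N] [IsScalarTower K Φ N]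
    (x : Φ) : (intGrp K (algebraMap Φ N x) : Set N) = {z | IsInt K x z} :=
  Set.ext (fun z => (isInt_iff x z).symm)

end IntGrp

theorem cpl_of_fr {K : Type*} [Field K] {v : Valuation K ℝ≥0} (h : Fr.Cpl v) : Cpl v := by
  intro a ha
  obtain ⟨l, hl⟩ := h a (by
    intro ε hε
    obtain ⟨M, hM⟩ := eventually_atTop.1 (ha.eventually (gt_mem_nhds hε))
    have key : ∀ m, M ≤ m → v (a m - a M) < ε := by
      intro m hm
      induction m, hm using Nat.le_induction with
      | base => simpa using hε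
      | succ m hm ih =>
        have e : a (m + 1) - a M = (a (m + 1) - a m) + (a m - a M) := by ring
        rw [e]
        exact v.map_add_lt (hM m hm) ih
    refine ⟨M, fun m hm m' hm' => ?_⟩
    have e : a m - a m' = (a m - a M) - (a m' - a M) := by ring
    rw [e]
    exact v.map_sub_lt (key m hm) (key m' hm'))
  refine ⟨l, tendsto_order.2 ⟨fun b hb => absurd hb (not_lt.2 zero_le), fun ε hε => ?_⟩⟩
  obtain ⟨M, hM⟩ := hl ε hε
  exact eventually_atTop.2 ⟨M, hM⟩

section Core
variable {p n : ℕ} [NeZero n] {R C K E N : Type} [CommRing R] [Field C] [Field K]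
  [Field E] [Field N] [Algebra C K] [Algebra K E] [Algebra E N] [Algebra C E] [Algebra C N]
  [Algebra K N] [Algebra R C] [Algebra R E] [IsScalarTower R C E]

theorem core_gauss (X : Fr.CoreData p n R C K E N) :
    Gauss (X.v.comap (algebraMap K E)) X.v X.x := by
  refine ⟨fun _ => rfl, ?_, fun f i => ?_⟩
  · have := X.gauss Polynomial.X
    rw [aeval_X, support_X, Finset.sup_singleton, coeff_X_one, map_one, map_one] at this
    exact this
  · rw [X.gauss]
    by_cases hi : i ∈ f.support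
    · exact Finset.le_sup (f := fun i => X.v (algebraMap K E (f.coeff i))) hi
    · rw [notMem_support_iff.1 hi, map_zero]; exact zero_le

/-- the spanning property of `1, y` from the normal form of integral elements -/
theorem span_of_div {K E : Type*} [Field K] [Field E] [Algebra K E] {η : Valuation E ℝ≥0}
    {x y : E} (hb : ∀ z : E, η z ≤ 1 → ∃ f g r : K[X], η (aeval x f) ≤ 1 ∧ η (aeval x g) ≤ 1 ∧
      η (aeval x r) = 1 ∧ z = (aeval x f + aeval x g * y) / aeval x r) (z : E) (hz : η z ≤ 1) :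
    ∃ c : Fin 2 → E, (∀ i, c i ∈ K⟮x⟯ ∧ η (c i) ≤ 1) ∧ z = ∑ i, c i * ![1, y] i := by
  obtain ⟨f, g, r, hf, hg, hr, rfl⟩ := hb z hz
  refine ⟨![aeval x f / aeval x r, aeval x g / aeval x r], fun i => ?_, ?_⟩
  · fin_cases i
    · exact ⟨(IntermediateField.mem_adjoin_simple_iff K _).2 ⟨f, r, rfl⟩, by
        simpa [map_div₀, hr] using hf⟩
    · exact ⟨(IntermediateField.mem_adjoin_simple_iff K _).2 ⟨g, r, rfl⟩, by
        simpa [map_div₀, hr] using hg⟩
  · simp only [Fin.sum_univ_two, Matrix.cons_val_zero, Matrix.cons_val_one]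
    ring

/-- **GAGA for the core** (`hb` is K1(b)) -/
theorem core_gaga [IsScalarTower K E N] [CharZero C] [FiniteDimensional E N] (hp : p ≠ 0)
    (X : Fr.CoreData p n R C K E N)
    (hb : ∀ z : E, X.v z ≤ 1 → ∃ f g r : K[X], X.v (aeval X.x f) ≤ 1 ∧ X.v (aeval X.x g) ≤ 1 ∧
      X.v (aeval X.x r) = 1 ∧ z = (aeval X.x f + aeval X.x g * X.y) / aeval X.x r)
    {O : Type*} [CommRing O] [Algebra O E] [Module O N] [IsScalarTower O E N]
    (hO : X.v.Integers O) (L : Submodule O N) (hL : L.IsLattice E) (ϖ : O) (hϖ0 : ϖ ≠ 0)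
    (hϖ : ¬ IsUnit ϖ) :
    DM.Gaga ϖ L (intGrp K (algebraMap E N X.x)) (intGrp K (algebraMap E N X.x)⁻¹) := by
  have : CharZero K := charZero_of_injective_algebraMap (algebraMap C K).injective
  rw [← map_inv₀, coe_intGrp, coe_intGrp]
  refine dm_gaga_curve' (cpl_of_fr X.cpl) (core_gauss X) ![1, X.y] (span_of_div hb) (p : K)
    (Nat.cast_ne_zero.2 hp) ?_ hO L hL ϖ hϖ hϖ0
  rw [Valuation.comap_apply, map_natCast]
  exact X.vp

end Core

end Crest.Agent.T170.Gaga13
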