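import Crest.Agent.T170.CoreK2b_62
import Crest.Agent.T170.CoreK9_20
import Crest.Agent.T170.Idem2_38
import Crest.Agent.T170.SpecA_38
import Crest.Agent.T170.DMStm_38
import Crest.Agent.T170.Gaga3_13
import Crest.Agent.T170.CoreDefs_20
import Crest.Agent.T170.EllC_61
import Crest.Agent.T170.BadB_10
import Crest.Agent.T170.BadA_10
import Crest.Agent.T170.Fr_20

-- ▼ part T170/CoreK2c_62
section

/-!
# Row 170 (helper62): `DegStmt`
-/

set_option autoImplicit false

namespace Crest.Agent.T170.Fr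

theorem degStmt : DegStmt := fun _ _ _ _ _ _ _ _ _ _ _ _ _ _ _ _ _ _ _ _ _ _ _ _ _ _ _ _ _ _ _ _ _ _
    S _ _ hP hz => (S.natDegree_minpoly_le hP le_rfl hz).2

end Crest.Agent.T170.Fr
end

-- ▼ part T170/Final_38
section

/-!
Row 170: the normal `p`-subgroup, from the dimension count and the spectral identity.
-/

namespace Crest.Agent.T170.DM

open Module

section

variable {N : Type*} [Field N]

theorem leib_pow_mem {δ : AddMonoid.End N} (hl : ∀ x y, δ (x * y) = δ x * y + x * δ y)
    (M : AddSubgroup N) (k : ℕ) : ∀ x y : N,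
    (∀ i j, i + j = k → (δ ^ i) x * (δ ^ j) y ∈ M) → (δ ^ k) (x * y) ∈ M := by
  induction k with
  | zero => intro x y h; simpa using h 0 0 rfl
  | succ k ih =>
    intro x y h
    rw [End_pow_succ_apply', hl, map_add]
    refine M.add_mem (ih _ _ fun i j hij => ?_) (ih _ _ fun i j hij => ?_)
    · rw [← End_pow_succ_apply']; exact h _ _ (by omega)
    · rw [← End_pow_succ_apply']; exact h _ _ (by omega)

variable {R K : Type*} [CommRing R] [IsDomain R] [Field K] [Algebra R K] [IsFractionRing R K]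
variable [Algebra K N] [Module R N] [IsScalarTower R K N] {ι : Type*} [Fintype ι]

omit [IsDomain R] [IsFractionRing R K] in
include K in
theorem smul_mul' (a : R) (x y : N) : a • x * y = a • (x * y) := by
  rw [← algebraMap_smul K a x, ← algebraMap_smul K a (x * y), smul_mul_assoc]

omit [IsDomain R] [IsFractionRing R K] in
include K in
theorem mul_smul' (a : R) (x y : N) : x * a • y = a • (x * y) := by
  rw [mul_comm, smul_mul' (K := K), mul_comm]

theorem exists_mul_bound (hR : Arch R) {π : R} (hπ : ¬ IsUnit π) (b : Basis ι K N) :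
    ∃ t : ℕ, ∀ x ∈ lat R b, ∀ y ∈ lat R b, π ^ t • (x * y) ∈ lat R b := by
  obtain ⟨t, ht⟩ := exists_pw_le (K := K) hR hπ (lat R fun ij : ι × ι => b ij.1 * b ij.2)
    (lat R b) (Submodule.fg_span (Set.finite_range _)) (isLattice_lat b)
  refine ⟨t, fun x hx y hy => ht (smul_mem_pw t ?_)⟩
  obtain ⟨c, rfl⟩ := mem_lat.1 hx
  obtain ⟨d, rfl⟩ := mem_lat.1 hy
  rw [vec_apply, vec_apply, Finset.sum_mul_sum]
  refine Submodule.sum_mem _ fun i _ => Submodule.sum_mem _ fun j _ => ?_
  rw [smul_mul' (K := K), mul_smul' (K := K)]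
  exact Submodule.smul_mem _ _ (Submodule.smul_mem _ _
    (self_mem_lat (fun ij : ι × ι => b ij.1 * b ij.2) (i, j)))

theorem TNil.mul (hR : Arch R) {π : R} (hπ0 : π ≠ 0) (hπ : ¬ IsUnit π) (b : Basis ι K N)
    {δ : AddMonoid.End N} (hl : ∀ x y, δ (x * y) = δ x * y + x * δ y) (hc : Comm π δ)
    (hL : Stab (lat R b) δ) {x y : N} (hx : TNil π (lat R b) δ x) (hy : TNil π (lat R b) δ y) :
    TNil π (lat R b) δ (x * y) := by
  obtain ⟨t, ht⟩ := exists_mul_bound hR hπ b
  obtain ⟨s, hs⟩ := exists_pow_smul_mem (K := K) hR hπ (lat R b) (isLattice_lat b) x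
  obtain ⟨s', hs'⟩ := exists_pow_smul_mem (K := K) hR hπ (lat R b) (isLattice_lat b) y
  have hx' := hx.smul_cst (hc.pow_left s)
  have hy' := hy.smul_cst (hc.pow_left s')
  refine TNil.cancel hR hπ (pow_ne_zero s hπ0) (hc.pow_left s) K ?_
  refine TNil.cancel hR hπ (pow_ne_zero s' hπ0) (hc.pow_left s') K ?_
  rw [← smul_mul' (K := K), ← mul_smul' (K := K)]
  intro j
  obtain ⟨k₁, h₁⟩ := hx' (j + t)
  obtain ⟨k₂, h₂⟩ := hy' (j + t)
  refine ⟨k₁ + k₂, fun k hk => ?_⟩
  refine leib_pow_mem hl (pw π (lat R b) j).toAddSubgroup k _ _ fun i i' hi => ?_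
  change _ ∈ pw π (lat R b) j
  by_cases h : k₁ ≤ i
  · obtain ⟨w, hw, e⟩ := mem_pw.1 (h₁ i h)
    rw [← e, smul_mul' (K := K), pow_add, mul_smul]
    exact smul_mem_pw j (ht _ hw _ (hL.pow i' _ hs'))
  · obtain ⟨w, hw, e⟩ := mem_pw.1 (h₂ i' (by omega))
    rw [← e, mul_smul' (K := K), pow_add, mul_smul]
    exact smul_mem_pw j (ht _ (hL.pow i _ hs) _ hw)

omit [IsDomain R] [Algebra K N] in
theorem TNil.one {π : R} {L : Submodule R N} {δ : AddMonoid.End N}
    (hl : ∀ x y, δ (x * y) = δ x * y + x * δ y) : TNil π L δ 1 := by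
  have h1 : δ 1 = 0 := by
    have := hl 1 1
    simpa using this
  intro j
  refine ⟨1, fun k hk => ?_⟩
  obtain ⟨k, rfl⟩ := Nat.exists_eq_add_of_le' hk
  rw [End_pow_succ_apply', h1, map_zero]
  exact Submodule.zero_mem _

theorem TNil.map (hR : Arch R) {π : R} (hπ : ¬ IsUnit π) (b : Basis ι K N)
    {δ : AddMonoid.End N} (g : N ≃ₐ[K] N) (hg : ∀ z, δ (g z) = g (δ z)) {z : N}
    (hz : TNil π (lat R b) δ z) : TNil π (lat R b) δ (g z) := by
  have hgs : ∀ (a : R) (w : N), g (a • w) = a • g w := fun a w => by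
    rw [← algebraMap_smul K a w, map_smul, algebraMap_smul]
  have hgk : ∀ k w, (δ ^ k) (g w) = g ((δ ^ k) w) := by
    intro k
    induction k with
    | zero => intro w; rfl
    | succ k ih => intro w; rw [End_pow_succ_apply, End_pow_succ_apply, ih, hg]
  refine TNil.change (K := K) hR hπ (L := lat R fun i => g (b i))
    (Submodule.fg_span (Set.finite_range _)) (isLattice_lat b) ?_
  intro j
  obtain ⟨k₀, hk⟩ := hz j
  refine ⟨k₀, fun k hk' => ?_⟩
  obtain ⟨w, hw, e⟩ := mem_pw.1 (hk k hk')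
  obtain ⟨c, rfl⟩ := mem_lat.1 hw
  rw [hgk, ← e, hgs]
  refine smul_mem_pw j ?_
  rw [vec_apply, map_sum]
  exact Submodule.sum_mem _ fun i _ => by
    rw [hgs]; exact Submodule.smul_mem _ _ (self_mem_lat (fun i => g (b i)) i)

end

theorem finalStmt_of (hspec : SpecStmt) : FinalStmt := by
  intro p _ R K N F ι n _ _ _ _ _ _ _ _ _ _ _ _ _ _ _ _ res π δ S hl hg b δb hred hnot B₀ B₁ hG
    E₀ E₁ Eb₀ Eb₁ m₀ m₁ p₀ p₁ r₀ r₁ i₀ i₁
  obtain ⟨N₀, hN₀, hdim⟩ := idemStmt p R K N F ι n res π δ S b δb hred B₀ B₁ hG E₀ E₁ Eb₀ Eb₁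
    m₀ m₁ p₀ p₁ r₀ r₁ i₀ i₁
  obtain ⟨c, hc⟩ := hspec p R K N F ι n res π δ S hl hg b δb hred
  have h1 : (1 : N) ∈ N₀ := (hN₀ 1).2 fun i => TNil.one (hl i)
  have hmul : ∀ x y, x ∈ N₀ → y ∈ N₀ → x * y ∈ N₀ := fun x y hx hy => (hN₀ _).2 fun i =>
    TNil.mul S.arch S.pi_ne S.pi_nonunit b (hl i) (S.conn i).1 (hred i).stab
      ((hN₀ x).1 hx i) ((hN₀ y).1 hy i)
  have hmap : ∀ (g : N ≃ₐ[K] N) x, x ∈ N₀ → g x ∈ N₀ := fun g x hx => (hN₀ _).2 fun i =>
    TNil.map S.arch S.pi_nonunit b g (hg i g) ((hN₀ x).1 hx i)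
  let A : Subalgebra K N := N₀.toSubalgebra h1 hmul
  let M : IntermediateField K N := A.toIntermediateField fun x hx =>
    A.inv_mem_of_algebraic (x := ⟨x, hx⟩) (Algebra.IsAlgebraic.isAlgebraic x)
  have hM : ∀ x, x ∈ M ↔ x ∈ N₀ := fun x => Iff.rfl
  have hfin : finrank K M = finrank K N₀ := rfl
  refine ⟨M.fixingSubgroup, ⟨fun g hg h => ?_⟩, ?_, fun hbot => ?_⟩
  · rw [IntermediateField.mem_fixingSubgroup_iff] at hg ⊢
    intro x hx
    have := hg (h.symm x) (hmap h.symm x hx)
    change h (g (h.symm x)) = x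
    rw [this, AlgEquiv.apply_symm_apply]
  · refine IsPGroup.of_card (n := c) ?_
    rw [IsGalois.card_fixingSubgroup_eq_finrank]
    have h2 := Module.finrank_mul_finrank K M N
    rw [← hc, ← hdim, hfin] at h2
    exact Nat.eq_of_mul_eq_mul_left (hfin ▸ Module.finrank_pos) h2
  · have := IsGalois.fixedField_fixingSubgroup M
    rw [hbot, IntermediateField.fixedField_bot] at this
    obtain ⟨i, z, hz⟩ := hnot
    exact hz ((hN₀ z).1 ((hM z).1 (this ▸ IntermediateField.mem_top)) i)

end Crest.Agent.T170.DM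
end

-- ▼ part T170/Spec_38
section

/-!
Row 170, (SPEC): lattice independence of the reduced characteristic polynomial and the spectral
identity for a Galois extension.
-/

namespace Crest.Agent.T170.DM

open Module Polynomial

section LatInd

variable {R K : Type*} [CommRing R] [IsDomain R] [Field K] [Algebra R K] [IsFractionRing R K]
variable {V : Type*} [AddCommGroup V] [Module K V] [Module R V] [IsScalarTower R K V]
variable {F : Type*} [Field F] {res : R →+* F}
variable {ι ι' : Type*} [Fintype ι] [DecidableEq ι] [Fintype ι'] [DecidableEq ι']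

omit [IsDomain R] [IsFractionRing R K] in
theorem toMatrix_eq_map (b : Basis ι K V) (φ : V →ₗ[K] V) (G : Matrix ι ι R)
    (hG : ∀ j, φ (b j) = ∑ i, G i j • b i) :
    LinearMap.toMatrix b b φ = G.map (algebraMap R K) := by
  ext i j
  rw [LinearMap.toMatrix_apply, hG, map_sum]
  simp only [← algebraMap_smul K (G _ j), map_smul, Basis.repr_self, Matrix.map_apply]
  rw [Finsupp.finsetSum_apply, Finset.sum_eq_single i]
  · simp [Algebra.smul_def]
  · intro k _ hk; simp [Finsupp.single_eq_of_ne hk.symm]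
  · simp

omit [IsDomain R] in
theorem charpoly_step {π a a' : R} (hπ : π = a * a') (ha' : res a' = 0) {δ : AddMonoid.End V}
    (hδ : IsConn π 1 δ) (b : Basis ι K V) (b' : Basis ι' K V) {A : Matrix ι ι R}
    {A' : Matrix ι' ι' R} (hA : IsMat b δ A) (hA' : IsMat b' δ A') (h1 : lat R b' ≤ lat R b)
    (h2 : pw a (lat R b) 1 ≤ lat R b') : A.charpoly.map res = A'.charpoly.map res := by
  have : FiniteDimensional K V := Module.Finite.of_basis b
  let φ : V →ₗ[K] V := b.constr K fun j => δ (b j)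
  have hφ : ∀ j, φ (b j) = ∑ i, A i j • b i := fun j => by
    rw [← hA j]; exact b.constr_basis K _ j
  have hφv : ∀ c : ι → R, φ (vec b c) = vec b (A.mulVec c) := by
    intro c
    rw [vec_apply, vec_apply, map_sum]
    simp only [← algebraMap_smul K (c _), map_smul, hφ]
    simp only [algebraMap_smul, Finset.smul_sum, Matrix.mulVec, dotProduct, Finset.sum_smul]
    rw [Finset.sum_comm]
    refine Finset.sum_congr rfl fun j _ => Finset.sum_congr rfl fun i _ => ?_
    rw [mul_comm, mul_smul]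
  have key : ∀ j, ∃ c : ι' → R, δ (b' j) - φ (b' j) = a' • vec b' c := by
    intro j
    obtain ⟨c, hc⟩ := mem_lat.1 (h1 (self_mem_lat b' j))
    obtain ⟨w, hw, e⟩ := mem_pw.1 (hA.vec_sub hδ c)
    obtain ⟨c', hc'⟩ := mem_lat.1 (h2 (smul_mem_pw 1 hw))
    refine ⟨c', ?_⟩
    rw [← hc, hφv, ← e, hc', pow_one, pow_one, hπ, mul_comm, mul_smul]
  choose c hc using key
  let G : Matrix ι' ι' R := fun i j => A' i j - a' * c j i
  have hG : ∀ j, φ (b' j) = ∑ i, G i j • b' i := by
    intro j
    have : φ (b' j) = δ (b' j) - a' • vec b' (c j) := by rw [← hc]; abel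
    rw [this, hA' j, vec_apply, Finset.smul_sum, ← Finset.sum_sub_distrib]
    refine Finset.sum_congr rfl fun i _ => ?_
    rw [sub_smul, mul_smul]
  have e1 : A.charpoly = G.charpoly := by
    apply Polynomial.map_injective _ (IsFractionRing.injective R K)
    rw [← Matrix.charpoly_map, ← Matrix.charpoly_map, ← toMatrix_eq_map b φ A hφ,
      ← toMatrix_eq_map b' φ G hG, LinearMap.charpoly_toMatrix, LinearMap.charpoly_toMatrix]
  rw [e1, ← Matrix.charpoly_map, ← Matrix.charpoly_map]
  congr 1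
  ext i j
  simp [G, ha']

variable [ValuationRing R]

/-- the reduced characteristic polynomial does not depend on the stable lattice -/
theorem charpoly_indep (hR : Arch R) {π a a' : R} (hπ : π = a * a') (ha0 : a ≠ 0)
    (ha : ¬ IsUnit a) (ha' : res a' = 0) {δ : AddMonoid.End V} (hδ : IsConn π 1 δ)
    (hc : Comm a δ) (b : Basis ι K V) (b' : Basis ι' K V) {A : Matrix ι ι R}
    {A' : Matrix ι' ι' R} (hA : IsMat b δ A) (hA' : IsMat b' δ A') :
    A.charpoly.map res = A'.charpoly.map res := by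
  have : FiniteDimensional K V := Module.Finite.of_basis b
  obtain ⟨t, ht⟩ := exists_pw_le (K := K) hR ha (lat R b') (lat R b) (isLattice_lat (K := K) b').fg
    (isLattice_lat b)
  -- rescale `b'`
  have hat : algebraMap R K (a ^ t) ≠ 0 :=
    (map_ne_zero_iff _ (IsFractionRing.injective R K)).2 (pow_ne_zero t ha0)
  let b'' : Basis ι' K V := b'.unitsSMul fun _ => Units.mk0 _ hat
  have hb'' : ∀ i, b'' i = a ^ t • b' i := fun i => by
    simp only [b'', Basis.unitsSMul_apply, Units.smul_mk0, algebraMap_smul]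
  have hA'' : IsMat b'' δ A' := fun j => by
    rw [hb'', hc.pow_left t, hA' j, Finset.smul_sum]
    exact Finset.sum_congr rfl fun i _ => by rw [hb'', smul_comm]
  have hle : lat R b'' ≤ lat R b := by
    refine Submodule.span_le.2 ?_
    rintro _ ⟨i, rfl⟩
    rw [hb'']
    exact ht (smul_mem_pw t (self_mem_lat b' i))
  obtain ⟨T, hT⟩ := exists_pw_le (K := K) hR ha (lat R b) (lat R b'') (isLattice_lat (K := K) b).fg
    (isLattice_lat b'')
  have hfg : ∀ k, (pw a (lat R b) k).FG := fun k => (isLattice_lat (K := K) b).fg.map _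
  have hlat : ∀ k, (lat R b'' ⊔ pw a (lat R b) k).IsLattice K := fun k =>
    isLattice_of_le (isLattice_lat b'') le_sup_left ((isLattice_lat (K := K) b'').fg.sup (hfg k))
  have hst : ∀ k, Stab (lat R b'' ⊔ pw a (lat R b) k) δ := by
    intro k z hz
    obtain ⟨u, hu, w, hw, rfl⟩ := Submodule.mem_sup.1 hz
    rw [map_add]
    exact Submodule.add_mem_sup (hA''.stab hδ u hu) ((hA.stab hδ).pw hc k w hw)
  have main : ∀ k, ∀ (e : Basis ι K V) (B : Matrix ι ι R), lat R e = lat R b'' ⊔ pw a (lat R b) k →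
      IsMat e δ B → A.charpoly.map res = B.charpoly.map res := by
    intro k
    induction k with
    | zero =>
      intro e B he hB
      rw [pw_zero, sup_eq_right.2 hle] at he
      exact charpoly_step hπ ha' hδ b e hA hB he.le (he ▸ pw_le _ _ _)
    | succ k ih =>
      intro e B he hB
      obtain ⟨e', he'⟩ := exists_basis (ι := ι) _ (hlat k) (finrank_eq_card_basis b).symm
      obtain ⟨B', hB'⟩ := exists_isMat (R := R) (b := e') (T := δ) (he' ▸ hst k)
      rw [ih e' B' he' hB']
      refine charpoly_step hπ ha' hδ e' e hB' hB ?_ ?_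
      · rw [he, he']
        exact sup_le_sup_left (pw_anti _ _ (Nat.le_succ k)) _
      · rw [he, he']
        intro z hz
        obtain ⟨y, hy, rfl⟩ := mem_pw.1 hz
        obtain ⟨u, hu, w, hw, rfl⟩ := Submodule.mem_sup.1 hy
        rw [smul_add]
        refine Submodule.add_mem_sup (Submodule.smul_mem _ _ hu) ?_
        rw [add_comm k 1]
        exact pow_smul_mem_pw 1 hw
  obtain ⟨e, he⟩ := exists_basis (ι := ι) _ (hlat T) (finrank_eq_card_basis b).symm
  obtain ⟨B, hB⟩ := exists_isMat (R := R) (b := e) (T := δ) (he ▸ hst T)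
  rw [main T e B he hB]
  rw [sup_eq_left.2 hT] at he
  exact charpoly_step hπ ha' hδ e b'' hB hA'' he.ge (he ▸ pw_le _ _ _)

end LatInd

section Galois

variable {K N : Type*} [Field K] [Field N] [Algebra K N] [FiniteDimensional K N] [IsGalois K N]
variable {ι : Type*} [Fintype ι] [DecidableEq ι]

theorem linearIndependent_mul_gal (b : Basis ι K N) :
    LinearIndependent K fun ik : ι × ι => fun h : N ≃ₐ[K] N => b ik.1 * h (b ik.2) := by
  rw [Fintype.linearIndependent_iff]
  intro c hc ⟨i, l⟩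
  let b' := (Algebra.traceForm K N).dualBasis (traceForm_nondegenerate K N) b
  have h1 : ∀ h : N ≃ₐ[K] N, ∑ k, (∑ j, c (j, k) • b j) * h (b k) = 0 := by
    intro h
    have := congrFun hc h
    rw [Finset.sum_apply, Fintype.sum_prod_type_right] at this
    simp only [Pi.smul_apply, Pi.zero_apply] at this
    rw [← this]
    refine Finset.sum_congr rfl fun k _ => ?_
    rw [Finset.sum_mul]
    exact Finset.sum_congr rfl fun j _ => smul_mul_assoc _ _ _
  have h2 : ∀ k, ∑ h : N ≃ₐ[K] N, h (b' l) * h (b k) = if k = l then 1 else 0 := by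
    intro k
    simp only [← map_mul]
    rw [← trace_eq_sum_automorphisms, ← Algebra.traceForm_apply,
      LinearMap.BilinForm.apply_dualBasis_left]
    split_ifs <;> simp
  have h3 : ∑ j, c (j, l) • b j = 0 := by
    have : ∑ h : N ≃ₐ[K] N, ∑ k, h (b' l) * ((∑ j, c (j, k) • b j) * h (b k)) = 0 :=
      Finset.sum_eq_zero fun h _ => by rw [← Finset.mul_sum, h1, mul_zero]
    rw [Finset.sum_comm] at this
    have e : ∀ k, ∑ h : N ≃ₐ[K] N, h (b' l) * ((∑ j, c (j, k) • b j) * h (b k)) =
        if k = l then ∑ j, c (j, k) • b j else 0 := by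
      intro k
      simp only [mul_left_comm (_ : N) (∑ j, c (j, k) • b j)]
      rw [← Finset.mul_sum, h2]
      split_ifs <;> simp
    simpa [e] using this
  exact Fintype.linearIndependent_iff.1 b.linearIndependent _ h3 i

omit [FiniteDimensional K N] [IsGalois K N] [DecidableEq ι] in
theorem linearIndependent_single {H : Type*} [Fintype H] [DecidableEq H] (b : Basis ι K N) :
    LinearIndependent K fun ih : ι × H => (Pi.single ih.2 (b ih.1) : H → N) := by
  rw [Fintype.linearIndependent_iff]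
  intro c hc ⟨i, h⟩
  have := congrFun hc h
  rw [Finset.sum_apply, Fintype.sum_prod_type] at this
  have e : ∀ j, ∑ h' : H, (c (j, h') • (Pi.single h' (b j) : H → N)) h = c (j, h) • b j := by
    intro j
    rw [Finset.sum_eq_single h]
    · simp
    · intro h' _ hh; simp [Pi.single_eq_of_ne hh.symm]
    · simp
  simp only [e, Pi.zero_apply] at this
  exact Fintype.linearIndependent_iff.1 b.linearIndependent _ this i

end Galois

theorem specStmt : SpecStmt := by
  intro p _ R K N F ι n _ _ _ _ _ _ _ _ _ _ _ _ _ _ _ _ res π δ S hl hg b δb hred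
  classical
  have := S.char
  have hπ : res π = 0 := (S.ker π).2 S.pi_nonunit
  have hL : ∀ i, Stab (lat R b) (δ i) := fun i => (hred i).stab
  obtain ⟨l, hl'⟩ := exists_generic_comb δb fun i j =>
    red_comm S.surj (vec_injective b) hπ S.conn S.comm hL (self_mem_opRing δ i)
      (self_mem_opRing δ j) (hred i) (hred j)
  choose lam hlam using fun i => S.surj (l i)
  let D : AddMonoid.End N := ∑ i, sc N (lam i) * δ i
  have hDapp : ∀ z, D z = ∑ i, lam i • δ i z := fun z => End_sum_apply _ _ z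
  have hD : IsConn π 1 D := IsConn.sum _ fun i _ => (S.conn i).sc_mul _
  have hDred : Red res b D (∑ i, l i • δb i) := by
    have := Red.sum (res := res) (b := b) Finset.univ fun i _ => (Red.sc res b (lam i)).mul (hred i)
    simpa only [hlam, ← Algebra.smul_def] using this
  obtain ⟨A, hA⟩ := exists_isMat hDred.stab
  have hAred := hDred.unique S.surj (vec_injective b) (hA.red hD hπ)
  obtain ⟨a₀, a₀', h₀, h₀', hsplit⟩ := S.pi_split
  obtain ⟨a, hac, u, hu⟩ := S.cst a₀
  have hπa : π = a * (↑u⁻¹ * a₀') := by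
    rw [hsplit, ← hu, mul_assoc, ← mul_assoc (u : R), Units.mul_inv, one_mul]
  have ha0 : a ≠ 0 := fun h => S.pi_ne (by rw [hπa, h, zero_mul])
  have ha : ¬ IsUnit a := fun h => h₀ (isUnit_of_mul_isUnit_left (hu ▸ h))
  have ha' : res (↑u⁻¹ * a₀') = 0 := by rw [map_mul, (S.ker _).2 h₀', mul_zero]
  have hDc : Comm a D := fun z => by
    rw [hDapp, hDapp, Finset.smul_sum]
    exact Finset.sum_congr rfl fun i _ => by rw [hac i, smul_comm]
  have hgs : ∀ (g : N ≃ₐ[K] N) (r : R) (w : N), g (r • w) = r • g w := fun g r w => by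
    rw [← algebraMap_smul K r w, map_smul, algebraMap_smul]
  have hDl : ∀ x y, D (x * y) = D x * y + x * D y := fun x y => by
    rw [hDapp, hDapp, hDapp, Finset.sum_mul, Finset.mul_sum, ← Finset.sum_add_distrib]
    exact Finset.sum_congr rfl fun i _ => by
      rw [hl, smul_add, smul_mul' (K := K), mul_smul' (K := K)]
  have hDg : ∀ (g : N ≃ₐ[K] N) z, D (g z) = g (D z) := fun g z => by
    rw [hDapp, hDapp, map_sum]
    exact Finset.sum_congr rfl fun i _ => by rw [hg, hgs]
  -- the space of functions on the Galois group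
  let DW : AddMonoid.End ((N ≃ₐ[K] N) → N) := AddMonoidHom.compLeft D (N ≃ₐ[K] N)
  have hDW : ∀ z h, DW z h = D (z h) := fun _ _ => rfl
  have hW : IsConn π 1 DW := ⟨fun z => funext fun h => hD.1 _, fun r => by
    obtain ⟨r', hr'⟩ := hD.2 r
    exact ⟨r', fun z => funext fun h => hr' _⟩⟩
  have hWc : Comm a DW := fun z => funext fun h => hDc _
  have hcardι : Fintype.card ι = finrank K N := (finrank_eq_card_basis b).symm
  have hcardH : Fintype.card (N ≃ₐ[K] N) = Fintype.card ι := by
    rw [hcardι, ← IsGalois.card_aut_eq_finrank, Nat.card_eq_fintype_card]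
  have : Nonempty ι := Fintype.card_pos_iff.1 (hcardι ▸ Module.finrank_pos)
  have hfr : finrank K ((N ≃ₐ[K] N) → N) = Fintype.card ι * Fintype.card ι := by
    rw [Module.finrank_pi_fintype]
    simp [← hcardι, hcardH]
  let b₁ := basisOfLinearIndependentOfCardEqFinrank (linearIndependent_mul_gal b)
    (by rw [hfr, Fintype.card_prod])
  let b₂ := basisOfLinearIndependentOfCardEqFinrank
    (linearIndependent_single (H := N ≃ₐ[K] N) b) (by rw [hfr, Fintype.card_prod, hcardH])
  have hb₁ : ∀ ik h, b₁ ik h = b ik.1 * h (b ik.2) := fun ik h => by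
    simp [b₁]
  have hb₂ : ∀ ih, b₂ ih = Pi.single ih.2 (b ih.1) := fun ih => by
    simp [b₂]
  have m₁ : IsMat b₁ DW (kronSum A) := by
    rintro ⟨j, k⟩
    funext h
    rw [hDW, hb₁, hDl, hDg, hA, hA, Finset.sum_apply, Fintype.sum_prod_type]
    simp only [Pi.smul_apply, hb₁, kronSum, add_smul, Finset.sum_add_distrib, ite_smul, zero_smul,
      Finset.sum_ite_eq', Finset.mem_univ, if_true]
    rw [Finset.sum_mul, map_sum, Finset.mul_sum]
    congr 1
    · exact Finset.sum_congr rfl fun i _ => smul_mul' (K := K) _ _ _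
    · rw [Finset.sum_comm]
      simp only [Finset.sum_ite_eq', Finset.mem_univ, if_true]
      exact Finset.sum_congr rfl fun i _ => by rw [hgs, mul_smul' (K := K)]
  have m₂ : IsMat b₂ DW (Matrix.blockDiagonal fun _ => A) := by
    rintro ⟨j, g⟩
    funext h
    rw [hDW, hb₂, Finset.sum_apply, Fintype.sum_prod_type]
    simp only [Pi.smul_apply, hb₂, Matrix.blockDiagonal_apply, ite_smul, zero_smul,
      Finset.sum_ite_eq', Finset.mem_univ, if_true]
    by_cases hh : h = g
    · subst hh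
      simp only [Pi.single_eq_same]
      exact hA j
    · simp [Pi.single_eq_of_ne hh]
  have hind := charpoly_indep (res := res) S.arch hπa ha0 ha ha' hW hWc b₁ b₂ m₁ m₂
  rw [← Matrix.charpoly_map, ← Matrix.charpoly_map, kronSum_map, Matrix.blockDiagonal_map _ _
    (map_zero res)] at hind
  obtain ⟨c, hc⟩ := finrank_mul_pow_of_kron (p := p) hcardH (A.map res) hind
  exact ⟨c, by rw [V0, ← hl', hAred, hc, hcardι]⟩

theorem finalStmt : FinalStmt := finalStmt_of specStmt

end Crest.Agent.T170.DM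
end

-- ▼ part T170/Slope_85
section

/-!
Row 170, differential modules: the optimal scalar (`SlopeStmt`).
-/

set_option autoImplicit false

namespace Crest.Agent.T170.DM

open Module Polynomial
open scoped NNReal

namespace Slope85

theorem charpoly_smul_coeff {K V : Type*} [Field K] [AddCommGroup V] [Module K V]
    [FiniteDimensional K V] (T : Module.End K V) (a : K) {k : ℕ} (hk : k ≤ finrank K V) :
    (a • T).charpoly.coeff (finrank K V - k) = a ^ k * T.charpoly.coeff (finrank K V - k) := by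
  classical
  let b := Module.finBasis K V
  rw [← LinearMap.charpoly_toMatrix _ b, ← LinearMap.charpoly_toMatrix _ b, map_smul]
  have hc : Fintype.card (Fin (finrank K V)) = finrank K V := Fintype.card_fin _
  have h1 := Matrix.charpoly_coeff_eq_sum_minors (a • LinearMap.toMatrix b b T) k (by rwa [hc])
  have h2 := Matrix.charpoly_coeff_eq_sum_minors (LinearMap.toMatrix b b T) k (by rwa [hc])
  rw [hc] at h1 h2
  rw [h1, h2, mul_left_comm, Finset.mul_sum _ _ (a ^ k)]
  congr 1
  refine Finset.sum_congr rfl fun s hs => ?_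
  have hs' : s.card = k := (Finset.mem_powersetCard.1 hs).2
  rw [Matrix.submatrix_smul]
  simp only [Pi.smul_apply]
  rw [Matrix.det_smul, Fintype.card_coe, hs']

section Lin

variable {R K : Type*} [CommRing R] [IsDomain R] [Field K] [Algebra R K] [IsFractionRing R K]
variable {V : Type*} [AddCommGroup V] [Module K V] [Module R V] [IsScalarTower R K V]
variable {ι : Type*} [Fintype ι] [DecidableEq ι]

omit [IsDomain R] [IsFractionRing R K] in
theorem map_rsmul (T : Module.End K V) (r : R) (x : V) : T (r • x) = r • T x := by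
  rw [← algebraMap_smul K r x, map_smul, algebraMap_smul]

omit [IsDomain R] [IsFractionRing R K] in
/-- the matrix of a linear map preserving a lattice -/
theorem exists_mat [FiniteDimensional K V] (b : Basis ι K V) (T : Module.End K V)
    (hT : ∀ j, T (b j) ∈ lat R b) :
    ∃ A : Matrix ι ι R, T.charpoly = A.charpoly.map (algebraMap R K) ∧
      ∀ c : ι → R, T (vec b c) = vec b (A.mulVec c) := by
  have : ∀ j, ∃ c : ι → R, vec b c = T (b j) := fun j => mem_lat.1 (hT j)
  choose c hc using this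
  refine ⟨Matrix.of fun i j => c j i, ?_, fun x => ?_⟩
  · rw [← Matrix.charpoly_map, ← LinearMap.charpoly_toMatrix _ b]
    congr 1
    ext i j
    rw [LinearMap.toMatrix_apply, ← hc j, vec_apply]
    simp only [← algebraMap_smul K (c j _), map_sum, map_smul, Basis.repr_self]
    simp [Finsupp.single_apply, Algebra.algebraMap_eq_smul_one]
  · rw [vec_apply, vec_apply, map_sum]
    simp only [map_rsmul, ← hc, vec_apply, Finset.smul_sum, Matrix.mulVec, dotProduct,
      Finset.sum_smul]
    rw [Finset.sum_comm]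
    refine Finset.sum_congr rfl fun j _ => Finset.sum_congr rfl fun i _ => ?_
    rw [mul_comm, mul_smul]; rfl

omit [IsDomain R] in
/-- a linear map with a power in `π End L` has a characteristic polynomial `X ^ h` modulo the
maximal ideal -/
theorem nonunit_coeff [IsLocalRing R] [FiniteDimensional K V] (b : Basis ι K V)
    (T : Module.End K V) (hT : ∀ j, T (b j) ∈ lat R b) {π : R} (hπ : ¬ IsUnit π) {m : ℕ}
    (hm : ∀ j, (T ^ m) (b j) ∈ pw π (lat R b) 1) {k : ℕ} (hk : k < finrank K V) :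
    ∃ r : R, ¬ IsUnit r ∧ algebraMap R K r = T.charpoly.coeff k := by
  obtain ⟨A, hA, hv⟩ := exists_mat b T hT
  refine ⟨A.charpoly.coeff k, ?_, by rw [hA, coeff_map]⟩
  have hpow : ∀ (l : ℕ) (c : ι → R), (T ^ l) (vec b c) = vec b ((A ^ l).mulVec c) := by
    intro l
    induction l with
    | zero => intro c; simp
    | succ l ih =>
      intro c
      rw [pow_succ', pow_succ', Module.End.mul_apply, ih, hv, Matrix.mulVec_mulVec]
  let φ := IsLocalRing.residue R
  have hφ : φ π = 0 := (IsLocalRing.residue_eq_zero_iff _).2 hπ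
  have hnil : IsNilpotent (A.map φ) := by
    refine ⟨m, ?_⟩
    have : (A.map φ) ^ m = (A ^ m).map φ := by
      simpa using (map_pow φ.mapMatrix A m).symm
    rw [this]
    ext i j
    obtain ⟨c', hc'⟩ := mem_pw_lat.1 (hm j)
    rw [← vec_single (R := R) b j, hpow] at hc'
    have := congrFun (vec_injective b hc') i
    simp only [Matrix.mulVec_single_one, Pi.smul_apply, smul_eq_mul, pow_one] at this
    have e : (A ^ m) i j = π * c' i := this.symm
    simp [Matrix.map_apply, e, hφ]
  have h0 := (Matrix.isNilpotent_charpoly_sub_pow_of_isNilpotent hnil).eq_zero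
  rw [sub_eq_zero, Matrix.charpoly_map] at h0
  have h1 := congrArg (fun p => Polynomial.coeff p k) h0
  have hc : Fintype.card ι = finrank K V := (finrank_eq_card_basis b).symm
  simp only [coeff_map, coeff_X_pow, hc, if_neg hk.ne] at h1
  exact (IsLocalRing.residue_eq_zero_iff _).1 h1

/-- the lattice generated by the iterates -/
def iter (R : Type*) [CommRing R] [Module R V] (b : ι → V) (T : Module.End K V) (h : ℕ) :
    Submodule R V :=
  lat R fun q : Fin (h + 1) × ι => (T ^ (q.1 : ℕ)) (b q.2)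

omit [IsDomain R] [IsFractionRing R K] [DecidableEq ι] [Fintype ι] [Algebra R K]
  [IsScalarTower R K V] in
theorem gen_mem_iter (b : ι → V) (T : Module.End K V) {h j : ℕ} (hj : j ≤ h) (k : ι) :
    (T ^ j) (b k) ∈ iter R b T h :=
  self_mem_lat (R := R) (fun q : Fin (h + 1) × ι => (T ^ (q.1 : ℕ)) (b q.2))
    (⟨j, Nat.lt_succ_of_le hj⟩, k)

omit [IsDomain R] [IsFractionRing R K] [DecidableEq ι] [Fintype ι] [Algebra R K]
  [IsScalarTower R K V] in
theorem le_iter (b : ι → V) (T : Module.End K V) (h : ℕ) : lat R b ≤ iter R b T h := by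
  refine Submodule.span_le.2 ?_
  rintro _ ⟨k, rfl⟩
  simpa using gen_mem_iter (R := R) b T (Nat.zero_le h) k

omit [IsDomain R] [IsFractionRing R K] [DecidableEq ι] [Fintype ι] in
theorem map_mem_of_gen {κ : Type*} (f : κ → V) (T : Module.End K V) (L : Submodule R V)
    (h : ∀ q, T (f q) ∈ L) : ∀ x ∈ lat R f, T x ∈ L := by
  intro x hx
  induction hx using Submodule.span_induction with
  | mem x hx => obtain ⟨q, rfl⟩ := hx; exact h q
  | zero => rw [map_zero]; exact L.zero_mem
  | add x y _ _ hx hy => rw [map_add]; exact L.add_mem hx hy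
  | smul a x _ hx => rw [map_rsmul]; exact L.smul_mem _ hx

omit [IsDomain R] [IsFractionRing R K] [DecidableEq ι] [Fintype ι] in
theorem iter_stab [FiniteDimensional K V] (b : ι → V) (T : Module.End K V)
    (hT : ∀ k, k < finrank K V → ∃ r : R, algebraMap R K r = T.charpoly.coeff k) :
    ∀ x ∈ iter R b T (finrank K V), T x ∈ iter R b T (finrank K V) := by
  refine map_mem_of_gen _ T _ ?_
  rintro ⟨j, k⟩
  have e : ∀ l : ℕ, T ((T ^ l) (b k)) = (T ^ (l + 1)) (b k) := fun l => by
    rw [pow_succ', Module.End.mul_apply]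
  rcases Nat.lt_succ_iff_lt_or_eq.1 j.2 with hj | hj
  · simp only [e]; exact gen_mem_iter b T hj k
  · have h0 := T.aeval_self_charpoly
    rw [aeval_eq_sum_range, T.charpoly_natDegree, Finset.sum_range_succ] at h0
    have hl : T.charpoly.coeff (finrank K V) = 1 := by
      rw [← T.charpoly_natDegree]; exact T.charpoly_monic
    rw [hl, one_smul, add_comm, add_eq_zero_iff_eq_neg] at h0
    simp only [hj, h0, LinearMap.neg_apply, LinearMap.sum_apply, map_neg, map_sum,
      LinearMap.smul_apply, map_smul, e]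
    refine Submodule.neg_mem _ (Submodule.sum_mem _ fun l hl => ?_)
    have hl' := Finset.mem_range.1 hl
    obtain ⟨r, hr⟩ := hT l hl'
    rw [← hr, algebraMap_smul]
    exact Submodule.smul_mem _ _ (gen_mem_iter b T hl' k)

omit [IsDomain R] [IsFractionRing R K] [DecidableEq ι] [Fintype ι] in
theorem smul_iter (b : ι → V) (T : Module.End K V) (a : R) (h : ℕ)
    (hT : ∀ x ∈ lat R b, a • T x ∈ lat R b) : ∀ x ∈ iter R b T h, a ^ h • x ∈ lat R b := by
  have key : ∀ (j : ℕ) (k : ι), a ^ j • (T ^ j) (b k) ∈ lat R b := by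
    intro j k
    induction j with
    | zero => simpa using self_mem_lat (R := R) b k
    | succ j ih =>
      have := hT _ ih
      rw [map_rsmul, smul_smul, ← pow_succ'] at this
      rwa [pow_succ' T, Module.End.mul_apply]
  intro x hx
  have := map_mem_of_gen (R := R) (fun q : Fin (h + 1) × ι => (T ^ (q.1 : ℕ)) (b q.2))
    (algebraMap R K a ^ h • (1 : Module.End K V)) (lat R b) ?_ x hx
  · rwa [LinearMap.smul_apply, Module.End.one_apply, ← map_pow, algebraMap_smul] at this
  · rintro ⟨j, k⟩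
    obtain ⟨l, hl⟩ := Nat.exists_eq_add_of_le' (Nat.lt_succ_iff.1 j.2)
    rw [LinearMap.smul_apply, Module.End.one_apply, ← map_pow, algebraMap_smul]
    have : a ^ h • (T ^ (j : ℕ)) (b k) = a ^ l • a ^ (j : ℕ) • (T ^ (j : ℕ)) (b k) := by
      rw [smul_smul, ← pow_add, ← hl]
    change a ^ h • (T ^ (j : ℕ)) (b k) ∈ lat R b
    rw [this]
    exact Submodule.smul_mem _ _ (key j k)

omit [IsDomain R] [IsFractionRing R K] [DecidableEq ι] [Fintype ι] in
/-- iterates of an operator which is congruent to a linear map -/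
theorem pow_sub_pow {L : Submodule R V} {π : R} (δ : AddMonoid.End V) (T : Module.End K V)
    (hT : ∀ x ∈ L, T x ∈ L) (h : ∀ x ∈ L, δ x - T x ∈ pw π L 1) (k : ℕ) :
    ∀ x ∈ L, (δ ^ k) x ∈ L ∧ (δ ^ k) x - (T ^ k) x ∈ pw π L 1 := by
  have hδ : ∀ x ∈ L, δ x ∈ L := fun x hx => by
    have := L.add_mem (pw_le π L 1 (h x hx)) (hT x hx)
    rwa [sub_add_cancel] at this
  intro x hx
  induction k with
  | zero => exact ⟨hx, by simp [End_one_apply]⟩
  | succ k ih =>
    rw [End_pow_succ_apply, pow_succ' T, Module.End.mul_apply]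
    refine ⟨hδ _ ih.1, ?_⟩
    obtain ⟨w, hw, e⟩ := mem_pw.1 ih.2
    have : δ ((δ ^ k) x) - T ((T ^ k) x) =
        (δ ((δ ^ k) x) - T ((δ ^ k) x)) + π ^ 1 • T w := by
      rw [← map_rsmul, e, map_sub]; abel
    rw [this]
    exact Submodule.add_mem _ (h _ ih.1) (smul_mem_pw 1 (hT w hw))

end Lin

section Val

variable {K : Type*} [Field K] (v : Valuation K ℝ≥0)
variable {V : Type*} [AddCommGroup V] [Module K V]

/-- a connection differs from its linear part by an operator preserving the lattice -/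
theorem sub_lin_mem {ι : Type*} {D : AddMonoid.End V} (hD : VConn v D) (b : Basis ι K V) :
    ∀ x ∈ lat v.integer b, D x - b.constr K (fun j => D (b j)) x ∈ lat v.integer b := by
  intro x hx
  have key : x ∈ lat v.integer b ∧
      D x - b.constr K (fun j => D (b j)) x ∈ lat v.integer b := by
    induction hx using Submodule.span_induction with
    | mem x hx =>
      obtain ⟨j, rfl⟩ := hx
      exact ⟨self_mem_lat _ j, by simp⟩
    | zero => simp
    | add x y _ _ hx hy =>
      refine ⟨Submodule.add_mem _ hx.1 hy.1, ?_⟩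
      have := Submodule.add_mem _ hx.2 hy.2
      rw [map_add, map_add]
      convert this using 1
      abel
    | smul a x _ hx =>
      refine ⟨Submodule.smul_mem _ _ hx.1, ?_⟩
      obtain ⟨a', ha', h⟩ := hD a
      have := Submodule.add_mem _ (Submodule.smul_mem _ a hx.2)
        (Submodule.smul_mem _ (⟨a', ha'.trans a.2⟩ : v.integer) hx.1)
      rw [int_smul, h, map_smul]
      convert this using 1
      rw [int_smul, int_smul, smul_sub]
      abel
  exact key.2

theorem hasStab_mul {D : AddMonoid.End V} {c c' : K} (h : HasStab v.integer K (scK c D))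
    (hc : v c' ≤ 1) : HasStab v.integer K (scK (c' * c) D) := by
  obtain ⟨L, hL, hs⟩ := h
  refine ⟨L, hL, fun x hx => ?_⟩
  have := L.smul_mem (⟨c', hc⟩ : v.integer) (hs x hx)
  rwa [int_smul, scK_apply, smul_smul] at this

variable [FiniteDimensional K V]

/-- the key step: divide by the spectral radius of the matrix -/
theorem key {D : AddMonoid.End V} (C : Subfield K) (hD : VConn v D)
    (hC : ∀ c ∈ C, ∀ z, D (c • z) = c • D z)
    (hdiv : ∀ (a : K) (j : ℕ), 0 < j → ∃ c ∈ C, v c ^ j = v a)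
    {c e : K} (hs : HasStab v.integer K (scK c D)) (he : e ∈ C) (he0 : 0 < v e) (he1 : v e ≤ 1)
    (hce : v c < v e ^ (finrank K V + 1)) :
    ∃ a ∈ C, v e ≤ v a ∧ HasStab v.integer K (scK (c / a) D) ∧
      (v e < v a → ∀ (π : v.integer) (L : Submodule v.integer V), ¬ IsUnit π → L.IsLattice K →
        ∃ z, ¬ TNil π L (scK (c / a) D) z) := by
  classical
  set h := finrank K V with hh
  obtain ⟨L0, hL0, hs⟩ := hs
  obtain ⟨b, rfl⟩ := exists_basis (ι := Fin h) (K := K) L0 hL0 (by simp [hh])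
  set TD : Module.End K V := b.constr K fun j => D (b j) with hTD
  have hT0 : ∀ j, (c • TD) (b j) ∈ lat v.integer b := fun j => by
    have := hs _ (self_mem_lat _ j)
    simpa [hTD] using this
  obtain ⟨A, hA, -⟩ := exists_mat b (c • TD) hT0
  have hχ : ∀ k, v ((c • TD).charpoly.coeff k) ≤ 1 := fun k => by
    rw [hA, coeff_map]; exact (A.charpoly.coeff k).2
  -- the choice of `a`
  have hex : ∀ k : ℕ, ∃ t ∈ C, v t ≤ 1 ∧
      (if k = 0 then t = e else v t ^ k = v ((c • TD).charpoly.coeff (h - k))) := by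
    intro k
    by_cases hk : k = 0
    · exact ⟨e, he, he1, by simp [hk]⟩
    · obtain ⟨t, ht, e1⟩ := hdiv ((c • TD).charpoly.coeff (h - k)) k (Nat.pos_of_ne_zero hk)
      exact ⟨t, ht, (pow_le_one_iff_of_nonneg zero_le hk).1 (e1 ▸ hχ _), by simp [hk, e1]⟩
  choose t htC ht1 ht using hex
  obtain ⟨k0, hk0, hmax⟩ := Finset.exists_max_image (Finset.range (h + 1)) (fun k => v (t k))
    ⟨0, by simp⟩
  have ht0 : t 0 = e := by simpa using ht 0
  set a := t k0 with ha
  have hea : v e ≤ v a := ht0 ▸ hmax 0 (by simp)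
  have ha0 : 0 < v a := he0.trans_le hea
  have hane : a ≠ 0 := fun h0 => by simp [h0] at ha0
  set T : Module.End K V := a⁻¹ • c • TD with hT
  have hcoef : ∀ k, k ≤ h → v (T.charpoly.coeff (h - k)) =
      v ((c • TD).charpoly.coeff (h - k)) / v a ^ k := fun k hk => by
    rw [hT, charpoly_smul_coeff _ _ hk, map_mul, map_pow, map_inv₀, inv_pow, mul_comm,
      div_eq_mul_inv]
  have hint : ∀ k, k < finrank K V →
      ∃ r : v.integer, algebraMap v.integer K r = T.charpoly.coeff k := fun k hk => by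
    refine ⟨⟨T.charpoly.coeff k, ?_⟩, rfl⟩
    have hk' : h - k ≠ 0 := by omega
    have e1 := hcoef (h - k) (Nat.sub_le _ _)
    have e2 := ht (h - k)
    rw [if_neg hk'] at e2
    rw [← e2, show h - (h - k) = k by omega] at e1
    change v _ ≤ 1
    rw [e1, div_le_one (pow_pos ha0 _)]
    exact pow_le_pow_left₀ zero_le (hmax _ (Finset.mem_range.2 (by omega))) _
  set L := iter v.integer b T h with hL
  have hLT : ∀ x ∈ L, T x ∈ L := iter_stab b T hint
  have hle : lat v.integer b ≤ L := le_iter b T h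
  have hLl : L.IsLattice K :=
    isLattice_of_le hL0 hle (Submodule.fg_span (Set.finite_range _))
  have hback : ∀ x ∈ L, a ^ h • x ∈ lat v.integer b := by
    have := smul_iter (R := v.integer) b T ⟨a, ht1 k0⟩ h (fun x hx => by
      rw [int_smul, hT, LinearMap.smul_apply, smul_smul, mul_inv_cancel₀ hane, one_smul]
      exact map_mem_of_gen b (c • TD) _ hT0 x hx)
    exact this
  have hπ1 : v (c / a ^ (h + 1)) < 1 := by
    rw [map_div₀, map_pow, div_lt_one (pow_pos ha0 _)]
    exact hce.trans_le (pow_le_pow_left₀ zero_le hea _)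
  set π₀ : v.integer := ⟨c / a ^ (h + 1), hπ1.le⟩ with hπ₀
  have hcong : ∀ x ∈ L, scK (c / a) D x - T x ∈ pw π₀ L 1 := fun x hx => by
    refine mem_pw.2 ⟨_, hle (sub_lin_mem v hD b _ (hback x hx)), ?_⟩
    rw [pow_one, int_smul, hC _ (C.pow_mem (htC k0) h), map_smul, ← smul_sub, smul_smul,
      scK_apply, hT, LinearMap.smul_apply, LinearMap.smul_apply, smul_smul, smul_sub]
    have e1 : ((π₀ : v.integer) : K) * a ^ h = c / a := by
      rw [hπ₀]; field_simp; ring
    rw [e1, div_eq_inv_mul]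
  refine ⟨a, htC k0, hea, ⟨L, hLl, fun x hx => ?_⟩, fun hlt π L' hπ hL' => ?_⟩
  · simpa using (pow_sub_pow _ T hLT hcong 1 x hx).1
  · by_contra hcon
    push Not at hcon
    -- a non-zero non-unit dividing `π₀`
    obtain ⟨ϖ, hϖ0, hϖ1, hϖ⟩ : ∃ ϖ : v.integer, ϖ ≠ 0 ∧ ¬ IsUnit ϖ ∧ ϖ ∣ π₀ := by
      by_cases h0 : π₀ = 0
      · refine ⟨⟨e, he1⟩, fun h1 => ?_, (int_nonunit_iff v _).2 (hlt.trans_le (ht1 k0)), ?_⟩
        · have : e = 0 := congrArg Subtype.val h1
          simp [this] at he0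
        · rw [h0]; exact dvd_zero _
      · exact ⟨π₀, h0, (int_nonunit_iff v _).2 hπ1, dvd_rfl⟩
    have hnil : ∀ z, TNil ϖ L (scK (c / a) D) z := fun z =>
      ((hcon z).change_pi (int_arch v) hϖ0 hπ).change (K := K) (int_arch v) hϖ1 hL'.fg hLl
    obtain ⟨b', hb'⟩ := exists_basis (ι := Fin h) (K := K) L hLl (by simp [hh])
    have hex : ∀ j, ∃ m₀ : ℕ, ∀ m, m₀ ≤ m → (scK (c / a) D ^ m) (b' j) ∈ pw ϖ L 1 :=
      fun j => hnil (b' j) 1
    choose m hm using hex
    have hb'L : ∀ j, b' j ∈ L := fun j => hb' ▸ self_mem_lat _ j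
    have hk0ne : k0 ≠ 0 := fun h0 => by
      rw [ha, h0, ht0] at hlt; exact lt_irrefl _ hlt
    have hk0h : k0 ≤ h := Nat.lt_succ_iff.1 (Finset.mem_range.1 hk0)
    obtain ⟨r, hr, e1⟩ := nonunit_coeff (R := v.integer) b' T
      (fun j => hb' ▸ hLT _ (hb'L j)) hϖ1 (m := Finset.univ.sup m) (fun j => by
        rw [hb']
        have h1 := hm j _ (Finset.le_sup (f := m) (Finset.mem_univ j))
        have h2 := pw_le_pw_of_dvd (i := 1) (j := 1) (by simpa using hϖ) L
          (pow_sub_pow _ T hLT hcong (Finset.univ.sup m) _ (hb'L j)).2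
        have := Submodule.sub_mem _ h1 h2
        rwa [sub_sub_cancel] at this) (k := h - k0) (by omega)
    have e2 := ht k0
    rw [if_neg hk0ne] at e2
    have e3 := hcoef k0 hk0h
    rw [← e2, ← ha, div_self (pow_pos ha0 _).ne', ← e1] at e3
    exact hr ((int_isUnit_iff v r).2 e3)

/-- a small constant makes finitely many connections bounded -/
theorem exists_small {n : Type*} [Fintype n] {D : n → AddMonoid.End V} (C : Subfield K)
    (hD : ∀ i, VConn v (D i)) (hC : ∀ c ∈ C, ∀ i z, D i (c • z) = c • D i z)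
    {e : K} (he : e ∈ C) (he1 : v e < 1) :
    ∃ t : ℕ, ∀ i, HasStab v.integer K (scK (e ^ t) (D i)) := by
  classical
  let b := Module.finBasis K V
  let π : v.integer := ⟨e, he1.le⟩
  have hπ : ¬ IsUnit π := (int_nonunit_iff v _).2 he1
  have hex : ∀ q : n × Fin (finrank K V), ∃ t : ℕ, π ^ t • D q.1 (b q.2) ∈ lat v.integer b :=
    fun q => exists_pow_smul_mem (K := K) (int_arch v) hπ _ (isLattice_lat b) _
  choose t ht using hex
  refine ⟨Finset.univ.sup t, fun i => ⟨lat v.integer b, isLattice_lat b, ?_⟩⟩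
  have hc := VConn.isConn v (hD i) (π ^ Finset.univ.sup t) (hC _ (C.pow_mem he _) i)
  refine hc.map_span (L := lat v.integer b) Submodule.subset_span ?_
  rintro _ ⟨j, rfl⟩
  obtain ⟨l, hl⟩ := Nat.exists_eq_add_of_le' (Finset.le_sup (f := t) (Finset.mem_univ (i, j)))
  rw [scK_apply, ← int_smul, hl, pow_add, mul_smul]
  exact Submodule.smul_mem _ _ (ht (i, j))

end Val

end Slope85

open Slope85 in
theorem slopeStmt : SlopeStmt := by
  intro K V n _ v _ _ _ _ D C hD hC hdiv ⟨a₀, ha0, ha1⟩ ⟨r, hr1, hr⟩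
  classical
  set h := finrank K V with hh
  obtain ⟨j, hj⟩ := exists_pow_lt_of_lt_one ha0 hr1
  have hj0 : j ≠ 0 := fun h0 => by
    rw [h0, pow_zero] at hj; exact lt_asymm hj ha1
  obtain ⟨e, he, hev⟩ := hdiv a₀ ((h + 1) * j) (Nat.mul_pos h.succ_pos (Nat.pos_of_ne_zero hj0))
  have he0 : 0 < v e := by
    rw [pos_iff_ne_zero]
    intro h0
    rw [h0, zero_pow (by positivity)] at hev
    exact ha0.ne hev
  have he1 : v e < 1 := by
    by_contra h1
    exact absurd (hev ▸ one_le_pow₀ (not_lt.1 h1)) (not_le.2 ha1)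
  have hre : r < v e ^ (h + 1) := by
    rw [← hev, pow_mul] at hj
    exact lt_of_pow_lt_pow_left₀ j zero_le hj
  let S : Set ℝ≥0 := {s | ∃ c ∈ C, (∀ i, HasStab v.integer K (scK c (D i))) ∧ v c = s}
  have hbdd : BddAbove S := ⟨r, by rintro _ ⟨c, hc, hs, rfl⟩; exact hr c hc hs⟩
  obtain ⟨t, ht⟩ := exists_small v C hD hC he he1
  have hmem : v (e ^ t) ∈ S := ⟨e ^ t, C.pow_mem he t, ht, rfl⟩
  have hs0 : 0 < sSup S := lt_of_lt_of_le (by rw [map_pow]; exact pow_pos he0 t)
    (le_csSup hbdd hmem)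
  obtain ⟨_, ⟨c, hc, hcs, rfl⟩, hlt⟩ :=
    exists_lt_of_lt_csSup ⟨_, hmem⟩ (mul_lt_of_lt_one_left hs0 he1)
  have hne : Nonempty n := by
    by_contra hn
    have := hr 1 C.one_mem fun i => (hn ⟨i⟩).elim
    rw [map_one] at this
    exact absurd this (not_le.2 hr1)
  have hex := fun i => key v C (hD i) (fun c hc => hC c hc i) hdiv (hcs i) he he0 he1.le
    ((hr c hc hcs).trans_lt hre)
  choose a haC hea hst hnil using hex
  obtain ⟨i₀, -, hmax⟩ := Finset.exists_max_image Finset.univ (fun i => v (a i))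
    Finset.univ_nonempty
  have hpos : ∀ i, 0 < v (a i) := fun i => he0.trans_le (hea i)
  have hall : ∀ i, HasStab v.integer K (scK (c / a i₀) (D i)) := fun i => by
    have hi : a i ≠ 0 := fun h0 => by simpa [h0] using hpos i
    have := hasStab_mul v (hst i) (c' := a i / a i₀) (by
      rw [map_div₀, div_le_one (hpos i₀)]; exact hmax i (Finset.mem_univ i))
    rwa [show a i / a i₀ * (c / a i) = c / a i₀ by field_simp] at this
  have hcC : c / a i₀ ∈ C := C.div_mem hc (haC i₀)
  have hc0 : 0 < v c := lt_of_le_of_lt zero_le hlt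
  have hle : v (c / a i₀) ≤ sSup S := le_csSup hbdd ⟨_, hcC, hall, rfl⟩
  have hgt : v e < v (a i₀) := by
    rw [map_div₀, div_le_iff₀ (hpos i₀), mul_comm] at hle
    exact lt_of_mul_lt_mul_right (hlt.trans_le hle) zero_le
  refine ⟨c / a i₀, hcC, ?_, (hr _ hcC hall).trans_lt hr1, hall, fun π L hπ hL => ?_⟩
  · rw [map_div₀]; exact div_pos hc0 (hpos i₀)
  · obtain ⟨z, hz⟩ := hnil i₀ hgt π L hπ hL
    exact ⟨i₀, z, hz⟩

end Crest.Agent.T170.DM
end

-- ▼ part T170/Common_83
section

/-!
Row 170, differential modules (helper83): `commonStmt : CommonStmt`.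
-/

namespace Crest.Agent.T170.DM

open Module

namespace Com83

section Filt

variable {R : Type*} [CommRing R] {V : Type*} [AddCommGroup V] [Module R V]

/-- the span of the `δ ^ i e`, `i ≤ j`, `e ∈ s` -/
def P (R : Type*) [CommRing R] {V : Type*} [AddCommGroup V] [Module R V]
    (δ : AddMonoid.End V) (s : Set V) (j : ℕ) : Submodule R V :=
  Submodule.span R {w | ∃ i ≤ j, ∃ e ∈ s, (δ ^ i) e = w}

variable {π : R} {m : ℕ} {δ : AddMonoid.End V} {s : Set V}

theorem P_zero : P R δ s 0 = Submodule.span R s := by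
  unfold P
  congr 1
  ext w
  constructor
  · rintro ⟨i, hi, e, he, rfl⟩
    obtain rfl : i = 0 := Nat.le_zero.1 hi
    simpa [End_one_apply] using he
  · intro hw
    exact ⟨0, le_rfl, w, hw, by simp [End_one_apply]⟩

theorem P_mono {i j : ℕ} (h : i ≤ j) : P R δ s i ≤ P R δ s j :=
  Submodule.span_mono fun _ ⟨k, hk, e, he, hw⟩ => ⟨k, hk.trans h, e, he, hw⟩

theorem gen_mem {i j : ℕ} (h : i ≤ j) {e : V} (he : e ∈ s) : (δ ^ i) e ∈ P R δ s j :=
  Submodule.subset_span ⟨i, h, e, he, rfl⟩

theorem P_fg (hs : s.Finite) (j : ℕ) : (P R δ s j).FG := by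
  apply Submodule.fg_span
  refine (((Set.finite_Iic j).prod hs).image fun q => (δ ^ q.1) q.2).subset ?_
  rintro _ ⟨i, hi, e, he, rfl⟩
  exact ⟨(i, e), ⟨hi, he⟩, rfl⟩

theorem P_succ (h : IsConn π m δ) (j : ℕ) : ∀ v ∈ P R δ s j, δ v ∈ P R δ s (j + 1) := by
  refine h.map_span (fun w hw => P_mono (Nat.le_succ j) (Submodule.subset_span hw)) ?_
  rintro _ ⟨i, hi, e, he, rfl⟩
  rw [← End_pow_succ_apply]
  exact gen_mem (Nat.succ_le_succ hi) he

theorem P_pow (h : IsConn π m δ) (i : ℕ) {j : ℕ} {v : V} (hv : v ∈ P R δ s j) :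
    (δ ^ i) v ∈ P R δ s (j + i) := by
  induction i with
  | zero => simpa [End_one_apply] using hv
  | succ i ih => rw [End_pow_succ_apply]; exact P_succ h _ _ ih

theorem P_stab_of_comm (h : IsConn π m δ) {δ' : AddMonoid.End V} (h' : IsConn π m δ')
    (hc : δ' * δ = δ * δ') (hs : Stab (Submodule.span R s) δ') (j : ℕ) :
    Stab (P R δ s j) δ' := by
  refine h'.map_span Submodule.subset_span ?_
  rintro _ ⟨i, hi, e, he, rfl⟩
  have h1 : δ' * δ ^ i = δ ^ i * δ' := (Commute.pow_right hc i).eq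
  rw [← End_mul_apply, h1, End_mul_apply]
  have h2 : δ' e ∈ P R δ s 0 := by rw [P_zero]; exact hs e (Submodule.subset_span he)
  exact P_mono (by omega) (P_pow h i h2)

theorem P_stab (h : IsConn π m δ) {d : ℕ} (hd : ∀ e ∈ s, (δ ^ (d + 1)) e ∈ P R δ s d) :
    Stab (P R δ s d) δ := by
  refine h.map_span Submodule.subset_span ?_
  rintro _ ⟨i, hi, e, he, rfl⟩
  rw [← End_pow_succ_apply]
  rcases hi.eq_or_lt with rfl | hi
  · exact hd e he
  · exact gen_mem hi he

/-- `T` is `δ ^ (d + 1)` up to lower order terms -/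
def Mon (R : Type*) [CommRing R] {V : Type*} [AddCommGroup V] [Module R V]
    (δ : AddMonoid.End V) (s : Set V) (d : ℕ) (T : AddMonoid.End V) : Prop :=
  ∀ j, ∀ v ∈ P R δ s j, T v - (δ ^ (d + 1)) v ∈ P R δ s (j + d)

theorem Mon.mul (h : IsConn π m δ) {d d' : ℕ} {S T : AddMonoid.End V} (hS : Mon R δ s d S)
    (hT : Mon R δ s d' T) : Mon R δ s (d + d' + 1) (S * T) := by
  intro j v hv
  have h1 : T v ∈ P R δ s (j + (d' + 1)) := by
    have := (P R δ s (j + (d' + 1))).add_mem (P_mono (by omega) (hT j v hv)) (P_pow h (d' + 1) hv)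
    simpa using this
  have e : (S * T) v - (δ ^ (d + d' + 1 + 1)) v =
      (S (T v) - (δ ^ (d + 1)) (T v)) + (δ ^ (d + 1)) (T v - (δ ^ (d' + 1)) v) := by
    rw [End_mul_apply, map_sub, ← End_pow_add_apply,
      show d + 1 + (d' + 1) = d + d' + 1 + 1 by omega]
    abel
  rw [e]
  exact Submodule.add_mem _ (P_mono (by omega) (hS _ _ h1))
    (P_mono (by omega) (P_pow h (d + 1) (hT j v hv)))

theorem Mon.pow (h : IsConn π m δ) {d : ℕ} {T : AddMonoid.End V} (hT : Mon R δ s d T) (k : ℕ) :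
    ∃ d', Mon R δ s d' (T ^ (k + 1)) := by
  induction k with
  | zero => exact ⟨d, by simpa using hT⟩
  | succ k ih =>
    obtain ⟨d', hd'⟩ := ih
    exact ⟨_, by rw [pow_succ]; exact hd'.mul h hT⟩

/-- the operator `χ(δ) δ` -/
def op (χ : Polynomial R) (δ : AddMonoid.End V) : AddMonoid.End V :=
  (∑ j ∈ Finset.range (χ.natDegree + 1), sc V (χ.coeff j) * δ ^ j) * δ

theorem op_apply (χ : Polynomial R) (v : V) :
    op χ δ v = ∑ j ∈ Finset.range (χ.natDegree + 1), χ.coeff j • (δ ^ j) (δ v) := by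
  rw [op, End_mul_apply, End_sum_apply]
  rfl

theorem mon_op (h : IsConn π m δ) {χ : Polynomial R} (hχ : χ.Monic) :
    Mon R δ s χ.natDegree (op χ δ) := by
  intro j v hv
  rw [op_apply, Finset.sum_range_succ, hχ.coeff_natDegree, one_smul, ← End_pow_succ_apply',
    add_sub_cancel_right]
  refine Submodule.sum_mem _ fun i hi => Submodule.smul_mem _ _ ?_
  have hi' := Finset.mem_range.1 hi
  rw [← End_pow_succ_apply']
  exact P_mono (by omega) (P_pow h (i + 1) hv)

theorem comm_op (h : IsConn π m δ) (χ : Polynomial R) : Comm π (op χ δ) := by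
  intro v
  rw [op_apply, op_apply, Finset.smul_sum]
  refine Finset.sum_congr rfl fun j _ => ?_
  rw [h.1, pow_comm_pi h.1, smul_comm]

variable {ι : Type*} [Fintype ι] [DecidableEq ι]

theorem pow_vec_sub {b : ι → V} {A : Matrix ι ι R} (hA : IsMat b δ A) (h : IsConn π m δ)
    (j : ℕ) (c : ι → R) :
    (δ ^ j) (vec b c) - vec b ((A ^ j).mulVec c) ∈ pw π (lat R b) m := by
  induction j with
  | zero => simp [End_one_apply]
  | succ j ih =>
    have e : (δ ^ (j + 1)) (vec b c) - vec b ((A ^ (j + 1)).mulVec c) =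
        δ ((δ ^ j) (vec b c) - vec b ((A ^ j).mulVec c)) +
          (δ (vec b ((A ^ j).mulVec c)) - vec b (A.mulVec ((A ^ j).mulVec c))) := by
      rw [End_pow_succ_apply, map_sub, pow_succ', ← Matrix.mulVec_mulVec]
      abel
    rw [e]
    exact Submodule.add_mem _ ((hA.stab h).pw h.1 m _ ih) (hA.vec_sub h _)

/-- Cayley–Hamilton modulo `π ^ m` -/
theorem small_op {b : ι → V} {A : Matrix ι ι R} (hA : IsMat b δ A) (h : IsConn π m δ) :
    Small π (lat R b) m (op A.charpoly δ) := by
  intro v hv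
  obtain ⟨c, hc⟩ := mem_lat.1 (hA.stab h v hv)
  have h0 : ∑ j ∈ Finset.range (A.charpoly.natDegree + 1),
      A.charpoly.coeff j • vec b ((A ^ j).mulVec c) = 0 := by
    have h1 := Matrix.aeval_self_charpoly A
    rw [Polynomial.aeval_eq_sum_range] at h1
    have h2 := congrArg (fun B : Matrix ι ι R => vec b (B.mulVec c)) h1
    simpa only [Matrix.sum_mulVec, Matrix.smul_mulVec, map_sum, map_smul, Matrix.zero_mulVec,
      map_zero] using h2
  rw [op_apply, ← hc, ← sub_zero (∑ j ∈ _, _), ← h0, ← Finset.sum_sub_distrib]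
  refine Submodule.sum_mem _ fun j _ => ?_
  rw [← smul_sub]
  exact Submodule.smul_mem _ _ (pow_vec_sub hA h j c)

end Filt

variable {R K : Type*} [CommRing R] [IsDomain R] [ValuationRing R] [Field K] [Algebra R K]
  [IsFractionRing R K] {V : Type*} [AddCommGroup V] [Module K V] [Module R V]
  [IsScalarTower R K V] [FiniteDimensional K V]

/-- every lattice is contained in a `δ`-stable lattice, which is stable under everything that
commutes with `δ` and stabilises the first lattice. -/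
theorem exists_stab (hR : Arch R) {π : R} (h0 : π ≠ 0) (hπ : ¬ IsUnit π) {δ : AddMonoid.End V}
    (h : IsConn π 1 δ) (hs : HasStab R K δ) (L : Submodule R V) (hL : L.IsLattice K) :
    ∃ L' : Submodule R V, L'.IsLattice K ∧ L ≤ L' ∧ Stab L' δ ∧
      ∀ δ' : AddMonoid.End V, IsConn π 1 δ' → δ' * δ = δ * δ' → Stab L δ' → Stab L' δ' := by
  classical
  obtain ⟨L₁, hL₁, hst⟩ := hs
  obtain ⟨b, rfl⟩ := exists_basis (ι := Fin (finrank K V)) (K := K) L₁ hL₁ (by simp)
  obtain ⟨A, hA⟩ := exists_isMat hst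
  obtain ⟨a, ha⟩ := exists_pw_le (K := K) hR hπ L (lat R b) hL.fg hL₁
  obtain ⟨a', ha'⟩ := exists_pw_le (K := K) hR hπ (lat R b) L hL₁.fg hL
  obtain ⟨s, rfl⟩ := hL.fg
  have hT := (small_op hA h).pow (comm_op h _) (a + a' + 1)
  have hc := (comm_op h A.charpoly).pow (a + a' + 1)
  have hTL : Stab (Submodule.span R (s : Set V)) (op A.charpoly δ ^ (a + a' + 1)) := by
    intro v hv
    have h1 := pw_anti π _ (Nat.le_succ (a + a')) (hT _ (ha (smul_mem_pw a hv)))
    rw [← pw_pw] at h1
    obtain ⟨w, hw, e⟩ := mem_pw.1 (pw_mono π ha' a h1)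
    rw [hc.pow_left a] at e
    rw [← smul_cancel (K := K) (pow_ne_zero a h0) e]
    exact hw
  obtain ⟨d, hd⟩ := (mon_op (s := (s : Set V)) h A.charpoly_monic).pow h (a + a')
  have hle : Submodule.span R (s : Set V) ≤ P R δ s d := by
    rw [← P_zero (δ := δ)]; exact P_mono (Nat.zero_le d)
  refine ⟨P R δ s d, isLattice_of_le hL hle (P_fg s.finite_toSet d), hle, P_stab h fun e he => ?_,
    fun δ' h' hc' hs' => P_stab_of_comm h h' hc' hs' d⟩
  have he0 : e ∈ P R δ s 0 := by rw [P_zero]; exact Submodule.subset_span he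
  have h1 := hd 0 e he0
  rw [zero_add] at h1
  have h2 := hle (hTL e (Submodule.subset_span he))
  simpa using (P R δ s d).sub_mem h2 h1

/-- a common stable lattice containing a given lattice -/
theorem exists_common {n : Type*} [Finite n] (hR : Arch R) {π : R} (h0 : π ≠ 0)
    (hπ : ¬ IsUnit π) {δ : n → AddMonoid.End V} (h : ∀ i, IsConn π 1 (δ i))
    (hc : ∀ i j, δ i * δ j = δ j * δ i) (hs : ∀ i, HasStab R K (δ i)) (L₀ : Submodule R V)
    (hL₀ : L₀.IsLattice K) :
    ∃ L : Submodule R V, L.IsLattice K ∧ L₀ ≤ L ∧ ∀ i, Stab L (δ i) := by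
  classical
  have := Fintype.ofFinite n
  have key : ∀ t : Finset n, ∃ L : Submodule R V, L.IsLattice K ∧ L₀ ≤ L ∧
      ∀ i ∈ t, Stab L (δ i) := by
    intro t
    induction t using Finset.induction_on with
    | empty => exact ⟨L₀, hL₀, le_rfl, by simp⟩
    | insert i t _ ih =>
      obtain ⟨L, hL, hle, hst⟩ := ih
      obtain ⟨L', hL', hle', h1, h2⟩ := exists_stab hR h0 hπ (h i) (hs i) L hL
      refine ⟨L', hL', hle.trans hle', fun j hj => ?_⟩
      rcases Finset.mem_insert.1 hj with rfl | hj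
      · exact h1
      · exact h2 _ (h j) (hc j i) (hst j hj)
  obtain ⟨L, hL, hle, hst⟩ := key Finset.univ
  exact ⟨L, hL, hle, fun i => hst i (Finset.mem_univ i)⟩

end Com83

/-- **(COMMON)** -/
theorem commonStmt : CommonStmt := by
  intro R K V n _ _ _ _ _ _ _ _ _ _ _ _ π δ hR h0 hπ h hc hs
  obtain ⟨L, hL, -, hst⟩ := Com83.exists_common hR h0 hπ h hc hs
    (lat R (Module.finBasis K V)) (isLattice_lat _)
  exact ⟨L, hL, hst⟩

end Crest.Agent.T170.DM
end

-- ▼ part T170/Integ_13
section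

/-!
# Row 170 (T170): integrality of the reduced operators; `GagaStmt`, `IntStmt` (helper13)
-/

set_option autoImplicit false
open scoped BigOperators NNReal Topology IntermediateField
open Polynomial Filter

namespace Crest.Agent.T170.Gaga13

/-- Cayley–Hamilton for an operator preserving a spanning finitely generated `A`-module -/
theorem exists_monic_of_stable {Fb V : Type*} [Field Fb] [AddCommGroup V] [Module Fb V]
    (A : Subring Fb) (T : Module.End Fb V) (M : Submodule A V) (hfg : M.FG)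
    (hT : ∀ u ∈ M, T u ∈ M) (hsp : Submodule.span Fb (M : Set V) = ⊤) :
    ∃ P : Fb[X], P.Monic ∧ (∀ j, P.coeff j ∈ A) ∧ aeval T P = 0 := by
  have : Module.Finite A M := Module.Finite.iff_fg.2 hfg
  let f : Module.End A M := (T.restrictScalars A).restrict hT
  obtain ⟨q, hq, h0⟩ := LinearMap.exists_monic_and_aeval_eq_zero A f
  have hpow : ∀ (k : ℕ) (u : M), (((f ^ k) u : M) : V) = (T ^ k) (u : V) := by
    intro k
    induction k with
    | zero => intro u; rfl
    | succ k ih =>
      intro u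
      rw [pow_succ, pow_succ, Module.End.mul_apply, Module.End.mul_apply, ih]
      rfl
  refine ⟨q.map A.subtype, hq.map _, fun j => by rw [coeff_map]; exact (q.coeff j).2, ?_⟩
  refine LinearMap.ext_on hsp (fun u hu => ?_)
  have h1 := congrArg (fun g : Module.End A M => ((g ⟨u, hu⟩ : M) : V)) h0
  simp only [aeval_eq_sum_range, LinearMap.sum_apply, LinearMap.smul_apply, Submodule.coe_sum,
    Submodule.coe_smul, hpow, LinearMap.zero_apply, Submodule.coe_zero] at h1
  rw [aeval_eq_sum_range, hq.natDegree_map, LinearMap.sum_apply, LinearMap.zero_apply, ← h1]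
  refine Finset.sum_congr rfl (fun i _ => ?_)
  rw [LinearMap.smul_apply, coeff_map]
  rfl

theorem Gauss.exists_normalise {K F : Type*} [Field K] [Field F] [Algebra K F]
    {v : Valuation K ℝ≥0} {w : Valuation F ℝ≥0} {x : F} (hg : Gauss v w x) {g : K[X]}
    (h0 : g ≠ 0) : ∃ c : K, w (aeval x (C c * g)) = 1 := by
  obtain ⟨i, hi, hmax⟩ := g.support.exists_max_image (fun i => v (g.coeff i))
    (support_nonempty.2 h0)
  have hne : g.coeff i ≠ 0 := mem_support_iff.1 hi
  have hpos : 0 < v (g.coeff i) := pos_iff_ne_zero.2 ((_root_.map_ne_zero v).2 hne)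
  refine ⟨(g.coeff i)⁻¹, le_antisymm (hg.aeval_le _ _ (fun j => ?_)) ?_⟩
  · rw [coeff_C_mul, map_mul, map_inv₀, inv_mul_le_iff₀ hpos, mul_one]
    by_cases hj : j ∈ g.support
    · exact hmax j hj
    · rw [notMem_support_iff.1 hj, map_zero]; exact zero_le
  · have := hg.2.2 (C (g.coeff i)⁻¹ * g) i
    rwa [coeff_C_mul, inv_mul_cancel₀ hne, map_one] at this

section Tower
variable {K F E N O Fb : Type*} [Field K] [Field F] [Field E] [Field N] [CommRing O] [Field Fb]
  [Algebra K F] [Algebra F E] [Algebra F N] [Algebra E N] [IsScalarTower F E N]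
  [Algebra O E] [Module O N] [IsScalarTower O E N]
  [FiniteDimensional F N] [Algebra.IsSeparable F N]

omit [Algebra.IsSeparable F N] in
theorem exists_common_mul {v : Valuation K ℝ≥0} {w : Valuation F ℝ≥0} {x : F} (hg : Gauss v w x)
    (hx : IntermediateField.adjoin K {x} = ⊤) {α : Type*} [Fintype α] (z : α → N) :
    ∃ g : K[X], w (aeval x g) = 1 ∧ ∀ i, IsInt K x (algebraMap F N (aeval x g) * z i) := by
  classical
  choose g hg0 hgi using fun i => exists_isInt_mul (K := K) hg.transcendental hx (z i)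
  obtain ⟨c, hc⟩ := hg.exists_normalise (g := ∏ i, g i) (Finset.prod_ne_zero_iff.2 fun i _ => hg0 i)
  refine ⟨C c * ∏ i, g i, hc, fun i => ?_⟩
  have h := (isInt_aeval (K := K) (N := N) x (C c * ∏ j ∈ Finset.univ.erase i, g j)).mul (hgi i)
  rw [← mul_assoc, ← map_mul, ← map_mul, mul_assoc, Finset.prod_erase_mul _ _ (Finset.mem_univ i)]
    at h
  exact h

/-- **Integrality** -/
theorem integ {v : Valuation K ℝ≥0} {η : Valuation E ℝ≥0} {x : F}
    (hg : Gauss v (η.comap (algebraMap F E)) x) (hx : IntermediateField.adjoin K {x} = ⊤)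
    (hO : η.Integers O) {ι' : Type*} [Fintype ι'] (e : Module.Basis ι' F E)
    (he : ∀ a, η a ≤ 1 → ∀ i, η (algebraMap F E (e.repr a i)) ≤ 1) (he1 : ∀ i, η (e i) ≤ 1)
    (res : O →+* Fb) (A : Subring Fb) [IsNoetherianRing A]
    (hA : ∀ (r : O) (f : K[X]), algebraMap O E r = algebraMap F E (aeval x f) → res r ∈ A)
    {ι : Type*} [Fintype ι] (b : Module.Basis ι E N) (T : AddMonoid.End N)
    (Tb : Module.End Fb (ι → Fb)) (hred : DM.Red res b T Tb)
    (hT : ∀ z, IsInt K x z → IsInt K x (T z)) :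
    ∃ P : Fb[X], P.Monic ∧ (∀ j, P.coeff j ∈ A) ∧ aeval Tb P = 0 := by
  classical
  let S : Set (ι → Fb) := {u | ∃ c : ι → O, IsInt K x (DM.vec b c) ∧ u = fun i => res (c i)}
  have hsm : ∀ (r : O) (z : N), r • z = algebraMap O E r • z := fun r z =>
    (algebraMap_smul E r z).symm
  have hunit : ∀ (r : O), η (algebraMap O E r) = 1 → res r ≠ 0 := fun r hr =>
    ((hO.isUnit_of_one' hr).map res).ne_zero
  refine exists_monic_of_stable A Tb (Submodule.span A S) ?_ ?_ ?_
  · let β := e.smulTower b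
    obtain ⟨g, hg1, hgi⟩ := exists_common_mul (N := N) hg hx (fun ij => β.traceDual ij)
    obtain ⟨gO, hgO⟩ := hO.exists_of_le_one (r := algebraMap F E (aeval x g)) hg1.le
    have hg0 : res gO ≠ 0 := hunit gO (by rw [hgO]; exact hg1)
    choose eO heO using fun i => hO.exists_of_le_one (he1 i)
    let G : ι' × ι → (ι → Fb) := fun ij => Pi.single ij.2 ((res gO)⁻¹ * res (eO ij.1))
    refine Submodule.FG.of_le (Submodule.fg_span (R := A) (Set.finite_range G)) ?_
    rw [Submodule.span_le]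
    rintro _ ⟨c, hc, rfl⟩
    have hcoord : ∀ j, b.repr (DM.vec b c) j = algebraMap O E (c j) := by
      intro j
      rw [DM.vec_apply]
      simp only [hsm]
      rw [b.repr_sum_self]
    choose r hr using fun (ij : ι' × ι) => hO.exists_of_le_one
      (he _ (hO.map_le_one (c ij.2)) ij.1)
    have hrA : ∀ ij, res (gO * r ij) ∈ A := by
      intro ij
      obtain ⟨f, hf⟩ := ((hgi ij).mul hc).trace hg.transcendental hx
      refine hA _ f ?_
      have h1 := β.traceDual.traceDual_repr_apply (DM.vec b c) ij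
      rw [Module.Basis.traceDual_traceDual, Algebra.traceForm_apply, mul_comm,
        Module.Basis.smulTower_repr, hcoord] at h1
      rw [map_mul, hgO, hr, ← map_mul, h1, ← hf, mul_assoc, ← Algebra.smul_def, map_smul,
        smul_eq_mul]
    have hc2 : ∀ j, c j = ∑ i, r (i, j) * eO i := by
      intro j
      apply hO.hom_inj
      rw [map_sum]
      conv_lhs => rw [← e.sum_repr (algebraMap O E (c j))]
      refine Finset.sum_congr rfl (fun i _ => ?_)
      rw [map_mul, hr, heO, Algebra.smul_def]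
    have e1 : (fun j => res (c j)) =
        ∑ ij : ι' × ι, (⟨res (gO * r ij), hrA ij⟩ : A) • G ij := by
      funext j
      rw [Finset.sum_apply, Fintype.sum_prod_type, hc2, map_sum]
      refine Finset.sum_congr rfl (fun i _ => ?_)
      rw [Finset.sum_eq_single j]
      · simp only [G, Pi.smul_apply, Pi.single_eq_same, Subring.smul_def, smul_eq_mul, map_mul]
        field_simp
      · intro j' _ hj'
        simp only [G, Pi.smul_apply, Pi.single_eq_of_ne hj'.symm, smul_zero]
      · intro h; exact absurd (Finset.mem_univ j) h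
    rw [SetLike.mem_coe, e1]
    exact Submodule.sum_mem _ (fun ij _ =>
      Submodule.smul_mem _ _ (Submodule.subset_span ⟨ij, rfl⟩))
  · intro u hu
    induction hu using Submodule.span_induction with
    | mem u hu =>
      obtain ⟨c, hc, rfl⟩ := hu
      obtain ⟨c', h1, h2⟩ := hred c
      exact Submodule.subset_span ⟨c', h1 ▸ hT _ hc, h2.symm⟩
    | zero => rw [map_zero]; exact Submodule.zero_mem _
    | add u u' _ _ h h' => rw [map_add]; exact Submodule.add_mem _ h h'
    | smul a u _ h =>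
      rw [Subring.smul_def, map_smul, ← Subring.smul_def]
      exact Submodule.smul_mem _ _ h
  · obtain ⟨g, hg1, hgi⟩ := exists_common_mul (N := N) hg hx (fun j => b j)
    obtain ⟨gO, hgO⟩ := hO.exists_of_le_one (r := algebraMap F E (aeval x g)) hg1.le
    have hg0 : res gO ≠ 0 := hunit gO (by rw [hgO]; exact hg1)
    rw [eq_top_iff, ← (Pi.basisFun Fb ι).span_eq, Submodule.span_le]
    rintro _ ⟨j, rfl⟩
    have h1 : (fun i => res ((gO • Pi.single j (1 : O) : ι → O) i)) ∈ S := by
      refine ⟨_, ?_, rfl⟩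
      rw [map_smul, DM.vec_single, hsm, hgO, Algebra.smul_def, ← IsScalarTower.algebraMap_apply]
      exact hgi j
    have h2 : Pi.basisFun Fb ι j =
        (res gO)⁻¹ • (fun i => res ((gO • Pi.single j (1 : O) : ι → O) i)) := by
      funext i
      by_cases hi : i = j
      · subst hi; simp [hg0]
      · simp [hi]
    rw [h2]
    exact Submodule.smul_mem _ _ (Submodule.subset_span (Submodule.subset_span h1))

end Tower

section Core
open Fr WeierstrassCurve

variable {p n : ℕ} [NeZero n] {R C K E N : Type} [CommRing R] [Field C] [Field K]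
  [Field E] [Field N] [Algebra C K] [Algebra K E] [Algebra E N] [Algebra C E] [Algebra C N]
  [Algebra K N] [Algebra R C] [Algebra R E] [IsScalarTower R C E] [IsScalarTower C K E]

theorem core_div (X : CoreData p n R C K E N) (z : E) (hz : X.v z ≤ 1) :
    ∃ f g r : K[X], X.v (aeval X.x f) ≤ 1 ∧ X.v (aeval X.x g) ≤ 1 ∧
      X.v (aeval X.x r) = 1 ∧ z = (aeval X.x f + aeval X.x g * X.y) / aeval X.x r := by
  let _ : Algebra R K := ((algebraMap C K).comp (algebraMap R C)).toAlgebra
  have : IsScalarTower R K E := IsScalarTower.of_algebraMap_eq (fun r => by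
    rw [IsScalarTower.algebraMap_apply R C E, IsScalarTower.algebraMap_apply C K E]; rfl)
  have hg : Ell.GaussX X.v K X.x := Ell.gaussX_iff_sup.2 X.gauss
  obtain ⟨f, g, r, hf, hg', -, hr, e⟩ :=
    hg.exists_int_div X.vR (W := X.W) ⟨X.ns.1, hg.transcendental, X.gen⟩ hz
  exact ⟨f, g, r, (hg f 1).2 hf, (hg g 1).2 hg', hr, e⟩

theorem core_indep (X : CoreData p n R C K E N) {f g : K[X]}
    (h : aeval X.x f + aeval X.x g * X.y = 0) : f = 0 ∧ g = 0 := by
  let _ : Algebra R K := ((algebraMap C K).comp (algebraMap R C)).toAlgebra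
  have : IsScalarTower R K E := IsScalarTower.of_algebraMap_eq (fun r => by
    rw [IsScalarTower.algebraMap_apply R C E, IsScalarTower.algebraMap_apply C K E]; rfl)
  have hg : Ell.GaussX X.v K X.x := Ell.gaussX_iff_sup.2 X.gauss
  exact Ell.IsGen.basis_eq_zero (W := X.W) ⟨X.ns.1, hg.transcendental, X.gen⟩ h

omit [IsScalarTower C K E] in
theorem core_vy (X : CoreData p n R C K E N) : X.v X.y ≤ 1 :=
  Ell.val_y_le_one X.vR X.ns.1 (core_gauss X).2.1.le

/-- the basis `1, y` of `E` over `K(x)` -/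
theorem core_basis [CharZero C] (hp : p ≠ 0) (X : CoreData p n R C K E N) :
    ∃ e : Module.Basis (Fin 2) K⟮X.x⟯ E, (∀ i, e i = ![1, X.y] i) ∧
      ∀ a, X.v a ≤ 1 → ∀ i, X.v (algebraMap K⟮X.x⟯ E (e.repr a i)) ≤ 1 := by
  have : CharZero K := charZero_of_injective_algebraMap (algebraMap C K).injective
  have : CharZero E := charZero_of_injective_algebraMap (algebraMap C E).injective
  have ht := (core_gauss X).transcendental
  have hli : LinearIndependent K⟮X.x⟯ ![1, X.y] := by
    rw [LinearIndependent.pair_iff]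
    rintro ⟨a, ha⟩ ⟨b, hb⟩ h
    obtain ⟨f, r, rfl⟩ := (IntermediateField.mem_adjoin_simple_iff K _).1 ha
    obtain ⟨g, s, rfl⟩ := (IntermediateField.mem_adjoin_simple_iff K _).1 hb
    have h' : aeval X.x f / aeval X.x r * 1 + aeval X.x g / aeval X.x s * X.y = 0 := h
    have hinj := transcendental_iff_injective.1 ht
    by_cases hr : aeval X.x r = 0
    · have h2 : aeval X.x g / aeval X.x s = 0 := by
        by_cases hs : aeval X.x s = 0
        · rw [hs, div_zero]
        · rw [hr, div_zero, zero_mul, zero_add, div_mul_eq_mul_div, div_eq_zero_iff] at h'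
          have := core_indep X (f := 0) (g := g) (by rw [map_zero, zero_add]; exact h'.resolve_right hs)
          rw [this.2, map_zero, zero_div]
      exact ⟨Subtype.ext (by simp [hr]), Subtype.ext h2⟩
    · by_cases hs : aeval X.x s = 0
      · rw [hs, div_zero, zero_mul, add_zero, mul_one] at h'
        exact ⟨Subtype.ext h', Subtype.ext (by simp [hs])⟩
      · have := core_indep X (f := f * s) (g := g * r) (by
          rw [map_mul, map_mul]
          field_simp at h'
          linear_combination h')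
        have hs0 : s ≠ 0 := fun h => hs (by rw [h, map_zero])
        have hr0 : r ≠ 0 := fun h => hr (by rw [h, map_zero])
        have hf : f = 0 := (mul_eq_zero.1 this.1).resolve_right hs0
        have hg : g = 0 := (mul_eq_zero.1 this.2).resolve_right hr0
        exact ⟨Subtype.ext (by simp [hf]), Subtype.ext (by simp [hg])⟩
  have hrep : ∀ a, X.v a ≤ 1 → ∃ c : Fin 2 → K⟮X.x⟯, (∀ i, X.v (c i : E) ≤ 1) ∧
      a = ∑ i, c i • ![1, X.y] i := by
    intro a ha
    obtain ⟨c, hc, e⟩ := span_of_div (core_div X) a ha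
    exact ⟨fun i => ⟨c i, (hc i).1⟩, fun i => (hc i).2, e⟩
  have hsp : ⊤ ≤ Submodule.span K⟮X.x⟯ (Set.range ![1, X.y]) := by
    intro z _
    obtain ⟨j, hj⟩ := exists_pow_mul_le X.v X.vp z
    obtain ⟨c, -, hz⟩ := hrep _ hj
    have hp' : ((p : E)) ^ j ≠ 0 := pow_ne_zero _ (Nat.cast_ne_zero.2 hp)
    have e1 : z = (((p : K⟮X.x⟯)) ^ j)⁻¹ • ∑ i, c i • ![1, X.y] i := by
      rw [← hz, Algebra.smul_def, map_inv₀, map_pow, map_natCast, inv_mul_cancel_left₀ hp']
    rw [e1]
    exact Submodule.smul_mem _ _ (Submodule.sum_mem _ (fun i _ =>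
      Submodule.smul_mem _ _ (Submodule.subset_span ⟨i, rfl⟩)))
  refine ⟨Module.Basis.mk hli hsp, fun i => Module.Basis.mk_apply _ _ i, fun a ha i => ?_⟩
  obtain ⟨c, hc, e⟩ := hrep a ha
  have : (Module.Basis.mk hli hsp).repr a i = c i := by
    have e2 : a = ∑ i, c i • Module.Basis.mk hli hsp i := by
      rw [e]
      exact Finset.sum_congr rfl (fun i _ => by rw [Module.Basis.mk_apply])
    rw [e2, Module.Basis.repr_sum_self]
  rw [this]
  exact hc i

end Core

/-- **GAGA** for the core -/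
theorem gagaStmt {p : ℕ} (hp : p.Prime) : Fr.GagaStmt p := by
  intro n _ R C K E N _ _ _ _ _ _ _ _ _ _ _ _ _ _ _ _ _ _ _ _ _ _ X ι _ b ϖ h0 hu
  have h := core_gaga hp.ne_zero X (core_div X) (Valuation.integer.integers X.v)
    (DM.lat X.v.integer b) (DM.isLattice_lat b) ϖ h0 hu
  rw [← map_inv₀] at h
  exact h

/-- the residue field of `K` inside `F` -/
def resK {K E F : Type*} [Field K] [Field E] [Field F] [Algebra K E] {η : Valuation E ℝ≥0}
    (res : η.integer →+* F) (hker : ∀ a, res a = 0 ↔ ¬ IsUnit a) : Subfield F where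
  carrier := res '' {a | (a : E) ∈ Set.range (algebraMap K E)}
  mul_mem' := by
    rintro _ _ ⟨a, ⟨c, hc⟩, rfl⟩ ⟨b, ⟨d, hd⟩, rfl⟩
    exact ⟨a * b, ⟨c * d, by rw [map_mul, hc, hd]; rfl⟩, map_mul _ _ _⟩
  one_mem' := ⟨1, ⟨1, by rw [map_one]; rfl⟩, map_one _⟩
  add_mem' := by
    rintro _ _ ⟨a, ⟨c, hc⟩, rfl⟩ ⟨b, ⟨d, hd⟩, rfl⟩
    exact ⟨a + b, ⟨c + d, by rw [map_add, hc, hd]; rfl⟩, map_add _ _ _⟩
  zero_mem' := ⟨0, ⟨0, by rw [map_zero]; rfl⟩, map_zero _⟩
  neg_mem' := by
    rintro _ ⟨a, ⟨c, hc⟩, rfl⟩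
    exact ⟨-a, ⟨-c, by rw [map_neg, hc]; rfl⟩, map_neg _ _⟩
  inv_mem' := by
    rintro _ ⟨a, ⟨c, hc⟩, rfl⟩
    by_cases h : res a = 0
    · rw [h, inv_zero]
      exact ⟨0, ⟨0, by rw [map_zero]; rfl⟩, map_zero _⟩
    · obtain ⟨u, rfl⟩ := not_not.1 (mt (hker a).2 h)
      refine ⟨(u⁻¹ : η.integerˣ), ⟨c⁻¹, ?_⟩, ?_⟩
      · rw [map_inv₀, hc]
        refine inv_eq_of_mul_eq_one_right ?_
        exact congrArg Subtype.val u.mul_inv
      · exact (inv_eq_of_mul_eq_one_right (by rw [← map_mul, u.mul_inv, map_one])).symm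

/-- **Integrality** for the core -/
theorem intStmt {p : ℕ} (hp : p.Prime) : Fr.IntStmt p := by
  intro n _ R C K E N _ _ _ _ _ _ _ _ _ _ _ _ _ _ _ _ _ _ _ _ _ _ X F ι _ _ res _ hker b t ht T Tb
    hred hT
  have : CharZero K := charZero_of_injective_algebraMap (algebraMap C K).injective
  have : CharZero K⟮X.x⟯ := charZero_of_injective_algebraMap (algebraMap K K⟮X.x⟯).injective
  obtain ⟨e, he1, he⟩ := core_basis hp.ne_zero X
  have : FiniteDimensional K⟮X.x⟯ E := Module.Finite.of_basis e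
  have : FiniteDimensional K⟮X.x⟯ N := Module.Finite.trans E N
  have hgx := (core_gauss X).gen
  obtain ⟨t', ht', hg, hx⟩ : ∃ t' : K⟮X.x⟯, algebraMap K⟮X.x⟯ E t' = t ∧
      Gauss (X.v.comap (algebraMap K E)) (X.v.comap (algebraMap K⟮X.x⟯ E)) t' ∧
      IntermediateField.adjoin K {t'} = ⊤ := by
    rcases ht with rfl | rfl
    · exact ⟨_, rfl, hgx, adjoin_gen _⟩
    · exact ⟨_, by rw [map_inv₀]; rfl, hgx.inv, adjoin_inv (adjoin_gen _)⟩
  have hvt : X.v t ≤ 1 := by rw [← ht']; exact hg.2.1.le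
  let tO : X.v.integer := ⟨t, hvt⟩
  let κ := resK (K := K) res hker
  let A : Subalgebra κ F := Algebra.adjoin κ {res tO}
  have hN : IsNoetherianRing A := by
    have : Algebra.FiniteType κ A :=
      (Subalgebra.fg_iff_finiteType _).1 ⟨{res tO}, by rw [Finset.coe_singleton]⟩
    exact Algebra.FiniteType.isNoetherianRing κ A
  have : IsNoetherianRing A.toSubring := hN
  have hint : ∀ z : N, IsInt K t' z ↔ z ∈ Fr.CoreData.Bt K N t := by
    intro z
    rw [isInt_iff, IsScalarTower.algebraMap_apply K⟮X.x⟯ E N, ht']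
    rfl
  obtain ⟨P, h1, h2, h3⟩ := integ (N := N) hg hx (Valuation.integer.integers X.v) e he (fun i => by
      rw [he1]
      fin_cases i
      · simp
      · exact core_vy X) res A.toSubring (by
      intro r f hr
      have hc : ∀ i, X.v (algebraMap K E (f.coeff i)) ≤ 1 := fun i =>
        (hg.2.2 f i).trans (by
          rw [Valuation.comap_apply, ← hr]; exact r.2)
      have e1 : r = ∑ i ∈ Finset.range (f.natDegree + 1),
          (⟨algebraMap K E (f.coeff i), hc i⟩ : X.v.integer) * tO ^ i := by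
        apply Subtype.ext
        have hr' : (r : E) = algebraMap K⟮X.x⟯ E (aeval t' f) := hr
        rw [hr', ← aeval_algebraMap_apply, ht', aeval_eq_sum_range]
        push_cast
        exact Finset.sum_congr rfl (fun i _ => Algebra.smul_def _ _)
      rw [e1, map_sum]
      refine A.sum_mem (fun i _ => ?_)
      rw [map_mul, map_pow]
      refine A.mul_mem ?_ (A.pow_mem (Algebra.subset_adjoin rfl) i)
      exact A.algebraMap_mem (⟨_, ⟨_, ⟨f.coeff i, rfl⟩, rfl⟩⟩ : κ))
    b T Tb hred (fun z hz => (hint _).2 (hT ((hint z).1 hz)))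
  refine ⟨P, h1, fun j => ?_, h3⟩
  have hle : A.toSubring ≤ X.kt res t := by
    rw [Algebra.adjoin_eq_ring_closure, Subring.closure_le]
    rintro _ (⟨⟨_, a, ha, rfl⟩, rfl⟩ | rfl)
    · exact Subring.subset_closure ⟨a, Or.inl ha, rfl⟩
    · exact Subring.subset_closure ⟨tO, Or.inr rfl, rfl⟩
  exact hle (h2 j)

end Crest.Agent.T170.Gaga13
end

-- ▼ part T170/Rot_28
section

/-!
# Row 170, task K4 (helper28): `RotStmt` and the rotation of `Theta`
-/

set_option autoImplicit false

namespace Crest.Agent.T170.Fr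

open Module Crest.Agent.T170.DM

/-- the reduction of a semilinear additive map that preserves the lattice -/
theorem exists_semired {O E N F ι : Type} [CommRing O] [Field E] [Algebra O E]
    [IsFractionRing O E] [AddCommGroup N] [Module E N] [Module O N] [IsScalarTower O E N] [Field F]
    [Fintype ι] (res : O →+* F) (τ : O →+* O) (τb : F →+* F) (hτ : ∀ a, res (τ a) = τb (res a))
    (b : Basis ι E N) (γ : N →+ N) (hγ : ∀ (a : O) z, γ (a • z) = τ a • γ z)
    (hL : ∀ z, z ∈ lat O b → γ z ∈ lat O b) :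
    ∃ S : (ι → F) →+ (ι → F), (∀ (a : F) u, S (a • u) = τb a • S u) ∧
      ∀ c c' : ι → O, γ (vec b c) = vec b c' →
        S (fun i => res (c i)) = fun i => res (c' i) := by
  obtain ⟨M, hM⟩ := exists_isMat (R := O) (b := b) (T := γ) hL
  have key : ∀ c : ι → O, γ (vec b c) = vec b (M.mulVec fun i => τ (c i)) := by
    intro c
    have hM' : ∀ j, γ (b j) = ∑ i, M i j • b i := hM
    rw [vec_apply, vec_apply, map_sum]
    simp only [hγ, hM', Finset.smul_sum, Matrix.mulVec, dotProduct, Finset.sum_smul]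
    rw [Finset.sum_comm]
    refine Finset.sum_congr rfl fun j _ => Finset.sum_congr rfl fun i _ => ?_
    rw [mul_comm, mul_smul]
  refine ⟨{ toFun := fun u => (M.map res).mulVec fun i => τb (u i)
            map_zero' := by ext i; simp [Matrix.mulVec, dotProduct]
            map_add' := fun u v => by
              ext i; simp [Matrix.mulVec, dotProduct, mul_add, Finset.sum_add_distrib] },
    fun a u => ?_, fun c c' h => ?_⟩
  · ext i
    simp only [AddMonoidHom.coe_mk, ZeroHom.coe_mk, Matrix.mulVec, dotProduct, Pi.smul_apply,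
      smul_eq_mul, map_mul, Finset.mul_sum]
    exact Finset.sum_congr rfl fun j _ => by ring
  · have : c' = M.mulVec fun i => τ (c i) := vec_injective (K := E) b (by rw [← h, key])
    subst this
    ext i
    simp [Matrix.mulVec, dotProduct, hτ]

theorem rotStmt : RotStmt := by
  intro O E N F ι n _ _ _ _ _ _ _ _ _ _ _ _ res hres τ τb hτ b γ hγ hL δ δb hδ hrot
  have lift : ∀ u : ι → F, ∃ c : ι → O, (fun i => res (c i)) = u := fun u =>
    ⟨fun i => (hres (u i)).choose, funext fun i => (hres (u i)).choose_spec⟩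
  obtain ⟨S, hS, hS'⟩ := exists_semired res (τ : O →+* O) (τb : F →+* F) hτ b
    (γ : N →+ N) hγ fun z hz => (hL z).2 hz
  obtain ⟨T, -, hT'⟩ := exists_semired res (τ.symm : O →+* O) (τb.symm : F →+* F)
    (fun a => by
      apply τb.injective
      simp [← hτ]) b (γ.symm : N →+ N)
    (fun a z => by
      apply γ.injective
      simp [hγ])
    fun z hz => (hL _).1 (by simpa using hz)
  refine ⟨{ toFun := S, invFun := T, left_inv := fun u => ?_, right_inv := fun u => ?_
            map_add' := S.map_add }, hS, fun i u => ?_⟩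
  · obtain ⟨c, rfl⟩ := lift u
    obtain ⟨c', hc'⟩ := mem_lat.1 ((hL _).2 (vec_mem_lat b c))
    rw [hS' c c' hc'.symm]
    exact hT' c' c (by rw [hc']; simp)
  · obtain ⟨c, rfl⟩ := lift u
    obtain ⟨c', hc'⟩ := mem_lat.1 ((hL (γ.symm (vec b c))).1 (by simpa using vec_mem_lat b c))
    rw [hT' c c' hc'.symm]
    exact hS' c' c (by rw [hc']; simp)
  · obtain ⟨c, rfl⟩ := lift u
    obtain ⟨c₁, h₁, h₁'⟩ := hδ i c
    obtain ⟨c₂, h₂⟩ := mem_lat.1 ((hL _).2 (vec_mem_lat b c₁))
    obtain ⟨c₃, h₃⟩ := mem_lat.1 ((hL _).2 (vec_mem_lat b c))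
    obtain ⟨c₄, h₄, h₄'⟩ := hδ (i + 1) c₃
    have e : c₂ = c₄ := vec_injective (K := E) b (by rw [h₂, ← h₄, h₃, ← hrot, h₁])
    change S (δb i _) = δb (i + 1) (S _)
    rw [← h₁', hS' c₁ c₂ h₂.symm, hS' c c₃ h₃.symm, ← h₄', e]

/-- `Theta` is stable under the rotation `θ ↦ (g (θ (i - 1)))_i`. -/
theorem theta_rot {n : ℕ} [NeZero n] {F Ψ V : Type*} [Field F] [Field Ψ] [Algebra F Ψ]
    [AddCommGroup V] [Module F V] (τb : F ≃+* F) (g : Ψ →+* Ψ)
    (hg : ∀ f, g (algebraMap F Ψ f) = algebraMap F Ψ (τb f))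
    {δb : Fin n → Module.End F V} (hc : ∀ i j, δb i * δb j = δb j * δb i)
    (S : V ≃+ V) (hS : ∀ (a : F) u, S (a • u) = τb a • S u)
    (hrot : ∀ i u, S (δb i u) = δb (i + 1) (S u)) {θ : Fin n → Ψ}
    (hθ : θ ∈ Bad.Theta F Ψ δb) : (fun i => g (θ (i - 1))) ∈ Bad.Theta F Ψ δb := by
  rw [Bad.mem_Theta hc] at hθ ⊢
  let ρ : MvPolynomial (Fin n) F →+* MvPolynomial (Fin n) F :=
    (MvPolynomial.rename fun i : Fin n => i - 1).toRingHom.comp
      (MvPolynomial.map (τb.symm : F →+* F))
  have ρC : ∀ a, ρ (MvPolynomial.C a) = MvPolynomial.C (τb.symm a) := fun a => by simp [ρ]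
  have ρX : ∀ i, ρ (MvPolynomial.X i) = MvPolynomial.X (i - 1) := fun i => by simp [ρ]
  have h1 : ∀ G u, S (Bad.ev F δb hc (ρ G) u) = Bad.ev F δb hc G (S u) := by
    intro G
    induction G using MvPolynomial.induction_on with
    | C a =>
      intro u
      rw [ρC, MvPolynomial.algHom_C, MvPolynomial.algHom_C, Module.algebraMap_end_apply,
        Module.algebraMap_end_apply, hS, RingEquiv.apply_symm_apply]
    | add G G' ih ih' =>
      intro u
      rw [map_add, map_add, map_add, LinearMap.add_apply, LinearMap.add_apply, map_add, ih, ih']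
    | mul_X G i ih =>
      intro u
      rw [map_mul, map_mul, map_mul, ρX, Bad.ev_X, Bad.ev_X, Module.End.mul_apply,
        Module.End.mul_apply, ih, hrot, sub_add_cancel]
  have h2 : ∀ G, MvPolynomial.aeval (fun i => g (θ (i - 1))) G =
      g (MvPolynomial.aeval θ (ρ G)) := by
    intro G
    induction G using MvPolynomial.induction_on with
    | C a =>
      rw [ρC, MvPolynomial.algHom_C, MvPolynomial.algHom_C, hg, RingEquiv.apply_symm_apply]
    | add G G' ih ih' => rw [map_add, map_add, map_add, map_add, ih, ih']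
    | mul_X G i ih =>
      rw [map_mul, map_mul, map_mul, map_mul, ρX, MvPolynomial.aeval_X, MvPolynomial.aeval_X, ih]
  intro G hG
  have : Bad.ev F δb hc (ρ G) = 0 := by
    ext u
    apply S.injective
    rw [h1, hG]
    simp
  rw [h2, hθ _ this, map_zero]

/-- the same for a ring automorphism `g` -/
theorem theta_rot' {n : ℕ} [NeZero n] {F Ψ V : Type*} [Field F] [Field Ψ] [Algebra F Ψ]
    [AddCommGroup V] [Module F V] (τb : F ≃+* F) (g : Ψ ≃+* Ψ)
    (hg : ∀ f, g (algebraMap F Ψ f) = algebraMap F Ψ (τb f))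
    {δb : Fin n → Module.End F V} (hc : ∀ i j, δb i * δb j = δb j * δb i)
    (S : V ≃+ V) (hS : ∀ (a : F) u, S (a • u) = τb a • S u)
    (hrot : ∀ i u, S (δb i u) = δb (i + 1) (S u)) {θ : Fin n → Ψ}
    (hθ : θ ∈ Bad.Theta F Ψ δb) : (fun i => g (θ (i - 1))) ∈ Bad.Theta F Ψ δb :=
  theta_rot τb (g : Ψ →+* Ψ) hg hc S hS hrot hθ

end Crest.Agent.T170.Fr
end

-- ▼ part T170/BadZ_10

/-!
# Row 170 (helper10): the frame statement `ZStmt` (there is no bad place).
-/

set_option autoImplicit false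

namespace Crest.Agent.T170.Bad

open WeierstrassCurve WeierstrassCurve.Affine Polynomial Crest.Agent.T170.Ell
open Crest.Agent.T170.Ell.Place
open scoped Classical

section places

variable {L Om : Type*} [Field L] [Field Om]

theorem ofVS_sp_zero_iff (w : ValuationSubring L) (z : L) :
    (Place.ofValuationSubring w).Sp z 0 ↔ w.valuation z < 1 := by
  constructor
  · rintro ⟨hz, h⟩
    exact (w.valuation_lt_one_iff ⟨z, hz⟩).1 ((IsLocalRing.residue_eq_zero_iff _).1 h)
  · intro h
    have hz : z ∈ w := (w.valuation_le_one_iff z).1 h.le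
    exact ⟨hz, (IsLocalRing.residue_eq_zero_iff _).2 ((w.valuation_lt_one_iff ⟨z, hz⟩).2 h)⟩

theorem sp_zero_iff_or (Q : Place L Om) (z : L) : Q.Sp z 0 ↔ z = 0 ∨ z⁻¹ ∉ Q.A := by
  constructor
  · intro h
    by_cases hz : z = 0
    · exact Or.inl hz
    · exact Or.inr (h.inv_not_mem hz)
  · rintro (rfl | h)
    · exact sp_zero
    · simpa using sp_inv_of_not_mem h

theorem valuation_lt_one_iff_or (w : ValuationSubring L) (z : L) :
    w.valuation z < 1 ↔ z = 0 ∨ z⁻¹ ∉ w := by
  rw [← ValuationSubring.mem_nonunits_iff, ValuationSubring.mem_nonunits_iff_or]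

theorem valuation_comap_lt_one_iff {K : Type*} [Field K] (w : ValuationSubring L) (f : K →+* L)
    (z : K) : (w.comap f).valuation z < 1 ↔ w.valuation (f z) < 1 := by
  rw [valuation_lt_one_iff_or, valuation_lt_one_iff_or, ValuationSubring.mem_comap, map_inv₀,
    map_eq_zero]

theorem mem_of_refine {Q : Place L Om} {w : ValuationSubring L}
    (h : ∀ z, w.valuation z < 1 → Q.Sp z 0) {z : L} (hz : z ∈ Q.A) : z ∈ w := by
  by_contra hw
  have h0 : z ≠ 0 := by
    rintro rfl
    exact hw (zero_mem _)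
  have := h z⁻¹ ((valuation_lt_one_iff_or w _).2 (Or.inr (by simpa using hw)))
  exact this.inv_not_mem (inv_ne_zero h0) (by simpa using hz)

end places

section red

variable {R k L Om : Type*} [CommRing R] [Field k] [Field L] [Field Om] [Algebra R k]
  [Algebra R L] [Algebra k L] [IsScalarTower R k L] [Algebra R Om] [Algebra k Om]
  [IsScalarTower R k Om] {W : Affine R} [W.IsElliptic]

theorem over_of_over {Q : Place L Om} (hQ : Q.Over k) : Q.Over R := fun r => by
  rw [IsScalarTower.algebraMap_apply R k L, IsScalarTower.algebraMap_apply R k Om]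
  exact hQ _

theorem red_baseChange {Q : Place L Om} (hQ : Q.Over k) (hR : Q.Over R) (T : (W⁄k).Point) :
    red W hR (Point.baseChange k L T) = Point.baseChange k Om T := by
  rcases T with _ | ⟨x, y, h⟩
  · simp only [← Point.zero_def, map_zero]
  · exact red_some_of_sp hR _ (hQ x) (hQ y)

end red

section shift

variable {R k Ω : Type*} [CommRing R] [Field k] [Field Ω] [Algebra R k]
  [Algebra R Ω] [Algebra k Ω] [IsScalarTower R k Ω] {W : Affine R} [W.IsElliptic]

/-- the centre of `ξ + P` is the centre of `ξ` plus `P` -/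
theorem centre_shift (w : ValuationSubring Ω) (hw : ∀ c : k, algebraMap k Ω c ∈ w)
    {x y x' y' : Ω} (ns : (W⁄Ω).Nonsingular x y) (ns₁ : (W⁄Ω).Nonsingular x' y')
    {a b a' b' : k} (h : (W⁄k).Nonsingular a b) (h' : (W⁄k).Nonsingular a' b') (P : (W⁄k).Point)
    (e : Point.some _ _ h' = Point.some _ _ h + P)
    (e₁ : Point.some _ _ ns₁ = Point.some _ _ ns + Point.baseChange k Ω P)
    (hx : w.valuation (x - algebraMap k Ω a) < 1) (hy : w.valuation (y - algebraMap k Ω b) < 1) :
    w.valuation (x' - algebraMap k Ω a') < 1 ∧ w.valuation (y' - algebraMap k Ω b') < 1 := by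
  let f : k →+* IsLocalRing.ResidueField w :=
    (IsLocalRing.residue w).comp ((algebraMap k Ω).codRestrict w.toSubring hw)
  let _ : Algebra k (IsLocalRing.ResidueField w) := f.toAlgebra
  let _ : Algebra R (IsLocalRing.ResidueField w) := (f.comp (algebraMap R k)).toAlgebra
  have : IsScalarTower R k (IsLocalRing.ResidueField w) :=
    IsScalarTower.of_algebraMap_eq fun _ => rfl
  let Q := Place.ofValuationSubring w
  have hQ : Q.Over k := fun c => ⟨hw c, rfl⟩
  have hR : Q.Over R := over_of_over hQ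
  have key : ∀ (z : Ω) (c : k), w.valuation (z - algebraMap k Ω c) < 1 ↔
      Q.Sp z (algebraMap k _ c) := by
    intro z c
    rw [← ofVS_sp_zero_iff]
    exact ⟨fun h => by simpa using h.add (hQ c), fun h => by simpa using h.sub (hQ c)⟩
  have h1 : red W hR (Point.some _ _ ns) = Point.baseChange k _ (Point.some _ _ h) :=
    red_some_of_sp hR _ ((key _ _).1 hx) ((key _ _).1 hy)
  have h2 : red W hR (Point.some _ _ ns₁) = Point.baseChange k _ (Point.some _ _ h') := by
    rw [e₁, map_add, h1, red_baseChange hQ, e, map_add]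
  have h3 := (red_some_eq_some_iff hR ns₁ _).1 h2
  exact ⟨(key _ _).2 h3.1, (key _ _).2 h3.2⟩

end shift

section compose

variable {k Ω : Type*} [Field k] [Field Ω] [Algebra k Ω] (κ : IntermediateField k Ω)
  (V : ValuationSubring κ)

/-- `Q` is a `k`-valued place over `k` inducing `V` on `κ` -/
def Good (Q : Place Ω k) : Prop := Q.Over k ∧ ∀ z : κ, (z : Ω) ∈ Q.A ↔ z ∈ V

variable {κ V}

theorem Good.sp {Q : Place Ω k} (hQ : Good κ V Q) {z : κ} {c : k}
    (h : V.valuation (z - algebraMap k κ c) < 1) : Q.Sp (z : Ω) c := by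
  have h1 : Q.Sp ((z - algebraMap k κ c : κ) : Ω) 0 := by
    rw [sp_zero_iff_or]
    rcases (valuation_lt_one_iff_or V _).1 h with h | h
    · exact Or.inl (by rw [h]; rfl)
    · exact Or.inr fun hm => h ((hQ.2 _).1 (by simpa using hm))
  simpa using h1.add (hQ.1 c)

theorem exists_good [IsAlgClosed k] (hk : ∀ c : k, algebraMap k κ c ∈ V)
    (hres : ∀ z ∈ V, ∃ c : k, V.valuation (z - algebraMap k κ c) < 1)
    (w : ValuationSubring Ω) (hw : ∀ z : κ, (z : Ω) ∈ w) :
    ∃ Q : Place Ω k, Good κ V Q ∧ ∀ z, w.valuation z < 1 → Q.Sp z 0 := by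
  let f : k →+* IsLocalRing.ResidueField V :=
    (IsLocalRing.residue V).comp ((algebraMap k κ).codRestrict V.toSubring hk)
  have hf : ∀ c, (Place.ofValuationSubring V).Sp (algebraMap k κ c) (f c) := fun c => ⟨hk c, rfl⟩
  obtain ⟨PV, hPV⟩ := exists_codRestrict (Place.ofValuationSubring V) f fun x b hb => by
    obtain ⟨c, hc⟩ := hres x hb.mem
    have := ((ofVS_sp_zero_iff V _).2 hc).add (hf c)
    simp only [sub_add_cancel, zero_add] at this
    exact ⟨c, this.unique hb⟩
  have hPVm : ∀ z, z ∈ PV.A ↔ z ∈ V := by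
    intro z
    constructor
    · intro hz
      exact ((hPV _ _).1 (sp_val hz)).mem
    · intro hz
      obtain ⟨c, hc⟩ := hres z hz
      have := ((ofVS_sp_zero_iff V _).2 hc).add (hf c)
      simp only [sub_add_cancel, zero_add] at this
      exact ((hPV _ _).2 this).mem
  let j : κ →+* IsLocalRing.ResidueField w :=
    (IsLocalRing.residue w).comp ((algebraMap κ Ω).codRestrict w.toSubring hw)
  have hj : ∀ z : κ, (Place.ofValuationSubring w).Sp (z : Ω) (j z) := fun z => ⟨hw z, rfl⟩
  obtain ⟨Q1, hQ1⟩ := PV.exists_extension j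
  have hsp : ∀ z c, PV.Sp z c →
      ((Place.ofValuationSubring w).comp Q1).Sp (algebraMap κ Ω z) (RingHom.id k c) :=
    fun z c h => (hj z).comp (hQ1 z c h)
  refine ⟨(Place.ofValuationSubring w).comp Q1, ⟨fun c => ?_, fun z => ?_⟩, fun z hz => ?_⟩
  · exact hsp _ _ ((hPV _ _).2 (hf c))
  · rw [← hPVm]
    exact mem_iff_of_sp hsp z
  · exact ((ofVS_sp_zero_iff w z).2 hz).comp sp_zero

/-- reduction of a nonzero polynomial over `κ` to a nonzero polynomial over `k` -/
theorem exists_red_poly (hres : ∀ z ∈ V, ∃ c : k, V.valuation (z - algebraMap k κ c) < 1)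
    {f : κ[X]} (hf : f ≠ 0) : ∃ (fb : k[X]) (u : κ), fb ≠ 0 ∧ fb.natDegree ≤ f.natDegree ∧
      ∀ Q : Place Ω k, Good κ V Q → ∀ x a, Q.Sp x a →
        Q.Sp ((u : Ω) * aeval x f) (fb.eval a) := by
  obtain ⟨j, hj, hmax⟩ := f.support.exists_max_image (fun i => V.valuation (f.coeff i))
    (support_nonempty.2 hf)
  have hj0 : f.coeff j ≠ 0 := mem_support_iff.1 hj
  have hV : ∀ i, (f.coeff j)⁻¹ * f.coeff i ∈ V := by
    intro i
    by_cases hi : i ∈ f.support
    · rw [← V.valuation_le_one_iff, map_mul, map_inv₀]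
      exact inv_mul_le_one_of_le₀ (hmax i hi) zero_le
    · rw [notMem_support_iff.1 hi, mul_zero]
      exact zero_mem _
  choose c hc using fun i => hres _ (hV i)
  have hjle : j ≤ f.natDegree := le_natDegree_of_mem_supp j hj
  refine ⟨∑ i ∈ Finset.range (f.natDegree + 1), monomial i (c i), (f.coeff j)⁻¹, ?_, ?_, ?_⟩
  · intro h0
    have h1 := congrArg (fun P : k[X] => P.coeff j) h0
    simp only [finsetSum_coeff, coeff_monomial, Finset.sum_ite_eq', Finset.mem_range,
      coeff_zero] at h1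
    rw [if_pos (by omega)] at h1
    have := hc j
    rw [h1, inv_mul_cancel₀ hj0, map_zero, sub_zero, map_one] at this
    exact lt_irrefl _ this
  · refine natDegree_sum_le_of_forall_le _ _ fun i hi => ?_
    exact (natDegree_monomial_le _).trans (Nat.lt_succ_iff.1 (Finset.mem_range.1 hi))
  · intro Q hQ x a hx
    rw [aeval_eq_sum_range, Finset.mul_sum, eval_finsetSum]
    refine sp_sum _ fun i _ => ?_
    rw [eval_monomial, Algebra.smul_def, ← mul_assoc]
    exact (by simpa using hQ.sp (hc i) : Q.Sp _ (c i)).mul (hx.pow i)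

end compose

section count

variable {k : Type*} [Field k] (W : Affine k)

theorem finite_card_points (f : k[X]) (hf : f ≠ 0) :
    ∃ s : Finset W.Point, s.card ≤ 2 * f.natDegree ∧
      ∀ x y (h : W.Nonsingular x y), f.eval x = 0 → Point.some x y h ∈ s := by
  have key : ∀ x : k, ∃ s : Finset W.Point, s.card ≤ 2 ∧
      ∀ y (h : W.Nonsingular x y), Point.some x y h ∈ s := by
    intro x
    by_cases hx : ∃ y, W.Nonsingular x y
    · obtain ⟨y₀, h₀⟩ := hx
      refine ⟨{Point.some x y₀ h₀, -Point.some x y₀ h₀}, Finset.card_le_two, fun y h => ?_⟩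
      rcases (Point.X_eq_iff (h₁ := h) (h₂ := h₀)).1 rfl with e | e <;> simp [e]
    · exact ⟨∅, by simp, fun y h => absurd ⟨y, h⟩ hx⟩
  choose t ht using key
  refine ⟨f.roots.toFinset.biUnion t, ?_, fun x y h hx => ?_⟩
  · refine Finset.card_biUnion_le.trans ?_
    refine (Finset.sum_le_card_nsmul _ _ 2 fun x _ => (ht x).1).trans ?_
    rw [smul_eq_mul, mul_comm]
    exact Nat.mul_le_mul_left 2 ((Multiset.toFinset_card_le _).trans (card_roots' f))
  · exact Finset.mem_biUnion.2 ⟨x, Multiset.mem_toFinset.2 ((mem_roots hf).2 hx), (ht x).2 y h⟩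

theorem le_card_of_stable {A : Type*} [AddGroup A] {P : A} {Y : Set A} {s : Finset A}
    (hs : ∀ T ∈ Y, T ∈ s) (hY : ∀ T ∈ Y, T + P ∈ Y) {T : A} (hT : T ∈ Y) :
    addOrderOf P ≤ s.card := by
  have h1 : ∀ j : ℕ, T + j • P ∈ Y := by
    intro j
    induction j with
    | zero => simpa using hT
    | succ j ih => simpa [succ_nsmul, add_assoc] using hY _ ih
  refine Finset.le_card_of_inj_on_range (fun j => T + j • P) (fun j _ => hs _ (h1 j)) ?_
  intro i hi j hj h
  exact nsmul_injOn_Iio_addOrderOf hi hj (add_left_cancel h)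

end count

theorem zStmt : Fr.ZStmt := by
  intro R k Ω _ _ _ _ _ _ _ _ κ W _ n N _ x y ns P hP a b ns' hO g hg hξ V hk hres hV Θ hΘ hΘg
    hf hn w₀ hw₀ θ₀ hθ₀ hθ₀0
  by_contra hbad
  let Bad : ValuationSubring Ω → (Fin n → Ω) → Prop := fun w θ =>
    (∀ z : κ, (z : Ω) ∈ w) ∧ θ ∈ Θ ∧ θ ≠ 0 ∧ ∀ i, ¬ (w.valuation (x - algebraMap k Ω (a i)) < 1 ∧
      w.valuation (y - algebraMap k Ω (b i)) < 1) → w.valuation (θ i) < 1
  have hbad₀ : Bad w₀ θ₀ := ⟨hw₀, hθ₀, hθ₀0, fun i hi => by
    by_contra h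
    exact hbad ⟨i, hi, h⟩⟩
  let Y : Set (W⁄k).Point := {T | ∃ (w : ValuationSubring Ω) (θ : Fin n → Ω) (Q : Place Ω k)
    (hQ : Good κ V Q), Bad w θ ∧ (∀ z, w.valuation z < 1 → Q.Sp z 0) ∧
      T = red W (over_of_over hQ.1) (Point.some _ _ ns)}
  -- `Y` is nonempty
  obtain ⟨Q₀, hQ₀, hQw₀⟩ := exists_good hk hres w₀ hw₀
  have hY0 : red W (over_of_over hQ₀.1) (Point.some _ _ ns) ∈ Y :=
    ⟨w₀, θ₀, Q₀, hQ₀, hbad₀, hQw₀, rfl⟩
  -- `g⁻¹ ξ = ξ + P`
  have nsg : (W⁄Ω).Nonsingular (g.symm x) (g.symm y) :=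
    (W.baseChange_nonsingular (f := (g.symm : Ω →ₐ[k] Ω)) g.symm.injective x y).2 ns
  have hξ' : Point.some _ _ nsg = Point.some _ _ ns + Point.baseChange k Ω P := by
    have h1 := congrArg (Point.map (W' := W) (g.symm : Ω →ₐ[k] Ω)) hξ
    rw [map_sub, Point.map_baseChange, Point.map_map] at h1
    have h2 : Point.map (W' := W) ((g.symm : Ω →ₐ[k] Ω).comp (g : Ω →ₐ[k] Ω))
        (Point.some _ _ ns) = Point.some _ _ ns := by
      rw [Point.map_some]
      simp
    rw [h2] at h1
    exact (sub_eq_iff_eq_add.1 h1.symm)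
  have hκ : ∀ z : κ, g.symm z ∈ κ := fun z => (hg _).1 (by simp)
  -- `Y` is stable under translation by `P`
  have hYP : ∀ T ∈ Y, T + P ∈ Y := by
    rintro T ⟨w, θ, Q, hQ, ⟨hw, hθ, hθ0, hb⟩, hQw, rfl⟩
    let gs : Ω →+* Ω := (g.symm : Ω →ₐ[k] Ω)
    have hgs : ∀ z, gs z = g.symm z := fun _ => rfl
    have hQ' : Good κ V (Q.comap gs) := by
      refine ⟨fun c => ?_, fun z => ?_⟩
      · rw [comap_sp, hgs, AlgEquiv.commutes]
        exact hQ.1 c
      · rw [Place.mem_comap, hgs]
        exact (hQ.2 ⟨_, hκ z⟩).trans (hV ⟨_, hκ z⟩ z (by simp)).symm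
    refine ⟨w.comap gs, fun i => g (θ (i - 1)), Q.comap gs, hQ', ⟨fun z => hw ⟨_, hκ z⟩,
      hΘg θ hθ, fun h0 => hθ0 ?_, fun i hi => ?_⟩, fun z hz => ?_, ?_⟩
    · ext i
      have := congrFun h0 (i + 1)
      simpa using this
    · rw [valuation_comap_lt_one_iff, hgs, AlgEquiv.symm_apply_apply]
      refine hb _ fun hc => hi ?_
      have hO' := hO (i - 1)
      have := centre_shift w (fun c => hw (algebraMap k κ c)) ns nsg (ns' (i - 1))
        (ns' (i - 1 + 1)) P hO' hξ' hc.1 hc.2
      simp only [valuation_comap_lt_one_iff, hgs, map_sub, AlgEquiv.commutes]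
      simpa using this
    · exact hQw _ ((valuation_comap_lt_one_iff w gs z).1 hz)
    · have h1 : red W (over_of_over hQ'.1) (Point.some _ _ ns) =
          red W (over_of_over hQ.1) (Point.some _ _ nsg) := by
        by_cases hx : g.symm x ∈ Q.A
        · have hy := y_mem (over_of_over hQ.1) nsg.1 hx
          rw [red_some_of_sp _ nsg (sp_val hx) (sp_val hy)]
          exact red_some_of_sp _ ns (sp_val hx) (sp_val hy)
        · rw [red_some_of_not_mem _ nsg hx]
          exact red_some_of_not_mem _ ns hx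
      rw [h1, hξ', map_add, red_baseChange hQ.1]
      congr 1
      rcases P with _ | ⟨s, t, h⟩ <;> rfl
  -- `Y` is small
  have hone : ∀ θ ∈ Θ, ∃ s : Finset (W⁄k).Point, s.card ≤ 4 * N + 1 ∧
      ∀ (w : ValuationSubring Ω) (Q : Place Ω k) (hQ : Good κ V Q), Bad w θ →
        (∀ z, w.valuation z < 1 → Q.Sp z 0) → x ∈ Q.A →
        red W (over_of_over hQ.1) (Point.some _ _ ns) ∈ s := by
    intro θ hθ
    by_cases h0 : θ = 0
    · exact ⟨∅, by simp, fun w Q hQ hb => absurd h0 hb.2.2.1⟩
    obtain ⟨i, hi⟩ := Function.ne_iff.1 h0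
    obtain ⟨f, hf0, hfd, hfw⟩ := hf θ hθ i hi
    obtain ⟨fb, u, hfb0, hfbd, hfb⟩ := exists_red_poly hres hf0
    obtain ⟨s, hs, hsm⟩ := finite_card_points (W⁄k) fb hfb0
    refine ⟨insert (Point.some _ _ (ns' i)) s, (Finset.card_insert_le _ _).trans (by omega),
      fun w Q hQ hb hQw hx => ?_⟩
    by_cases hc : w.valuation (x - algebraMap k Ω (a i)) < 1 ∧
        w.valuation (y - algebraMap k Ω (b i)) < 1
    · have h1 : Q.Sp x (a i) := by simpa using (hQw _ hc.1).add (hQ.1 (a i))
      have h2 : Q.Sp y (b i) := by simpa using (hQw _ hc.2).add (hQ.1 (b i))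
      rw [red_some_of_sp _ ns h1 h2]
      exact Finset.mem_insert_self _ _
    · have hy := y_mem (over_of_over hQ.1) ns.1 hx
      rw [red_some_of_sp _ ns (sp_val hx) (sp_val hy)]
      refine Finset.mem_insert_of_mem (hsm _ _ _ ?_)
      have h1 := hfw w hb.1 (mem_of_refine hQw hx) (hb.2.2.2 i hc)
      have h2 : w.valuation ((u : Ω) * aeval x f) < 1 := by
        rw [← ValuationSubring.mem_nonunits_iff] at h1 ⊢
        exact mul_mem_nonunits w (hb.1 u) h1
      exact (hfb Q hQ x _ (sp_val hx)).unique (hQw _ h2)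
  choose! s hs using hone
  have hcard : (insert 0 (Θ.biUnion s)).card ≤ N * (4 * N + 1) + 1 := by
    refine (Finset.card_insert_le _ _).trans (Nat.succ_le_succ ?_)
    refine Finset.card_biUnion_le.trans ?_
    refine (Finset.sum_le_card_nsmul _ _ (4 * N + 1) fun θ hθ => (hs θ hθ).1).trans ?_
    rw [smul_eq_mul]
    exact Nat.mul_le_mul_right _ hΘ
  have := le_card_of_stable (s := insert 0 (Θ.biUnion s)) ?_ hYP hY0
  · omega
  rintro T ⟨w, θ, Q, hQ, hb, hQw, rfl⟩
  by_cases hx : x ∈ Q.A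
  · exact Finset.mem_insert_of_mem
      (Finset.mem_biUnion.2 ⟨θ, hb.2.1, (hs θ hb.2.1).2 w Q hQ hb hQw hx⟩)
  · rw [red_some_of_not_mem _ ns hx]
    exact Finset.mem_insert_self _ _

end Crest.Agent.T170.Bad
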