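import Crest.Agent.T170.CoreK2_62
import Crest.Agent.T170.CoreDefs_20

/-!
# Row 170 (helper62), task K2: API of the special fibre on `X.v.integer`
-/

set_option autoImplicit false

namespace Crest.Agent.T170.Fr

open scoped NNReal Polynomial Classical
open WeierstrassCurve WeierstrassCurve.Affine Crest.Agent.T170.Ell Crest.Agent.T170.Ell.Place

variable {p n : ℕ} [NeZero n] {R C K E N : Type} [CommRing R] [Field C] [Field K]
  [Field E] [Field N] [Algebra C K] [Algebra K E] [Algebra E N] [Algebra C E] [Algebra C N]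
  [Algebra K N] [Algebra R C] [Algebra R E] [IsScalarTower R C E]

/-- the restriction of `γE` to the ring of integers -/
noncomputable def CoreData.τ62 (X : CoreData p n R C K E N) : X.v.integer ≃+* X.v.integer where
  toFun a := ⟨X.γE a, by rw [Valuation.mem_integer_iff, X.vγ]; exact a.2⟩
  invFun a := ⟨X.γE.symm a, by
    rw [Valuation.mem_integer_iff, ← X.vγ, AlgEquiv.apply_symm_apply]; exact a.2⟩
  left_inv a := Subtype.ext (X.γE.symm_apply_apply a)
  right_inv a := Subtype.ext (X.γE.apply_symm_apply a)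
  map_mul' a b := Subtype.ext (map_mul X.γE (a : E) b)
  map_add' a b := Subtype.ext (map_add X.γE (a : E) b)

@[simp] theorem CoreData.coe_τ62 (X : CoreData p n R C K E N) (a : X.v.integer) :
    (X.τ62 a : E) = X.γE a := rfl

namespace SF

variable {X : CoreData p n R C K E N} {k Fb Ω : Type} [Field k] [Field Fb] [Field Ω]
  [Algebra k Ω] [Algebra Fb Ω] [Algebra R k] [Algebra R Ω] [IsScalarTower R k Ω]
  (S : SF X k Fb Ω)


/-- the residue map on `X.v.integer` -/
noncomputable def resI : X.v.integer →+* Fb where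
  toFun a := S.red ⟨a, a.2⟩
  map_one' := map_one S.red
  map_mul' a b := map_mul S.red ⟨a, a.2⟩ ⟨b, b.2⟩
  map_zero' := map_zero S.red
  map_add' a b := map_add S.red ⟨a, a.2⟩ ⟨b, b.2⟩

theorem resI_surj : Function.Surjective S.resI := fun t => by
  obtain ⟨z, rfl⟩ := S.red_surj t
  exact ⟨⟨z, z.2⟩, rfl⟩

theorem resI_eq_zero (a : X.v.integer) : S.resI a = 0 ↔ X.v a < 1 := S.red_eq_zero ⟨a, a.2⟩








theorem exists_τb62 : ∃ τb : Fb ≃+* Fb, ∀ a, S.resI (X.τ62 a) = τb (S.resI a) := by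
  have hker : RingHom.ker S.resI ≤ RingHom.ker (S.resI.comp (X.τ62 : _ →+* _)) := fun a ha => by
    rw [RingHom.mem_ker] at ha ⊢
    change S.resI (X.τ62 a) = 0
    rwa [resI_eq_zero, CoreData.coe_τ62, X.vγ, ← S.resI_eq_zero]
  let f : Fb →+* Fb := S.resI.liftOfSurjective S.resI_surj ⟨_, hker⟩
  have hf : ∀ a, f (S.resI a) = S.resI (X.τ62 a) := fun a =>
    RingHom.liftOfRightInverse_comp_apply _ _ _ _ a
  refine ⟨RingEquiv.ofBijective f ⟨f.injective, fun t => ?_⟩, fun a => (hf a).symm⟩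
  obtain ⟨a, rfl⟩ := S.resI_surj t
  exact ⟨S.resI (X.τ62.symm a), by rw [hf, RingEquiv.apply_symm_apply]⟩

/-- the automorphism of the residue field induced by `γE` -/
noncomputable def τb : Fb ≃+* Fb := S.exists_τb62.choose












/-- `yb` is a root of a monic quadratic polynomial over `κ[xb]` -/
theorem exists_quad : ∃ Q : (Algebra.adjoin S.κ {S.xb})[X], Q.Monic ∧ Q.natDegree = 2 ∧
    Polynomial.aeval S.yb Q = 0 := by
  have hR : ∀ r : R, algebraMap R Ω r ∈ Algebra.adjoin S.κ {S.xb} := fun r => by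
    rw [IsScalarTower.algebraMap_apply R k Ω]
    exact (Algebra.adjoin S.κ {S.xb}).algebraMap_mem (algebraMap k S.κ _)
  have hx : S.xb ∈ Algebra.adjoin S.κ {S.xb} := Algebra.subset_adjoin rfl
  let A := Algebra.adjoin S.κ {S.xb}
  let u : A := ⟨(X.W⁄Ω).a₁ * S.xb + (X.W⁄Ω).a₃, add_mem (mul_mem (hR _) hx) (hR _)⟩
  let w : A := ⟨S.xb ^ 3 + (X.W⁄Ω).a₂ * S.xb ^ 2 + (X.W⁄Ω).a₄ * S.xb + (X.W⁄Ω).a₆,
    add_mem (add_mem (add_mem (pow_mem hx 3) (mul_mem (hR _) (pow_mem hx 2)))
      (mul_mem (hR _) hx)) (hR _)⟩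
  refine ⟨Polynomial.X ^ 2 + Polynomial.C u * Polynomial.X - Polynomial.C w, by monicity!,
    by compute_degree!, ?_⟩
  have e := S.nsb.1
  rw [equation_iff] at e
  rw [Polynomial.aeval_def, Polynomial.eval₂_sub, Polynomial.eval₂_add, Polynomial.eval₂_mul,
    Polynomial.eval₂_X_pow, Polynomial.eval₂_X, Polynomial.eval₂_C, Polynomial.eval₂_C]
  change S.yb ^ 2 + ((X.W⁄Ω).a₁ * S.xb + (X.W⁄Ω).a₃) * S.yb -
    (S.xb ^ 3 + (X.W⁄Ω).a₂ * S.xb ^ 2 + (X.W⁄Ω).a₄ * S.xb + (X.W⁄Ω).a₆) = 0
  linear_combination e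


/-- **degree bound**: a root of a non-zero polynomial of degree `≤ m` over `Fb` has degree `≤ 2m`
over `κ(xb)` -/
theorem natDegree_minpoly_le {P : Fb[X]} (hP : P ≠ 0) {m : ℕ} (hm : P.natDegree ≤ m) {φ : Ω}
    (hφ : Polynomial.aeval φ P = 0) :
    IsIntegral (IntermediateField.adjoin S.κ {S.xb}) φ ∧
      (minpoly (IntermediateField.adjoin S.κ {S.xb}) φ).natDegree ≤ 2 * m := by
  set L := IntermediateField.adjoin S.κ {S.xb} with hL
  have hle : Algebra.adjoin S.κ {S.xb} ≤ L.toSubalgebra :=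
    IntermediateField.algebra_adjoin_le_adjoin _ _
  obtain ⟨Q, hQ, hQd, hQy⟩ := S.exists_quad
  let j : Algebra.adjoin S.κ {S.xb} →+* L := (Subalgebra.inclusion hle).toRingHom
  have hQy' : Polynomial.aeval S.yb (Q.map j) = 0 := by
    rw [Polynomial.aeval_def, Polynomial.eval₂_map]; exact hQy
  have hy : IsIntegral L S.yb := ⟨Q.map j, hQ.map _, hQy'⟩
  have hyd : (minpoly L S.yb).natDegree ≤ 2 := by
    have := Polynomial.natDegree_le_natDegree (minpoly.min L S.yb (hQ.map j) hQy')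
    rwa [hQ.natDegree_map, hQd] at this
  let L' := IntermediateField.adjoin L {S.yb}
  have : FiniteDimensional L L' := IntermediateField.adjoin.finiteDimensional hy
  have hL' : Module.finrank L L' ≤ 2 := by rw [IntermediateField.adjoin.finrank hy]; exact hyd
  have hFb : ∀ f : Fb, algebraMap Fb Ω f ∈ L' := fun f => by
    obtain ⟨s, hs, t, ht, e⟩ := S.gen f
    rw [e]
    exact add_mem (L'.algebraMap_mem ⟨s, hs⟩)
      (mul_mem (L'.algebraMap_mem ⟨t, ht⟩) (IntermediateField.mem_adjoin_simple_self L S.yb))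
  let i : Fb →+* L' := (algebraMap Fb Ω).codRestrict L'.toSubfield.toSubring hFb
  have hP' : P.map i ≠ 0 := (Polynomial.map_ne_zero_iff i.injective).2 hP
  have hφ' : Polynomial.aeval φ (P.map i) = 0 := by
    rw [Polynomial.aeval_def, Polynomial.eval₂_map]; exact hφ
  have hi : IsIntegral L' φ := IsAlgebraic.isIntegral ⟨_, hP', hφ'⟩
  have hid : (minpoly L' φ).natDegree ≤ m := by
    have := Polynomial.natDegree_le_natDegree (minpoly.degree_le_of_ne_zero L' φ hP' hφ')
    rw [Polynomial.natDegree_map] at this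
    exact this.trans hm
  let L'' := IntermediateField.adjoin L' {φ}
  have : FiniteDimensional L' L'' := IntermediateField.adjoin.finiteDimensional hi
  have hL'' : Module.finrank L' L'' ≤ m := by rw [IntermediateField.adjoin.finrank hi]; exact hid
  have : FiniteDimensional L L'' := FiniteDimensional.trans L L' L''
  have : IsScalarTower L L'' Ω := IsScalarTower.of_algebraMap_eq fun _ => rfl
  let φ' : L'' := ⟨φ, IntermediateField.mem_adjoin_simple_self L' φ⟩
  have e : φ = algebraMap L'' Ω φ' := rfl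
  refine ⟨e ▸ (IsIntegral.of_finite L φ').algebraMap, ?_⟩
  rw [e, minpoly.algebraMap_eq (algebraMap L'' Ω).injective]
  refine (minpoly.natDegree_le φ').trans ?_
  rw [← Module.finrank_mul_finrank L L' L'']
  exact Nat.mul_le_mul hL' hL''

end SF

end Crest.Agent.T170.Fr
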