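import Mathlib

/-!
# Row 170, module LOG (helper89), part A: derivations and valuation rings

* `isIntegral_of_forall_vs`, `vs_mem_of_isIntegral` : integral ⇔ in all valuation rings;
* `val_deriv_eval`  : `Δ (p(α)) ≡ p'(α) Δ α` up to the derivatives of the coefficients;
* `exists_unit_integral` : every element of a valuation ring `V` of an algebraic extension is
  `s / s'` with `s, s'` integral over `V ∩ K` and `s'` a unit of `V`;
* `exists_bound` : a derivation mapping `V ∩ K` into `V` is bounded on `V`;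
* `log_lemma` : the logarithmic lemma for discrete valuations.
-/

set_option autoImplicit false

namespace Crest.Agent.T170.Log

open Polynomial

section Int

variable {A N : Type*} [CommRing A] [Field N] [Algebra A N]

/-- An element lying in all valuation rings containing `A` is integral over `A`. -/
theorem isIntegral_of_forall_vs (y : N)
    (h : ∀ W : ValuationSubring N, (∀ a : A, algebraMap A N a ∈ W) → y ∈ W) :
    IsIntegral A y := by
  by_contra hy
  have hy' : y ∉ (integralClosure A N).toSubring := hy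
  obtain ⟨W, hW, hyW⟩ := Subring.exists_le_valuationSubring_of_isIntegrallyClosedIn hy'
  exact hyW (h W fun a => hW (show algebraMap A N a ∈ integralClosure A N from
    (integralClosure A N).algebraMap_mem a))

/-- An integral element has valuation `≤ 1`. -/
theorem val_le_one_of_isIntegral {Γ : Type*} [LinearOrderedCommGroupWithZero Γ]
    (v : Valuation N Γ) (hA : ∀ a : A, v (algebraMap A N a) ≤ 1) {y : N}
    (hy : IsIntegral A y) : v y ≤ 1 := by
  obtain ⟨p, hp, hpy⟩ := hy
  by_contra hlt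
  push Not at hlt
  have hy0 : v y ≠ 0 := ne_of_gt (lt_trans zero_lt_one hlt)
  rw [← aeval_def, hp.as_sum, map_add, map_pow, aeval_X, map_sum] at hpy
  have h1 : y ^ p.natDegree =
      -∑ i ∈ Finset.range p.natDegree, aeval y (C (p.coeff i) * X ^ i) :=
    eq_neg_of_add_eq_zero_left hpy
  have h2 : v (∑ i ∈ Finset.range p.natDegree, aeval y (C (p.coeff i) * X ^ i)) <
      v y ^ p.natDegree := by
    apply Valuation.map_sum_lt _ (pow_ne_zero _ hy0)
    intro i hi
    rw [Finset.mem_range] at hi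
    simp only [map_mul, aeval_C, map_pow, aeval_X]
    calc v (algebraMap A N (p.coeff i)) * v y ^ i ≤ 1 * v y ^ i :=
          mul_le_mul_left (hA _) _
      _ = v y ^ i := one_mul _
      _ < v y ^ p.natDegree := pow_lt_pow_right₀ hlt hi
  rw [← Valuation.map_neg, ← h1, map_pow] at h2
  exact lt_irrefl _ h2

/-- An integral element lies in every valuation ring containing `A`. -/
theorem vs_mem_of_isIntegral (W : ValuationSubring N) (hA : ∀ a : A, algebraMap A N a ∈ W)
    {y : N} (hy : IsIntegral A y) : y ∈ W :=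
  (W.valuation_le_one_iff y).1
    (val_le_one_of_isIntegral W.valuation (fun a => (W.valuation_le_one_iff _).2 (hA a)) hy)


end Int

section Deriv

variable {R₀ N : Type*} [CommRing R₀] [CommRing N] [Algebra R₀ N] (Δ : Derivation R₀ N N)

theorem deriv_mul (a b : N) : Δ (a * b) = a * Δ b + b * Δ a := by
  rw [Derivation.leibniz, smul_eq_mul, smul_eq_mul]

theorem deriv_pow (a : N) (n : ℕ) : Δ (a ^ n) = (n : N) * a ^ (n - 1) * Δ a := by
  rw [Derivation.leibniz_pow, smul_eq_mul, nsmul_eq_mul, mul_assoc]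

/-- chain rule for the evaluation of a polynomial. -/
theorem deriv_eval (p : N[X]) (α : N) :
    Δ (p.eval α) = (∑ i ∈ Finset.range (p.natDegree + 1), Δ (p.coeff i) * α ^ i) +
      (derivative p).eval α * Δ α := by
  rw [eval_eq_sum_range, map_sum, derivative_eval, Polynomial.sum_over_range _ (by simp),
    Finset.sum_mul, ← Finset.sum_add_distrib]
  refine Finset.sum_congr rfl fun i _ => ?_
  rw [deriv_mul, deriv_pow]
  ring

end Deriv

section Bound

variable {R₀ K N Γ : Type*} [CommRing R₀] [Field K] [Field N] [Algebra R₀ N] [Algebra K N]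
  [LinearOrderedCommGroupWithZero Γ]

theorem val_deriv_eval (v : Valuation N Γ) (Δ : Derivation R₀ N N) (p : N[X]) (α : N) (γ : Γ)
    (hα : v α ≤ 1) (hp : ∀ i, v (Δ (p.coeff i)) ≤ γ) :
    v (Δ (p.eval α) - (derivative p).eval α * Δ α) ≤ γ := by
  rw [deriv_eval, add_sub_cancel_right]
  apply Valuation.map_sum_le
  intro i _
  rw [map_mul, map_pow]
  calc v (Δ (p.coeff i)) * v α ^ i ≤ γ * 1 := mul_le_mul' (hp i) (pow_le_one' hα i)
    _ = γ := mul_one _

/-- normalising a polynomial: one coefficient is `1`, all are integral, the higher ones are in the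
maximal ideal. -/
theorem exists_normalised (u : Valuation K Γ) (p : K[X]) (hp : p ≠ 0) :
    ∃ (c : K) (j : ℕ), c ≠ 0 ∧ c * p.coeff j = 1 ∧ (∀ i, u (c * p.coeff i) ≤ 1) ∧
      ∀ i, j < i → u (c * p.coeff i) < 1 := by
  classical
  have hne : p.support.Nonempty := Polynomial.nonempty_support_iff.2 hp
  obtain ⟨m, hm, hmax⟩ := Finset.exists_max_image p.support (fun i => u (p.coeff i)) hne
  have hm0 : u (p.coeff m) ≠ 0 := by
    rw [Valuation.ne_zero_iff]; exact Polynomial.mem_support_iff.1 hm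
  have hmax' : ∀ i, u (p.coeff i) ≤ u (p.coeff m) := by
    intro i
    by_cases hi : i ∈ p.support
    · exact hmax i hi
    · rw [Polynomial.notMem_support_iff.1 hi, map_zero]; exact zero_le
  let s := p.support.filter (fun i => u (p.coeff i) = u (p.coeff m))
  have hs : s.Nonempty := ⟨m, Finset.mem_filter.2 ⟨hm, rfl⟩⟩
  let j := s.max' hs
  have hj : j ∈ s := s.max'_mem hs
  have hjv : u (p.coeff j) = u (p.coeff m) := (Finset.mem_filter.1 hj).2
  have hj0 : p.coeff j ≠ 0 := Polynomial.mem_support_iff.1 (Finset.mem_filter.1 hj).1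
  have hpos : 0 < u (p.coeff m) := zero_lt_iff.2 hm0
  refine ⟨(p.coeff j)⁻¹, j, inv_ne_zero hj0, inv_mul_cancel₀ hj0, fun i => ?_, fun i hi => ?_⟩
  · rw [map_mul, map_inv₀, hjv, inv_mul_le_iff₀ hpos, mul_one]
    exact hmax' i
  · rw [map_mul, map_inv₀, hjv, inv_mul_lt_iff₀ hpos, mul_one]
    refine lt_of_le_of_ne (hmax' i) fun h => ?_
    have hi' : i ∈ s := Finset.mem_filter.2 ⟨Polynomial.mem_support_iff.2 fun h0 => hm0 (by
      rw [← h, h0, map_zero]), h⟩
    exact absurd (s.le_max' i hi') (not_le.2 hi)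

/-- `V = S_P`: every element of the valuation ring is a quotient of integral elements with unit
denominator. -/
theorem exists_unit_integral (v : Valuation N Γ) {z : N} (hz : v z ≤ 1) (halg : IsAlgebraic K z) :
    ∃ s : N, v s = 1 ∧
      (∀ W : ValuationSubring N, (∀ a : K, v (algebraMap K N a) ≤ 1 → algebraMap K N a ∈ W) →
        s ∈ W ∧ s * z ∈ W) := by
  obtain ⟨p, hp, hpz⟩ := halg
  obtain ⟨c, j, hc0, hcj, hle, hlt⟩ := exists_normalised (v.comap (algebraMap K N)) p hp
  simp only [Valuation.comap_apply] at hle hlt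
  set a : ℕ → N := fun i => algebraMap K N (c * p.coeff i) with ha
  have haj : a j = 1 := by simp only [ha, hcj, map_one]
  set n := p.natDegree
  have hjn : j ≤ n := by
    apply le_natDegree_of_ne_zero
    intro h0; rw [h0, mul_zero] at hcj; exact zero_ne_one hcj
  have hsum : ∑ i ∈ Finset.range (n + 1), a i * z ^ i = 0 := by
    have h1 : algebraMap K N c * aeval z p = 0 := by rw [hpz, mul_zero]
    rw [aeval_eq_sum_range, Finset.mul_sum] at h1
    rw [← h1]
    refine Finset.sum_congr rfl fun i _ => ?_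
    simp only [ha, map_mul, Algebra.smul_def]; ring
  obtain ⟨m, hm⟩ : ∃ m, n + 1 = j + (m + 1) := ⟨n - j, by omega⟩
  set s : N := ∑ i ∈ Finset.range (m + 1), a (j + i) * z ^ i with hs
  have hrel : s * z ^ j = -∑ i ∈ Finset.range j, a i * z ^ i := by
    rw [hm, Finset.sum_range_add] at hsum
    rw [eq_neg_iff_add_eq_zero, add_comm, ← hsum, hs, Finset.sum_mul]
    congr 1
    refine Finset.sum_congr rfl fun i _ => ?_
    ring
  refine ⟨s, ?_, fun W hW => ?_⟩
  · rw [hs, Finset.sum_range_succ', add_zero, haj, pow_zero, mul_one, add_comm]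
    apply Valuation.map_one_add_of_lt
    apply Valuation.map_sum_lt _ one_ne_zero
    intro i _
    rw [map_mul, map_pow]
    calc v (a (j + (i + 1))) * v z ^ (i + 1) ≤ v (a (j + (i + 1))) * 1 :=
          mul_le_mul_right (pow_le_one' hz _) _
      _ < 1 := by rw [mul_one]; exact hlt _ (by omega)
  · have haW : ∀ i, a i ∈ W := fun i => hW _ (hle i)
    by_cases hzW : z ∈ W
    · have hsW : s ∈ W := sum_mem fun i _ => mul_mem (haW _) (pow_mem hzW _)
      exact ⟨hsW, mul_mem hsW hzW⟩
    · have hz0 : z ≠ 0 := fun h => hzW (h ▸ zero_mem W)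
      have hw : z⁻¹ ∈ W := (W.mem_or_inv_mem z).resolve_left hzW
      have hsz : s * z = -∑ i ∈ Finset.range j, a i * z⁻¹ ^ (j - 1 - i) := by
        rcases Nat.eq_zero_or_pos j with h0 | hpos
        · rw [h0] at hrel ⊢
          simp only [pow_zero, mul_one, Finset.range_zero, Finset.sum_empty, neg_zero] at hrel ⊢
          rw [hrel, zero_mul]
        · have : s * z = s * z ^ j * z⁻¹ ^ (j - 1) := by
            obtain ⟨k, rfl⟩ : ∃ k, j = k + 1 := ⟨j - 1, by omega⟩
            simp only [Nat.add_sub_cancel, inv_pow]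
            field_simp
            ring
          rw [this, hrel, neg_mul, Finset.sum_mul]
          congr 1
          refine Finset.sum_congr rfl fun i hi => ?_
          rw [Finset.mem_range] at hi
          obtain ⟨k, hk⟩ : ∃ k, j - 1 = i + k := ⟨j - 1 - i, by omega⟩
          rw [hk, Nat.add_sub_cancel_left, pow_add, inv_pow z i]
          field_simp
      have hszW : s * z ∈ W := by
        rw [hsz]
        exact neg_mem (sum_mem fun i _ => mul_mem (haW _) (pow_mem hw _))
      refine ⟨?_, hszW⟩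
      have : s = s * z * z⁻¹ := by field_simp
      rw [this]; exact mul_mem hszW hw

/-- a derivation mapping `V ∩ K` into `V` is bounded on `V`. -/
theorem exists_bound [FiniteDimensional K N] [Algebra.IsSeparable K N] (v : Valuation N Γ)
    (Δ : Derivation R₀ N N)
    (hK : ∀ a : K, v (algebraMap K N a) ≤ 1 → v (Δ (algebraMap K N a)) ≤ 1) :
    ∃ B : N, ∀ z : N, v z ≤ 1 → v (Δ z) ≤ v B := by
  classical
  let R : ValuationSubring K := (v.comap (algebraMap K N)).valuationSubring
  have hR : ∀ a : K, a ∈ R ↔ v (algebraMap K N a) ≤ 1 := fun a => Iff.rfl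
  obtain ⟨t, b, hb⟩ := FiniteDimensional.exists_is_basis_integral R K N
  have hle := integralClosure_le_span_dualBasis b hb
  set b' := (Algebra.traceForm K N).dualBasis (traceForm_nondegenerate K N) b
  let T : Finset N := insert 1 ((Finset.univ.image b') ∪ Finset.univ.image (fun i => Δ (b' i)))
  obtain ⟨B, -, hB⟩ := Finset.exists_max_image T v ⟨1, Finset.mem_insert_self _ _⟩
  have hB1 : ∀ i, v (b' i) ≤ v B := fun i => hB _ (by simp [T])
  have hB2 : ∀ i, v (Δ (b' i)) ≤ v B := fun i => hB _ (by simp [T])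
  have hspan : ∀ y ∈ Submodule.span R (Set.range b'), v y ≤ v B ∧ v (Δ y) ≤ v B := by
    intro y hy
    induction hy using Submodule.span_induction with
    | mem x hx => obtain ⟨i, rfl⟩ := hx; exact ⟨hB1 i, hB2 i⟩
    | zero => simp
    | add x y _ _ hx hy =>
      exact ⟨Valuation.map_add_le _ hx.1 hy.1, by
        rw [map_add]; exact Valuation.map_add_le _ hx.2 hy.2⟩
    | smul r x _ hx =>
      have hr : v (algebraMap K N r) ≤ 1 := (hR _).1 r.2
      have e : r • x = algebraMap K N r * x := by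
        rw [← Algebra.smul_def]; rfl
      rw [e]
      refine ⟨?_, ?_⟩
      · rw [map_mul]
        calc _ ≤ 1 * v B := mul_le_mul' hr hx.1
          _ = v B := one_mul _
      · rw [deriv_mul]
        apply Valuation.map_add_le
        · rw [map_mul]
          calc _ ≤ 1 * v B := mul_le_mul' hr hx.2
            _ = v B := one_mul _
        · rw [map_mul]
          calc _ ≤ v B * 1 := mul_le_mul' hx.1 (hK _ hr)
            _ = v B := mul_one _
  have hint : ∀ y : N, IsIntegral R y → v (Δ y) ≤ v B := fun y hy => (hspan y (hle hy)).2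
  refine ⟨B, fun z hz => ?_⟩
  obtain ⟨s, hs1, hsW⟩ := exists_unit_integral (K := K) v hz (Algebra.IsAlgebraic.isAlgebraic z)
  have hW : ∀ W : ValuationSubring N, (∀ a : R, algebraMap R N a ∈ W) →
      ∀ a : K, v (algebraMap K N a) ≤ 1 → algebraMap K N a ∈ W :=
    fun W h a ha => h ⟨a, ha⟩
  have h1 := hint s (isIntegral_of_forall_vs s fun W h => (hsW W (hW W h)).1)
  have h2 := hint (s * z) (isIntegral_of_forall_vs _ fun W h => (hsW W (hW W h)).2)
  have h3 : s * Δ z = Δ (s * z) - z * Δ s := by rw [deriv_mul]; ring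
  have h4 : v (s * Δ z) ≤ v B := by
    rw [h3]
    apply Valuation.map_sub_le _ h2
    rw [map_mul]
    calc _ ≤ 1 * v B := mul_le_mul' hz h1
      _ = v B := one_mul _
  rwa [map_mul, hs1, one_mul] at h4

/-- every bounded nonempty set of values has a maximum. -/
def HasMax (v : Valuation N Γ) : Prop :=
  ∀ s : Set N, s.Nonempty → (∃ B : N, ∀ y ∈ s, v y ≤ v B) → ∃ y ∈ s, ∀ y' ∈ s, v y' ≤ v y

/-- **Logarithmic lemma.** `Q` is either `· ≤ 1` or `· < 1`. -/
theorem log_lemma [FiniteDimensional K N] [Algebra.IsSeparable K N] (v : Valuation N Γ)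
    (hmax : HasMax v) (Δ : Derivation R₀ N N) (Q : Γ → Prop)
    (hQ1 : ∀ g, Q g → g ≤ 1) (hQ2 : ∀ g, g < 1 → Q g) (hQ3 : ∀ g g', g ≤ g' → Q g' → Q g)
    (hK : ∀ a : K, v (algebraMap K N a) ≤ 1 → Q (v (Δ (algebraMap K N a))))
    (hres : ∀ z : N, v z ≤ 1 → ∃ a : K, v (z - algebraMap K N a) < 1)
    (hval : ∀ y : N, y ≠ 0 → v y < 1 → (∃ a : K, v y = v (algebraMap K N a)) ∨
      ∃ (n : ℕ) (a : K), v (n : N) = 1 ∧ v y ^ n = v (algebraMap K N a) ∧
        v (Δ (algebraMap K N a)) ≤ v (algebraMap K N a)) :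
    ∀ z : N, v z ≤ 1 → Q (v (Δ z)) := by
  intro z₀ hz₀
  by_contra hQz
  obtain ⟨B, hB⟩ := exists_bound (K := K) v Δ (fun a ha => hQ1 _ (hK a ha))
  obtain ⟨_, ⟨z, hz, rfl⟩, hzmax⟩ := hmax (Δ '' {z | v z ≤ 1}) ⟨_, z₀, hz₀, rfl⟩
    ⟨B, by rintro _ ⟨y, hy, rfl⟩; exact hB y hy⟩
  have hz : v z ≤ 1 := hz
  have hmx : ∀ y, v y ≤ 1 → v (Δ y) ≤ v (Δ z) := fun y hy => hzmax _ ⟨y, hy, rfl⟩
  set c := v (Δ z) with hc
  have hQc : ¬ Q c := fun h => hQz (hQ3 _ _ (hmx z₀ hz₀) h)
  have hc1 : 1 ≤ c := not_lt.1 fun h => hQc (hQ2 _ h)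
  have hcpos : 0 < c := lt_of_lt_of_le zero_lt_one hc1
  have hKc : ∀ a : K, v (algebraMap K N a) ≤ 1 → v (Δ (algebraMap K N a)) < c :=
    fun a ha => not_le.1 fun h => hQc (hQ3 _ _ h (hK a ha))
  obtain ⟨a, ha⟩ := hres z hz
  have ha1 : v (algebraMap K N a) ≤ 1 := by
    have : algebraMap K N a = z - (z - algebraMap K N a) := by ring
    rw [this]; exact Valuation.map_sub_le _ hz ha.le
  set y := z - algebraMap K N a with hy
  have hΔy : v (Δ y) = c := by
    rw [hy, map_sub, Valuation.map_sub_eq_of_lt_left _ (hKc a ha1)]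
  have hy0 : y ≠ 0 := by
    intro h; rw [h, map_zero, map_zero] at hΔy; exact hcpos.ne hΔy
  have hvy : 0 < v y := zero_lt_iff.2 ((Valuation.ne_zero_iff v).2 hy0)
  rcases hval y hy0 ha with ⟨a', ha'⟩ | ⟨n, a', hn, ha', hΔa'⟩
  · set t := algebraMap K N a'
    have ht0 : t ≠ 0 := by
      intro h; rw [h, map_zero] at ha'; exact hvy.ne' ha'
    have hvt : v t ≠ 0 := (Valuation.ne_zero_iff v).2 ht0
    have hu : v (y / t) = 1 := by rw [map_div₀, ha', div_self hvt]
    have e : y = t * (y / t) := by field_simp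
    have h1 : v (t * Δ (y / t)) < c := by
      rw [map_mul, ← ha']
      calc v y * v (Δ (y / t)) ≤ v y * c := mul_le_mul_right (hmx _ hu.le) _
        _ < 1 * c := mul_lt_mul_of_pos_right ha hcpos
        _ = c := one_mul _
    have h2 : v (y / t * Δ t) < c := by
      rw [map_mul, hu, one_mul]; exact hKc a' (ha' ▸ ha.le)
    have h3 := Valuation.map_add_lt _ h1 h2
    rw [← deriv_mul, ← e, hΔy] at h3
    exact lt_irrefl _ h3
  · set t := algebraMap K N a'
    have hn0 : n ≠ 0 := by
      rintro rfl; simp at hn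
    have hvt : v t ≠ 0 := by rw [← ha']; exact pow_ne_zero _ hvy.ne'
    have ht0 : t ≠ 0 := (Valuation.ne_zero_iff v).1 hvt
    have hu : v (y ^ n / t) = 1 := by rw [map_div₀, map_pow, ha', div_self hvt]
    have e : y ^ n = t * (y ^ n / t) := by field_simp
    have h1 : v (t * Δ (y ^ n / t)) ≤ v y ^ n * c := by
      rw [map_mul, ← ha']
      exact mul_le_mul_right (hmx _ hu.le) _
    have h2 : v (y ^ n / t * Δ t) ≤ v y ^ n * c := by
      rw [map_mul, hu, one_mul, ha']
      calc v (Δ t) ≤ v t * 1 := by rw [mul_one]; exact hΔa'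
        _ ≤ v t * c := mul_le_mul_right hc1 _
    have h3 := Valuation.map_add_le _ h1 h2
    rw [← deriv_mul, ← e, deriv_pow, map_mul, map_mul, hn, one_mul, map_pow, hΔy] at h3
    obtain ⟨k, rfl⟩ : ∃ k, n = k + 1 := ⟨n - 1, by omega⟩
    rw [Nat.add_sub_cancel, pow_succ] at h3
    have h4 : v y ^ k * v y * c < v y ^ k * c := by
      apply mul_lt_mul_of_pos_right _ hcpos
      exact mul_lt_of_lt_one_right (pow_pos hvy k) ha
    exact absurd h3 (not_le.2 h4)

/-- discreteness gives maxima. -/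
theorem hasMax_of_pow (v : Valuation N Γ) (τ : Γ) (hτ0 : τ ≠ 0) (hτ : τ < 1) (d : ℕ)
    (hd : d ≠ 0) (h : ∀ y : N, y ≠ 0 → ∃ k : ℤ, v y ^ d = τ ^ k) : HasMax v := by
  intro s ⟨y₀, hy₀⟩ ⟨B, hB⟩
  by_cases hs : ∀ y ∈ s, y = 0
  · exact ⟨y₀, hy₀, fun y' hy' => by rw [hs y' hy', map_zero]; exact zero_le⟩
  push Not at hs
  obtain ⟨y₁, hy₁, hy₁0⟩ := hs
  have hB0 : B ≠ 0 := by
    intro h0
    have := hB y₁ hy₁
    rw [h0, map_zero, le_zero_iff, Valuation.zero_iff] at this
    exact hy₁0 this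
  obtain ⟨kB, hkB⟩ := h B hB0
  have hτpos : 0 < τ := zero_lt_iff.2 hτ0
  have hanti : ∀ k l : ℤ, τ ^ k ≤ τ ^ l ↔ l ≤ k := fun k l =>
    zpow_le_zpow_iff_right_of_lt_one₀ hτpos hτ
  obtain ⟨k, ⟨y, hy, hy0, hk⟩, hkmin⟩ := Int.exists_least_of_bdd
    (P := fun k => ∃ y ∈ s, y ≠ 0 ∧ v y ^ d = τ ^ k)
    ⟨kB, by
      rintro k ⟨y, hy, -, hk⟩
      rw [← hanti, ← hk, ← hkB]
      exact pow_le_pow_left₀ zero_le (hB y hy) d⟩
    (by obtain ⟨k, hk⟩ := h y₁ hy₁0; exact ⟨k, y₁, hy₁, hy₁0, hk⟩)
  refine ⟨y, hy, fun y' hy' => ?_⟩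
  by_cases h0 : y' = 0
  · rw [h0, map_zero]; exact zero_le
  obtain ⟨k', hk'⟩ := h y' h0
  have := hkmin k' ⟨y', hy', h0, hk'⟩
  rw [← hanti, ← hk, ← hk'] at this
  exact le_of_pow_le_pow_left₀ hd zero_le this

end Bound

end Crest.Agent.T170.Log
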