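import Mathlib
import Crest.Agent.R170.DefW_995
import Crest.Agent.R170.Stm_995
import Crest.Agent.R170.C_176
import Crest.Agent.R170.T_312_Mg
import Crest.Agent.R170.J1_482
import Crest.Agent.R170.S4b_262
import Crest.Agent.R170.BR_606
import Crest.Agent.R170.Split_482
import Crest.Agent.R170.Wr_350
import Crest.Agent.R170.P2_482
import Crest.Agent.T170.CntDef_9

-- ▼ part R170/STP_312
section

/-!
# Row 170: the joint STP

`STP312.stp : STP p k` (literal), from C (176), AB (983), ORB (700), OS (182), J (482), S4 (262),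
BR (606), K (876), B2 (334).
-/

set_option autoImplicit false

namespace Crest.Agent.R170.STP312

open MonoidAlgebra Crest.AlgebraR.Weights Crest.AlgebraR.Blocks

theorem tr_idem {k M : Type} [Field k] [AddCommGroup M] [Module k M] [FiniteDimensional k M]
    (f : Module.End k M) (h : f * f = f) :
    LinearMap.trace k M f = (Module.finrank k (LinearMap.range f) : k) :=
  (LinearMap.IsIdempotentElem.isProj_range f h).trace

section tr1
variable {k G : Type} [Field k] [Group G] [Finite G]

/-- the trace of a central idempotent on the centre -/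
theorem trZ_idem {e : MonoidAlgebra k G} (he : CI e)
    (z : Subalgebra.center k (MonoidAlgebra k G)) (hz : (z : MonoidAlgebra k G) = e) :
    trZ z = (kc e : k) := by
  have hzz : z * z = z := by
    apply Subtype.ext
    show (z : MonoidAlgebra k G) * z = z
    rw [hz, he.2]
  have h1 : LinearMap.mulLeft k z * LinearMap.mulLeft k z = LinearMap.mulLeft k z := by
    refine LinearMap.ext fun x => ?_
    show z * (z * x) = z * x
    rw [← mul_assoc, hzz]
  rw [trZ, tr_idem _ h1]
  congr 1
  have hinj : Function.Injective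
      (Subalgebra.center k (MonoidAlgebra k G)).val.toLinearMap := Subtype.val_injective
  rw [(Submodule.equivMapOfInjective _ hinj (LinearMap.range (LinearMap.mulLeft k z))).finrank_eq,
    kc]
  have hs : (LinearMap.range (LinearMap.mulLeft k z)).map
      (Subalgebra.center k (MonoidAlgebra k G)).val.toLinearMap = eZ e := by
    ext x
    rw [Submodule.mem_map]
    constructor
    · rintro ⟨y, ⟨w, rfl⟩, rfl⟩
      refine ⟨fun x => ?_, ?_⟩
      · exact ((Subalgebra.mem_center_iff.1 (z * w).2) x).symm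
      · show e * ((z : MonoidAlgebra k G) * w) = (z : MonoidAlgebra k G) * w
        rw [hz, ← mul_assoc, he.2]
    · rintro ⟨h2, h3⟩
      refine ⟨z * ⟨x, Subalgebra.mem_center_iff.2 fun y => (h2 y).symm⟩, ⟨_, rfl⟩, ?_⟩
      show (z : MonoidAlgebra k G) * x = x
      rw [hz, h3]
  rw [hs]

end tr1

section L
variable {k H ι : Type} [Field k] [Group H] [Finite H]

/-- `#{(x, y) : π [x, y] = i}` -/
noncomputable def cnt (π : H → ι) (i : ι) : ℕ :=
  Nat.card {q : H × H // π (q.1 * q.2 * q.1⁻¹ * q.2⁻¹) = i}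

/-- the same divided by `|H|` -/
noncomputable def R (π : H → ι) (i : ι) : ℕ := cnt π i / Nat.card H

omit [Finite H] in
theorem cls_conj {π : H → ι} (hπ : ∀ g h, π (h * g * h⁻¹) = π g) (i : ι) (g h : H)
    (hg : g ∈ {x | π x = i}) : h * g * h⁻¹ ∈ {x | π x = i} := by
  show π (h * g * h⁻¹) = i
  rw [hπ]
  exact hg

theorem cnt_eq {π : H → ι} (hπ : ∀ g h, π (h * g * h⁻¹) = π g) (i : ι) :
    cnt π i = Nat.card H * R π i := by
  obtain ⟨r, h1, -⟩ := C176.trZ_setSum (k := ℚ) {x | π x = i} (cls_conj hπ i)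
  have h2 : cnt π i = Nat.card H * r := h1
  rw [R, h2, Nat.mul_div_cancel_left _ Nat.card_pos]

/-- trace on the centre as a combination of commutator counts -/
theorem trZ_eq [Fintype ι] {π : H → ι} (hπ : ∀ g h, π (h * g * h⁻¹) = π g) (f : ι → k)
    (z : Subalgebra.center k (MonoidAlgebra k H))
    (hz : ∀ g, (z : MonoidAlgebra k H).coeff g = f (π g)) :
    trZ z = ∑ i, f i * (R π i : k) := by
  classical
  have h1 : z = ∑ i, f i • C176.setSum (k := k) {x | π x = i} (cls_conj hπ i) := by
    apply Subtype.ext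
    rw [AddSubmonoidClass.coe_finsetSum]
    ext g
    rw [hz, MonoidAlgebra.coeff_sum, Finset.sum_apply']
    have hc : ∀ i, ((f i • C176.setSum (k := k) {x | π x = i} (cls_conj hπ i) :
        Subalgebra.center k (MonoidAlgebra k H)) : MonoidAlgebra k H).coeff g =
        f i * ({x | π x = i} : Set H).indicator (fun _ => (1 : k)) g := fun i => rfl
    rw [Finset.sum_eq_single (π g)]
    · rw [hc, Set.indicator_of_mem (by rfl), mul_one]
    · intro i _ hne
      rw [hc, Set.indicator_of_notMem
        (show g ∉ ({x | π x = i} : Set H) from fun h => hne (Eq.symm h)), mul_zero]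
    · intro h
      exact absurd (Finset.mem_univ _) h
  have h2 : ∀ i, trZ (C176.setSum (k := k) {x | π x = i} (cls_conj hπ i)) = (R π i : k) := by
    intro i
    exact C176.trZ_setSum_eq (k := k) {x | π x = i} (cls_conj hπ i) _ (cnt_eq hπ i)
  have h3 : trZ z = Algebra.trace k (Subalgebra.center k (MonoidAlgebra k H)) z := rfl
  rw [h3, h1, map_sum]
  refine Finset.sum_congr rfl fun i _ => ?_
  rw [map_smul, smul_eq_mul, ← h2 i]
  rfl

end L

section main
variable {p : ℕ} [Fact p.Prime] {G : Type} [Group G] [Finite G]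

/-- the class in `G` -/
def cl (S : Subgroup G) (x : S) : ConjClasses G := ConjClasses.mk (x : G)

omit [Finite G] in
theorem cl_conj (S : Subgroup G) (g h : S) : cl S (h * g * h⁻¹) = cl S g := by
  rw [cl, cl, ConjClasses.mk_eq_mk_iff_isConj]
  exact (isConj_iff.2 ⟨(h : G), by push_cast; rfl⟩ : IsConj (g : G) ((h * g * h⁻¹ : S) : G)).symm

/-- transport of the counts -/
theorem cnt_congr {A B ι : Type} [Group A] [Group B] (φ : A ≃* B) (π : A → ι) (ρ : B → ι)
    (h : ∀ a, ρ (φ a) = π a) (i : ι) : cnt π i = cnt ρ i := by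
  refine Nat.card_congr ((φ.toEquiv.prodCongr φ.toEquiv).subtypeEquiv ?_)
  rintro ⟨x, y⟩
  show π _ = i ↔ ρ (φ x * φ y * (φ x)⁻¹ * (φ y)⁻¹) = i
  rw [← map_inv, ← map_inv, ← map_mul, ← map_mul, ← map_mul, h]

theorem R_congr {A B ι : Type} [Group A] [Group B] (φ : A ≃* B) (π : A → ι) (ρ : B → ι)
    (h : ∀ a, ρ (φ a) = π a) (i : ι) : R π i = R ρ i := by
  rw [R, R, cnt_congr φ π ρ h, Nat.card_congr φ.toEquiv]

theorem R_chRel (C : ConjClasses G) (σ τ : Ch p G) (h : chRel σ τ) :
    R (cl (st σ)) C = R (cl (st τ)) C := by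
  obtain ⟨g, rfl⟩ := ORB700.chRel_iff.1 h
  refine R_congr (ORB700.stIso g σ) _ _ (fun a => ?_) C
  rw [cl, cl, ConjClasses.mk_eq_mk_iff_isConj, ORB700.stIso_coe]
  exact (isConj_iff.2 ⟨g, rfl⟩ : IsConj (a : G) _).symm

open Classical in
/-- `#{h ∈ C : h⁻¹ g is a p-element}` -/
noncomputable def N [Fintype G] (p : ℕ) (C : ConjClasses G) (g : G) : ℕ :=
  (Finset.univ.filter fun h : G => ConjClasses.mk h = C ∧ IsPElt p (h⁻¹ * g)).card

omit [Fact p.Prime] [Finite G] in
theorem N_conj [Fintype G] (C : ConjClasses G) (g x : G) : N p C (x * g * x⁻¹) = N p C g := by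
  classical
  symm
  refine Finset.card_bij (fun h _ => x * h * x⁻¹) ?_ ?_ ?_
  · intro h hh
    simp only [Finset.mem_filter, Finset.mem_univ, true_and] at hh ⊢
    refine ⟨?_, ?_⟩
    · rw [← hh.1, ConjClasses.mk_eq_mk_iff_isConj]
      exact (isConj_iff.2 ⟨x, rfl⟩ : IsConj h (x * h * x⁻¹)).symm
    · have e : (x * h * x⁻¹)⁻¹ * (x * g * x⁻¹) = x * (h⁻¹ * g) * x⁻¹ := by group
      rw [e, K876.isPElt_conj]
      exact hh.2
  · intro a _ b _ hab
    simpa using hab
  · intro h hh
    simp only [Finset.mem_filter, Finset.mem_univ, true_and] at hh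
    refine ⟨x⁻¹ * h * x, ?_, by group⟩
    simp only [Finset.mem_filter, Finset.mem_univ, true_and]
    refine ⟨?_, ?_⟩
    · rw [← hh.1, ConjClasses.mk_eq_mk_iff_isConj]
      exact (isConj_iff.2 ⟨x, by group⟩ : IsConj (x⁻¹ * h * x) h)
    · rw [← K876.isPElt_conj x]
      have e : x * ((x⁻¹ * h * x)⁻¹ * g) * x⁻¹ = h⁻¹ * (x * g * x⁻¹) := by group
      rw [e]
      exact hh.2

omit [Fact p.Prime] [Finite G] in
theorem mk_conj (g h : G) : ConjClasses.mk (h * g * h⁻¹) = ConjClasses.mk g := by
  rw [ConjClasses.mk_eq_mk_iff_isConj]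
  exact (isConj_iff.2 ⟨h, rfl⟩ : IsConj g (h * g * h⁻¹)).symm

/-- the number `n C` -/
noncomputable def nC [Fintype G] [Fintype (ConjClasses G)] (p : ℕ) (C : ConjClasses G) : ℕ :=
  ∑ D : ConjClasses G, N p C D.out * R (ConjClasses.mk : G → ConjClasses G) D

omit [Fact p.Prime] in
theorem card_nC [Fintype G] [Fintype (ConjClasses G)] (C : ConjClasses G) :
    Nat.card {w : G × G × G // IsConj w.2.2 C.out ∧
        IsPElt p (w.2.2⁻¹ * (w.1 * w.2.1 * w.1⁻¹ * w.2.1⁻¹))} = Nat.card G * nC p C := by
  classical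
  have h1 : ∀ D : ConjClasses G, cnt (ConjClasses.mk : G → ConjClasses G) D =
      ∑ q : G × G, if ConjClasses.mk (q.1 * q.2 * q.1⁻¹ * q.2⁻¹) = D then 1 else 0 := by
    intro D
    rw [cnt, Nat.card_eq_fintype_card, Fintype.card_subtype, Finset.card_filter]
  have hout : ∀ g : G, N p C (ConjClasses.mk g).out = N p C g := by
    intro g
    have : IsConj g (ConjClasses.mk g).out := by
      rw [← ConjClasses.mk_eq_mk_iff_isConj]
      exact (Quotient.out_eq _).symm
    obtain ⟨c, hc⟩ := isConj_iff.1 this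
    rw [← hc, N_conj]
  calc Nat.card {w : G × G × G // IsConj w.2.2 C.out ∧
        IsPElt p (w.2.2⁻¹ * (w.1 * w.2.1 * w.1⁻¹ * w.2.1⁻¹))}
      = ∑ q : G × G, N p C (q.1 * q.2 * q.1⁻¹ * q.2⁻¹) := by
        rw [Nat.card_eq_fintype_card, Fintype.card_subtype, Finset.card_filter,
          Fintype.sum_prod_type, Fintype.sum_prod_type]
        refine Finset.sum_congr rfl fun x _ => ?_
        rw [Fintype.sum_prod_type]
        refine Finset.sum_congr rfl fun y _ => ?_
        rw [N, Finset.card_filter]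
        refine Finset.sum_congr rfl fun h _ => ?_
        refine if_congr (and_congr_left fun _ => ?_) rfl rfl
        rw [← ConjClasses.mk_eq_mk_iff_isConj]
        have : ConjClasses.mk C.out = C := Quotient.out_eq C
        rw [this]
    _ = ∑ D : ConjClasses G, N p C D.out * cnt (ConjClasses.mk : G → ConjClasses G) D := by
        simp_rw [h1, Finset.mul_sum]
        rw [Finset.sum_comm]
        refine Finset.sum_congr rfl fun q _ => ?_
        rw [Finset.sum_eq_single (ConjClasses.mk (q.1 * q.2 * q.1⁻¹ * q.2⁻¹)), if_pos rfl, mul_one,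
          hout]
        · intro D _ hne
          rw [if_neg (Ne.symm hne), mul_zero]
        · intro h
          exact absurd (Finset.mem_univ _) h
    _ = Nat.card G * nC p C := by
        rw [nC, Finset.mul_sum]
        refine Finset.sum_congr rfl fun D _ => ?_
        rw [cnt_eq (fun g h => mk_conj g h) D]
        ring

theorem dvd_cancel {n : ℕ} (hn : n ≠ 0) {X : ℤ}
    (h : ((p * pPart p n : ℕ) : ℤ) ∣ (n : ℤ) * X) : (p : ℤ) ∣ X := by
  have hp : p.Prime := Fact.out
  obtain ⟨m, hm⟩ : p ^ padicValNat p n ∣ n := pow_padicValNat_dvd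
  have hpm : ¬ p ∣ m := by
    intro h1
    apply pow_succ_padicValNat_not_dvd (p := p) hn
    obtain ⟨c, hc⟩ := h1
    refine ⟨c, ?_⟩
    rw [pow_succ, mul_assoc, ← hc]
    exact hm
  have h2 : ((p : ℤ) * (p : ℤ) ^ padicValNat p n) ∣ (p : ℤ) ^ padicValNat p n * ((m : ℤ) * X) := by
    have e : (n : ℤ) = (p : ℤ) ^ padicValNat p n * m := by exact_mod_cast hm
    have e2 : ((p * pPart p n : ℕ) : ℤ) = (p : ℤ) * (p : ℤ) ^ padicValNat p n := by
      rw [pPart]
      push_cast
      rfl
    rw [← e2, ← mul_assoc, ← e]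
    exact h
  have h3 : (p : ℤ) ∣ (m : ℤ) * X := by
    rw [mul_comm (p : ℤ)] at h2
    exact (mul_dvd_mul_iff_left (pow_ne_zero _ (by exact_mod_cast hp.ne_zero))).1 h2
  have hp' : Prime (p : ℤ) := Nat.prime_iff_prime_int.1 hp
  rcases hp'.dvd_or_dvd h3 with h4 | h4
  · exact absurd (by exact_mod_cast h4) hpm
  · exact h4

variable (p) in
/-- **The joint STP** (literal) -/
theorem stp (k : Type) [Field k] [IsAlgClosed k] [CharP k p] : STP p k := by
  intro hW G _ _ e he
  classical
  haveI : Fintype G := Fintype.ofFinite G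
  haveI : Fintype (ConjClasses G) := Fintype.ofFinite _
  set f : ConjClasses G → k := fun C => e.coeff C.out with hf
  have hout : ∀ (z : MonoidAlgebra k G), (∀ x, z * x = x * z) → ∀ g : G,
      z.coeff g = z.coeff (ConjClasses.mk g).out := by
    intro z hz g
    have : IsConj g (ConjClasses.mk g).out := by
      rw [← ConjClasses.mk_eq_mk_iff_isConj]
      exact (Quotient.out_eq _).symm
    obtain ⟨c, hc⟩ := isConj_iff.1 this
    rw [← hc, AB983.coeff_conj hz]
  have hcl : ∀ g : G, e.coeff g = f (ConjClasses.mk g) := hout e he.1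
  have hos := OS182.os p k G e he
  -- the side of `kc`
  have hkc : ∀ σ : Ch p G, (kc (eC σ e) : k) = ∑ C, f C * (R (cl (st σ)) C : k) := by
    intro σ
    have hCI : CI (eC σ e) := BR606.sBrCI p k G e (st σ) (top σ) (K876.isPGroup_top σ)
      (K876.centralizer_top_le_st σ) (K876.st_le_normalizer_top σ) he
    have hCI' : CI (br (st σ) (top σ) e) := hCI
    let y2 : Subalgebra.center k (MonoidAlgebra k (st σ)) :=
      ⟨br (st σ) (top σ) e, Subalgebra.mem_center_iff.2 fun y => (hCI'.1 y).symm⟩
    let y1 : Subalgebra.center k (MonoidAlgebra k (st σ)) :=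
      ⟨restrictCoeff (st σ) e,
        Subalgebra.mem_center_iff.2 fun y => (AB983.restrict_central he.1 (st σ) y).symm⟩
    rw [← trZ_idem hCI y2 rfl, ← AB983.AB3_trZ σ e he.1 (fun g hg => by
      by_contra hcon
      exact hg (hos g hcon)) y1 y2 rfl rfl]
    exact trZ_eq (cl_conj (st σ)) f y1 fun g => hcl g
  -- the side of `f0`
  have hf0 : (f0 e : k) = ∑ C, f C * (nC p C : k) := by
    let eZ' : Subalgebra.center k (MonoidAlgebra k G) :=
      ⟨e, Subalgebra.mem_center_iff.2 fun y => (he.1 y).symm⟩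
    let J : Subalgebra.center k (MonoidAlgebra k G) :=
      C176.setSum (k := k) {g | IsPElt p g} fun g h hg => (K876.isPElt_conj h g).2 hg
    have hJ : (J : MonoidAlgebra k G) = .ofCoeff (Finsupp.equivFunOnFinite.symm fun g : G =>
        (open Classical in if IsPElt p g then (1 : k) else 0)) := by
      ext g
      show ({g | IsPElt p g} : Set G).indicator (fun _ => (1 : k)) g = if IsPElt p g then 1 else 0
      rw [Set.indicator_apply]
      rfl
    have h1 := (J482.sJ1 p k G e (eZ' * J) he (by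
      show e * (J : MonoidAlgebra k G) = _
      rw [hJ])).symm
    rw [h1]
    have hz : ∀ g, ((eZ' * J : Subalgebra.center k (MonoidAlgebra k G)) :
        MonoidAlgebra k G).coeff g =
        (fun D : ConjClasses G => ∑ C, f C * (N p C D.out : k)) (ConjClasses.mk g) := by
      intro g
      rw [hout _ (fun x => (Subalgebra.mem_center_iff.1 (eZ' * J).2 x).symm) g]
      show (e * (J : MonoidAlgebra k G)).coeff _ = ∑ C, f C * (N p C (ConjClasses.mk g).out : k)
      generalize (ConjClasses.mk g).out = x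
      rw [J482.coeff_mul_fin]
      have h2 : ∀ C : ConjClasses G, f C * (N p C x : k) =
          ∑ h : G, if ConjClasses.mk h = C then
            (if IsPElt p (h⁻¹ * x) then f (ConjClasses.mk h) else 0) else 0 := by
        intro C
        rw [N, Finset.card_filter, Nat.cast_sum, Finset.mul_sum]
        refine Finset.sum_congr rfl fun h _ => ?_
        by_cases a : ConjClasses.mk h = C
        · by_cases b : IsPElt p (h⁻¹ * x)
          · rw [if_pos ⟨a, b⟩, if_pos a, if_pos b, a]
            simp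
          · rw [if_neg (fun h => b h.2), if_pos a, if_neg b]
            simp
        · rw [if_neg (fun h => a h.1), if_neg a]
          simp
      rw [Finset.sum_congr rfl fun C _ => h2 C, Finset.sum_comm]
      refine Finset.sum_congr rfl fun h _ => ?_
      rw [Finset.sum_ite_eq, if_pos (Finset.mem_univ _), hcl h]
      have h3 : (J : MonoidAlgebra k G).coeff (h⁻¹ * x) = if IsPElt p (h⁻¹ * x) then 1 else 0 := by
        rw [hJ]
        rfl
      rw [h3]
      split_ifs <;> simp
    rw [trZ_eq (π := (ConjClasses.mk : G → ConjClasses G)) (fun g h => mk_conj g h)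
      (fun D : ConjClasses G => ∑ C, f C * (N p C D.out : k)) (eZ' * J) hz]
    simp_rw [Finset.sum_mul]
    rw [Finset.sum_comm]
    refine Finset.sum_congr rfl fun C _ => ?_
    rw [nC, Nat.cast_sum, Finset.mul_sum]
    refine Finset.sum_congr rfl fun D _ => ?_
    push_cast
    ring
  -- the counting input
  have hS4 : ∀ C : ConjClasses G, (orderOf C.out).Coprime p →
      (p : ℤ) ∣ altSum (fun σ : Ch p G => (R (cl (st σ)) C : ℤ)) - nC p C := by
    intro C hC
    have h := S4262.ss4 p hW G C.out hC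
    have e1 : ∀ σ : Ch p G, (Nat.card {w : st σ × st σ //
        IsConj ((w.1 * w.2 * w.1⁻¹ * w.2⁻¹ : st σ) : G) C.out} : ℤ) =
        (Nat.card (st σ) : ℤ) * (R (cl (st σ)) C : ℤ) := by
      intro σ
      have e2 := cnt_eq (cl_conj (st σ)) C
      have e3 : Nat.card {w : st σ × st σ //
          IsConj ((w.1 * w.2 * w.1⁻¹ * w.2⁻¹ : st σ) : G) C.out} = cnt (cl (st σ)) C := by
        rw [cnt]
        refine Nat.card_congr (Equiv.subtypeEquivRight fun w => ?_)
        rw [cl, ← ConjClasses.mk_eq_mk_iff_isConj]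
        have : ConjClasses.mk C.out = C := Quotient.out_eq C
        rw [this]
      rw [e3, e2]
      push_cast
      rfl
    rw [finsum_congr fun σ => by rw [e1 σ], card_nC] at h
    have h5 := ORB700.card_mul_altSum (fun σ : Ch p G => (R (cl (st σ)) C : ℤ))
      (fun σ τ hst => by
        show (R (cl (st σ)) C : ℤ) = (R (cl (st τ)) C : ℤ)
        rw [R_chRel C σ τ hst])
    rw [← h5] at h
    refine dvd_cancel (p := p) (n := Nat.card G) (Nat.card_pos).ne' ?_
    rw [mul_sub]
    push_cast at h ⊢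
    exact h
  -- combination
  have hk : ((altSum (fun σ : Ch p G => (kc (eC σ e) : ℤ)) : ℤ) : k) = ((f0 e : ℤ) : k) := by
    rw [← ORB700.altSumK_cast, ORB700.altSumK_congr (g := fun σ : Ch p G =>
      ∑ C, f C * (R (cl (st σ)) C : k)) (fun σ => by
        rw [← hkc σ]
        push_cast
        rfl), ORB700.altSumK_sum]
    rw [Int.cast_natCast, hf0]
    refine Finset.sum_congr rfl fun C _ => ?_
    by_cases hC : (orderOf C.out).Coprime p
    · rw [ORB700.altSumK_mul_left]
      congr 1
      have h6 := (CharP.intCast_eq_zero_iff k p _).2 (hS4 C hC)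
      rw [Int.cast_sub, sub_eq_zero, Int.cast_natCast, ← ORB700.altSumK_cast] at h6
      rw [← h6]
      refine ORB700.altSumK_congr fun σ => ?_
      push_cast
      rfl
    · have h7 : f C = 0 := hos _ hC
      rw [ORB700.altSumK_mul_left, h7, zero_mul, zero_mul]
  have hlk : altSum (fun σ : Ch p G => (lc (eC σ e) : ℤ)) =
      altSum (fun σ : Ch p G => (kc (eC σ e) : ℤ)) := by
    have h := K876.SK_of (B2334.B2 p k) (BR606.sBrCI p k) G e he
    have h8 := ORB700.card_mul_altSum (fun σ : Ch p G => (lc (eC σ e) : ℤ))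
      (fun σ τ hst => by
        show (lc (eC σ e) : ℤ) = (lc (eC τ e) : ℤ)
        rw [ORB700.lc_eC he.1 hst])
    have h9 := ORB700.card_mul_altSum (fun σ : Ch p G => (kc (eC σ e) : ℤ))
      (fun σ τ hst => by
        show (kc (eC σ e) : ℤ) = (kc (eC τ e) : ℤ)
        rw [ORB700.kc_eC he.1 hst])
    have hG : (Nat.card G : ℤ) ≠ 0 := by exact_mod_cast (Nat.card_pos (α := G)).ne'
    exact mul_left_cancel₀ hG (by rw [h8, h9, h])
  rw [hlk]
  rw [← sub_eq_zero, ← Int.cast_sub] at hk
  exact (CharP.intCast_eq_zero_iff k p _).1 hk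

end main

end Crest.Agent.R170.STP312
end

-- ▼ part R170/FE_234
section

/-!
Row 170 (swarm A), leaf WW2-FE (helper234): the functional equation for `f0`.

`f0 e = Nat.card (Y e)` where `Y e` is the set of functions `φ ≠ 0` on `G` with
`∑ g, φ (a g b g⁻¹) = φ a φ b` and `e * φ = φ`.
-/

set_option autoImplicit false
open scoped BigOperators

namespace Crest.Agent.R170.FE

open Crest.AlgebraR.Weights Crest.Agent.R170.J482 MonoidAlgebra

section basic
variable {k G : Type} [Field k] [Group G] [Fintype G]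

/-- the functional equation -/
def Y (e : MonoidAlgebra k G) : Set (G → k) :=
  {φ | φ ≠ 0 ∧ (∀ a b, ∑ g, φ (a * g * b * g⁻¹) = φ a * φ b) ∧
    ∀ a, ∑ h, e.coeff h * φ (h * a) = φ a}

/-- relative trace -/
noncomputable def Tr (x : MonoidAlgebra k G) : MonoidAlgebra k G :=
  ∑ g : G, single g 1 * x * single g⁻¹ 1

theorem Tr_zero : Tr (0 : MonoidAlgebra k G) = 0 := by simp [Tr]

theorem Tr_add (x y : MonoidAlgebra k G) : Tr (x + y) = Tr x + Tr y := by
  simp [Tr, mul_add, add_mul, Finset.sum_add_distrib]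

theorem Tr_smul (c : k) (x : MonoidAlgebra k G) : Tr (c • x) = c • Tr x := by
  simp [Tr, Finset.smul_sum]

theorem single_eq (g : G) (r : k) : (single g r : MonoidAlgebra k G) = r • single g 1 := by
  rw [MonoidAlgebra.smul_single, smul_eq_mul, mul_one]

theorem Tr_central (x y : MonoidAlgebra k G) : Tr x * y = y * Tr x := by
  induction y using MonoidAlgebra.induction_linear with
  | zero => simp
  | add a b ha hb => rw [mul_add, add_mul, ha, hb]
  | single h r =>
    rw [Tr, Finset.sum_mul, Finset.mul_sum]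
    refine Fintype.sum_equiv (Equiv.mulLeft h⁻¹) _ _ fun g => ?_
    rw [single_eq h r, mul_smul_comm, smul_mul_assoc]
    congr 1
    simp only [Equiv.coe_mulLeft, mul_inv_rev, inv_inv]
    rw [mul_assoc, single_mul_single, mul_one, ← mul_assoc, ← mul_assoc, single_mul_single, mul_one,
      mul_inv_cancel_left]

theorem Tr_mul_central {z : MonoidAlgebra k G} (hz : ∀ x, z * x = x * z) (x : MonoidAlgebra k G) :
    Tr (z * x) = z * Tr x := by
  rw [Tr, Tr, Finset.mul_sum]
  refine Finset.sum_congr rfl fun g _ => ?_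
  rw [← mul_assoc, ← hz, mul_assoc z, mul_assoc z]

/-- linear extension of a function on `G` -/
noncomputable def ext (φ : G → k) : MonoidAlgebra k G →ₗ[k] k where
  toFun x := ∑ g, x.coeff g * φ g
  map_add' x y := by simp [add_mul, Finset.sum_add_distrib]
  map_smul' c x := by simp [Finset.mul_sum, mul_assoc]

theorem ext_apply (φ : G → k) (x : MonoidAlgebra k G) : ext φ x = ∑ g, x.coeff g * φ g := rfl

theorem ext_single (φ : G → k) (g : G) (r : k) : ext φ (single g r) = r * φ g := by
  classical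
  rw [ext_apply, Finset.sum_eq_single g]
  · simp
  · intro b _ hb
    rw [MonoidAlgebra.coeff_single, Finsupp.single_apply, if_neg (Ne.symm hb), zero_mul]
  · intro h; exact absurd (Finset.mem_univ g) h

theorem ext_mul_single (φ : G → k) (x : MonoidAlgebra k G) (a : G) :
    ext φ (x * single a 1) = ∑ h, x.coeff h * φ (h * a) := by
  rw [ext_apply]
  refine Fintype.sum_equiv (Equiv.mulRight a⁻¹) _ _ fun g => ?_
  rw [MonoidAlgebra.coeff_mul_single_apply]
  simp

theorem ext_mul_Tr {φ : G → k} (h : ∀ a b, ∑ g, φ (a * g * b * g⁻¹) = φ a * φ b)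
    (x y : MonoidAlgebra k G) : ext φ (x * Tr y) = ext φ x * ext φ y := by
  induction x using MonoidAlgebra.induction_linear with
  | zero => simp
  | add a b ha hb => rw [add_mul, map_add, ha, hb, map_add, add_mul]
  | single a r =>
    induction y using MonoidAlgebra.induction_linear with
    | zero => simp [Tr]
    | add c d hc hd => rw [Tr_add, mul_add, map_add, hc, hd, map_add, mul_add]
    | single b s =>
      rw [Tr, Finset.mul_sum, map_sum, ext_single, ext_single]
      have : r * φ a * (s * φ b) = ∑ g, r * s * φ (a * g * b * g⁻¹) := by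
        rw [← Finset.mul_sum, h]; ring
      rw [this]
      refine Finset.sum_congr rfl fun g _ => ?_
      rw [single_mul_single, single_mul_single, single_mul_single, ext_single]
      simp [mul_assoc]

end basic

section split
variable {k G : Type} [Field k] [Group G] [Fintype G] (D : SplitData k (MonoidAlgebra k G))

theorem central_scalar {z : MonoidAlgebra k G} (hz : ∀ x, z * x = x * z) (i : Fin D.n) :
    D.π z i = (D.π z i 0 0) • (1 : Matrix (Fin (D.d i)) (Fin (D.d i)) k) := by
  have h : ∀ r s : Fin (D.d i), Commute (Matrix.single r s (1 : k)) (D.π z i) := by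
    intro r s
    obtain ⟨x, hx⟩ := D.surj (Pi.single i (Matrix.single r s 1))
    have h1 := congrArg (fun y => D.π y i) (hz x)
    simp only [map_mul, Pi.mul_apply, hx, Pi.single_eq_same] at h1
    exact h1.symm
  obtain ⟨c, hc⟩ := Matrix.mem_range_scalar_iff_commute_single'.2 h
  have : D.π z i = c • (1 : Matrix (Fin (D.d i)) (Fin (D.d i)) k) := by
    rw [← hc]
    ext a b
    simp [Matrix.scalar_apply, Matrix.diagonal_apply, Matrix.one_apply]
  rw [this]
  simp

/-- the functions attached to the simple modules -/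
noncomputable def Phi (i : Fin D.n) (g : G) : k := D.π (Tr (single g 1)) i 0 0

theorem ext_Phi (i : Fin D.n) (x : MonoidAlgebra k G) : ext (Phi D i) x = D.π (Tr x) i 0 0 := by
  induction x using MonoidAlgebra.induction_linear with
  | zero => simp [Tr_zero]
  | add a b ha hb => rw [map_add, ha, hb, Tr_add, map_add]; rfl
  | single a r =>
    rw [ext_single, single_eq a r, Tr_smul, map_smul]; rfl

theorem ext_Phi_central_mul (i : Fin D.n) {z : MonoidAlgebra k G} (hz : ∀ x, z * x = x * z)
    (x : MonoidAlgebra k G) : ext (Phi D i) (z * x) = D.π z i 0 0 * ext (Phi D i) x := by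
  rw [ext_Phi, ext_Phi, Tr_mul_central hz, map_mul, Pi.mul_apply, central_scalar D hz i]
  simp

theorem Phi_FE (i : Fin D.n) (a b : G) :
    ∑ g, Phi D i (a * g * b * g⁻¹) = Phi D i a * Phi D i b := by
  have h1 : ∑ g, Phi D i (a * g * b * g⁻¹) = ext (Phi D i) (single a 1 * Tr (single b 1)) := by
    rw [Tr, Finset.mul_sum, map_sum]
    refine Finset.sum_congr rfl fun g _ => ?_
    rw [single_mul_single, single_mul_single, single_mul_single, ext_single]
    simp [mul_assoc]
  rw [h1, ← Tr_central, ext_Phi_central_mul D i (Tr_central _), ext_single, one_mul, mul_comm]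
  rfl

theorem π_Tr (i : Fin D.n) (x : MonoidAlgebra k G) :
    D.π (Tr x) i = ∑ g : G, D.π (single g 1) i * D.π x i * D.π (single g⁻¹ 1) i := by
  rw [Tr, map_sum, Finset.sum_apply]
  refine Finset.sum_congr rfl fun g _ => ?_
  rw [map_mul, map_mul]; rfl

/-- lifts of the matrix units of column `0` -/
theorem exists_b (i : Fin D.n) : ∃ b : Fin (D.d i) → MonoidAlgebra k G,
    ∀ r, D.π (b r) = Pi.single i (Matrix.single r 0 1) := by
  choose b hb using fun r : Fin (D.d i) => D.surj (Pi.single i (Matrix.single r 0 (1 : k)))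
  exact ⟨b, hb⟩

theorem sub_B_mem (i : Fin D.n) {b : Fin (D.d i) → MonoidAlgebra k G}
    (hb : ∀ r, D.π (b r) = Pi.single i (Matrix.single r 0 1)) (y : MonoidAlgebra k G) :
    y - ∑ r, D.π y i r 0 • b r ∈ D.L i := by
  intro r
  rw [map_sub, map_sum, Pi.sub_apply, Finset.sum_apply, Matrix.sub_apply, Matrix.sum_apply,
    sub_eq_zero, Finset.sum_eq_single r]
  · rw [map_smul, hb]; simp
  · intro s _ hs
    rw [map_smul, hb, Pi.smul_apply, Pi.single_eq_same, Matrix.smul_apply,
      Matrix.single_apply_of_row_ne hs, smul_zero]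
  · intro h; exact absurd (Finset.mem_univ r) h


theorem Tr_mul_sub_mem (i : Fin D.n) {x : MonoidAlgebra k G} (hx : D.π (Tr x) i 0 0 = 1)
    (y : MonoidAlgebra k G) : Tr x * y - y ∈ D.L i := by
  intro r
  rw [map_sub, map_mul, Pi.sub_apply, Pi.mul_apply, central_scalar D (Tr_central x) i, hx]
  simp

theorem projective_of_one (i : Fin D.n) (x : MonoidAlgebra k G) (hx : D.π (Tr x) i 0 0 = 1) :
    Module.Projective (MonoidAlgebra k G) (MonoidAlgebra k G ⧸ D.L i) := by
  obtain ⟨b, hb⟩ := exists_b D i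
  let B : MonoidAlgebra k G →ₗ[k] MonoidAlgebra k G :=
    { toFun := fun y => ∑ r, D.π y i r 0 • b r
      map_add' := by
        intro y z
        simp only [map_add, Pi.add_apply, Matrix.add_apply, add_smul, Finset.sum_add_distrib]
      map_smul' := by
        intro c y
        simp only [map_smul, Pi.smul_apply, Matrix.smul_apply, smul_eq_mul, mul_smul,
          Finset.smul_sum, RingHom.id_apply] }
  have hB : ∀ y, y - B y ∈ D.L i := fun y => sub_B_mem D i hb y
  have hB0 : ∀ y ∈ D.L i, B y = 0 := by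
    intro y hy
    change ∑ r, D.π y i r 0 • b r = 0
    exact Finset.sum_eq_zero fun r _ => by rw [hy r, zero_smul]
  let f : MonoidAlgebra k G →ₗ[k] MonoidAlgebra k G :=
    { toFun := fun y => ∑ g : G, single g 1 * B (x * single g⁻¹ 1 * y)
      map_add' := by
        intro y z
        simp only [mul_add, map_add, Finset.sum_add_distrib]
      map_smul' := by
        intro c y
        simp only [mul_smul_comm, map_smul, Finset.smul_sum, RingHom.id_apply] }
  have hf : ∀ y z, f (y * z) = y * f z := by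
    intro y z
    induction y using MonoidAlgebra.induction_linear with
    | zero => simp
    | add a c ha hc => rw [add_mul, map_add, ha, hc, add_mul]
    | single h r =>
      rw [single_eq h r, smul_mul_assoc, smul_mul_assoc, map_smul]
      congr 1
      change ∑ g : G, single g 1 * B (x * single g⁻¹ 1 * (single h 1 * z)) =
        single h 1 * ∑ g : G, single g 1 * B (x * single g⁻¹ 1 * z)
      rw [Finset.mul_sum]
      refine Fintype.sum_equiv (Equiv.mulLeft h⁻¹) _ _ fun g => ?_
      simp only [Equiv.coe_mulLeft, mul_inv_rev, inv_inv]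
      rw [← mul_assoc (single h 1), single_mul_single, mul_one, mul_inv_cancel_left,
        ← mul_assoc (x * single g⁻¹ 1), mul_assoc x (single g⁻¹ 1), single_mul_single, mul_one]
  let F : MonoidAlgebra k G →ₗ[MonoidAlgebra k G] MonoidAlgebra k G :=
    { toFun := fun y => f y
      map_add' := fun y z => map_add f y z
      map_smul' := fun c y => hf c y }
  have hF0 : D.L i ≤ LinearMap.ker F := by
    intro y hy
    rw [LinearMap.mem_ker]
    change ∑ g : G, single g 1 * B (x * single g⁻¹ 1 * y) = 0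
    refine Finset.sum_eq_zero fun g _ => ?_
    have h1 := (D.L i).smul_mem (x * single g⁻¹ 1) hy
    rw [smul_eq_mul] at h1
    rw [hB0 _ h1, mul_zero]
  refine Module.Projective.of_split ((D.L i).liftQ F hF0) (D.L i).mkQ ?_
  apply Submodule.linearMap_qext
  ext
  change (Submodule.Quotient.mk (((D.L i).liftQ F hF0) (Submodule.Quotient.mk 1)) :
    MonoidAlgebra k G ⧸ D.L i) = Submodule.Quotient.mk 1
  rw [Submodule.liftQ_apply, Submodule.Quotient.eq]
  have h1 : F 1 - Tr x * 1 ∈ D.L i := by
    have h2 : F 1 - Tr x * 1 = -∑ g : G, (single g (1 : k) : MonoidAlgebra k G) • (x * single g⁻¹ 1 * 1 -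
        B (x * single g⁻¹ 1 * 1)) := by
      change ∑ g : G, single g 1 * B (x * single g⁻¹ 1 * 1) - _ = _
      rw [Tr]
      simp only [smul_eq_mul, mul_sub, Finset.sum_sub_distrib, neg_sub, mul_one, mul_assoc]
    rw [h2]
    exact (D.L i).neg_mem ((D.L i).sum_mem fun g _ => (D.L i).smul_mem _ (hB _))
  have h3 := (D.L i).add_mem h1 (Tr_mul_sub_mem D i hx 1)
  simpa using h3

theorem projective_of (i : Fin D.n) (x : MonoidAlgebra k G) (hx : D.π (Tr x) i 0 0 ≠ 0) :
    Module.Projective (MonoidAlgebra k G) (MonoidAlgebra k G ⧸ D.L i) := by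
  refine projective_of_one D i ((D.π (Tr x) i 0 0)⁻¹ • x) ?_
  rw [Tr_smul, map_smul, Pi.smul_apply, Matrix.smul_apply, smul_eq_mul, inv_mul_cancel₀ hx]

theorem exists_of_projective (i : Fin D.n)
    (hP : Module.Projective (MonoidAlgebra k G) (MonoidAlgebra k G ⧸ D.L i)) :
    ∃ a, D.π (Tr a) i 0 0 = 1 := by
  obtain ⟨s, hs⟩ := Module.projective_lifting_property (D.L i).mkQ LinearMap.id
    (Submodule.mkQ_surjective _)
  obtain ⟨ε, hε⟩ : ∃ ε, ε = s (Submodule.Quotient.mk 1) := ⟨_, rfl⟩
  have h1 : ∀ x, x * ε = s (Submodule.Quotient.mk x) := by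
    intro x
    rw [hε, ← smul_eq_mul, ← map_smul, ← Submodule.Quotient.mk_smul, smul_eq_mul, mul_one]
  have h2 : ε - 1 ∈ D.L i := by
    rw [← Submodule.Quotient.eq]
    have := LinearMap.congr_fun hs (Submodule.Quotient.mk 1)
    rw [hε]
    exact this
  obtain ⟨b, hb⟩ := exists_b D i
  obtain ⟨a, ha⟩ := D.surj
    (Pi.single i (Matrix.of fun r' r => if r' = 0 then (b r * ε).coeff 1 else 0))
  refine ⟨a, ?_⟩
  have h3 : ∀ y, ∑ r, D.π y i r 0 * (b r * ε).coeff 1 = (y * ε).coeff 1 := by
    intro y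
    have h4 : (y - ∑ r, D.π y i r 0 • b r) * ε = 0 := by
      rw [h1, (Submodule.Quotient.mk_eq_zero _).2 (sub_B_mem D i hb y), map_zero]
    rw [sub_mul, sub_eq_zero] at h4
    rw [h4, Finset.sum_mul]
    simp [Finset.sum_apply']
  have h5 : ∀ g : G, (D.π (single g 1) i * D.π a i * D.π (single g⁻¹ 1) i) 0 0 =
      ε.coeff g * D.π (single g 1) i 0 0 := by
    intro g
    have h6 : (single g⁻¹ (1 : k) * ε).coeff 1 = ε.coeff g := by
      rw [MonoidAlgebra.coeff_single_mul_apply]; simp
    rw [← h6, ← h3, Matrix.mul_apply, Finset.sum_mul]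
    refine Finset.sum_congr rfl fun r _ => ?_
    rw [ha, Pi.single_eq_same, Matrix.mul_apply, Finset.sum_eq_single 0]
    · simp only [Matrix.of_apply, if_true]; ring
    · intro c _ hc
      rw [Matrix.of_apply, if_neg hc, mul_zero]
    · intro h; exact absurd (Finset.mem_univ _) h
  rw [π_Tr, Matrix.sum_apply, Finset.sum_congr rfl fun g _ => h5 g]
  have h7 : D.π ε i 0 0 = 1 := by
    have := h2 0
    rw [map_sub, map_one, Pi.sub_apply, Matrix.sub_apply, sub_eq_zero] at this
    rw [this]; simp
  have h8 : D.π ε i 0 0 = ∑ g : G, ε.coeff g * D.π (single g 1) i 0 0 := by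
    conv_lhs => rw [← MonoidAlgebra.sum_coeff_single ε]
    rw [Finsupp.sum_fintype _ _ (by intro i; simp), map_sum, Finset.sum_apply, Matrix.sum_apply]
    refine Finset.sum_congr rfl fun g _ => ?_
    rw [single_eq g (ε.coeff g), map_smul]
    rfl
  rw [← h8, h7]

theorem Phi_ne_zero_iff (i : Fin D.n) : Phi D i ≠ 0 ↔
    Module.Projective (MonoidAlgebra k G) (MonoidAlgebra k G ⧸ D.L i) := by
  constructor
  · intro h
    obtain ⟨g, hg⟩ := Function.ne_iff.1 h
    exact projective_of D i _ hg
  · intro h h0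
    obtain ⟨a, ha⟩ := exists_of_projective D i h
    rw [← ext_Phi, h0, ext_apply] at ha
    simp at ha

theorem Phi_injective {i j : Fin D.n} (hi : Phi D i ≠ 0) (h : Phi D i = Phi D j) : i = j := by
  by_contra hij
  obtain ⟨a, ha⟩ := exists_of_projective D i ((Phi_ne_zero_iff D i).1 hi)
  obtain ⟨a', ha'⟩ := D.surj (Pi.single i (D.π a i))
  have h1 : D.π (Tr a') i = D.π (Tr a) i := by
    rw [π_Tr, π_Tr, ha', Pi.single_eq_same]
  have h2 : D.π (Tr a') j = 0 := by
    rw [π_Tr, ha', Pi.single_eq_of_ne (Ne.symm hij)]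
    simp
  have h3 := ext_Phi D i a'
  rw [h1, ha, h, ext_Phi, h2] at h3
  simp at h3


theorem π_eq_zero_iff_central {z : MonoidAlgebra k G} (hz : ∀ x, z * x = x * z)
    (h : ∀ i, D.π z i 0 0 = 0) : D.π z = 0 := by
  funext i
  rw [central_scalar D hz i, h i, zero_smul]; rfl

theorem isNilpotent_of_π {z : MonoidAlgebra k G} (h : D.π z = 0) : IsNilpotent z := by
  have : IsArtinianRing (MonoidAlgebra k G) := IsArtinianRing.of_finite k _
  obtain ⟨n, hn⟩ := IsSemiprimaryRing.isNilpotent (R := MonoidAlgebra k G)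
  refine ⟨n, ?_⟩
  have h1 := Ideal.pow_mem_pow ((D.ker_rad z).1 h) n
  rw [hn] at h1
  exact h1

/-- the central characters of the simple modules -/
noncomputable def chi (i : Fin D.n) : Subalgebra.center k (MonoidAlgebra k G) →ₐ[k] k :=
  AlgHom.ofLinearMap
    { toFun := fun z => D.π (z : MonoidAlgebra k G) i 0 0
      map_add' := fun a b => by
        rw [Subalgebra.coe_add, map_add]; rfl
      map_smul' := fun c a => by
        rw [Subalgebra.coe_smul, map_smul]; rfl }
    (by simp)
    (by
      intro a b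
      change D.π ((a * b : Subalgebra.center k (MonoidAlgebra k G)) : MonoidAlgebra k G) i 0 0 =
        D.π (a : MonoidAlgebra k G) i 0 0 * D.π (b : MonoidAlgebra k G) i 0 0
      rw [Subalgebra.coe_mul, map_mul, Pi.mul_apply,
        central_scalar D (z := (a : MonoidAlgebra k G))
          (fun x => (Subalgebra.mem_center_iff.1 a.2 x).symm) i]
      simp)

theorem chi_apply (i : Fin D.n) (z : Subalgebra.center k (MonoidAlgebra k G)) :
    chi D i z = D.π (z : MonoidAlgebra k G) i 0 0 := rfl

theorem exists_chi (χ : Subalgebra.center k (MonoidAlgebra k G) →ₐ[k] k) :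
    ∃ i, χ = chi D i := by
  by_contra hcon
  push Not at hcon
  have h1 : ∀ i, ∃ z, χ z ≠ chi D i z := by
    intro i
    by_contra h
    push Not at h
    exact hcon i (AlgHom.ext h)
  choose z hz using h1
  let u : Fin D.n → Subalgebra.center k (MonoidAlgebra k G) := fun i =>
    1 - (chi D i (z i) - χ (z i))⁻¹ • (z i - algebraMap k _ (χ (z i)))
  have hu1 : ∀ i, chi D i (u i) = 0 := by
    intro i
    simp only [u, map_sub, map_one, map_smul, AlgHom.commutes, smul_eq_mul]
    rw [Algebra.algebraMap_self_apply, inv_mul_cancel₀ (sub_ne_zero.2 (hz i).symm), sub_self]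
  have hu2 : ∀ i, χ (u i) = 1 := by
    intro i
    simp only [u, map_sub, map_one, map_smul, AlgHom.commutes, smul_eq_mul]
    rw [Algebra.algebraMap_self_apply, sub_self, mul_zero, sub_zero]
  have hU1 : ∀ j, chi D j (∏ i, u i) = 0 := by
    intro j
    rw [map_prod]
    exact Finset.prod_eq_zero (Finset.mem_univ j) (hu1 j)
  have hU2 : χ (∏ i, u i) = 1 := by
    rw [map_prod]
    exact Finset.prod_eq_one fun i _ => hu2 i
  obtain ⟨n, hn⟩ := isNilpotent_of_π D (π_eq_zero_iff_central D
    (z := ((∏ i, u i : Subalgebra.center k (MonoidAlgebra k G)) : MonoidAlgebra k G))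
    (fun x => (Subalgebra.mem_center_iff.1 (∏ i, u i).2 x).symm) hU1)
  have h3 : (∏ i, u i) ^ n = 0 := by
    apply Subtype.ext
    rw [Subalgebra.coe_pow, hn]; rfl
  have h4 := congrArg χ h3
  rw [map_pow, hU2, one_pow, map_zero] at h4
  exact one_ne_zero h4

/-- every solution of the functional equation comes from a simple module -/
theorem exists_Phi {φ : G → k} (h0 : φ ≠ 0)
    (h : ∀ a b, ∑ g, φ (a * g * b * g⁻¹) = φ a * φ b) : ∃ i, φ = Phi D i := by
  obtain ⟨a0, ha0⟩ := Function.ne_iff.1 h0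
  set x0 : MonoidAlgebra k G := single a0 1 with hx0
  have hne : ext φ x0 ≠ 0 := by rw [hx0, ext_single, one_mul]; exact ha0
  have hmul : ∀ z : MonoidAlgebra k G, (∀ x, z * x = x * z) → ∀ x,
      ext φ (z * x) = ext φ (z * x0) / ext φ x0 * ext φ x := by
    intro z hz x
    have h1 : ext φ (z * x) * ext φ x0 = ext φ x * ext φ (z * x0) := by
      rw [← ext_mul_Tr h, ← ext_mul_Tr h, Tr_mul_central hz, hz x, mul_assoc]
    field_simp
    rw [h1]; ring
  let χ : Subalgebra.center k (MonoidAlgebra k G) →ₐ[k] k :=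
    AlgHom.ofLinearMap
      { toFun := fun z => ext φ ((z : MonoidAlgebra k G) * x0) / ext φ x0
        map_add' := fun a b => by
          rw [Subalgebra.coe_add, add_mul, map_add, add_div]
        map_smul' := fun c a => by
          rw [Subalgebra.coe_smul, smul_mul_assoc, map_smul, smul_eq_mul, mul_div_assoc]; rfl }
      (by
        change ext φ (((1 : Subalgebra.center k (MonoidAlgebra k G)) : MonoidAlgebra k G) * x0) /
          ext φ x0 = 1
        rw [Subalgebra.coe_one, one_mul, div_self hne])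
      (by
        intro a b
        change ext φ (((a * b : Subalgebra.center k (MonoidAlgebra k G)) : MonoidAlgebra k G) * x0) /
          ext φ x0 = ext φ ((a : MonoidAlgebra k G) * x0) / ext φ x0 *
            (ext φ ((b : MonoidAlgebra k G) * x0) / ext φ x0)
        rw [Subalgebra.coe_mul, mul_assoc, hmul (a : MonoidAlgebra k G)
          (fun x => (Subalgebra.mem_center_iff.1 a.2 x).symm), mul_div_assoc])
  obtain ⟨i, hi⟩ := exists_chi D χ
  refine ⟨i, ?_⟩
  funext g
  let t : Subalgebra.center k (MonoidAlgebra k G) :=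
    ⟨Tr (single g 1), Subalgebra.mem_center_iff.2 fun x => (Tr_central _ x).symm⟩
  have h1 : χ t = chi D i t := by rw [hi]
  rw [chi_apply] at h1
  change ext φ (Tr (single g 1) * x0) / ext φ x0 = Phi D i g at h1
  rw [← h1, Tr_central, ext_mul_Tr h, mul_div_cancel_left₀ _ hne, ext_single, one_mul]

theorem one_sub_mem_iff {e : MonoidAlgebra k G} (he : ∀ x, e * x = x * e) (i : Fin D.n) :
    1 - e ∈ D.L i ↔ D.π e i 0 0 = 1 := by
  rw [SplitData.mem_L]
  constructor
  · intro h
    have := h 0
    rw [map_sub, map_one, Pi.sub_apply, Matrix.sub_apply, sub_eq_zero] at this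
    rw [← this]; simp
  · intro h r
    rw [map_sub, map_one, Pi.sub_apply, central_scalar D he i, h, one_smul]
    simp

theorem Phi_mem_Y_iff {e : MonoidAlgebra k G} (he : ∀ x, e * x = x * e) (i : Fin D.n) :
    Phi D i ∈ Y e ↔
      Module.Projective (MonoidAlgebra k G) (MonoidAlgebra k G ⧸ D.L i) ∧ 1 - e ∈ D.L i := by
  rw [one_sub_mem_iff D he, ← Phi_ne_zero_iff]
  constructor
  · rintro ⟨h1, _, h3⟩
    refine ⟨h1, ?_⟩
    obtain ⟨a, ha⟩ := Function.ne_iff.1 h1
    have h4 := h3 a
    rw [← ext_mul_single, ext_Phi_central_mul D i he, ext_single, one_mul] at h4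
    exact mul_right_cancel₀ ha (h4.trans (one_mul _).symm)
  · rintro ⟨h1, h2⟩
    refine ⟨h1, Phi_FE D i, fun a => ?_⟩
    rw [← ext_mul_single, ext_Phi_central_mul D i he, ext_single, h2, one_mul, one_mul]

end split

section final
variable {k G : Type} [Field k] [IsAlgClosed k] [Group G] [Fintype G]

/-- **leaf FE** -/
theorem f0_eq_card_Y {e : MonoidAlgebra k G} (he : CI e) : f0 e = Nat.card (Y e) := by
  obtain ⟨D⟩ := exists_splitData k (MonoidAlgebra k G)
  have hinv : ∀ m m' : Submodule (MonoidAlgebra k G) (MonoidAlgebra k G),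
      Nonempty ((MonoidAlgebra k G ⧸ m) ≃ₗ[MonoidAlgebra k G] (MonoidAlgebra k G ⧸ m')) →
      (Module.Projective (MonoidAlgebra k G) (MonoidAlgebra k G ⧸ m) ∧ 1 - e ∈ m) →
      (Module.Projective (MonoidAlgebra k G) (MonoidAlgebra k G ⧸ m') ∧ 1 - e ∈ m') := by
    rintro m m' ⟨f⟩ ⟨h1, h2⟩
    refine ⟨Module.Projective.of_equiv f, ?_⟩
    have h3 : ∀ s : MonoidAlgebra k G ⧸ m, (1 - e) • s = 0 := by
      intro s
      obtain ⟨a, rfl⟩ := Submodule.Quotient.mk_surjective _ s
      rw [← Submodule.Quotient.mk_smul, Submodule.Quotient.mk_eq_zero, smul_eq_mul]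
      have h4 : (1 - e) * a = a * (1 - e) := by
        rw [sub_mul, mul_sub, one_mul, mul_one, he.1]
      rw [h4]
      exact m.smul_mem a h2
    have h5 : (1 - e) • (Submodule.Quotient.mk 1 : MonoidAlgebra k G ⧸ m') = 0 := by
      apply f.symm.injective
      rw [map_smul, h3, map_zero]
    rw [← Submodule.Quotient.mk_smul, Submodule.Quotient.mk_eq_zero, smul_eq_mul, mul_one] at h5
    exact h5
  unfold f0
  rw [D.simpleClassCount_eq _ hinv]
  refine Nat.card_congr (Equiv.ofBijective
    (fun i => (⟨Phi D i.1, (Phi_mem_Y_iff D he.1 i.1).2 i.2⟩ : Y e)) ⟨?_, ?_⟩)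
  · intro i j h
    have h1 : Phi D i.1 = Phi D j.1 := congrArg Subtype.val h
    exact Subtype.ext (Phi_injective D ((Phi_ne_zero_iff D i.1).2 i.2.1) h1)
  · rintro ⟨φ, hφ⟩
    obtain ⟨i, rfl⟩ := exists_Phi D hφ.1 hφ.2.1
    exact ⟨⟨i, (Phi_mem_Y_iff D he.1 i).1 hφ⟩, rfl⟩

end final

end Crest.Agent.R170.FE
end

-- ▼ part R170/Y_752
section

/-!
# Row 170, leaf WW2 (helper752): the set `Y e` is the one of FE_234
-/
end

-- ▼ part R170/WW2a_752
section

/-!
# Row 170, leaf WW2 (helper752), part a: the functional equation, linear independence, tuples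
-/

set_option autoImplicit false
set_option linter.unusedSectionVars false
open scoped BigOperators

namespace Crest.Agent.R170.WW2752

section basic
variable {k H : Type} [Field k] [Group H] [Fintype H]

/-- the functional equation -/
def FEq (φ : H → k) : Prop := ∀ a b, ∑ g, φ (a * g * b * g⁻¹) = φ a * φ b

/-- nonzero solutions -/
def Y0 (k H : Type) [Field k] [Group H] [Fintype H] : Set (H → k) := {φ | φ ≠ 0 ∧ FEq φ}

omit [Group H] [Fintype H] in
theorem exists_ne {φ : H → k} (h0 : φ ≠ 0) : ∃ a, φ a ≠ 0 := by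
  by_contra h
  push Not at h
  exact h0 (funext h)

theorem FEq.conj {φ : H → k} (hφ : FEq φ) (h0 : φ ≠ 0) (b h : H) : φ (h * b * h⁻¹) = φ b := by
  obtain ⟨a, ha⟩ := exists_ne h0
  have h1 := hφ a (h * b * h⁻¹)
  have h2 := hφ a b
  have h3 : ∑ g, φ (a * g * (h * b * h⁻¹) * g⁻¹) = ∑ g, φ (a * g * b * g⁻¹) := by
    refine Fintype.sum_equiv (Equiv.mulRight h) _ _ (fun g => ?_)
    congr 1
    simp only [Equiv.coe_mulRight]
    group
  rw [h3, h2] at h1
  exact (mul_left_cancel₀ ha h1).symm

theorem FEq.comm {φ : H → k} (hφ : FEq φ) (h0 : φ ≠ 0) (a b : H) : φ (a * b) = φ (b * a) := by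
  have h := hφ.conj h0 (a * b) b
  rw [← h]
  congr 1
  group

/-- distinct solutions are linearly independent -/
theorem linInd : LinearIndependent k (fun φ : Y0 k H => (φ : H → k)) := by
  classical
  let F : Y0 k H → (FreeMonoid H →* k) := fun φ => FreeMonoid.lift (φ : H → k)
  have hF : Function.Injective F := by
    intro φ ψ h
    apply Subtype.ext
    funext a
    have h1 := DFunLike.congr_fun h (FreeMonoid.of a)
    simpa [F] using h1
  have hLI : LinearIndependent k (fun φ : Y0 k H => (F φ : FreeMonoid H → k)) :=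
    (linearIndependent_monoidHom (FreeMonoid H) k).comp F hF
  rw [linearIndependent_iff'] at hLI ⊢
  intro s g hg i hi
  have key : ∀ (w : FreeMonoid H) (b : H), ∑ φ ∈ s, (g φ * (φ : H → k) b) * F φ w = 0 := by
    intro w
    induction w using FreeMonoid.inductionOn' with
    | one =>
      intro b
      have h1 := congrFun hg b
      simpa using h1
    | of_mul a w ih =>
      intro b
      have h1 : ∀ φ : Y0 k H, (g φ * (φ : H → k) b) * F φ (FreeMonoid.of a * w) =
          ∑ x, (g φ * (φ : H → k) (b * x * a * x⁻¹)) * F φ w := by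
        intro φ
        rw [map_mul, ← Finset.sum_mul, ← Finset.mul_sum, φ.2.2 b a]
        simp only [F, FreeMonoid.lift_eval_of]
        ring
      rw [Finset.sum_congr rfl (fun φ _ => h1 φ), Finset.sum_comm]
      exact Finset.sum_eq_zero (fun x _ => ih _)
  obtain ⟨b, hb⟩ := exists_ne i.2.1
  have h2 := hLI s (fun φ => g φ * (φ : H → k) b) (by
    funext w
    simpa using key w b) i hi
  exact (mul_eq_zero.1 h2).resolve_right hb

/-- a function invariant under left translation by a subgroup of order `0` in `k` has sum `0` -/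
theorem sum_eq_zero (K : Subgroup H) (hK : (Nat.card K : k) = 0) (f : H → k)
    (hf : ∀ h ∈ K, ∀ g, f (h * g) = f g) : ∑ g, f g = 0 := by
  classical
  -- use right cosets through inversion
  have h1 : ∑ g, f g = ∑ g, f g⁻¹ := by
    refine Fintype.sum_equiv (Equiv.inv H) _ _ (fun g => ?_)
    simp
  have h2 : ∀ g : H, ∀ h ∈ K, f (g * h)⁻¹ = f g⁻¹ := by
    intro g h hh
    rw [mul_inv_rev]
    exact hf _ (K.inv_mem hh) _
  rw [h1]
  have : Fintype (H ⧸ K) := Fintype.ofFinite _
  have : Fintype K := Fintype.ofFinite _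
  have h3 : ∑ g, f g⁻¹ = ∑ q : H ⧸ K, ∑ g with (QuotientGroup.mk g : H ⧸ K) = q, f g⁻¹ := by
    rw [Finset.sum_fiberwise]
  rw [h3]
  apply Finset.sum_eq_zero
  intro q _
  obtain ⟨x, rfl⟩ := QuotientGroup.mk_surjective q
  have h4 : ∑ g with (QuotientGroup.mk g : H ⧸ K) = QuotientGroup.mk x, f g⁻¹ =
      ∑ h : K, f (x * h)⁻¹ := by
    symm
    refine Finset.sum_bij (fun h _ => x * (h : H)) ?_ ?_ ?_ ?_
    · intro h _
      simp
    · intro h _ h' _ hh
      exact Subtype.ext (mul_left_cancel hh)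
    · intro g hg
      rw [Finset.mem_filter] at hg
      have h5 := QuotientGroup.eq.1 hg.2.symm
      exact ⟨⟨x⁻¹ * g, h5⟩, Finset.mem_univ _, by simp⟩
    · intro h _
      rfl
  rw [h4, Finset.sum_congr rfl (fun (h : K) _ => h2 x (h : H) h.2), Finset.sum_const, Finset.card_univ,
    ← Nat.card_eq_fintype_card, nsmul_eq_mul, hK, zero_mul]

end basic

section tuples
variable {k M ι : Type} [Field k] [Group M] [Fintype M] [Fintype ι] [DecidableEq ι]

/-- tensor product of functions -/
def Ten (t : ι → M → k) : (ι → M) → k := fun b => ∏ i, t i (b i)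

theorem Ten_FEq (t : ι → M → k) (ht : ∀ i, FEq (t i)) : FEq (Ten t) := by
  intro a b
  simp only [Ten, Pi.mul_apply, Pi.inv_apply]
  rw [← Finset.prod_mul_distrib, ← Finset.prod_congr rfl (fun i _ => ht i (a i) (b i))]
  rw [Finset.prod_univ_sum, Fintype.piFinset_univ]

theorem Ten_ne (t : ι → M → k) (ht : ∀ i, t i ≠ 0) : Ten t ≠ 0 := by
  choose b hb using fun i => exists_ne (ht i)
  intro h
  have h1 := congrFun h b
  simp only [Ten, Pi.zero_apply] at h1
  exact (Finset.prod_ne_zero_iff.2 (fun i _ => hb i)) h1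

theorem Ten_inj (t t' : ι → M → k) (ht : ∀ i, t i ≠ 0 ∧ FEq (t i)) (ht' : ∀ i, t' i ≠ 0 ∧ FEq (t' i))
    (h : Ten t = Ten t') : t = t' := by
  classical
  choose b hb using fun i => exists_ne (ht i).1
  have hP : ∏ i, t i (b i) ≠ 0 := Finset.prod_ne_zero_iff.2 (fun i _ => hb i)
  have hb' : ∀ i, t' i (b i) ≠ 0 := by
    have h1 := congrFun h b
    simp only [Ten] at h1
    rw [h1] at hP
    exact fun i => Finset.prod_ne_zero_iff.1 hP i (Finset.mem_univ i)
  funext i
  -- `t i = c • t' i`
  have hex : ∃ c : k, ∀ a, t i a = c * t' i a := by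
    refine ⟨(∏ j ∈ Finset.univ.erase i, t' j (b j)) / ∏ j ∈ Finset.univ.erase i, t j (b j), ?_⟩
    intro a
    have h1 := congrFun h (Function.update b i a)
    simp only [Ten] at h1
    rw [← Finset.mul_prod_erase _ _ (Finset.mem_univ i),
      ← Finset.mul_prod_erase (s := Finset.univ) (f := fun j => t' j (Function.update b i a j))
        (Finset.mem_univ i)] at h1
    simp only [Function.update_self] at h1
    have h2 : ∏ j ∈ Finset.univ.erase i, t j (Function.update b i a j) =
        ∏ j ∈ Finset.univ.erase i, t j (b j) := by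
      refine Finset.prod_congr rfl (fun j hj => ?_)
      rw [Function.update_of_ne (Finset.ne_of_mem_erase hj)]
    have h3 : ∏ j ∈ Finset.univ.erase i, t' j (Function.update b i a j) =
        ∏ j ∈ Finset.univ.erase i, t' j (b j) := by
      refine Finset.prod_congr rfl (fun j hj => ?_)
      rw [Function.update_of_ne (Finset.ne_of_mem_erase hj)]
    rw [h2, h3] at h1
    have h4 : ∏ j ∈ Finset.univ.erase i, t j (b j) ≠ 0 :=
      Finset.prod_ne_zero_iff.2 (fun j _ => hb j)
    field_simp
    rw [h1]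
    ring
  obtain ⟨c, hc⟩ := hex
  have hc0 : c ≠ 0 := by
    rintro rfl
    exact hb i (by rw [hc, zero_mul])
  have h1 := (ht i).2 (b i) (b i)
  have h2 := (ht' i).2 (b i) (b i)
  simp only [hc, ← Finset.mul_sum] at h1
  rw [h2] at h1
  have h3 : c = 1 := by
    have h5 := hb' i
    have h6 : c * (t' i (b i) * t' i (b i)) = c * (c * (t' i (b i) * t' i (b i))) :=
      h1.trans (by ring)
    have h7 := mul_left_cancel₀ hc0 h6
    have h8 : (1 : k) * (t' i (b i) * t' i (b i)) = c * (t' i (b i) * t' i (b i)) := by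
      rw [one_mul]; exact h7
    exact (mul_right_cancel₀ (mul_ne_zero h5 h5) h8).symm
  funext a
  rw [hc a, h3, one_mul]

end tuples

end Crest.Agent.R170.WW2752
end

-- ▼ part R170/WW2b_752
section

/-!
# Row 170, leaf WW2 (helper752), part b: from tuples to the wreath product
-/

set_option autoImplicit false
set_option linter.unusedSectionVars false
open scoped BigOperators

namespace Crest.Agent.R170.WW2752

open FE (Y)

section wreath
variable {k M C : Type} [Field k] [Group M] [Fintype M] [CommGroup C] [Fintype C] [DecidableEq C]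

noncomputable instance instFintypeWr : Fintype (M ≀ᵣ C) :=
  Fintype.ofEquiv _ (RegularWreathProduct.equivProd M C).symm

omit [Field k] [Fintype M] [Group M] [Fintype C] [DecidableEq C] in
/-- rotation of a tuple -/
def rot (c : C) (t : C → M → k) : C → M → k := fun i => t (c * i)

theorem sum_wr (f : (M ≀ᵣ C) → k) : ∑ g, f g = ∑ c : C, ∑ m : C → M, f ⟨m, c⟩ := by
  rw [Fintype.sum_equiv (RegularWreathProduct.equivProd M C) f (fun x => f ⟨x.1, x.2⟩)
    (fun x => rfl), Fintype.sum_prod_type, Finset.sum_comm]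

theorem Ten_shift (t : C → M → k) (c : C) (b : C → M) :
    Ten t (fun j => b (c⁻¹ * j)) = Ten (rot c t) b := by
  simp only [Ten, rot]
  refine Fintype.prod_equiv (Equiv.mulLeft c⁻¹) _ _ (fun j => ?_)
  simp

theorem rot_rot (c d : C) (t : C → M → k) : rot d (rot c t) = rot (c * d) t := by
  funext i
  simp only [rot, mul_assoc]

/-- the candidate solutions on the wreath product -/
noncomputable def Psi (t : C → M → k) : (M ≀ᵣ C) → k :=
  fun x => if x.right = 1 then ∑ c, Ten (rot c t) x.left else 0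

theorem Psi_base (t : C → M → k) (b : C → M) : Psi t ⟨b, 1⟩ = ∑ c, Ten (rot c t) b := by
  simp [Psi]

theorem Psi_off (t : C → M → k) (x : M ≀ᵣ C) (hx : x.right ≠ 1) : Psi t x = 0 := by
  simp [Psi, hx]

theorem conj_base (m b : C → M) (c : C) :
    (⟨m, c⟩ : M ≀ᵣ C) * ⟨b, 1⟩ * (⟨m, c⟩ : M ≀ᵣ C)⁻¹ =
      ⟨m * (fun j => b (c⁻¹ * j)) * m⁻¹, 1⟩ := by
  ext
  · simp
  · simp

theorem comm_base (a m b : C → M) (c : C) :
    (⟨a, 1⟩ : M ≀ᵣ C) * (⟨m, c⟩ : M ≀ᵣ C) * ⟨b, 1⟩ * (⟨m, c⟩ : M ≀ᵣ C)⁻¹ =
      ⟨a * m * (fun j => b (c⁻¹ * j)) * m⁻¹, 1⟩ := by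
  rw [mul_assoc, mul_assoc, ← mul_assoc (⟨m, c⟩ : M ≀ᵣ C), conj_base]
  ext
  · simp [mul_assoc]
  · simp

theorem Psi_conj (t : C → M → k) (ht : ∀ i, t i ≠ 0 ∧ FEq (t i)) (g x : M ≀ᵣ C) :
    Psi t (g * x * g⁻¹) = Psi t x := by
  by_cases hx : x.right = 1
  · obtain ⟨b, r⟩ := x
    obtain ⟨m, c⟩ := g
    simp only at hx
    subst hx
    rw [conj_base, Psi_base, Psi_base]
    have h1 : ∀ d : C, Ten (rot d t) (m * (fun j => b (c⁻¹ * j)) * m⁻¹) = Ten (rot (d * c) t) b := by
      intro d
      have h2 : FEq (Ten (rot d t)) := Ten_FEq _ (fun i => (ht _).2)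
      have h3 : Ten (rot d t) ≠ 0 := Ten_ne _ (fun i => (ht _).1)
      rw [h2.conj h3, Ten_shift, rot_rot]
    rw [Finset.sum_congr rfl (fun d _ => h1 d)]
    exact Fintype.sum_equiv (Equiv.mulRight c) _ _ (fun d => rfl)
  · rw [Psi_off _ _ hx, Psi_off]
    simpa [mul_comm] using hx

theorem sum_off (p : ℕ) [hp : Fact p.Prime] [CharP k p] (hC : Nat.card C = p)
    (y : (M ≀ᵣ C) → k) (hy : ∀ g x, y (g * x * g⁻¹) = y x) (a b : M ≀ᵣ C) (ha : a.right ≠ 1) :
    ∑ g, y (a * g * b * g⁻¹) = 0 := by
  apply sum_eq_zero (Subgroup.zpowers a)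
  · rw [Nat.card_zpowers]
    have h1 : orderOf a.right ∣ orderOf a := orderOf_map_dvd RegularWreathProduct.rightHom a
    have h2 : orderOf a.right ∣ p := hC ▸ orderOf_dvd_natCard a.right
    have h3 : orderOf a.right = p := by
      rcases (Nat.dvd_prime hp.out).1 h2 with h | h
      · exact absurd (orderOf_eq_one_iff.1 h) ha
      · exact h
    rw [h3] at h1
    exact (CharP.cast_eq_zero_iff k p _).2 h1
  · intro h hh g
    have hcomm : h * a = a * h := by
      obtain ⟨n, rfl⟩ := Subgroup.mem_zpowers_iff.1 hh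
      exact ((Commute.refl a).zpow_left n).eq
    rw [← hy h (a * g * b * g⁻¹)]
    congr 1
    calc a * (h * g) * b * (h * g)⁻¹ = (a * h) * g * b * g⁻¹ * h⁻¹ := by group
      _ = (h * a) * g * b * g⁻¹ * h⁻¹ := by rw [hcomm]
      _ = _ := by group

theorem Psi_FEq (p : ℕ) [hp : Fact p.Prime] [CharP k p] (hC : Nat.card C = p)
    (t : C → M → k) (ht : ∀ i, t i ≠ 0 ∧ FEq (t i)) : FEq (Psi t) := by
  intro a b
  by_cases ha : a.right = 1
  · by_cases hb : b.right = 1
    · obtain ⟨a, r⟩ := a
      obtain ⟨b, s⟩ := b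
      simp only at ha hb
      subst ha hb
      rw [Psi_base, Psi_base, sum_wr]
      have h1 : ∀ (c : C) (m : C → M),
          Psi t ((⟨a, 1⟩ : M ≀ᵣ C) * (⟨m, c⟩ : M ≀ᵣ C) * ⟨b, 1⟩ * (⟨m, c⟩ : M ≀ᵣ C)⁻¹) =
            ∑ d, Ten (rot d t) (a * m * (fun j => b (c⁻¹ * j)) * m⁻¹) := by
        intro c m
        rw [comm_base, Psi_base]
      have h2 : ∀ c : C, ∑ m : C → M, Psi t ((⟨a, 1⟩ : M ≀ᵣ C) * (⟨m, c⟩ : M ≀ᵣ C) * ⟨b, 1⟩ *
          (⟨m, c⟩ : M ≀ᵣ C)⁻¹) = ∑ d, Ten (rot d t) a * Ten (rot (d * c) t) b := by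
        intro c
        rw [Finset.sum_congr rfl (fun m _ => h1 c m), Finset.sum_comm]
        refine Finset.sum_congr rfl (fun d _ => ?_)
        have h3 : FEq (Ten (rot d t)) := Ten_FEq _ (fun i => (ht _).2)
        rw [h3, Ten_shift, rot_rot]
      rw [Finset.sum_congr rfl (fun c _ => h2 c), Finset.sum_comm, Finset.sum_mul]
      refine Finset.sum_congr rfl (fun d _ => ?_)
      rw [← Finset.mul_sum]
      congr 1
      exact Fintype.sum_equiv (Equiv.mulLeft d) _ _ (fun c => rfl)
    · rw [Psi_off t b hb, mul_zero]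
      apply Finset.sum_eq_zero
      intro g _
      apply Psi_off
      simp only [RegularWreathProduct.mul_right, RegularWreathProduct.inv_right, ha, one_mul]
      rwa [mul_comm g.right, mul_assoc, mul_inv_cancel, mul_one]
  · rw [Psi_off t a ha, zero_mul]
    exact sum_off p hC _ (Psi_conj t ht) a b ha

theorem Psi_e (e : MonoidAlgebra k M) (t : C → M → k)
    (ht : ∀ i a, ∑ h, e.coeff h * t i (h * a) = t i a) (a : M ≀ᵣ C) :
    ∑ h, (wE C e).coeff h * Psi t (h * a) = Psi t a := by
  classical
  rw [sum_wr]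
  have h0 : ∀ c : C, c ≠ 1 → ∑ m : C → M, (wE C e).coeff ⟨m, c⟩ * Psi t (⟨m, c⟩ * a) = 0 := by
    intro c hc
    apply Finset.sum_eq_zero
    intro m _
    rw [wE_coeff, if_neg hc, zero_mul]
  rw [Finset.sum_eq_single (1 : C) (fun c _ hc => h0 c hc) (fun h => absurd (Finset.mem_univ _) h)]
  by_cases ha : a.right = 1
  · obtain ⟨a, r⟩ := a
    simp only at ha
    subst ha
    rw [Psi_base]
    have h1 : ∀ m : C → M, (wE C e).coeff ⟨m, 1⟩ * Psi t (⟨m, 1⟩ * ⟨a, 1⟩) =
        ∑ d, ∏ i, e.coeff (m i) * rot d t i (m i * a i) := by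
      intro m
      have h2 : (⟨m, 1⟩ * ⟨a, 1⟩ : M ≀ᵣ C) = ⟨m * a, 1⟩ := by
        ext <;> simp
      rw [wE_coeff, if_pos rfl, h2, Psi_base, Finset.mul_sum]
      refine Finset.sum_congr rfl (fun d _ => ?_)
      rw [Ten, ← Finset.prod_mul_distrib]
      rfl
    rw [Finset.sum_congr rfl (fun m _ => h1 m), Finset.sum_comm]
    refine Finset.sum_congr rfl (fun d _ => ?_)
    have h3 : ∑ m : C → M, ∏ i, e.coeff (m i) * rot d t i (m i * a i) =
        ∏ i, ∑ h, e.coeff h * rot d t i (h * a i) := by
      rw [Finset.prod_univ_sum, Fintype.piFinset_univ]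
    rw [h3, Ten]
    exact Finset.prod_congr rfl (fun i _ => ht _ _)
  · rw [Psi_off t a ha]
    apply Finset.sum_eq_zero
    intro m _
    rw [Psi_off, mul_zero]
    simpa using ha

end wreath

end Crest.Agent.R170.WW2752
end

-- ▼ part R170/WW2c_752
section

/-!
# Row 170, leaf WW2 (helper752), part c: traces, embeddings of the factors, tensor products
-/

set_option autoImplicit false
set_option linter.unusedSectionVars false
open scoped BigOperators

namespace Crest.Agent.R170.WW2752

open FE (Y)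
open MonoidAlgebra

/-- characters of a commutative finite-dimensional algebra containing a proper ideal in the kernel -/
theorem exists_char' {k Z : Type} [Field k] [IsAlgClosed k] [CommRing Z] [Algebra k Z]
    [Module.Finite k Z] (I : Ideal Z) (hI : (1 : Z) ∉ I) :
    ∃ χ : Z →ₐ[k] k, ∀ z ∈ I, χ z = 0 := by
  have hne : I ≠ ⊤ := fun h => hI (h ▸ Submodule.mem_top)
  obtain ⟨P, hP, hIP⟩ := Ideal.exists_le_maximal I hne
  have _i1 := hP
  have _i3 : Module.Finite k (Z ⧸ P) :=
    Module.Finite.of_surjective (Ideal.Quotient.mkₐ k P).toLinearMap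
      (Ideal.Quotient.mkₐ_surjective k P)
  have _i2 : IsDomain (Z ⧸ P) := Ideal.Quotient.isDomain P
  have hb : Function.Bijective (algebraMap k (Z ⧸ P)) :=
    IsAlgClosed.algebraMap_bijective_of_isIntegral
  let eqv : k ≃ₐ[k] (Z ⧸ P) := AlgEquiv.ofBijective (Algebra.ofId k (Z ⧸ P)) hb
  refine ⟨(eqv.symm : (Z ⧸ P) →ₐ[k] k).comp (Ideal.Quotient.mkₐ k P), fun z hz => ?_⟩
  have h1 : Ideal.Quotient.mkₐ k P z = 0 := by
    rw [Ideal.Quotient.mkₐ_eq_mk]
    exact Ideal.Quotient.eq_zero_iff_mem.2 (hIP hz)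
  change eqv.symm (Ideal.Quotient.mkₐ k P z) = 0
  rw [h1, map_zero]

section trace
variable {k M : Type} [Field k] [Group M] [Fintype M]

/-- `∑ g, g x g⁻¹` -/
noncomputable def Tr (x : MonoidAlgebra k M) : MonoidAlgebra k M :=
  ∑ g : M, single g 1 * x * single g⁻¹ 1

theorem sg_mul (g h : M) (a b : k) :
    (single g a : MonoidAlgebra k M) * single h b = single (g * h) (a * b) := by
  simp [MonoidAlgebra.single_mul_single]

theorem Tr_single (m : M) : Tr (single m (1 : k)) = ∑ g : M, single (g * m * g⁻¹) 1 := by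
  simp only [Tr, sg_mul, mul_one]

theorem Tr_conj (x : MonoidAlgebra k M) (h : M) : single h 1 * Tr x * single h⁻¹ 1 = Tr x := by
  simp only [Tr, Finset.mul_sum, Finset.sum_mul]
  refine Fintype.sum_equiv (Equiv.mulLeft h) _ _ (fun g => ?_)
  simp only [Equiv.coe_mulLeft, mul_inv_rev]
  have h1 : (single (h * g) (1 : k) : MonoidAlgebra k M) = single h 1 * single g 1 := by
    rw [sg_mul, one_mul]
  have h2 : (single (g⁻¹ * h⁻¹) (1 : k) : MonoidAlgebra k M) = single g⁻¹ 1 * single h⁻¹ 1 := by
    rw [sg_mul, one_mul]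
  rw [h1, h2]
  simp only [mul_assoc]

theorem comm_of_conj (z : MonoidAlgebra k M) (hz : ∀ h : M, single h 1 * z * single h⁻¹ 1 = z)
    (x : MonoidAlgebra k M) : z * x = x * z := by
  have h1 : ∀ h : M, single h (1 : k) * z = z * single h 1 := by
    intro h
    have h2 := hz h
    have h3 : (single h⁻¹ (1 : k) * single h 1 : MonoidAlgebra k M) = 1 := by
      rw [sg_mul, inv_mul_cancel, mul_one, ← MonoidAlgebra.one_def]
    calc single h (1 : k) * z = single h 1 * z * (single h⁻¹ 1 * single h 1) := by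
          rw [h3, mul_one]
      _ = z * single h 1 := by rw [← mul_assoc, h2]
  induction x using MonoidAlgebra.induction_on with
  | of g => exact (h1 g).symm
  | add a b ha hb => rw [mul_add, add_mul, ha, hb]
  | smul r a ha => rw [mul_smul_comm, smul_mul_assoc, ha]

theorem Tr_comm (x y : MonoidAlgebra k M) : Tr x * y = y * Tr x :=
  comm_of_conj _ (Tr_conj x) y

theorem conj_of_comm (z : MonoidAlgebra k M) (hz : ∀ y, z * y = y * z) (h : M) :
    single h 1 * z * single h⁻¹ 1 = z := by
  rw [← hz, mul_assoc, sg_mul, mul_inv_cancel, mul_one, ← MonoidAlgebra.one_def, mul_one]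

theorem mul_Tr (z x : MonoidAlgebra k M) (hz : ∀ y, z * y = y * z) : z * Tr x = Tr (z * x) := by
  simp only [Tr, Finset.mul_sum]
  refine Finset.sum_congr rfl (fun g _ => ?_)
  rw [← mul_assoc, ← mul_assoc, hz (single g 1), mul_assoc (single g 1) z x]

theorem Tr_mul (x z : MonoidAlgebra k M) (hz : ∀ y, z * y = y * z) : Tr x * z = Tr (x * z) := by
  simp only [Tr, Finset.sum_mul]
  refine Finset.sum_congr rfl (fun g _ => ?_)
  rw [mul_assoc, ← hz (single g⁻¹ 1)]
  simp only [mul_assoc]

theorem Tr_sum {ι : Type} (s : Finset ι) (f : ι → MonoidAlgebra k M) :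
    Tr (∑ i ∈ s, f i) = ∑ i ∈ s, Tr (f i) := by
  simp only [Tr, Finset.mul_sum, Finset.sum_mul]
  rw [Finset.sum_comm]

theorem Tr_smul (c : k) (x : MonoidAlgebra k M) : Tr (c • x) = c • Tr x := by
  simp only [Tr, Finset.smul_sum, mul_smul_comm, smul_mul_assoc]

theorem Tr_mul_Tr (a b : M) : Tr (single a (1 : k)) * Tr (single b 1) =
    ∑ g, Tr (single (a * g * b * g⁻¹) (1 : k)) := by
  rw [Tr_mul _ _ (Tr_comm _), Tr_single b, Finset.mul_sum, Tr_sum]
  refine Finset.sum_congr rfl (fun g _ => ?_)
  rw [sg_mul, one_mul]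
  simp only [mul_assoc]

theorem eq_sum_smul (e : MonoidAlgebra k M) : e = ∑ h, e.coeff h • single h (1 : k) := by
  conv_lhs => rw [J482.eq_sum_single e]
  refine Finset.sum_congr rfl (fun h _ => ?_)
  simp

theorem mul_Tr_single (e : MonoidAlgebra k M) (he : ∀ y, e * y = y * e) (a : M) :
    e * Tr (single a (1 : k)) = ∑ h, e.coeff h • Tr (single (h * a) (1 : k)) := by
  rw [mul_Tr _ _ he]
  conv_lhs => rw [eq_sum_smul e]
  rw [Finset.sum_mul, Tr_sum]
  refine Finset.sum_congr rfl (fun h _ => ?_)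
  rw [smul_mul_assoc, Tr_smul, sg_mul, one_mul]

end trace

section tens
variable {k M ι : Type} [Field k] [Group M] [Fintype M] [Fintype ι] [DecidableEq ι]

theorem tens_mul' (x y : ι → MonoidAlgebra k M) :
    tens (fun i => x i * y i) = tens x * tens y := by
  apply MonoidAlgebra.coeff_injective
  ext g
  rw [tens_coeff, J482.coeff_mul_fin]
  simp only [tens_coeff, J482.coeff_mul_fin, Pi.mul_apply, Pi.inv_apply]
  rw [Finset.prod_univ_sum, Fintype.piFinset_univ]
  refine Finset.sum_congr rfl (fun h _ => ?_)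
  rw [Finset.prod_mul_distrib]

theorem tens_single (m : ι → M) (r : ι → k) :
    tens (fun i => (single (m i) (r i) : MonoidAlgebra k M)) = single m (∏ i, r i) := by
  classical
  apply MonoidAlgebra.coeff_injective
  ext g
  rw [tens_coeff]
  simp only [MonoidAlgebra.coeff_single, Finsupp.single_apply]
  by_cases h : m = g
  · subst h
    simp
  · rw [if_neg h]
    obtain ⟨i, hi⟩ : ∃ i, m i ≠ g i := by
      by_contra hh
      push Not at hh
      exact h (funext hh)
    exact Finset.prod_eq_zero (Finset.mem_univ i) (if_neg hi)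

/-- embedding of the `i`-th factor -/
noncomputable def inc (i : ι) : MonoidAlgebra k M →ₐ[k] MonoidAlgebra k (ι → M) :=
  MonoidAlgebra.mapDomainAlgHom k k (MonoidHom.mulSingle (fun _ => M) i)

theorem inc_single (i : ι) (m : M) (r : k) :
    inc i (single m r) = single (Pi.mulSingle i m) r := by
  simp [inc]

theorem inc_eq_tens (i : ι) (x : MonoidAlgebra k M) :
    inc i x = tens (Pi.mulSingle i x : ι → MonoidAlgebra k M) := by
  classical
  have hco : ∀ (y : MonoidAlgebra k M) (g : ι → M),
      (tens (Pi.mulSingle i y : ι → MonoidAlgebra k M)).coeff g =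
        y.coeff (g i) * ∏ j ∈ Finset.univ.erase i, (1 : MonoidAlgebra k M).coeff (g j) := by
    intro y g
    rw [tens_coeff, ← Finset.mul_prod_erase _ _ (Finset.mem_univ i), Pi.mulSingle_eq_same]
    congr 1
    refine Finset.prod_congr rfl (fun j hj => ?_)
    rw [Pi.mulSingle_eq_of_ne (Finset.ne_of_mem_erase hj)]
  induction x using MonoidAlgebra.induction_linear with
  | zero =>
    apply MonoidAlgebra.coeff_injective
    ext g
    rw [hco, map_zero]
    simp
  | add x y hx hy =>
    apply MonoidAlgebra.coeff_injective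
    ext g
    rw [hco, map_add, hx, hy, MonoidAlgebra.coeff_add, MonoidAlgebra.coeff_add, Finsupp.add_apply,
      Finsupp.add_apply, hco, hco, add_mul]
  | single m r =>
    rw [inc_single]
    have h1 : (Pi.mulSingle i (single m r) : ι → MonoidAlgebra k M) =
        fun j => single ((Pi.mulSingle i m : ι → M) j) ((Pi.mulSingle i r : ι → k) j) := by
      funext j
      by_cases hj : j = i
      · subst hj
        simp
      · rw [Pi.mulSingle_eq_of_ne hj, Pi.mulSingle_eq_of_ne hj, Pi.mulSingle_eq_of_ne hj,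
          MonoidAlgebra.one_def]
    rw [h1, tens_single]
    congr 1
    rw [← Finset.mul_prod_erase _ _ (Finset.mem_univ i), Pi.mulSingle_eq_same]
    rw [Finset.prod_eq_one, mul_one]
    intro j hj
    rw [Pi.mulSingle_eq_of_ne (Finset.ne_of_mem_erase hj)]

theorem inc_conj (i : ι) (x : MonoidAlgebra k M) (b : ι → M) :
    single b 1 * inc i x * single b⁻¹ 1 = inc i (single (b i) 1 * x * single (b i)⁻¹ 1) := by
  induction x using MonoidAlgebra.induction_linear with
  | zero => simp
  | add x y hx hy =>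
    rw [map_add, mul_add, add_mul, hx, hy, mul_add, add_mul, map_add]
  | single m r =>
    rw [inc_single, sg_mul, sg_mul, sg_mul, sg_mul, inc_single]
    congr 1
    funext j
    by_cases hj : j = i
    · subst hj
      simp
    · simp [Pi.mulSingle_eq_of_ne hj]

theorem inc_central (i : ι) (z : MonoidAlgebra k M) (hz : ∀ y, z * y = y * z)
    (y : MonoidAlgebra k (ι → M)) : inc i z * y = y * inc i z :=
  comm_of_conj _ (fun b => by rw [inc_conj, conj_of_comm z hz]) y

/-- central elements of the factors -/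
noncomputable def incZ (i : ι) (z : MonoidAlgebra k M) (hz : ∀ y, z * y = y * z) :
    Subalgebra.center k (MonoidAlgebra k (ι → M)) :=
  ⟨inc i z, Subalgebra.mem_center_iff.2 (fun y => (inc_central i z hz y).symm)⟩

theorem prod_incZ (z : ι → MonoidAlgebra k M) (hz : ∀ i y, z i * y = y * z i) (s : Finset ι) :
    ((∏ i ∈ s, incZ i (z i) (hz i) : Subalgebra.center k (MonoidAlgebra k (ι → M))) :
      MonoidAlgebra k (ι → M)) = tens (fun i => if i ∈ s then z i else 1) := by
  classical
  induction s using Finset.induction_on with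
  | empty =>
    have h1 : tens (fun i : ι => if i ∈ (∅ : Finset ι) then z i else 1) =
        tens (fun i : ι => (single ((1 : ι → M) i) ((1 : ι → k) i) : MonoidAlgebra k M)) := by
      congr 1
    rw [h1, tens_single, Finset.prod_empty]
    simp only [Pi.one_apply, Finset.prod_const_one]
    rfl
  | insert a s ha ih =>
    rw [Finset.prod_insert ha, Subalgebra.coe_mul, ih]
    change inc a (z a) * tens (fun i => if i ∈ s then z i else 1) = _
    rw [inc_eq_tens, ← tens_mul']
    congr 1
    funext i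
    by_cases hi : i = a
    · subst hi
      simp [ha]
    · simp [hi]

theorem tens_Tr (b : ι → M) :
    tens (fun i => Tr (single (b i) (1 : k))) = Tr (single b (1 : k)) := by
  classical
  apply MonoidAlgebra.coeff_injective
  ext g
  rw [tens_coeff]
  simp only [Tr_single, MonoidAlgebra.coeff_sum, Finsupp.coe_finsetSum, Finset.sum_apply,
    MonoidAlgebra.coeff_single]
  rw [Finset.prod_univ_sum, Fintype.piFinset_univ]
  refine Finset.sum_congr rfl (fun m _ => ?_)
  have h1 := congrArg (fun x => x.coeff g) (tens_single (k := k) (fun i => m i * b i * (m i)⁻¹)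
    (fun _ => 1))
  simp only [tens_coeff, MonoidAlgebra.coeff_single, Finset.prod_const_one] at h1
  exact h1

end tens

end Crest.Agent.R170.WW2752
end

-- ▼ part R170/WW2d_752
section

/-!
# Row 170, leaf WW2 (helper752), part d: every solution on the wreath product comes from a tuple
-/

set_option autoImplicit false
set_option linter.unusedSectionVars false
open scoped BigOperators

namespace Crest.Agent.R170.WW2752

open FE (Y)
open MonoidAlgebra

section char
variable {k M : Type} [Field k] [Group M] [Fintype M]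

/-- `Tr (single m 1)` in the centre -/
noncomputable def TrZ (m : M) : Subalgebra.center k (MonoidAlgebra k M) :=
  ⟨Tr (single m 1), Subalgebra.mem_center_iff.2 (fun y => (Tr_comm _ y).symm)⟩

theorem TrZ_mul (a b : M) :
    (TrZ a * TrZ b : Subalgebra.center k (MonoidAlgebra k M)) = ∑ g, TrZ (a * g * b * g⁻¹) := by
  apply Subtype.ext
  rw [Subalgebra.coe_mul, AddSubmonoidClass.coe_finsetSum]
  exact Tr_mul_Tr a b

theorem FEq_of_char (χ : Subalgebra.center k (MonoidAlgebra k M) →ₐ[k] k) :
    FEq (fun m => χ (TrZ m)) := by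
  intro a b
  rw [← map_mul, TrZ_mul, map_sum]

/-- a central element of `kM` in the centre -/
def toZ (e : MonoidAlgebra k M) (he : ∀ y, e * y = y * e) :
    Subalgebra.center k (MonoidAlgebra k M) :=
  ⟨e, Subalgebra.mem_center_iff.2 (fun y => (he y).symm)⟩

theorem toZ_mul_TrZ (e : MonoidAlgebra k M) (he : ∀ y, e * y = y * e) (a : M) :
    toZ e he * TrZ a = ∑ h, e.coeff h • TrZ (h * a) := by
  apply Subtype.ext
  rw [Subalgebra.coe_mul, AddSubmonoidClass.coe_finsetSum]
  exact mul_Tr_single e he a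

theorem e_of_char (χ : Subalgebra.center k (MonoidAlgebra k M) →ₐ[k] k) (e : MonoidAlgebra k M)
    (he : ∀ y, e * y = y * e) (h1 : χ (toZ e he) = 1) (a : M) :
    ∑ h, e.coeff h * χ (TrZ (h * a)) = χ (TrZ a) := by
  have h2 := congrArg χ (toZ_mul_TrZ e he a)
  rw [map_mul, h1, one_mul, map_sum] at h2
  rw [h2]
  refine Finset.sum_congr rfl (fun h _ => ?_)
  rw [map_smul, smul_eq_mul]

end char

section incC
variable {k M ι : Type} [Field k] [Group M] [Fintype M] [Fintype ι] [DecidableEq ι]

/-- embedding of the centres -/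
noncomputable def incC (i : ι) : Subalgebra.center k (MonoidAlgebra k M) →ₐ[k]
    Subalgebra.center k (MonoidAlgebra k (ι → M)) :=
  ((inc i).comp (Subalgebra.val _)).codRestrict _ (fun z => Subalgebra.mem_center_iff.2
    (fun y => (inc_central i z.1 (fun w => ((Subalgebra.mem_center_iff.1 z.2) w).symm) y).symm))

theorem prod_incC (z : ι → Subalgebra.center k (MonoidAlgebra k M)) :
    ((∏ i, incC i (z i) : Subalgebra.center k (MonoidAlgebra k (ι → M))) :
      MonoidAlgebra k (ι → M)) = tens (fun i => (z i : MonoidAlgebra k M)) := by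
  have h := prod_incZ (fun i => (z i : MonoidAlgebra k M))
    (fun i w => ((Subalgebra.mem_center_iff.1 (z i).2) w).symm) Finset.univ
  simp only [Finset.mem_univ, if_true] at h
  exact h

theorem prod_TrZ (b : ι → M) :
    (∏ i, incC i (TrZ (b i)) : Subalgebra.center k (MonoidAlgebra k (ι → M))) = TrZ b := by
  apply Subtype.ext
  rw [prod_incC]
  exact tens_Tr b

end incC

section surj
variable {k M C : Type} [Field k] [IsAlgClosed k] [Group M] [Fintype M] [CommGroup C] [Fintype C]
  [DecidableEq C]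

theorem surj (p : ℕ) [hp : Fact p.Prime] [CharP k p] (hC : Nat.card C = p)
    (e : MonoidAlgebra k M) (he : CI e) (y : (M ≀ᵣ C) → k) (hy : y ∈ Y (wE C e)) :
    ∃ t : C → M → k, (∀ i, t i ∈ Y e) ∧ Psi t = y := by
  classical
  obtain ⟨hy0, hyF, hye⟩ := hy
  have hconj : ∀ g x, y (g * x * g⁻¹) = y x := fun g x => FEq.conj hyF hy0 x g
  have hoff : ∀ x : M ≀ᵣ C, x.right ≠ 1 → y x = 0 := by
    intro x hx
    obtain ⟨b, hb⟩ := exists_ne hy0
    have h1 := hyF x b
    rw [sum_off p hC y hconj x b hx] at h1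
    exact (mul_eq_zero.1 h1.symm).resolve_right hb
  let F : (C → M) → k := fun b => y ⟨b, 1⟩
  have hmk : ∀ a b : C → M, (⟨a, 1⟩ * ⟨b, 1⟩ : M ≀ᵣ C) = ⟨a * b, 1⟩ := by
    intro a b
    ext <;> simp
  obtain ⟨b0, hb0⟩ : ∃ b, F b ≠ 0 := by
    obtain ⟨x, hx⟩ := exists_ne hy0
    refine ⟨x.left, ?_⟩
    have h1 : x.right = 1 := by
      by_contra h
      exact hx (hoff x h)
    have h2 : (⟨x.left, 1⟩ : M ≀ᵣ C) = x := by
      ext
      · rfl
      · exact h1.symm
    change y ⟨x.left, 1⟩ ≠ 0
    rwa [h2]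
  have hF : ∀ a b, ∑ c : C, ∑ m : C → M, F (a * m * (fun j => b (c⁻¹ * j)) * m⁻¹) = F a * F b := by
    intro a b
    have h1 := hyF ⟨a, 1⟩ ⟨b, 1⟩
    rw [sum_wr] at h1
    simp only [comm_base] at h1
    exact h1
  have hFc : ∀ a b, F (a * b) = F (b * a) := by
    intro a b
    change y ⟨a * b, 1⟩ = y ⟨b * a, 1⟩
    rw [← hmk, ← hmk]
    exact FEq.comm hyF hy0 _ _
  let L : MonoidAlgebra k (C → M) →ₗ[k] k :=
    { toFun := fun x => ∑ b, x.coeff b * F b
      map_add' := by
        intro u v
        simp [add_mul, Finset.sum_add_distrib]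
      map_smul' := by
        intro r u
        simp [Finset.mul_sum, mul_assoc] }
  have hL : ∀ (b : C → M) (r : k), L (single b r) = r * F b := by
    intro b r
    change ∑ b', (single b r : MonoidAlgebra k (C → M)).coeff b' * F b' = r * F b
    rw [Finset.sum_eq_single b]
    · simp
    · intro b' _ hb'
      rw [MonoidAlgebra.coeff_single, Finsupp.single_apply, if_neg (Ne.symm hb'), zero_mul]
    · intro h
      exact absurd (Finset.mem_univ _) h
  let I : Ideal (Subalgebra.center k (MonoidAlgebra k (C → M))) :=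
    { carrier := {z | ∀ a : C → M, L ((z : MonoidAlgebra k (C → M)) * single a 1) = 0}
      add_mem' := by
        intro u v hu hv a
        rw [Subalgebra.coe_add, add_mul, map_add, hu a, hv a, add_zero]
      zero_mem' := by
        intro a
        simp
      smul_mem' := by
        intro w z hz a
        rw [smul_eq_mul, Subalgebra.coe_mul]
        have h1 : (w : MonoidAlgebra k (C → M)) * (z : MonoidAlgebra k (C → M)) * single a 1 =
            (z : MonoidAlgebra k (C → M)) * ((w : MonoidAlgebra k (C → M)) * single a 1) := by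
          rw [← mul_assoc, Subalgebra.mem_center_iff.1 w.2 (z : MonoidAlgebra k (C → M))]
        rw [h1, J482.eq_sum_single ((w : MonoidAlgebra k (C → M)) * single a 1), Finset.mul_sum,
          map_sum]
        apply Finset.sum_eq_zero
        intro g _
        have h2 : (single g (((w : MonoidAlgebra k (C → M)) * single a 1).coeff g) :
            MonoidAlgebra k (C → M)) =
            ((w : MonoidAlgebra k (C → M)) * single a 1).coeff g • single g 1 := by simp
        rw [h2, mul_smul_comm, map_smul, hz g, smul_zero] }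
  have hI : (1 : Subalgebra.center k (MonoidAlgebra k (C → M))) ∉ I := by
    intro h
    have h1 : L ((1 : MonoidAlgebra k (C → M)) * single b0 1) = 0 := h b0
    rw [one_mul, hL, one_mul] at h1
    exact hb0 h1
  have _ifin : Module.Finite k (MonoidAlgebra k (C → M)) := by
    infer_instance
  have _ifin2 : Module.Finite k (Subalgebra.center k (MonoidAlgebra k (C → M))) := by
    exact FiniteDimensional.finiteDimensional_submodule
      (Subalgebra.toSubmodule (Subalgebra.center k (MonoidAlgebra k (C → M))))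
  obtain ⟨χ, hχ⟩ := exists_char' (k := k) I hI
  -- `χ (∑ c, TrZ (c • b)) = F b`
  have hT : ∀ b : C → M, ∑ c : C, χ (TrZ (fun j => b (c⁻¹ * j))) = F b := by
    intro b
    have h1 : (∑ c : C, TrZ (fun j => b (c⁻¹ * j))) - algebraMap k _ (F b) ∈ I := by
      intro a
      rw [Subalgebra.coe_sub, sub_mul, map_sub, AddSubmonoidClass.coe_finsetSum, Finset.sum_mul,
        map_sum]
      have h2 : ∀ c : C, L (((TrZ (fun j => b (c⁻¹ * j)) :
          Subalgebra.center k (MonoidAlgebra k (C → M))) : MonoidAlgebra k (C → M)) *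
          single a 1) = ∑ m : C → M, F (a * m * (fun j => b (c⁻¹ * j)) * m⁻¹) := by
        intro c
        change L (Tr (single (fun j => b (c⁻¹ * j)) (1 : k)) * single a 1) = _
        rw [Tr_single, Finset.sum_mul, map_sum]
        refine Finset.sum_congr rfl (fun m _ => ?_)
        rw [sg_mul, hL, one_mul, one_mul, hFc]
        simp only [mul_assoc]
      rw [Finset.sum_congr rfl (fun c _ => h2 c), hF a b]
      have h3 : ((algebraMap k (Subalgebra.center k (MonoidAlgebra k (C → M))) (F b) :
          Subalgebra.center k (MonoidAlgebra k (C → M))) : MonoidAlgebra k (C → M)) *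
          single a 1 = F b • single a 1 := by
        rw [Algebra.smul_def]
        rfl
      rw [h3, map_smul, hL, smul_eq_mul, one_mul]
      ring
    have h4 := hχ _ h1
    rw [map_sub, map_sum, sub_eq_zero] at h4
    rw [h4]
    exact (AlgHom.commutes χ (F b)).trans rfl
  -- the factors
  let χi : C → (Subalgebra.center k (MonoidAlgebra k M) →ₐ[k] k) := fun i => χ.comp (incC i)
  let t : C → M → k := fun i m => χi i (TrZ m)
  have ht : ∀ b : C → M, χ (TrZ b) = Ten t b := by
    intro b
    rw [← prod_TrZ, map_prod]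
    rfl
  have hFt : ∀ b : C → M, F b = ∑ c, Ten (rot c t) b := by
    intro b
    rw [← hT b]
    refine Finset.sum_congr rfl (fun c _ => ?_)
    rw [ht, Ten_shift]
  have ht0 : ∀ i, t i ≠ 0 := by
    intro i hi
    apply hb0
    rw [hFt]
    apply Finset.sum_eq_zero
    intro c _
    apply Finset.prod_eq_zero (Finset.mem_univ (c⁻¹ * i))
    simp only [rot, mul_inv_cancel_left, hi, Pi.zero_apply]
  -- the idempotent
  have hprod : χ (∏ i, incC i (toZ e he.1)) = 1 := by
    have h1 : (∏ i, incC i (toZ e he.1)) - 1 ∈ I := by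
      intro a
      rw [Subalgebra.coe_sub, prod_incC, sub_mul, map_sub, Subalgebra.coe_one, one_mul, hL, one_mul]
      change L (tens (fun _ : C => e) * single a 1) - F a = 0
      rw [eq_sum_smul (tens (fun _ : C => e)), Finset.sum_mul, map_sum, sub_eq_zero]
      have h2 := hye ⟨a, 1⟩
      rw [sum_wr] at h2
      have h3 : ∀ c : C, c ≠ 1 →
          ∑ m : C → M, (wE C e).coeff ⟨m, c⟩ * y (⟨m, c⟩ * ⟨a, 1⟩) = 0 := by
        intro c hc
        apply Finset.sum_eq_zero
        intro m _
        rw [wE_coeff, if_neg hc, zero_mul]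
      rw [Finset.sum_eq_single (1 : C) (fun c _ hc => h3 c hc)
        (fun h => absurd (Finset.mem_univ _) h)] at h2
      change _ = y ⟨a, 1⟩
      rw [← h2]
      refine Finset.sum_congr rfl (fun m _ => ?_)
      rw [smul_mul_assoc, sg_mul, map_smul, hL, one_mul, one_mul, smul_eq_mul, tens_coeff,
        wE_coeff, if_pos rfl, hmk]
    have h4 := hχ _ h1
    rw [map_sub, map_one, sub_eq_zero] at h4
    exact h4
  have hone : ∀ i, χi i (toZ e he.1) = 1 := by
    intro i
    have h1 : χi i (toZ e he.1) * χi i (toZ e he.1) = χi i (toZ e he.1) := by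
      rw [← map_mul]
      congr 1
      exact Subtype.ext he.2
    have h2 : χi i (toZ e he.1) ≠ 0 := by
      rw [map_prod] at hprod
      intro h
      have h3 : ∏ i, χ (incC i (toZ e he.1)) = 0 := Finset.prod_eq_zero (Finset.mem_univ i) h
      rw [h3] at hprod
      exact zero_ne_one hprod
    exact mul_right_cancel₀ h2 (h1.trans (one_mul _).symm)
  refine ⟨t, fun i => ⟨ht0 i, FEq_of_char (χi i), e_of_char (χi i) e he.1 (hone i)⟩, ?_⟩
  funext x
  by_cases hx : x.right = 1
  · obtain ⟨b, r⟩ := x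
    simp only at hx
    subst hx
    rw [Psi_base, ← hFt]
  · rw [Psi_off t x hx, hoff x hx]

end surj

end Crest.Agent.R170.WW2752
end

-- ▼ part T170/PlumbA_9
section

/-!
# Row 170 (T170), module A part 1 (helper9): the section sum of a central element

`rp q f` has coefficient `f (g ^ q)` at `g`. For `q = p ^ t` a good exponent (`g ^ q` is the
`p'`-part of `g`) it kills the radical, and its trace on the centre is `f0 e'` whenever
`f - e'` is nilpotent, `e'` a central idempotent.
-/

set_option autoImplicit false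
open scoped BigOperators

namespace Crest.Agent.T170.Plumb

open Crest.Agent.R170 Crest.Agent.R170.J482 Crest.AlgebraR.Weights

/-- `g ↦ g ^ p ^ t` is the `p'`-part -/
def Good (p t : ℕ) (H : Type*) [Group H] : Prop :=
  0 < t ∧ ∀ g : H, (orderOf (g ^ p ^ t)).Coprime p ∧ ((orderOf g).Coprime p → g ^ p ^ t = g)

theorem exists_good (p : ℕ) [hp : Fact p.Prime] (H : Type*) [Group H] [Finite H] :
    ∃ t, Good p t H := by
  have hN : Nat.card H ≠ 0 := Nat.card_pos.ne'
  obtain ⟨v, m, hm, hvm⟩ := Nat.exists_eq_pow_mul_and_not_dvd hN p hp.out.ne_one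
  have hm0 : m ≠ 0 := by rintro rfl; exact hm (dvd_zero p)
  have hcop : Nat.Coprime p m := (Nat.Prime.coprime_iff_not_dvd hp.out).2 hm
  have hφ : 0 < Nat.totient m := Nat.totient_pos.2 (Nat.pos_of_ne_zero hm0)
  refine ⟨Nat.totient m * (v + 1), Nat.mul_pos hφ (Nat.succ_pos v), fun g => ⟨?_, fun hg => ?_⟩⟩
  · have h1 : (g ^ p ^ (Nat.totient m * (v + 1))) ^ m = 1 := by
      rw [← pow_mul, ← orderOf_dvd_iff_pow_eq_one]
      refine (orderOf_dvd_natCard g).trans ?_
      rw [hvm]
      refine Nat.mul_dvd_mul_right (pow_dvd_pow p ?_) m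
      nlinarith
    exact Nat.Coprime.coprime_dvd_left (orderOf_dvd_of_pow_eq_one h1) hcop.symm
  · have h1 : orderOf g ∣ m := by
      have h2 : orderOf g ∣ p ^ v * m := hvm ▸ orderOf_dvd_natCard g
      exact (Nat.Coprime.pow_right v hg).dvd_of_dvd_mul_left h2
    have h3 : p ^ (Nat.totient m * (v + 1)) ≡ 1 [MOD m] := by
      rw [pow_mul]
      have := (Nat.ModEq.pow_totient hcop).pow (v + 1)
      rwa [one_pow] at this
    have h4 : g ^ p ^ (Nat.totient m * (v + 1)) = g ^ 1 :=
      pow_eq_pow_iff_modEq.2 (h3.of_dvd h1)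
    rw [h4, pow_one]

theorem Good.sub {p t : ℕ} {G : Type*} [Group G] (h : Good p t G) (S : Subgroup G) :
    Good p t S := by
  refine ⟨h.1, fun g => ⟨?_, fun hg => ?_⟩⟩
  · rw [← Subgroup.orderOf_coe]
    exact (h.2 (g : G)).1
  · apply Subtype.ext
    rw [← Subgroup.orderOf_coe] at hg
    exact (h.2 (g : G)).2 hg

theorem Good.pow_mul {p t : ℕ} {G : Type*} [Group G] (h : Good p t G) (g : G) (j : ℕ) :
    g ^ p ^ (t * (j + 1)) = g ^ p ^ t := by
  induction j with
  | zero => simp
  | succ j ih =>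
    rw [Nat.mul_succ, pow_add, _root_.pow_mul, ih]
    exact (h.2 _).2 (h.2 g).1

section GA
variable {k H : Type*} [Field k] [Group H] [Fintype H]

/-- coefficient `f (g ^ q)` at `g` -/
noncomputable def rp (q : ℕ) (f : MonoidAlgebra k H) : MonoidAlgebra k H :=
  C176.ofFun fun g => f.coeff (g ^ q)

theorem rp_coeff (q : ℕ) (f : MonoidAlgebra k H) (g : H) : (rp q f).coeff g = f.coeff (g ^ q) :=
  rfl

omit [Fintype H] in
theorem central_iff {z : MonoidAlgebra k H} :
    (∀ x, z * x = x * z) ↔ ∀ g h : H, z.coeff (h * g * h⁻¹) = z.coeff g := by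
  rw [← C176.mem_center_iff, Subalgebra.mem_center_iff]
  exact ⟨fun h x => (h x).symm, fun h x => (h x).symm⟩

theorem rp_central (q : ℕ) {f : MonoidAlgebra k H} (hf : ∀ x, f * x = x * f)
    (x : MonoidAlgebra k H) : rp q f * x = x * rp q f := by
  refine central_iff.2 (fun g h => ?_) x
  rw [rp_coeff, rp_coeff, conj_pow, central_iff.1 hf]

theorem tr1_mul (z x : MonoidAlgebra k H) :
    tr1 (z * x) = ∑ g, z.coeff g⁻¹ * x.coeff g := by
  rw [tr1_comm, tr1_apply, coeff_mul_fin]
  refine Finset.sum_congr rfl fun g _ => ?_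
  rw [mul_one, mul_comm]

/-- the trace form of a central element on `p ^ n`-th powers -/
theorem tr1_mul_pow (p : ℕ) [Fact p.Prime] [CharP k p] (n : ℕ) {z : MonoidAlgebra k H}
    (hz : ∀ x, z * x = x * z) (x : MonoidAlgebra k H) :
    tr1 (z * x ^ p ^ n) = ∑ g, z.coeff (g ^ p ^ n)⁻¹ * x.coeff g ^ p ^ n := by
  classical
  let lam : MonoidAlgebra k H →+ k :=
    (tr1 (k := k) (G := H)).toAddMonoidHom.comp (AddMonoidHom.mulLeft z)
  have hlam : ∀ a, lam a = tr1 (z * a) := fun a => rfl
  have h := trace_pow (A := MonoidAlgebra k H) (R := k) p n lam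
    (fun a b => by
      rw [hlam, hlam, ← mul_assoc, tr1_comm (z * a) b, ← mul_assoc, ← hz b, mul_assoc])
    (fun g : H => MonoidAlgebra.single g (x.coeff g))
  rw [← eq_sum_single, hlam] at h
  rw [h]
  refine Finset.sum_congr rfl fun g _ => ?_
  rw [hlam, MonoidAlgebra.single_pow, tr1_apply, MonoidAlgebra.coeff_mul_single_apply, one_mul]

theorem tr1_rp_nilpotent (p : ℕ) [hp : Fact p.Prime] [CharP k p] {t : ℕ} (ht : Good p t H)
    {f : MonoidAlgebra k H} (hf : ∀ x, f * x = x * f) (x : MonoidAlgebra k H)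
    (hx : IsNilpotent x) : tr1 (rp (p ^ t) f * x) = 0 := by
  obtain ⟨m, hm⟩ := hx
  set n := t * (m + 1) with hn
  have h2 : x ^ p ^ n = 0 := by
    refine pow_eq_zero_of_le ?_ hm
    have h3 : n < p ^ n := Nat.lt_pow_self hp.out.one_lt
    have h4 : m + 1 ≤ n := Nat.le_mul_of_pos_left _ ht.1
    omega
  let F : MonoidAlgebra k H := C176.ofFun fun g => f.coeff g ^ p ^ n
  have hF : ∀ y, F * y = y * F := central_iff.2 fun g h => by
    show f.coeff (h * g * h⁻¹) ^ p ^ n = f.coeff g ^ p ^ n
    rw [central_iff.1 hf]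
  have h5 := tr1_mul_pow p n hF x
  rw [h2, mul_zero, map_zero] at h5
  have h6 : tr1 (rp (p ^ t) f * x) ^ p ^ n = 0 := by
    rw [tr1_mul, sum_pow_char_pow, h5]
    refine Finset.sum_congr rfl fun g _ => ?_
    rw [mul_pow, rp_coeff, hn, ht.pow_mul g m, inv_pow]
    rfl
  exact pow_eq_zero_iff (pow_pos hp.out.pos n).ne' |>.1 h6

theorem rp_mul_rad (p : ℕ) [Fact p.Prime] [CharP k p] {t : ℕ} (ht : Good p t H)
    {f : MonoidAlgebra k H} (hf : ∀ x, f * x = x * f) (x : MonoidAlgebra k H)
    (hx : x ∈ Ring.jacobson (MonoidAlgebra k H)) : rp (p ^ t) f * x = 0 := by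
  haveI : IsArtinianRing (MonoidAlgebra k H) := IsArtinianRing.of_finite k _
  apply eq_zero_of_tr1
  intro z
  rw [mul_assoc]
  apply tr1_rp_nilpotent p ht hf
  apply isNilpotent_of_mem_jacobson
  exact Ideal.mul_mem_right _ _ hx

/-- a central element without `p`-regular coefficients is orthogonal to the idempotents -/
theorem tr1_sing_idem (p : ℕ) [hp : Fact p.Prime] [CharP k p] {z : MonoidAlgebra k H}
    (hz : ∀ x, z * x = x * z) (hs : ∀ g : H, (orderOf g).Coprime p → z.coeff g = 0)
    (i : MonoidAlgebra k H) (hi : i * i = i) : tr1 (z * i) = 0 := by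
  obtain ⟨t, ht⟩ := exists_good p H
  have h1 : i ^ p ^ t = i := IsIdempotentElem.pow_eq hi (pow_pos hp.out.pos t).ne'
  rw [← h1, tr1_mul_pow p t hz]
  refine Finset.sum_eq_zero fun g _ => ?_
  rw [hs _ (by rw [orderOf_inv]; exact (ht.2 g).1), zero_mul]

variable (D : SplitData k (MonoidAlgebra k H))

/-- the idempotent of a projective simple module -/
theorem exists_iota (i : Fin D.n)
    (hP : Module.Projective (MonoidAlgebra k H) (MonoidAlgebra k H ⧸ D.L i)) :
    ∃ ι : MonoidAlgebra k H, ι * ι = ι ∧ tr1 ι ≠ 0 ∧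
      ∀ z : MonoidAlgebra k H, (∀ x, z * x = x * z) → z * ι = D.om i z • ι := by
  obtain ⟨f, hf⟩ := Module.projective_lifting_property (D.L i).mkQ LinearMap.id
    (Submodule.mkQ_surjective _)
  set ι : MonoidAlgebra k H := f ((D.L i).mkQ 1) with hι
  have hfa : ∀ a : MonoidAlgebra k H, f ((D.L i).mkQ a) = a * ι := by
    intro a
    have : (D.L i).mkQ a = a • (D.L i).mkQ 1 := by
      rw [← map_smul, smul_eq_mul, mul_one]
    rw [this, map_smul, smul_eq_mul]
  have hmk : (D.L i).mkQ ι = (D.L i).mkQ 1 := by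
    have := LinearMap.congr_fun hf ((D.L i).mkQ 1)
    exact this
  have hidem : ι * ι = ι := by
    rw [← hfa, hmk]
  have hker : ∀ a ∈ D.L i, a * ι = 0 := by
    intro a ha
    rw [← hfa, Submodule.mkQ_apply, (Submodule.Quotient.mk_eq_zero _).2 ha, map_zero]
  have hrow : ∀ s t : Fin (D.d i), s ≠ 0 → D.π ι i s t = 0 := by
    intro s t hs
    obtain ⟨a, ha⟩ := D.surj (Pi.single i (Matrix.single s s 1))
    have h1 : a ∈ D.L i := by
      intro r
      rw [ha, Pi.single_eq_same, Matrix.single_apply_of_col_ne _ _ hs]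
    have h2 := congrArg (fun y => D.π y i s t) (hker a h1)
    simp only [map_mul, Pi.mul_apply, ha, Pi.single_eq_same, Matrix.single_mul_apply_same,
      one_mul, map_zero, Pi.zero_apply, Matrix.zero_apply] at h2
    exact h2
  have hc : ∀ x, ι * x * ι = D.om i (ι * x) • ι := by
    intro x
    have h1 : ι * x - algebraMap k _ (D.om i (ι * x)) ∈ D.L i := by
      intro r
      rw [map_sub, AlgHom.commutes, Pi.sub_apply, Pi.algebraMap_apply, Matrix.sub_apply,
        Matrix.algebraMap_matrix_apply]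
      by_cases hr : r = 0
      · subst hr
        rw [if_pos rfl]
        exact sub_self _
      · rw [if_neg hr, sub_zero, map_mul, Pi.mul_apply, Matrix.mul_apply]
        exact Finset.sum_eq_zero fun t _ => by rw [hrow r t hr, zero_mul]
    have h2 := hker _ h1
    rw [sub_mul, sub_eq_zero, Algebra.algebraMap_eq_smul_one, smul_mul_assoc, one_mul] at h2
    exact h2
  have hne : tr1 ι ≠ 0 := by
    intro h0
    have h1 : ι = 0 := by
      apply eq_zero_of_tr1
      intro x
      have : tr1 (ι * x) = tr1 (ι * x * ι) := by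
        rw [tr1_comm (ι * x) ι, ← mul_assoc, hidem]
      rw [this, hc, map_smul, h0, smul_zero]
    rw [h1, map_zero] at hmk
    have h2 := hmk.symm
    rw [Submodule.mkQ_apply, Submodule.Quotient.mk_eq_zero] at h2
    have := h2 0
    simp at this
  refine ⟨ι, hidem, hne, fun z hz => ?_⟩
  have h1 := D.central_smul hz i ((D.L i).mkQ 1)
  have h2 := congrArg f h1
  rw [map_smul, map_smul, smul_eq_mul, smul_eq_mul, ← hι, Algebra.algebraMap_eq_smul_one,
    smul_mul_assoc, one_mul] at h2
  exact h2

theorem om_sing (p : ℕ) [Fact p.Prime] [CharP k p] (i : Fin D.n)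
    (hP : Module.Projective (MonoidAlgebra k H) (MonoidAlgebra k H ⧸ D.L i))
    {z : MonoidAlgebra k H} (hz : ∀ x, z * x = x * z)
    (hs : ∀ g : H, (orderOf g).Coprime p → z.coeff g = 0) : D.om i z = 0 := by
  obtain ⟨ι, h1, h2, h3⟩ := exists_iota D i hP
  have h4 := tr1_sing_idem p hz hs ι h1
  rw [h3 z hz, map_smul, smul_eq_mul] at h4
  exact (mul_eq_zero.1 h4).resolve_right h2

theorem om_nilpotent (i : Fin D.n) {z : MonoidAlgebra k H} (hz : ∀ x, z * x = x * z)
    (hn : IsNilpotent z) : D.om i z = 0 := by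
  obtain ⟨m, hm⟩ := hn
  have h : ∀ j : ℕ, D.om i (z ^ j) = D.om i z ^ j := by
    intro j
    induction j with
    | zero => rw [pow_zero, pow_zero, D.om_one]
    | succ j ih => rw [pow_succ', D.om_mul_central hz, ih, pow_succ']
  have h2 := h m
  rw [hm, map_zero] at h2
  exact pow_eq_zero_iff' .. |>.1 h2.symm |>.1

end GA

/-- **the trace of the section sum** -/
theorem trZ_rp {k H : Type} [Field k] [IsAlgClosed k] [Group H] [Fintype H] (p : ℕ)
    [Fact p.Prime] [CharP k p] {t : ℕ} (ht : Good p t H) {f e' : MonoidAlgebra k H}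
    (hf : ∀ x, f * x = x * f) (he' : CI e') (hn : IsNilpotent (f - e'))
    (w : Subalgebra.center k (MonoidAlgebra k H)) (hw : (w : MonoidAlgebra k H) = rp (p ^ t) f) :
    trZ w = (f0 e' : k) := by
  classical
  obtain ⟨D⟩ := exists_splitData k (MonoidAlgebra k H)
  have hj := rp_central (p ^ t) hf
  have hjr : ∀ x, D.π x = 0 → rp (p ^ t) f * x = 0 := fun x hx =>
    rp_mul_rad p ht hf x ((D.ker_rad x).1 hx)
  unfold trZ
  rw [D.trace_mul hj hjr 1 w (by rw [hw]; simp), f0_eq D p e' he',
    Nat.card_eq_fintype_card, Fintype.card_subtype, Finset.card_eq_sum_ones, Nat.cast_sum,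
    Finset.sum_filter]
  refine Finset.sum_congr rfl fun i _ => ?_
  have h1 : D.om i ((1 : Subalgebra.center k (MonoidAlgebra k H)) : MonoidAlgebra k H) = 1 :=
    D.om_one i
  rw [h1, one_mul]
  have hfe : D.om i f = D.om i e' := by
    have := om_nilpotent D i (z := f - e')
      (fun x => by rw [sub_mul, mul_sub, hf, he'.1]) hn
    rwa [map_sub, sub_eq_zero] at this
  rcases om_J_cases D p i with ⟨hP, h2⟩ | ⟨hP, h2⟩
  · have h3 := om_sing D p i hP (z := rp (p ^ t) f - f)
      (fun x => by rw [sub_mul, mul_sub, hf, hj]) (fun g hg => by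
        show (rp (p ^ t) f).coeff g - f.coeff g = 0
        rw [rp_coeff, (ht.2 g).2 hg, sub_self])
    rw [map_sub, sub_eq_zero, hfe] at h3
    rw [h3]
    rcases om_idem D he' i with h4 | h4 <;> simp [h2, h4]
  · have h3 : D.om i (rp (p ^ t) f) = 0 := by
      by_contra h
      exact hP (D.projective_of_om_ne_zero hj hjr i h)
    rw [h3]
    simp [h2]

end Crest.Agent.T170.Plumb
end

-- ▼ part T170/PlumbB_9

/-!
# Row 170 (T170), module A part 2 (helper9): from `CNT p` to the one-puncture congruence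

`one_of_cnt` : for a `p`-singular class `C`, `∑_{σ/G} ± #{[x,y] ∈ C ∩ G_σ} / |G_σ| = 0` in `k`.
-/

set_option autoImplicit false
set_option linter.style.haveILetI false
open scoped BigOperators

namespace Crest.Agent.T170.Plumb

open Crest.Agent.R170 Crest.Agent.R170.STP312 Crest.Agent.T170.Smith13

section tr
variable {k H : Type} [Field k] [Group H] [Finite H]

theorem finite_center : Module.Finite k (Subalgebra.center k (MonoidAlgebra k H)) :=
  Module.Finite.of_injective (Subalgebra.center k (MonoidAlgebra k H)).val.toLinearMap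
    Subtype.val_injective

/-- the trace on the centre commutes with the Frobenius -/
theorem trZ_pow [IsAlgClosed k] (p : ℕ) [hp : Fact p.Prime] [CharP k p]
    (z : Subalgebra.center k (MonoidAlgebra k H)) (a : ℕ) : trZ (z ^ p ^ a) = trZ z ^ p ^ a := by
  haveI := finite_center (k := k) (H := H)
  have h : ∀ y : Subalgebra.center k (MonoidAlgebra k H), trZ y =
      LinearMap.trace k _ (Algebra.lmul k (Subalgebra.center k (MonoidAlgebra k H)) y) :=
    fun _ => rfl
  rw [h, h, T312.trace_eq, T312.trace_eq, sum_pow_char_pow]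
  refine Finset.sum_congr rfl fun χ _ => ?_
  rw [mul_pow, map_pow]
  congr 1
  have := map_natCast (iterateFrobenius k p a)
    (Module.finrank k (LinearMap.range (Algebra.lmul k _ (T312.idem χ))))
  rw [iterateFrobenius_def] at this
  exact this.symm

/-- number of factorisations of `g` into `n` members of `K` -/
noncomputable def Nf (K : H → Prop) (n : ℕ) (g : H) : ℕ :=
  Nat.card {u : Fin n → H // (List.ofFn u).prod = g ∧ ∀ i, K (u i)}

omit [Finite H] in
theorem prod_map {B : Type} [Group B] (φ : H ≃* B) {n : ℕ} (u : Fin n → H) :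
    (List.ofFn fun i => φ (u i)).prod = φ (List.ofFn u).prod := by
  rw [map_list_prod, List.map_ofFn]
  rfl

omit [Finite H] in
theorem Nf_congr {B : Type} [Group B] (φ : H ≃* B) (K : H → Prop) (K' : B → Prop)
    (h : ∀ a, K' (φ a) ↔ K a) (n : ℕ) (g : H) : Nf K n g = Nf K' n (φ g) := by
  refine Nat.card_congr ((Equiv.piCongrRight fun _ : Fin n => φ.toEquiv).subtypeEquiv ?_)
  intro u
  show _ ↔ (List.ofFn fun i => φ (u i)).prod = φ g ∧ ∀ i, K' (φ (u i))
  rw [prod_map, φ.injective.eq_iff]
  exact and_congr Iff.rfl (forall_congr' fun i => (h _).symm)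

omit [Finite H] in
theorem tup_congr {B : Type} [Group B] (φ : H ≃* B) (K : H → Prop) (K' : B → Prop)
    (h : ∀ a, K' (φ a) ↔ K a) (n : ℕ) :
    Nat.card (Tup H fun (_ : Fin n) => K) = Nat.card (Tup B fun (_ : Fin n) => K') := by
  refine Nat.card_congr ((φ.toEquiv.prodCongr (φ.toEquiv.prodCongr
    (Equiv.piCongrRight fun _ : Fin n => φ.toEquiv))).subtypeEquiv ?_)
  rintro ⟨x, y, u⟩
  show _ ↔ φ x * φ y * (φ x)⁻¹ * (φ y)⁻¹ = (List.ofFn fun i => φ (u i)).prod ∧ ∀ i, K' (φ (u i))
  rw [prod_map, ← map_inv, ← map_inv, ← map_mul, ← map_mul, ← map_mul, φ.injective.eq_iff]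
  exact and_congr Iff.rfl (forall_congr' fun i => (h _).symm)

omit [Finite H] in
theorem Nf_out (K : H → Prop) (hK : ∀ g h, K g → K (h * g * h⁻¹)) (n : ℕ) (g : H) :
    Nf K n (ConjClasses.mk g).out = Nf K n g := by
  have : IsConj g (ConjClasses.mk g).out := by
    rw [← ConjClasses.mk_eq_mk_iff_isConj]
    exact (Quotient.out_eq _).symm
  obtain ⟨c, hc⟩ := isConj_iff.1 this
  rw [← hc]
  refine (Nf_congr (MulAut.conj c) K K (fun a => ⟨fun h => ?_, fun h => hK a c h⟩) n g).symm
  have h1 := hK _ c⁻¹ h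
  have e : c⁻¹ * MulAut.conj c a * c⁻¹⁻¹ = a := by
    rw [MulAut.conj_apply]
    group
  rwa [e] at h1

omit [Finite H] in
theorem prod_single {n : ℕ} (u : Fin n → H) (c : Fin n → k) :
    (List.ofFn fun j => MonoidAlgebra.single (u j) (c j)).prod =
      MonoidAlgebra.single (List.ofFn u).prod (∏ j, c j) := by
  induction n with
  | zero => simp [MonoidAlgebra.one_def]
  | succ n ih =>
    rw [List.ofFn_succ, List.ofFn_succ, List.prod_cons, List.prod_cons, Fin.prod_univ_succ,
      ih (fun j => u j.succ) (fun j => c j.succ), MonoidAlgebra.single_mul_single]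

/-- coefficients of a power of a set sum -/
theorem coeff_setSum_pow (K : H → Prop) (hK : ∀ g h : H, g ∈ {x | K x} → h * g * h⁻¹ ∈ {x | K x})
    (n : ℕ) (g : H) :
    ((C176.setSum (k := k) {x | K x} hK ^ n : Subalgebra.center k (MonoidAlgebra k H)) :
      MonoidAlgebra k H).coeff g = (Nf K n g : k) := by
  classical
  haveI := Fintype.ofFinite H
  rw [SubmonoidClass.coe_pow, J482.eq_sum_single
    ((C176.setSum (k := k) {x | K x} hK : Subalgebra.center k (MonoidAlgebra k H)) :
      MonoidAlgebra k H), J482.sum_pow_words, MonoidAlgebra.coeff_sum, Finset.sum_apply', Nf,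
    Nat.card_eq_fintype_card, Fintype.card_subtype, Finset.card_filter, Nat.cast_sum]
  refine Finset.sum_congr rfl fun u _ => ?_
  rw [prod_single, MonoidAlgebra.coeff_single, Finsupp.single_apply]
  have hc : ∀ h : H, ((C176.setSum (k := k) {x | K x} hK :
      Subalgebra.center k (MonoidAlgebra k H)) : MonoidAlgebra k H).coeff h =
      if K h then 1 else 0 := by
    intro h
    show ({x | K x} : Set H).indicator (fun _ => (1 : k)) h = _
    rw [Set.indicator_apply]
    rfl
  simp only [hc]
  rw [Finset.prod_boole]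
  by_cases h1 : (List.ofFn u).prod = g <;> by_cases h2 : ∀ i, K (u i) <;> simp [h1, h2]

/-- the count of tuples divided by `|H|` is the trace of the power of the set sum -/
theorem tup_trace (K : H → Prop) (hK : ∀ g h : H, g ∈ {x | K x} → h * g * h⁻¹ ∈ {x | K x})
    (n : ℕ) : ∃ r : ℕ, Nat.card (Tup H fun (_ : Fin n) => K) = Nat.card H * r ∧
      trZ (C176.setSum (k := k) {x | K x} hK ^ n) = (r : k) := by
  classical
  haveI := Fintype.ofFinite H
  haveI : Fintype (ConjClasses H) := Fintype.ofFinite _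
  refine ⟨∑ D : ConjClasses H, Nf K n D.out * R (ConjClasses.mk : H → ConjClasses H) D, ?_, ?_⟩
  · have h1 : ∀ D : ConjClasses H, cnt (ConjClasses.mk : H → ConjClasses H) D =
        ∑ q : H × H, if ConjClasses.mk (q.1 * q.2 * q.1⁻¹ * q.2⁻¹) = D then 1 else 0 := by
      intro D
      rw [cnt, Nat.card_eq_fintype_card, Fintype.card_subtype, Finset.card_filter]
    calc Nat.card (Tup H fun (_ : Fin n) => K)
        = ∑ q : H × H, Nf K n (q.1 * q.2 * q.1⁻¹ * q.2⁻¹) := by
          unfold Tup
          rw [Nat.card_eq_fintype_card, Fintype.card_subtype, Finset.card_filter,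
            Fintype.sum_prod_type, Fintype.sum_prod_type]
          refine Finset.sum_congr rfl fun x _ => ?_
          rw [Fintype.sum_prod_type]
          refine Finset.sum_congr rfl fun y _ => ?_
          rw [Nf, Nat.card_eq_fintype_card, Fintype.card_subtype, Finset.card_filter]
          refine Finset.sum_congr rfl fun u _ => ?_
          exact if_congr (and_congr_left fun _ => eq_comm) rfl rfl
      _ = ∑ D : ConjClasses H, Nf K n D.out * cnt (ConjClasses.mk : H → ConjClasses H) D := by
          simp_rw [h1, Finset.mul_sum]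
          rw [Finset.sum_comm]
          refine Finset.sum_congr rfl fun q _ => ?_
          rw [Finset.sum_eq_single (ConjClasses.mk (q.1 * q.2 * q.1⁻¹ * q.2⁻¹)), if_pos rfl,
            mul_one, Nf_out K hK]
          · intro D _ hne
            rw [if_neg (Ne.symm hne), mul_zero]
          · intro h
            exact absurd (Finset.mem_univ _) h
      _ = _ := by
          rw [Finset.mul_sum]
          refine Finset.sum_congr rfl fun D _ => ?_
          rw [cnt_eq (fun g h => mk_conj g h) D]
          ring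
  · rw [trZ_eq (π := (ConjClasses.mk : H → ConjClasses H)) (fun g h => mk_conj g h)
      (fun D : ConjClasses H => (Nf K n D.out : k)) _ (fun g => by
        rw [coeff_setSum_pow, Nf_out K hK])]
    push_cast
    rfl

end tr

section chains
variable {p : ℕ} [hp : Fact p.Prime] {G : Type} [Group G] [Finite G]

theorem altSumK_pow {k : Type} [Field k] [CharP k p] (f : Ch p G → k) (a : ℕ) :
    altSumK (fun σ => f σ ^ p ^ a) = altSumK f ^ p ^ a := by
  classical
  unfold altSumK
  haveI : Finite (Ch p G) := by unfold Ch; infer_instance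
  haveI : Fintype (Quot (chRel (p := p) (G := G))) := Fintype.ofFinite _
  rw [finsum_eq_sum_of_fintype, finsum_eq_sum_of_fintype, sum_pow_char_pow]
  refine Finset.sum_congr rfl fun q _ => ?_
  rw [mul_pow]
  congr 1
  have := map_intCast (iterateFrobenius k p a) (sgn q.out)
  rw [iterateFrobenius_def] at this
  exact this.symm

/-- **the one-puncture congruence** -/
theorem one_of_cnt (h : CNT p) (k : Type) [Field k] [IsAlgClosed k] [CharP k p]
    (C : ConjClasses G) (hC : p ∣ orderOf C.out) :
    altSumK (fun σ : Ch p G => (R (cl (st σ)) C : k)) = 0 := by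
  obtain ⟨a, ha⟩ := (cnt_iff p).1 h G C.out hC
  have hout : ConjClasses.mk C.out = C := Quotient.out_eq C
  have hiff : ∀ (S : Subgroup G) (x : S), IsConj (x : G) C.out ↔ cl S x = C := by
    intro S x
    rw [cl, ← ConjClasses.mk_eq_mk_iff_isConj, hout]
  have hK : ∀ (S : Subgroup G) (g x : S), g ∈ {x : S | IsConj (x : G) C.out} →
      x * g * x⁻¹ ∈ {x : S | IsConj (x : G) C.out} := by
    intro S g x hg
    show IsConj ((x * g * x⁻¹ : S) : G) C.out
    rw [hiff, cl_conj, ← hiff]
    exact hg
  choose r hr1 hr2 using fun σ : Ch p G =>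
    tup_trace (k := k) (fun x : st σ => IsConj (x : G) C.out) (hK (st σ)) (p ^ a)
  have hinv : ∀ σ τ : Ch p G, chRel σ τ → (r σ : ℤ) = r τ := by
    intro σ τ hst
    have h1 := ORB700.card_st_congr hst
    obtain ⟨g, rfl⟩ := ORB700.chRel_iff.1 hst
    have h2 := tup_congr (ORB700.stIso g σ) (fun x : st σ => IsConj (x : G) C.out)
      (fun x : st (g • σ) => IsConj (x : G) C.out) (fun x => by
        rw [ORB700.stIso_coe]
        exact S4262.isConj_conj g _ _) (p ^ a)
    rw [hr1, hr1, h1] at h2
    exact_mod_cast Nat.eq_of_mul_eq_mul_left Nat.card_pos h2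
  have h3 : ∑ᶠ σ : Ch p G, sgn σ *
      (Nat.card (Tup (st σ) (fun (_ : Fin (p ^ a)) (h : st σ) => IsConj (h : G) C.out)) : ℤ) =
      (Nat.card G : ℤ) * altSum (fun σ : Ch p G => (r σ : ℤ)) := by
    rw [ORB700.card_mul_altSum _ hinv]
    refine finsum_congr fun σ => ?_
    rw [hr1]
    push_cast
    rfl
  rw [h3] at ha
  have h4 := dvd_cancel (p := p) (Nat.card_pos (α := G)).ne' ha
  have h5 := (CharP.intCast_eq_zero_iff k p _).2 h4
  rw [← ORB700.altSumK_cast] at h5
  have h6 : ∀ σ : Ch p G, (((r σ : ℤ) : ℤ) : k) = (R (cl (st σ)) C : k) ^ p ^ a := by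
    intro σ
    rw [Int.cast_natCast, ← hr2, trZ_pow]
    congr 1
    refine C176.trZ_setSum_eq (k := k) _ (hK (st σ)) _ ?_
    rw [← cnt_eq (cl_conj (st σ)) C, cnt]
    exact Nat.card_congr (Equiv.subtypeEquivRight fun w => hiff (st σ) _)
  rw [ORB700.altSumK_congr h6, altSumK_pow] at h5
  exact pow_eq_zero_iff (pow_pos hp.out.pos a).ne' |>.1 h5

end chains

end Crest.Agent.T170.Plumb
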