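import Mathlib
import Crest.Agent.T170.PlumbB_9_Mg
import Crest.Agent.R170.WW_350
import Crest.Agent.R170.AMP_534

-- ▼ part R170/WW2e_752
section

/-!
# Row 170, leaf WW2 (helper752), part e: `p * f0 (wE C e) + f0 e = f0 e ^ p`
-/

set_option autoImplicit false
set_option linter.unusedSectionVars false
open scoped BigOperators

namespace Crest.Agent.R170.WW2752

open FE (Y)
open MonoidAlgebra

section count
variable {k M C : Type} [Field k] [Group M] [Fintype M] [CommGroup C] [Fintype C] [DecidableEq C]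

theorem finY0 : Finite (Y0 k M) := (linInd (k := k) (H := M)).finite

theorem finY (e : MonoidAlgebra k M) : Finite (Y e) := by
  have := finY0 (k := k) (M := M)
  exact Finite.of_injective (fun φ : Y e => (⟨φ.1, φ.2.1, φ.2.2.1⟩ : Y0 k M))
    (fun a b h => Subtype.ext (congrArg (fun z : Y0 k M => z.1) h))

variable {e : MonoidAlgebra k M}

/-- underlying functions -/
def und (t : C → Y e) : C → M → k := fun i => (t i : M → k)

theorem und_mem (t : C → Y e) (i : C) : und t i ≠ 0 ∧ FEq (und t i) := ⟨(t i).2.1, (t i).2.2.1⟩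

/-- rotation -/
def rotY (c : C) (t : C → Y e) : C → Y e := fun i => t (c * i)

theorem und_rotY (c : C) (t : C → Y e) : und (rotY c t) = rot c (und t) := rfl

theorem LI (e : MonoidAlgebra k M) :
    LinearIndependent k (fun t : C → Y e => (Ten (und t) : (C → M) → k)) := by
  have h := (linInd (k := k) (H := C → M)).comp
    (fun t : C → Y e => (⟨Ten (und t), Ten_ne _ (fun i => (und_mem t i).1),
      Ten_FEq _ (fun i => (und_mem t i).2)⟩ : Y0 k (C → M))) (by
      intro t t' h
      have h1 : Ten (und t) = Ten (und t') := congrArg (fun z : Y0 k (C → M) => z.1) h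
      have h2 := Ten_inj _ _ (und_mem t) (und_mem t') h1
      funext i
      exact Subtype.ext (congrFun h2 i))
  exact h

/-- constant tuples -/
def Cst (t : C → Y e) : Prop := ∀ i, t i = t 1

theorem rot_free (p : ℕ) [hp : Fact p.Prime] (hC : Nat.card C = p) (t : C → Y e) (ht : ¬ Cst t)
    (c : C) (hc : rotY c t = t) : c = 1 := by
  by_contra hne
  apply ht
  let S : Subgroup C :=
    { carrier := {x | ∀ i, t (x * i) = t i}
      mul_mem' := by
        intro x y hx hy i
        rw [mul_assoc, hx, hy]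
      one_mem' := by
        intro i
        rw [one_mul]
      inv_mem' := by
        intro x hx i
        have h := hx (x⁻¹ * i)
        rw [mul_inv_cancel_left] at h
        exact h.symm }
  have hcS : c ∈ S := fun i => congrFun hc i
  have _hf : Fact (Nat.card C).Prime := ⟨hC ▸ hp.out⟩
  rcases Subgroup.eq_bot_or_eq_top_of_prime_card S with h | h
  · rw [h, Subgroup.mem_bot] at hcS
    exact absurd hcS hne
  · intro i
    have h1 : i ∈ S := h ▸ Subgroup.mem_top i
    have h2 := h1 1
    rwa [mul_one] at h2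

/-- the orbit sum -/
noncomputable def orb (t : C → Y e) : (C → Y e) →₀ k := ∑ c : C, Finsupp.single (rotY c t) 1

theorem orb_apply (t s : C → Y e) [DecidableEq (C → Y e)] :
    orb t s = ∑ c : C, if rotY c t = s then (1 : k) else 0 := by
  rw [orb, Finsupp.coe_finsetSum, Finset.sum_apply]
  refine Finset.sum_congr rfl (fun c _ => ?_)
  rw [Finsupp.single_apply]

theorem lc_orb (t : C → Y e) :
    Finsupp.linearCombination k (fun t : C → Y e => (Ten (und t) : (C → M) → k)) (orb t) =
      fun b => Psi (und t) ⟨b, 1⟩ := by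
  rw [orb, map_sum]
  funext b
  rw [Finset.sum_apply, Psi_base]
  refine Finset.sum_congr rfl (fun c _ => ?_)
  rw [Finsupp.linearCombination_single, one_smul, und_rotY]

theorem orb_self (p : ℕ) [hp : Fact p.Prime] (hC : Nat.card C = p) (t : C → Y e) (ht : ¬ Cst t) :
    orb t t = 1 := by
  classical
  rw [orb_apply, Finset.sum_eq_single (1 : C)]
  · rw [if_pos]
    funext i
    simp [rotY]
  · intro c _ hc
    rw [if_neg]
    exact fun h => hc (rot_free p hC t ht c h)
  · intro h
    exact absurd (Finset.mem_univ _) h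

theorem Psi_ne (p : ℕ) [hp : Fact p.Prime] (hC : Nat.card C = p) (t : C → Y e) (ht : ¬ Cst t) :
    Psi (und t) ≠ 0 := by
  intro h
  have h1 := lc_orb t
  rw [h] at h1
  have h2 : orb t = 0 := (LI e) (by rw [h1, map_zero]; rfl)
  have h3 := orb_self p hC t ht
  rw [h2] at h3
  exact zero_ne_one h3

theorem Psi_inj (p : ℕ) [hp : Fact p.Prime] (hC : Nat.card C = p) (t t' : C → Y e) (ht : ¬ Cst t)
    (h : Psi (und t) = Psi (und t')) : ∃ c, rotY c t' = t := by
  classical
  have h1 : orb t = orb t' := (LI e) (by rw [lc_orb, lc_orb, h])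
  have h2 := orb_self p hC t ht
  rw [h1, orb_apply] at h2
  by_contra hne
  push Not at hne
  rw [Finset.sum_eq_zero (fun c _ => if_neg (hne c))] at h2
  exact zero_ne_one h2

theorem Psi_rotY (c : C) (t : C → Y e) : Psi (und (rotY c t)) = Psi (und t) := by
  funext x
  by_cases hx : x.right = 1
  · obtain ⟨b, r⟩ := x
    simp only at hx
    subst hx
    rw [Psi_base, Psi_base, und_rotY]
    simp only [rot_rot]
    exact Fintype.sum_equiv (Equiv.mulLeft c) _ _ (fun d => rfl)
  · rw [Psi_off _ _ hx, Psi_off _ _ hx]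

theorem Psi_cst (p : ℕ) [hp : Fact p.Prime] [CharP k p] (hC : Nat.card C = p) (t : C → Y e)
    (ht : Cst t) : Psi (und t) = 0 := by
  funext x
  by_cases hx : x.right = 1
  · obtain ⟨b, r⟩ := x
    simp only at hx
    subst hx
    have h1 : ∀ c : C, rot c (und t) = und t := by
      intro c
      funext i
      change ((t (c * i) : Y e) : M → k) = t i
      rw [ht, ← ht i]
    rw [Psi_base, Finset.sum_congr rfl (fun c _ => by rw [h1 c]), Finset.sum_const,
      Finset.card_univ, ← Nat.card_eq_fintype_card, hC, nsmul_eq_mul, CharP.cast_eq_zero, zero_mul]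
    rfl
  · rw [Psi_off _ _ hx]
    rfl

theorem main_count [IsAlgClosed k] (p : ℕ) [hp : Fact p.Prime] [CharP k p] (hC : Nat.card C = p)
    (he : CI e) :
    p * Nat.card (Y (wE C e)) + Nat.card (Y e) = Nat.card (Y e) ^ p := by
  classical
  have _f1 := finY e
  have _f2 := finY (M := M ≀ᵣ C) (wE C e)
  let N := {t : C → Y e // ¬ Cst t}
  let Φ : N → Y (wE C e) := fun t => ⟨Psi (und t.1), Psi_ne p hC t.1 t.2,
    Psi_FEq p hC _ (und_mem t.1), Psi_e e _ (fun i a => (t.1 i).2.2.2 a)⟩
  have hsurj : Function.Surjective Φ := by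
    intro y
    obtain ⟨t, ht, hty⟩ := surj p hC e he y.1 y.2
    let t' : C → Y e := fun i => ⟨t i, ht i⟩
    have h1 : Psi (und t') = y.1 := hty
    have h2 : ¬ Cst t' := by
      intro h
      rw [Psi_cst p hC t' h] at h1
      exact y.2.1 h1.symm
    exact ⟨⟨t', h2⟩, Subtype.ext h1⟩
  have hcst : ∀ (c : C) (t : C → Y e), ¬ Cst t → ¬ Cst (rotY c t) := by
    intro c t ht h
    apply ht
    intro i
    have h1 := h (c⁻¹ * i)
    have h2 := h (c⁻¹ * 1)
    simp only [rotY, mul_inv_cancel_left, mul_one, mul_inv_cancel] at h1 h2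
    rw [h1, h2]
  have hfib : ∀ y : Y (wE C e), Nat.card {t : N // Φ t = y} = p := by
    intro y
    obtain ⟨t0, rfl⟩ := hsurj y
    rw [← hC]
    symm
    apply Nat.card_congr
    refine Equiv.ofBijective (fun c : C => (⟨⟨rotY c t0.1, hcst c _ t0.2⟩,
      Subtype.ext (Psi_rotY c t0.1)⟩ : {t : N // Φ t = Φ t0})) ⟨?_, ?_⟩
    · intro c d hcd
      have h1 : rotY c t0.1 = rotY d t0.1 := congrArg (fun z : {t : N // Φ t = Φ t0} => z.1.1) hcd
      have h2 : rotY (d⁻¹ * c) t0.1 = t0.1 := by
        funext i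
        have h3 := congrFun h1 (d⁻¹ * i)
        simp only [rotY] at h3 ⊢
        rw [mul_inv_cancel_left] at h3
        rw [← h3]
        congr 1
        rw [← mul_assoc, mul_comm c]
      have h4 := rot_free p hC t0.1 t0.2 _ h2
      have h5 : d * (d⁻¹ * c) = d * 1 := by rw [h4]
      rw [mul_inv_cancel_left, mul_one] at h5
      exact h5
    · rintro ⟨t, ht⟩
      have h1 : Psi (und t.1) = Psi (und t0.1) := congrArg (fun z : Y (wE C e) => z.1) ht
      obtain ⟨c, hc⟩ := Psi_inj p hC t.1 t0.1 t.2 h1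
      exact ⟨c, Subtype.ext (Subtype.ext hc)⟩
  have _fy : Fintype (Y (wE C e)) := Fintype.ofFinite _
  have hN : Nat.card N = Nat.card (Y (wE C e)) * p := by
    rw [← Nat.card_congr (Equiv.sigmaFiberEquiv Φ), Nat.card_sigma,
      Finset.sum_congr rfl (fun y _ => hfib y), Finset.sum_const, Finset.card_univ,
      ← Nat.card_eq_fintype_card, smul_eq_mul]
  have hK : Nat.card {t : C → Y e // Cst t} = Nat.card (Y e) := by
    apply Nat.card_congr
    exact
      { toFun := fun t => t.1 1
        invFun := fun y => ⟨fun _ => y, fun _ => rfl⟩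
        left_inv := by
          intro t
          apply Subtype.ext
          funext i
          exact (t.2 i).symm
        right_inv := fun y => rfl }
  have htot : Nat.card {t : C → Y e // Cst t} + Nat.card N = Nat.card (C → Y e) := by
    rw [← Nat.card_sum]
    exact Nat.card_congr (Equiv.sumCompl _)
  rw [Nat.card_fun, hC, hK, hN] at htot
  rw [← htot]
  ring

end count

/-- leaf WW2 -/
theorem hWr (p : ℕ) [hp : Fact p.Prime] (k : Type) [Field k] [IsAlgClosed k] [CharP k p] :
    HWr p k := by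
  intro C _ _ hC G _ _ e he
  classical
  have _fg : Fintype G := Fintype.ofFinite G
  have _cyc : IsCyclic C := isCyclic_of_prime_card hC
  let _cg : CommGroup C := IsCyclic.commGroup
  have h := main_count (k := k) (M := G) (C := C) (e := e) p hC he
  have hE : CI (wE C e) := WW4148.CI_wE C e he
  rw [FE.f0_eq_card_Y he]
  have h2 : f0 (wE C e) = Nat.card (Y (wE C e)) := FE.f0_eq_card_Y hE
  rw [h2]
  exact h

end Crest.Agent.R170.WW2752
end

-- ▼ part T170/Plumb_9

/-!
# Row 170 (T170), module A (helper9): **`CNT p` implies S0258**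

`stp_of_cnt` : the conclusion of `STP` from `CNT p`; `hp_of_stp` : the induction of leaf P with
that conclusion as hypothesis; `s0258_of_cnt`.
-/

set_option autoImplicit false
set_option linter.style.haveILetI false
open scoped BigOperators

namespace Crest.Agent.T170

open Crest.Agent.R170 Crest.Agent.R170.STP312 Crest.AlgebraR.Weights Crest.AlgebraR.Blocks

namespace Plumb

/-- the conclusion of `STP` -/
def STP' (p : ℕ) (k : Type) [Field k] : Prop :=
  ∀ (G : Type) [Group G] [Finite G] (e : MonoidAlgebra k G), CI e →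
    (p : ℤ) ∣ altSum (fun σ : Ch p G => (lc (eC σ e) : ℤ)) - f0 e

section
variable {p : ℕ} [Fact p.Prime] {G : Type} [Group G] [Finite G]

omit [Fact p.Prime] in
/-- the stabiliser of a nonempty chain has a nontrivial normal `p`-subgroup -/
theorem exists_normal {σ : Ch p G} (h : σ ≠ P714.emp p G) :
    ∃ N : Subgroup (st σ), N.Normal ∧ IsPGroup p N ∧ N ≠ ⊥ := by
  have hne : σ.1.Nonempty := by
    rw [Finset.nonempty_iff_ne_empty]
    intro h0
    exact h (Subtype.ext h0)
  obtain ⟨P, hP, hle⟩ := S4262.exists_min (p := p) (C := σ.1)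
    ⟨fun Q hQ => ⟨(σ.2.1 Q hQ).2, (σ.2.1 Q hQ).1⟩, σ.2.2⟩ hne
  have hle' : P ≤ st σ := hle
  refine ⟨P.subgroupOf (st σ),
    (Subgroup.normal_subgroupOf_iff_le_normalizer hle').2 (P714.st_le hP),
    (σ.2.1 P hP).1.comap_subtype, fun h0 => (σ.2.1 P hP).2 ?_⟩
  rw [Subgroup.subgroupOf_eq_bot, disjoint_iff, inf_of_le_left hle'] at h0
  exact h0

theorem altSum_f0 {k : Type} [Field k] [IsAlgClosed k] [CharP k p] {e : MonoidAlgebra k G}
    (he : CI e) : altSum (fun σ : Ch p G => (f0 (eC σ e) : ℤ)) = f0 e := by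
  have h1 := ORB700.card_mul_altSum (fun σ : Ch p G => (f0 (eC σ e) : ℤ))
    (fun σ τ hst => by
      show (f0 (eC σ e) : ℤ) = (f0 (eC τ e) : ℤ)
      rw [ORB700.f0_eC he.1 hst])
  rw [finsum_eq_single _ (P714.emp p G) (fun σ hσ => by
    have hCI : CI (eC σ e) := BR606.sBrCI p k G e (st σ) (top σ) (K876.isPGroup_top σ)
      (K876.centralizer_top_le_st σ) (K876.st_le_normalizer_top σ) he
    rw [J482.sJ2 p k (st σ) _ hCI (exists_normal hσ)]
    simp), P714.sgn_emp, one_mul, P714.card_st_emp] at h1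
  obtain ⟨φ, hφ⟩ := P714.eC_emp (p := p) e
  rw [SCC538.f0_congr φ _ _ hφ] at h1
  have hG : (Nat.card G : ℤ) ≠ 0 := by exact_mod_cast (Nat.card_pos (α := G)).ne'
  exact mul_left_cancel₀ hG h1

end

variable (p : ℕ) [Fact p.Prime] (k : Type) [Field k] [IsAlgClosed k] [CharP k p]

theorem stp_of_cnt (h : CNT p) : STP' p k := by
  intro G _ _ e he
  classical
  haveI : Fintype G := Fintype.ofFinite G
  haveI : Fintype (ConjClasses G) := Fintype.ofFinite _
  obtain ⟨t, ht⟩ := exists_good p G
  have hos := OS182.os p k G e he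
  set f : ConjClasses G → k := fun C => e.coeff (C.out ^ p ^ t) - e.coeff C.out with hf
  have hcl : ∀ g : G, e.coeff (g ^ p ^ t) - e.coeff g = f (ConjClasses.mk g) := by
    intro g
    have : IsConj g (ConjClasses.mk g).out := by
      rw [← ConjClasses.mk_eq_mk_iff_isConj]
      exact (Quotient.out_eq _).symm
    obtain ⟨c, hc⟩ := isConj_iff.1 this
    show _ = e.coeff ((ConjClasses.mk g).out ^ p ^ t) - e.coeff (ConjClasses.mk g).out
    rw [← hc, conj_pow, AB983.coeff_conj he.1, AB983.coeff_conj he.1]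
  have hσ : ∀ σ : Ch p G, (f0 (eC σ e) : k) - (kc (eC σ e) : k) =
      ∑ C, f C * (R (cl (st σ)) C : k) := by
    intro σ
    haveI : Fintype (st σ) := Fintype.ofFinite _
    have hCI : CI (eC σ e) := BR606.sBrCI p k G e (st σ) (top σ) (K876.isPGroup_top σ)
      (K876.centralizer_top_le_st σ) (K876.st_le_normalizer_top σ) he
    have hCI' : CI (br (st σ) (top σ) e) := hCI
    have hreg : ∀ g : G, e.coeff g ≠ 0 → (orderOf g).Coprime p := fun g hg => by
      by_contra hcon
      exact hg (hos g hcon)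
    have hres := AB983.restrict_central he.1 (st σ)
    let y2 : Subalgebra.center k (MonoidAlgebra k (st σ)) :=
      ⟨br (st σ) (top σ) e, Subalgebra.mem_center_iff.2 fun y => (hCI'.1 y).symm⟩
    let y1 : Subalgebra.center k (MonoidAlgebra k (st σ)) :=
      ⟨restrictCoeff (st σ) e, Subalgebra.mem_center_iff.2 fun y => (hres y).symm⟩
    let w : Subalgebra.center k (MonoidAlgebra k (st σ)) :=
      ⟨rp (p ^ t) (restrictCoeff (st σ) e),
        Subalgebra.mem_center_iff.2 fun y => (rp_central _ hres y).symm⟩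
    have h1 : trZ w = (f0 (eC σ e) : k) :=
      trZ_rp p (ht.sub (st σ)) hres hCI (AB983.AB3 σ e he.1 hreg) w rfl
    have h2 : trZ y1 = (kc (eC σ e) : k) := by
      rw [← trZ_idem hCI y2 rfl, AB983.AB3_trZ σ e he.1 hreg y1 y2 rfl rfl]
    have h3 : trZ (w - y1) = trZ w - trZ y1 :=
      map_sub (Algebra.trace k (Subalgebra.center k (MonoidAlgebra k (st σ)))) w y1
    rw [← h1, ← h2, ← h3]
    exact trZ_eq (cl_conj (st σ)) f (w - y1) fun g => hcl g
  have hk : altSumK (fun σ : Ch p G =>
      ((((f0 (eC σ e) : ℤ) - (kc (eC σ e) : ℤ) : ℤ) : ℤ) : k)) = 0 := by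
    rw [ORB700.altSumK_congr (g := fun σ : Ch p G => ∑ C, f C * (R (cl (st σ)) C : k))
      (fun σ => by
        rw [← hσ σ]
        push_cast
        rfl), ORB700.altSumK_sum]
    refine Finset.sum_eq_zero fun C _ => ?_
    rw [ORB700.altSumK_mul_left]
    by_cases hC : (orderOf C.out).Coprime p
    · have h7 : f C = 0 := by
        show e.coeff (C.out ^ p ^ t) - e.coeff C.out = 0
        rw [(ht.2 _).2 hC, sub_self]
      rw [h7, zero_mul]
    · rw [one_of_cnt h k C (by
        by_contra hcon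
        exact hC ((Nat.Prime.coprime_iff_not_dvd Fact.out).2 hcon).symm), mul_zero]
  rw [ORB700.altSumK_cast, ORB700.altSum_sub, altSum_f0 he] at hk
  have hlk : altSum (fun σ : Ch p G => (lc (eC σ e) : ℤ)) =
      altSum (fun σ : Ch p G => (kc (eC σ e) : ℤ)) := by
    have h := K876.SK_of (B2334.B2 p k) (BR606.sBrCI p k) G e he
    have h8 := ORB700.card_mul_altSum (fun σ : Ch p G => (lc (eC σ e) : ℤ))
      (fun σ τ hst => by
        show (lc (eC σ e) : ℤ) = (lc (eC τ e) : ℤ)
        rw [ORB700.lc_eC he.1 hst])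
    have h9 := ORB700.card_mul_altSum (fun σ : Ch p G => (kc (eC σ e) : ℤ))
      (fun σ τ hst => by
        show (kc (eC σ e) : ℤ) = (kc (eC τ e) : ℤ)
        rw [ORB700.kc_eC he.1 hst])
    have hG : (Nat.card G : ℤ) ≠ 0 := by exact_mod_cast (Nat.card_pos (α := G)).ne'
    exact mul_left_cancel₀ hG (by rw [h8, h9, h])
  rw [hlk, ← dvd_neg, neg_sub]
  exact (CharP.intCast_eq_zero_iff k p _).1 hk

open P714 in
/-- leaf P with the conclusion of `STP` as hypothesis (the proof of `P714.SP_of`) -/
theorem hp_of_stp (hTP : STP' p k) : FIN534.HP' p k := by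
  have hM := M588.sM p k
  have hQ := QW544.sQd p k
  have hO := sOrb p
  have hB := BR606.sBrCI p k
  have hE := sEqv p k
  have h0 := sEmp p k
  have hp : p.Prime := Fact.out
  have hp0 : (p : ℤ) ≠ 0 := by exact_mod_cast hp.ne_zero
  suffices H : ∀ n : ℕ, ∀ (G : Type) [Group G] [Finite G] (e : MonoidAlgebra k G), CI e →
      Nat.card G = n → ∃ m : ℤ, dG p e = (Nat.card G : ℤ) * (p * m) by
    intro G _ _ e he
    obtain ⟨m, hm⟩ := H _ G e he rfl
    exact ⟨m, by rw [hm]; ring⟩
  intro n
  induction n using Nat.strong_induction_on with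
  | _ n IH =>
  intro G _ _ e he hn
  by_cases hN : ∃ N : Subgroup G, N.Normal ∧ IsPGroup p N ∧ N ≠ ⊥
  · obtain ⟨N, hNn, hNp, hN1⟩ := hN
    have hlt : Nat.card (G ⧸ N) < n := by
      have h1 := Subgroup.card_eq_card_quotient_mul_card_subgroup N
      have h2 : 1 < Nat.card N := by
        rw [Subgroup.one_lt_card_iff_ne_bot]
        exact hN1
      have h3 : 0 < Nat.card (G ⧸ N) := Nat.card_pos
      rw [hn] at h1
      nlinarith
    have hci : CI (MonoidAlgebra.mapDomain (QuotientGroup.mk : G → G ⧸ N) e) :=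
      CI_mapDomain (QuotientGroup.mk' N) (QuotientGroup.mk'_surjective N) he
    obtain ⟨m, hm⟩ := IH _ hlt (G ⧸ N) _ hci rfl
    refine ⟨m, ?_⟩
    rw [hQ G e N hNp he, hm]
    have h1 := Subgroup.card_eq_card_quotient_mul_card_subgroup N
    rw [h1]
    push_cast
    ring
  · have hci : ∀ σ : Ch p G, CI (eC σ e) := fun σ =>
      hB G e (st σ) (top σ) (top_isPGroup σ) (centralizer_top_le σ) (st_le_normalizer_top σ) he
    have hval : ∀ σ : Ch p G, σ ≠ emp p G →
        ∃ m : ℤ, dG p (eC σ e) = (Nat.card (st σ) : ℤ) * (p * m) := fun σ hσ =>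
      IH _ (hn ▸ card_st_lt hσ hN) (st σ) _ (hci σ) rfl
    classical
    choose! m hm using hval
    set f : Ch p G → ℤ := fun σ =>
      if σ = emp p G then 0 else dG p (eC σ e) / ((Nat.card (st σ) : ℤ) * p) with hf
    have hfm : ∀ σ, σ ≠ emp p G →
        (Nat.card (st σ) : ℤ) * (p * f σ) = dG p (eC σ e) := by
      intro σ hσ
      have h1 : (Nat.card (st σ) : ℤ) * p ∣ dG p (eC σ e) := ⟨m σ, by rw [hm σ hσ]; ring⟩
      simp only [hf, if_neg hσ]
      rw [← mul_assoc]
      exact Int.mul_ediv_cancel' h1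
    have hfinv : ∀ σ τ, chRel σ τ → f σ = f τ := by
      intro σ τ h
      obtain ⟨h1, -, h3, h4⟩ := hE G e he σ τ h
      have h5 : dG p (eC σ e) = dG p (eC τ e) := by
        unfold dG
        rw [h1, h3, h4]
      simp only [hf]
      by_cases hσ : σ = emp p G
      · rw [if_pos hσ, if_pos ((chRel_emp h).1 hσ)]
      · rw [if_neg hσ, if_neg fun e => hσ ((chRel_emp h).2 e), h5, h1]
    have hS1 := hO G f hfinv
    have hS2 := hO G (fun σ => (lc (eC σ e) : ℤ)) fun σ τ h => by
      obtain ⟨-, -, h3, -⟩ := hE G e he σ τ h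
      simp only [h3]
    have hS3 := hM G e he
    obtain ⟨m1, hm1⟩ := hTP G e he
    have : Fintype (Ch p G) := Fintype.ofFinite _
    rw [finsum_eq_sum_of_fintype] at hS1 hS2 hS3
    have hA : ∑ σ : Ch p G, sgn σ * dG p (eC σ e) =
        (Nat.card G : ℤ) * altSum (fun σ : Ch p G => (lc (eC σ e) : ℤ)) -
          (Nat.card G : ℤ) * f0 e := by
      rw [← hS2, ← hS3, ← Finset.sum_sub_distrib]
      refine Finset.sum_congr rfl fun σ _ => ?_
      unfold dG
      ring
    have hB' : ∑ σ : Ch p G, sgn σ * dG p (eC σ e) =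
        dG p e + p * ∑ σ : Ch p G, sgn σ * ((Nat.card (st σ) : ℤ) * f σ) := by
      rw [Finset.mul_sum, ← Finset.add_sum_erase _ _ (Finset.mem_univ (emp p G)),
        ← Finset.add_sum_erase _ (fun σ => (p : ℤ) * (sgn σ * ((Nat.card (st σ) : ℤ) * f σ)))
          (Finset.mem_univ (emp p G))]
      have e1 : f (emp p G) = 0 := by simp [hf]
      have e2 : dG p (eC (emp p G) e) = dG p e := by
        obtain ⟨h1, h2⟩ := h0 G e he
        unfold dG
        rw [h1, h2, card_st_emp]
      rw [e1, e2, sgn_emp, one_mul, mul_zero, mul_zero, mul_zero, zero_add]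
      congr 1
      refine Finset.sum_congr rfl fun σ hσ => ?_
      rw [← hfm σ (Finset.mem_erase.1 hσ).1]
      ring
    refine ⟨m1 - altSum f, ?_⟩
    rw [hB', hS1] at hA
    have hm1' : altSum (fun σ : Ch p G => (lc (eC σ e) : ℤ)) = f0 e + p * m1 := by
      linarith
    rw [hm1'] at hA
    linear_combination hA

end Plumb

/-- **S0258 from the counting statement `CNT p`** -/
theorem s0258_of_cnt {p : ℕ} (hp : p.Prime) (h : CNT p)
    (k : Type) [Field k] [IsAlgClosed k] [CharP k p] (G : Type) [Group G] [Finite G]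
    (e : MonoidAlgebra k G) (he : IsBlockIdempotent e) :
    Nat.card G * blockSimpleCount e = weightedWeightCount p e := by
  haveI : Fact p.Prime := ⟨hp⟩
  exact FIN534.s0258_of hp
    (FIN534.HP_of_HP' (HD534.hDvd p k) (Plumb.hp_of_stp p k (Plumb.stp_of_cnt p k h)))
    (HD534.hDvd p k) (FIN534.hAmp_of_SWR (FIN534.sWR_of p k (WW2752.hWr p k)))
    (FIN534.hLit hp k) G e he

end Crest.Agent.T170
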