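import Crest.Agent.T170.RetGDefs_90
import Crest.Agent.R257.AJ1_387

-- ▼ part T170/RetM1_90
section

/-!
# Row 170, RET (G), monodromy, part 1 (helper90): sections and the four-sector lemma
-/

set_option autoImplicit false

open Polynomial Filter Topology Set

noncomputable section

namespace Crest.Agent.T170.Ret

variable {H : Type} [Group H] {Z : Set ℂ} {D : ℕ} {Q : ℂ → ℂ[X]} {act : H → ℂ → ℂ → ℂ}

/-- a continuous root function over `p` on `T`. -/
structure Sec (Z : Set ℂ) (Q : ℂ → ℂ[X]) (T : Set ℂ) (p τ : ℂ → ℂ) : Prop where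
  pc : ContinuousOn p T
  off : ∀ w ∈ T, p w ∉ Z
  cont : ContinuousOn τ T
  root : ∀ w ∈ T, (Q (p w)).eval (τ w) = 0

theorem Sec.mono {T T' : Set ℂ} {p τ : ℂ → ℂ} (h : Sec Z Q T p τ) (hT : T' ⊆ T) :
    Sec Z Q T' p τ :=
  ⟨h.pc.mono hT, fun w hw => h.off w (hT hw), h.cont.mono hT, fun w hw => h.root w (hT hw)⟩

theorem Sec.comp {T T' : Set ℂ} {p τ q : ℂ → ℂ} (h : Sec Z Q T p τ) (hq : ContinuousOn q T')
    (hm : MapsTo q T' T) : Sec Z Q T' (fun w => p (q w)) (fun w => τ (q w)) :=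
  ⟨h.pc.comp hq hm, fun w hw => h.off _ (hm hw), h.cont.comp hq hm, fun w hw => h.root _ (hm hw)⟩

namespace IsCov

variable (c : IsCov Z D Q act)
include c

/-- the family over `T`. -/
def fam (T : Set ℂ) (p : ℂ → ℂ) (hp : ContinuousOn p T) (hZ : ∀ w ∈ T, p w ∉ Z) :
    R257.AJ387.Fam T D where
  Q w := Q (p w)
  monic w := c.monic _
  deg w := c.deg _
  cont i := (c.cont i).comp (continuousOn_iff_continuous_domRestrict.1 hp)
  nodup w := c.nodup _ (hZ w w.2)

theorem ex_root (z : ℂ) : ∃ t, (Q z).eval t = 0 := by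
  have h : (Q z).degree ≠ 0 := by
    rw [Polynomial.degree_eq_natDegree (c.monic z).ne_zero, c.deg z]
    exact_mod_cast c.pos.ne'
  exact IsAlgClosed.exists_root _ h

theorem act_one {z t : ℂ} (hz : z ∉ Z) (ht : (Q z).eval t = 0) : act 1 z t = t := by
  obtain ⟨g, hg⟩ := c.trans z t t hz ht ht
  have h := c.act_mul g 1 z t hz ht
  rw [← hg, mul_one, ← hg] at h
  exact h

theorem ex_sec {T : Set ℂ} (hT : Convex ℝ T) {p : ℂ → ℂ} (hp : ContinuousOn p T)
    (hZ : ∀ w ∈ T, p w ∉ Z) {w₀ t₀ : ℂ} (hw : w₀ ∈ T) (ht : (Q (p w₀)).eval t₀ = 0) :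
    ∃ τ, Sec Z Q T p τ ∧ τ w₀ = t₀ := by
  classical
  haveI := hT.contractibleSpace ⟨w₀, hw⟩
  haveI := hT.locallyPathConnectedSpace
  obtain ⟨ζ, hc, h0, hr⟩ := (c.fam T p hp hZ).exists_root ⟨w₀, hw⟩ t₀ ht
  refine ⟨fun w => if h : w ∈ T then ζ ⟨w, h⟩ else 0, ⟨hp, hZ, ?_, ?_⟩, ?_⟩
  · rw [continuousOn_iff_continuous_domRestrict]
    convert hc using 1
    funext w
    exact dif_pos w.2
  · intro w hw
    simp only [dif_pos hw]
    exact hr ⟨w, hw⟩
  · simp only [dif_pos hw, h0]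

theorem uniq {T : Set ℂ} (hT : IsPreconnected T) {p τ τ' : ℂ → ℂ} (h : Sec Z Q T p τ)
    (h' : Sec Z Q T p τ') {w₀ : ℂ} (hw : w₀ ∈ T) (h0 : τ w₀ = τ' w₀) : ∀ w ∈ T, τ w = τ' w := by
  haveI := isPreconnected_iff_preconnectedSpace.1 hT
  have := (c.fam T p h.pc h.off).root_unique (ζ := fun w : T => τ w) (ζ' := fun w : T => τ' w)
    (continuousOn_iff_continuous_domRestrict.1 h.cont)
    (continuousOn_iff_continuous_domRestrict.1 h'.cont) (fun w => h.root w w.2)
    (fun w => h'.root w w.2) (s₀ := ⟨w₀, hw⟩) h0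
  intro w hw
  exact congrFun this ⟨w, hw⟩

theorem act_sec {T : Set ℂ} {p τ : ℂ → ℂ} (h : Sec Z Q T p τ) (g : H) :
    Sec Z Q T p (fun w => act g (p w) (τ w)) := by
  refine ⟨h.pc, h.off, fun w hw => ?_, fun w hw => c.act_root g _ _ (h.off w hw) (h.root w hw)⟩
  have h1 := c.act_cont g (p w) (τ w) (h.off w hw)
  have h2 : ContinuousWithinAt (fun w => (p w, τ w)) T w := (h.pc w hw).prodMk (h.cont w hw)
  exact ContinuousAt.comp_continuousWithinAt (f := fun w => (p w, τ w)) h1 h2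

theorem cmp {T : Set ℂ} (hT : IsPreconnected T) {p τ τ' : ℂ → ℂ} (h : Sec Z Q T p τ)
    (h' : Sec Z Q T p τ') (hne : T.Nonempty) :
    ∃ g, ∀ w ∈ T, τ' w = act g (p w) (τ w) := by
  obtain ⟨w₀, hw⟩ := hne
  obtain ⟨g, hg⟩ := c.trans _ _ _ (h.off w₀ hw) (h.root w₀ hw) (h'.root w₀ hw)
  exact ⟨g, c.uniq hT h' (c.act_sec h g) hw hg⟩

/-- a section on a convex set which continues a given one -/
theorem ex_cont {T T' : Set ℂ} (hT : Convex ℝ T) (hT' : Convex ℝ T') {τ : ℂ → ℂ}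
    (h : Sec Z Q T id τ) (hZ : ∀ w ∈ T', w ∉ Z) (hne : (T ∩ T').Nonempty) :
    ∃ τ', Sec Z Q T' id τ' ∧ ∀ w ∈ T ∩ T', τ' w = τ w := by
  obtain ⟨w₀, hw⟩ := hne
  obtain ⟨τ', h1, h2⟩ := c.ex_sec hT' (p := id) continuousOn_id hZ hw.2 (h.root w₀ hw.1)
  exact ⟨τ', h1, c.uniq (hT.inter hT').isPreconnected (h1.mono inter_subset_right)
    (h.mono inter_subset_left) hw h2⟩

end IsCov

/-- half strips -/
def hs (ρ u v : ℝ) : Set ℂ := {w | ρ < w.im ∧ u < w.re ∧ w.re < v}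

theorem convex_hs (ρ u v : ℝ) : Convex ℝ (hs ρ u v) :=
  (convex_halfSpace_im_gt ρ).inter ((convex_halfSpace_re_gt u).inter (convex_halfSpace_re_lt v))

theorem ee_add_one (w : ℂ) : ee (w + 1) = ee w := by
  unfold ee
  rw [mul_add, Complex.exp_add, mul_one, Complex.exp_two_pi_mul_I, mul_one]

theorem continuous_ee : Continuous ee := by
  unfold ee; fun_prop

/-- **four sectors** -/
theorem IsCov.per_of_sectors (c : IsCov Z D Q act) {p : ℂ → ℂ} {ρ : ℝ}
    (hp : ContinuousOn (fun w => p (ee w)) {w | ρ < w.im}) (hZ : ∀ w : ℂ, ρ < w.im → p (ee w) ∉ Z)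
    {T₁ T₂ T₃ T₄ : Set ℂ} {τ₁ τ₂ τ₃ τ₄ : ℂ → ℂ} (s₁ : Sec Z Q T₁ id τ₁) (s₂ : Sec Z Q T₂ id τ₂)
    (s₃ : Sec Z Q T₃ id τ₃) (s₄ : Sec Z Q T₄ id τ₄) {g : H}
    (h12 : ∀ z ∈ T₁ ∩ T₂, τ₁ z = τ₂ z) (h23 : ∀ z ∈ T₂ ∩ T₃, τ₂ z = τ₃ z)
    (h34 : ∀ z ∈ T₃ ∩ T₄, τ₃ z = act g z (τ₄ z)) (h41 : ∀ z ∈ T₄ ∩ T₁, τ₄ z = τ₁ z)
    (m₁ : ∀ w ∈ hs ρ (1 / 12) (5 / 12), p (ee w) ∈ T₁)
    (m₂ : ∀ w ∈ hs ρ (1 / 3) (2 / 3), p (ee w) ∈ T₂)
    (m₃ : ∀ w ∈ hs ρ (7 / 12) (11 / 12), p (ee w) ∈ T₃)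
    (m₄ : ∀ w ∈ hs ρ (5 / 6) (7 / 6), p (ee w) ∈ T₄) : Per Z Q act p g := by
  set L : Set ℂ := {w | ρ < w.im} with hL
  have hLc : Convex ℝ L := convex_halfSpace_im_gt ρ
  have sub : ∀ u v, hs ρ u v ⊆ L := fun u v w hw => hw.1
  let pt : ℝ → ℂ := fun u => ⟨u, ρ + 1⟩
  have hpt : ∀ u v x : ℝ, u < x → x < v → pt x ∈ hs ρ u v := fun u v x h1 h2 =>
    ⟨by simp [pt], h1, h2⟩
  have t₁ := s₁.comp (hp.mono (sub _ _)) m₁
  have t₂ := s₂.comp (hp.mono (sub _ _)) m₂
  have t₃ := s₃.comp (hp.mono (sub _ _)) m₃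
  have t₄ := c.act_sec (s₄.comp (hp.mono (sub _ _)) m₄) g
  simp only [id] at t₁ t₂ t₃ t₄
  have a1 : pt (3 / 8) ∈ hs ρ (1 / 12) (5 / 12) := hpt _ _ _ (by norm_num) (by norm_num)
  have a2 : pt (3 / 8) ∈ hs ρ (1 / 3) (2 / 3) := hpt _ _ _ (by norm_num) (by norm_num)
  have b2 : pt (5 / 8) ∈ hs ρ (1 / 3) (2 / 3) := hpt _ _ _ (by norm_num) (by norm_num)
  have b3 : pt (5 / 8) ∈ hs ρ (7 / 12) (11 / 12) := hpt _ _ _ (by norm_num) (by norm_num)
  have c3 : pt (7 / 8) ∈ hs ρ (7 / 12) (11 / 12) := hpt _ _ _ (by norm_num) (by norm_num)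
  have c4 : pt (7 / 8) ∈ hs ρ (5 / 6) (7 / 6) := hpt _ _ _ (by norm_num) (by norm_num)
  have d4 : pt (9 / 8) ∈ hs ρ (5 / 6) (7 / 6) := hpt _ _ _ (by norm_num) (by norm_num)
  have d1 : pt (1 / 8) ∈ hs ρ (1 / 12) (5 / 12) := hpt _ _ _ (by norm_num) (by norm_num)
  obtain ⟨τ, hτ, h0⟩ := c.ex_sec hLc hp hZ (sub _ _ a1) (t₁.root _ a1)
  have e₁ := c.uniq (convex_hs _ _ _).isPreconnected (hτ.mono (sub _ _)) t₁ a1 h0
  have e₂ := c.uniq (convex_hs _ _ _).isPreconnected (hτ.mono (sub _ _)) t₂ a2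
    (by rw [e₁ _ a1]; exact h12 _ ⟨m₁ _ a1, m₂ _ a2⟩)
  have e₃ := c.uniq (convex_hs _ _ _).isPreconnected (hτ.mono (sub _ _)) t₃ b3
    (by rw [e₂ _ b2]; exact h23 _ ⟨m₂ _ b2, m₃ _ b3⟩)
  have e₄ := c.uniq (convex_hs _ _ _).isPreconnected (hτ.mono (sub _ _)) t₄ c4
    (by rw [e₃ _ c3]; exact h34 _ ⟨m₃ _ c3, m₄ _ c4⟩)
  have hsh : MapsTo (fun w : ℂ => w + 1) L L := fun w hw => by simpa [hL] using hw
  have t₅ := hτ.comp (q := fun w => w + 1) (by fun_prop) hsh
  simp only [ee_add_one] at t₅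
  have hp1 : pt (1 / 8) + 1 = pt (9 / 8) := by
    apply Complex.ext <;> simp [pt]; norm_num
  have key := c.uniq hLc.isPreconnected t₅ (c.act_sec hτ g) (sub _ _ d1) (by
    have hee : ee (pt (9 / 8)) = ee (pt (1 / 8)) := by rw [← hp1, ee_add_one]
    have h4 := m₄ _ d4
    rw [hee] at h4
    rw [hp1, e₄ _ d4, e₁ _ d1, hee, h41 _ ⟨h4, m₁ _ d1⟩])
  refine ⟨ρ, τ, fun w hw => ⟨?_, hZ w hw, hτ.root w hw, key w hw⟩⟩
  exact hτ.cont.continuousAt ((isOpen_lt continuous_const Complex.continuous_im).mem_nhds hw)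

/-! ### sectors -/

theorem cos_gt_half {y : ℝ} (h1 : -(Real.pi / 3) < y) (h2 : y < Real.pi / 3) :
    1 / 2 < Real.cos y := by
  rw [← Real.cos_pi_div_three, ← Real.cos_abs y]
  have := Real.pi_pos
  exact Real.cos_lt_cos_of_nonneg_of_le_pi (abs_nonneg y) (by linarith) (abs_lt.2 ⟨h1, h2⟩)

/-- the modulus -/
def rr (w : ℂ) : ℝ := Real.exp (-(2 * Real.pi * w.im))

theorem rr_pos (w : ℂ) : 0 < rr w := Real.exp_pos _

theorem ee_re (w : ℂ) : (ee w).re = rr w * Real.cos (2 * Real.pi * w.re) := by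
  unfold ee rr; rw [Complex.exp_re]; simp

theorem ee_im (w : ℂ) : (ee w).im = rr w * Real.sin (2 * Real.pi * w.re) := by
  unfold ee rr; rw [Complex.exp_im]; simp

theorem norm_ee (w : ℂ) : ‖ee w‖ = rr w := by
  unfold ee rr; rw [Complex.norm_exp]; simp

theorem sec1 {w : ℂ} (h1 : 1 / 12 < w.re) (h2 : w.re < 5 / 12) : rr w / 2 < (ee w).im := by
  have := Real.pi_pos
  have h := cos_gt_half (y := 2 * Real.pi * w.re - Real.pi / 2) (by nlinarith) (by nlinarith)
  rw [Real.cos_sub_pi_div_two] at h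
  rw [ee_im]; nlinarith [rr_pos w]

theorem sec2 {w : ℂ} (h1 : 1 / 3 < w.re) (h2 : w.re < 2 / 3) : (ee w).re < -(rr w / 2) := by
  have := Real.pi_pos
  have h := cos_gt_half (y := 2 * Real.pi * w.re - Real.pi) (by nlinarith) (by nlinarith)
  rw [Real.cos_sub_pi] at h
  rw [ee_re]; nlinarith [rr_pos w]

theorem sec3 {w : ℂ} (h1 : 7 / 12 < w.re) (h2 : w.re < 11 / 12) : (ee w).im < -(rr w / 2) := by
  have := Real.pi_pos
  have h := cos_gt_half (y := 2 * Real.pi * w.re - Real.pi - Real.pi / 2) (by nlinarith)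
    (by nlinarith)
  rw [Real.cos_sub_pi_div_two, Real.sin_sub_pi] at h
  rw [ee_im]; nlinarith [rr_pos w]

theorem sec4 {w : ℂ} (h1 : 5 / 6 < w.re) (h2 : w.re < 7 / 6) : rr w / 2 < (ee w).re := by
  have := Real.pi_pos
  have h := cos_gt_half (y := 2 * Real.pi * w.re - 2 * Real.pi) (by nlinarith) (by nlinarith)
  rw [Real.cos_sub_two_pi] at h
  rw [ee_re]; nlinarith [rr_pos w]

theorem ex_rho {ε : ℝ} (hε : 0 < ε) : ∃ ρ : ℝ, ∀ w : ℂ, ρ < w.im → rr w < ε := by
  refine ⟨-Real.log ε / (2 * Real.pi), fun w hw => ?_⟩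
  have := Real.pi_pos
  rw [div_lt_iff₀ (by positivity)] at hw
  unfold rr
  rw [← Real.exp_log hε]
  exact Real.exp_lt_exp.2 (by linarith)

end Crest.Agent.T170.Ret
end
end

-- ▼ part T170/RetM2_90
section

/-!
# Row 170, RET (G), monodromy, part 2 (helper90): the convex cover and `MonoStmt`
-/

set_option autoImplicit false

open Polynomial Filter Topology Set

noncomputable section

namespace Crest.Agent.T170.Ret

variable {m : ℕ} (a : Fin m → ℂ)

/-- vertical strips, `Vs 0` is the right end -/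
def Vs (j : ℕ) : Set ℂ :=
  {z | ∀ i : Fin m, (i.val < j → z.re < (a i).re) ∧ (j ≤ i.val → (a i).re < z.re)}

/-- double strips -/
def Ws (i : Fin m) : Set ℂ :=
  {z | ∀ k : Fin m, (k < i → z.re < (a k).re) ∧ (i < k → (a k).re < z.re)}

/-- above `a i` -/
def As (i : Fin m) : Set ℂ := Ws a i ∩ {z | (a i).im < z.im}

/-- below `a i` -/
def Bs (i : Fin m) : Set ℂ := Ws a i ∩ {z | z.im < (a i).im}

theorem convex_imp {P : Prop} {s : Set ℂ} (h : Convex ℝ s) : Convex ℝ {z | P → z ∈ s} := by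
  by_cases hP : P
  · simpa [hP] using h
  · simpa [hP] using convex_univ

theorem isOpen_imp {P : Prop} {s : Set ℂ} (h : IsOpen s) : IsOpen {z | P → z ∈ s} := by
  by_cases hP : P
  · simpa [hP] using h
  · simp [hP]

theorem open_lt (r : ℝ) : IsOpen {z : ℂ | z.re < r} :=
  isOpen_lt Complex.continuous_re continuous_const

theorem open_gt (r : ℝ) : IsOpen {z : ℂ | r < z.re} :=
  isOpen_lt continuous_const Complex.continuous_re

theorem convex_Vs (j : ℕ) : Convex ℝ (Vs a j) := by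
  unfold Vs
  rw [Set.ofPred_forall]
  exact convex_iInter fun i => (convex_imp (convex_halfSpace_re_lt _)).inter
    (convex_imp (convex_halfSpace_re_gt _))

theorem convex_Ws (i : Fin m) : Convex ℝ (Ws a i) := by
  unfold Ws
  rw [Set.ofPred_forall]
  exact convex_iInter fun i => (convex_imp (convex_halfSpace_re_lt _)).inter
    (convex_imp (convex_halfSpace_re_gt _))

theorem open_Vs (j : ℕ) : IsOpen (Vs a j) := by
  unfold Vs
  rw [Set.ofPred_forall]
  exact isOpen_iInter_of_finite fun i => (isOpen_imp (open_lt _)).inter (isOpen_imp (open_gt _))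

theorem open_Ws (i : Fin m) : IsOpen (Ws a i) := by
  unfold Ws
  rw [Set.ofPred_forall]
  exact isOpen_iInter_of_finite fun i => (isOpen_imp (open_lt _)).inter (isOpen_imp (open_gt _))

theorem convex_As (i : Fin m) : Convex ℝ (As a i) :=
  (convex_Ws a i).inter (convex_halfSpace_im_gt _)

theorem convex_Bs (i : Fin m) : Convex ℝ (Bs a i) :=
  (convex_Ws a i).inter (convex_halfSpace_im_lt _)

theorem open_As (i : Fin m) : IsOpen (As a i) :=
  (open_Ws a i).inter (isOpen_lt continuous_const Complex.continuous_im)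

theorem open_Bs (i : Fin m) : IsOpen (Bs a i) :=
  (open_Ws a i).inter (isOpen_lt Complex.continuous_im continuous_const)

theorem Vs_off (j : ℕ) : ∀ z ∈ Vs a j, z ∉ range a := by
  rintro z hz ⟨k, rfl⟩
  rcases lt_or_ge k.val j with h | h
  · exact lt_irrefl _ ((hz k).1 h)
  · exact lt_irrefl _ ((hz k).2 h)

theorem Ws_off (i : Fin m) : ∀ z ∈ Ws a i, z ≠ a i → z ∉ range a := by
  rintro z hz hne ⟨k, rfl⟩
  rcases lt_trichotomy k i with h | h | h
  · exact lt_irrefl _ ((hz k).1 h)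
  · exact hne (by rw [h])
  · exact lt_irrefl _ ((hz k).2 h)

theorem As_off (i : Fin m) : ∀ z ∈ As a i, z ∉ range a := fun z hz =>
  Ws_off a i z hz.1 (by rintro rfl; exact lt_irrefl _ (show (a i).im < (a i).im from hz.2))

theorem Bs_off (i : Fin m) : ∀ z ∈ Bs a i, z ∉ range a := fun z hz =>
  Ws_off a i z hz.1 (by rintro rfl; exact lt_irrefl _ (show (a i).im < (a i).im from hz.2))

theorem Vs_sub_right (i : Fin m) : Vs a i ⊆ Ws a i := fun _ hz k =>
  ⟨fun h => (hz k).1 h, fun h => (hz k).2 (le_of_lt h)⟩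

theorem Vs_sub_left (i : Fin m) : Vs a (i + 1) ⊆ Ws a i := fun _ hz k =>
  ⟨fun h => (hz k).1 (Nat.lt_succ_of_lt h), fun h => (hz k).2 h⟩

theorem mem_Vs_right {i : Fin m} {z : ℂ} (hz : z ∈ Ws a i) (h : (a i).re < z.re) : z ∈ Vs a i := by
  intro k
  refine ⟨fun hk => (hz k).1 hk, fun hk => ?_⟩
  rcases eq_or_lt_of_le hk with h1 | h1
  · rw [← Fin.ext h1]; exact h
  · exact (hz k).2 h1

theorem mem_Vs_left {i : Fin m} {z : ℂ} (hz : z ∈ Ws a i) (h : z.re < (a i).re) :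
    z ∈ Vs a (i + 1) := by
  intro k
  refine ⟨fun hk => ?_, fun hk => (hz k).2 hk⟩
  rcases eq_or_lt_of_le (Nat.lt_succ_iff.1 hk) with h1 | h1
  · rw [Fin.ext h1]; exact h
  · exact (hz k).1 h1

theorem Vs_unique {j j' : ℕ} (hj : j ≤ m) (hj' : j' ≤ m) {z : ℂ} (h : z ∈ Vs a j)
    (h' : z ∈ Vs a j') : j = j' := by
  rcases lt_trichotomy j j' with h1 | h1 | h1
  · exact absurd (((h ⟨j, by omega⟩).2 le_rfl).trans ((h' ⟨j, by omega⟩).1 h1)) (lt_irrefl _)
  · exact h1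
  · exact absurd (((h' ⟨j', by omega⟩).2 le_rfl).trans ((h ⟨j', by omega⟩).1 h1)) (lt_irrefl _)

variable {a}

theorem mem_Ws_of_re (ha : StrictAnti fun i => (a i).re) {i : Fin m} {z : ℂ}
    (h : z.re = (a i).re) : z ∈ Ws a i := fun k =>
  ⟨fun hk => by rw [h]; exact ha hk, fun hk => by rw [h]; exact ha hk⟩

theorem ex_xi (ha : StrictAnti fun i => (a i).re) (j : ℕ) :
    ∃ ξ : ℝ, ∀ y : ℝ, (⟨ξ, y⟩ : ℂ) ∈ Vs a j := by
  classical
  obtain ⟨ξ, h1, h2⟩ := Finset.exists_between'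
    ((Finset.univ.filter fun i : Fin m => j ≤ i.val).image fun i => (a i).re)
    ((Finset.univ.filter fun i : Fin m => i.val < j).image fun i => (a i).re) (by
      intro x hx y hy
      obtain ⟨i, hi, rfl⟩ := Finset.mem_image.1 hx
      obtain ⟨k, hk, rfl⟩ := Finset.mem_image.1 hy
      have hi' := (Finset.mem_filter.1 hi).2
      have hk' := (Finset.mem_filter.1 hk).2
      exact ha (show k < i from Fin.lt_def.2 (by omega)))
  refine ⟨ξ, fun y i => ⟨fun hi => h2 _ ?_, fun hi => h1 _ ?_⟩⟩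
  · exact Finset.mem_image_of_mem _ (Finset.mem_filter.2 ⟨Finset.mem_univ _, hi⟩)
  · exact Finset.mem_image_of_mem _ (Finset.mem_filter.2 ⟨Finset.mem_univ _, hi⟩)

theorem ex_Vs (ha : StrictAnti fun i => (a i).re) {z : ℂ} (hz : ∀ i, z.re ≠ (a i).re) :
    ∃ j ≤ m, z ∈ Vs a j := by
  classical
  have hex : ∃ j : ℕ, ∀ i : Fin m, j ≤ i.val → (a i).re < z.re :=
    ⟨m, fun i hi => absurd i.2 (not_lt.2 hi)⟩
  refine ⟨Nat.find hex, Nat.find_min' hex fun i hi => absurd i.2 (not_lt.2 hi), fun i =>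
    ⟨fun hi => ?_, Nat.find_spec hex i⟩⟩
  have h1 := Nat.find_min hex hi
  push Not at h1
  obtain ⟨k, hk, hk'⟩ := h1
  have h2 : (a k).re ≤ (a i).re := ha.antitone (show i ≤ k from hk)
  exact lt_of_le_of_ne (hk'.trans h2) (hz i)

theorem prod_of_rec {H : Type} [Group H] : ∀ {m : ℕ} (s : Fin m → H) (c : ℕ → H),
    (∀ i : Fin m, c i = s i * c (i + 1)) → c 0 = (List.ofFn s).prod * c m
  | 0, _, _, _ => by simp
  | m + 1, s, c, h => by
    have h1 := prod_of_rec (fun i : Fin m => s i.succ) (fun j => c (j + 1)) fun i => h i.succ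
    have h0 := h 0
    simp only [Fin.val_zero] at h0
    rw [List.ofFn_succ, List.prod_cons, mul_assoc, ← h1, h0]

/-- **monodromy** -/
theorem monoStmt : MonoStmt := by
  intro H _ _ m a ha D Q act c
  classical
  obtain ⟨M, hM0, hM⟩ : ∃ M : ℝ, 0 < M ∧ ∀ i, ‖a i‖ < M := by
    refine ⟨∑ i, ‖a i‖ + 1, by positivity, fun i => ?_⟩
    have := Finset.single_le_sum (f := fun i => ‖a i‖) (fun i _ => norm_nonneg _)
      (Finset.mem_univ i)
    linarith
  have hre : ∀ i, |(a i).re| < M := fun i => (Complex.abs_re_le_norm _).trans_lt (hM i)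
  have him : ∀ i, |(a i).im| < M := fun i => (Complex.abs_im_le_norm _).trans_lt (hM i)
  choose ξ hξ using ex_xi ha
  set Tp : Set ℂ := {z | M < z.im} with hTp
  set Tm : Set ℂ := {z | z.im < -M} with hTm
  have cTp : Convex ℝ Tp := convex_halfSpace_im_gt _
  have cTm : Convex ℝ Tm := convex_halfSpace_im_lt _
  have oTp : ∀ z ∈ Tp, z ∉ range a := by
    rintro z hz ⟨i, rfl⟩
    exact lt_irrefl _ ((show M < (a i).im from hz).trans (abs_lt.1 (him i)).2)
  have oTm : ∀ z ∈ Tm, z ∉ range a := by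
    rintro z hz ⟨i, rfl⟩
    exact lt_irrefl _ ((show (a i).im < -M from hz).trans (abs_lt.1 (him i)).1)
  let up : ℕ → ℂ := fun j => ⟨ξ j, M + 1⟩
  let dn : ℕ → ℂ := fun j => ⟨ξ j, -M - 1⟩
  have upT : ∀ j, up j ∈ Tp := fun j => show M < M + 1 by linarith
  have dnT : ∀ j, dn j ∈ Tm := fun j => show -M - 1 < -M by linarith
  have upV : ∀ j, up j ∈ Vs a j := fun j => hξ j _
  have dnV : ∀ j, dn j ∈ Vs a j := fun j => hξ j _
  have upA : ∀ (i : Fin m) j, up j ∈ Ws a i → up j ∈ As a i := fun i j h =>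
    ⟨h, show (a i).im < M + 1 by linarith [(abs_lt.1 (him i)).2]⟩
  have dnB : ∀ (i : Fin m) j, dn j ∈ Ws a i → dn j ∈ Bs a i := fun i j h =>
    ⟨h, show -M - 1 < (a i).im by linarith [(abs_lt.1 (him i)).1]⟩
  obtain ⟨t₀, ht₀⟩ := c.ex_root (up 0)
  obtain ⟨ω, hω, -⟩ := c.ex_sec cTp (p := id) continuousOn_id oTp (upT 0) ht₀
  choose σ hσ hσω using fun j => c.ex_cont cTp (convex_Vs a j) hω (Vs_off a j) ⟨_, upT j, upV j⟩
  choose α hα hαω using fun i => c.ex_cont cTp (convex_As a i) hω (As_off a i)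
    ⟨_, upT i, upA i i (Vs_sub_right a i (upV i))⟩
  have hασ : ∀ (i : Fin m) j, Vs a j ⊆ Ws a i → ∀ z ∈ As a i ∩ Vs a j, α i z = σ j z := by
    intro i j hj
    have h1 := upA i j (hj (upV j))
    exact c.uniq ((convex_As a i).inter (convex_Vs a j)).isPreconnected
      ((hα i).mono inter_subset_left) ((hσ j).mono inter_subset_right) ⟨h1, upV j⟩
      (by rw [hαω i _ ⟨upT j, h1⟩, hσω j _ ⟨upT j, upV j⟩])
  choose β hβ hβσ using fun i : Fin m => c.ex_cont (convex_Vs a (i + 1)) (convex_Bs a i)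
    (hσ (i + 1)) (Bs_off a i) ⟨_, dnV (i + 1), dnB i _ (Vs_sub_left a i (dnV _))⟩
  choose s hs using fun i : Fin m => c.cmp ((convex_Bs a i).inter (convex_Vs a i)).isPreconnected
    ((hσ i).mono inter_subset_right) ((hβ i).mono inter_subset_left)
    ⟨_, dnB i _ (Vs_sub_right a i (dnV _)), dnV i⟩
  simp only [id] at hs
  refine ⟨s, fun i => ?_, ?_, ?_⟩
  · obtain ⟨ε, hε, hball⟩ := Metric.isOpen_iff.1 (open_Ws a i) (a i) (mem_Ws_of_re ha rfl)
    obtain ⟨ρ, hρ⟩ := ex_rho hε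
    have hW : ∀ w : ℂ, ρ < w.im → a i + ee w ∈ Ws a i := fun w hw =>
      hball (by rw [Metric.mem_ball, dist_eq_norm, add_sub_cancel_left, norm_ee]; exact hρ w hw)
    refine c.per_of_sectors (ρ := ρ) (continuous_const.add continuous_ee).continuousOn
      (fun w hw => Ws_off a i _ (hW w hw) ?_) (hα i) (hσ (i + 1)) (hβ i) (hσ i)
      (hασ i _ (Vs_sub_left a i)) (fun z hz => (hβσ i z hz).symm) (hs i)
      (fun z hz => (hασ i _ (Vs_sub_right a i) z ⟨hz.2, hz.1⟩).symm) ?_ ?_ ?_ ?_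
    · intro h
      have h1 : ee w = 0 := by simpa using h
      exact Complex.exp_ne_zero _ h1
    · intro w hw
      refine ⟨hW w hw.1, ?_⟩
      have := sec1 hw.2.1 hw.2.2
      have := rr_pos w
      show (a i).im < (a i + ee w).im
      rw [Complex.add_im]; linarith
    · intro w hw
      refine mem_Vs_left a (hW w hw.1) ?_
      have := sec2 hw.2.1 hw.2.2
      have := rr_pos w
      rw [Complex.add_re]; linarith
    · intro w hw
      refine ⟨hW w hw.1, ?_⟩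
      have := sec3 hw.2.1 hw.2.2
      have := rr_pos w
      show (a i + ee w).im < (a i).im
      rw [Complex.add_im]; linarith
    · intro w hw
      refine mem_Vs_right a (hW w hw.1) ?_
      have := sec4 hw.2.1 hw.2.2
      have := rr_pos w
      rw [Complex.add_re]; linarith
  · obtain ⟨ω', hω', hω'σ⟩ := c.ex_cont (convex_Vs a m) cTm (hσ m) oTm ⟨_, dnV m, dnT m⟩
    choose cc hcc using fun j => c.cmp (cTm.inter (convex_Vs a j)).isPreconnected
      ((hσ j).mono inter_subset_right) (hω'.mono inter_subset_left) ⟨_, dnT j, dnV j⟩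
    simp only [id] at hcc
    have hcm : cc m = 1 := by
      refine c.free _ _ (dn m) (σ m (dn m)) (Vs_off a m _ (dnV m)) ((hσ m).root _ (dnV m)) ?_
      rw [← hcc m _ ⟨dnT m, dnV m⟩, hω'σ _ ⟨dnV m, dnT m⟩,
        c.act_one (Vs_off a m _ (dnV m)) ((hσ m).root _ (dnV m))]
    have hrec : ∀ i : Fin m, cc i = s i * cc (i + 1) := by
      intro i
      have b1 := dnB i _ (Vs_sub_left a i (dnV (i + 1)))
      have b2 := dnB i _ (Vs_sub_right a i (dnV i))
      have h1 := c.uniq (cTm.inter (convex_Bs a i)).isPreconnected (hω'.mono inter_subset_left)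
        (c.act_sec ((hβ i).mono inter_subset_right) (cc (i + 1))) ⟨dnT (i + 1), b1⟩
        (by rw [hcc (i + 1) _ ⟨dnT _, dnV _⟩, hβσ i _ ⟨dnV _, b1⟩]; rfl) (dn i) ⟨dnT i, b2⟩
      simp only [id] at h1
      refine c.free _ _ (dn i) (σ i (dn i)) (Vs_off a i _ (dnV i)) ((hσ i).root _ (dnV i)) ?_
      rw [← hcc i _ ⟨dnT i, dnV i⟩, h1, hs i _ ⟨b2, dnV i⟩,
        c.act_mul _ _ _ _ (Vs_off a i _ (dnV i)) ((hσ i).root _ (dnV i))]
    have hc0 : cc 0 = (List.ofFn s).prod := by rw [prod_of_rec s cc hrec, hcm, mul_one]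
    obtain ⟨ρ, hρ⟩ := ex_rho (ε := 1 / (2 * M)) (by positivity)
    have hre' : ∀ w : ℂ, (ee w)⁻¹.re = (ee w).re / (rr w) ^ 2 := fun w => by
      rw [Complex.inv_re, Complex.normSq_eq_norm_sq, norm_ee]
    have him' : ∀ w : ℂ, (ee w)⁻¹.im = -(ee w).im / (rr w) ^ 2 := fun w => by
      rw [Complex.inv_im, Complex.normSq_eq_norm_sq, norm_ee]
    have hbig : ∀ w : ℂ, ρ < w.im → ∀ y : ℝ, rr w / 2 < y → M < y / (rr w) ^ 2 := by
      intro w hw y hy
      have h1 := hρ w hw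
      have h2 := rr_pos w
      rw [lt_div_iff₀ (by positivity)] at h1 ⊢
      nlinarith
    rw [← hc0]
    refine c.per_of_sectors (ρ := ρ)
      (continuous_ee.inv₀ fun w => Complex.exp_ne_zero _).continuousOn (fun w hw => ?_) hω' (hσ m)
      hω (c.act_sec (hσ 0) (cc 0)) (fun z hz => hω'σ z ⟨hz.2, hz.1⟩)
      (fun z hz => hσω m z ⟨hz.2, hz.1⟩) (fun z hz => ?_)
      (fun z hz => (hcc 0 z ⟨hz.2, hz.1⟩).symm) ?_ ?_ ?_ ?_
    · rintro ⟨i, hi⟩
      have h1 := hM i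
      have h2 := hρ w hw
      have h3 := rr_pos w
      rw [hi, norm_inv, norm_ee, inv_lt_comm₀ h3 hM0, ← one_div, div_lt_iff₀ hM0] at h1
      rw [lt_div_iff₀ (by positivity)] at h2
      nlinarith
    · simp only [id]
      rw [c.act_mul _ _ _ _ (Vs_off a 0 _ hz.2) ((hσ 0).root _ hz.2), mul_inv_cancel,
        c.act_one (Vs_off a 0 _ hz.2) ((hσ 0).root _ hz.2), hσω 0 z hz]
    · intro w hw
      have h1 := hbig w hw.1 _ (sec1 hw.2.1 hw.2.2)
      show (ee w)⁻¹.im < -M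
      rw [him', neg_div]; linarith
    · intro w hw i
      have h1 := hbig w hw.1 (-(ee w).re) (by linarith [sec2 hw.2.1 hw.2.2])
      refine ⟨fun _ => ?_, fun h => absurd i.2 (not_lt.2 h)⟩
      rw [neg_div] at h1
      rw [hre']; linarith [(abs_lt.1 (hre i)).1]
    · intro w hw
      have h1 := hbig w hw.1 (-(ee w).im) (by linarith [sec3 hw.2.1 hw.2.2])
      show M < (ee w)⁻¹.im
      rw [him']; exact h1
    · intro w hw i
      have h1 := hbig w hw.1 _ (sec4 hw.2.1 hw.2.2)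
      refine ⟨fun h => absurd h (Nat.not_lt_zero _), fun _ => ?_⟩
      rw [hre']; linarith [(abs_lt.1 (hre i)).2]
  · set Γ := Subgroup.closure (range s) with hΓ
    let sel : ℂ → ℂ := fun z =>
      if h : ∃ j ≤ m, z ∈ Vs a j then σ h.choose z
      else if h' : ∃ i, z.re = (a i).re then
        (if (a h'.choose).im < z.im then α h'.choose z else β h'.choose z) else 0
    have selV : ∀ j ≤ m, ∀ z ∈ Vs a j, sel z = σ j z := by
      intro j hj z hz
      have h : ∃ j ≤ m, z ∈ Vs a j := ⟨j, hj, hz⟩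
      simp only [sel, dif_pos h]
      rw [Vs_unique a h.choose_spec.1 hj h.choose_spec.2 hz]
    have selW : ∀ (i : Fin m) (z : ℂ), z.re = (a i).re →
        sel z = if (a i).im < z.im then α i z else β i z := by
      intro i z hz
      have h : ¬ ∃ j ≤ m, z ∈ Vs a j := by
        rintro ⟨j, -, hj⟩
        rcases lt_or_ge i.val j with h | h
        · exact ((hj i).1 h).ne hz
        · exact ((hj i).2 h).ne' hz
      have h' : ∃ i, z.re = (a i).re := ⟨i, hz⟩
      have h2 : h'.choose = i := ha.injective (h'.choose_spec.symm.trans hz)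
      simp only [sel, dif_neg h, dif_pos h', h2]
    have fin : ∀ {T : Set ℂ} {τ : ℂ → ℂ}, IsOpen T → Sec (range a) Q T id τ →
        (∀ z ∈ T, ∃ h ∈ Γ, sel z = act h z (τ z)) → ∀ z₀ ∈ T, ∃ σ : ℂ → ℂ, ∀ᶠ z in 𝓝 z₀,
          ContinuousAt σ z ∧ (Q z).eval (σ z) = 0 ∧ ∃ h ∈ Γ, sel z = act h z (σ z) := by
      intro T τ hT hτ h z₀ hz₀
      refine ⟨τ, ?_⟩
      filter_upwards [hT.mem_nhds hz₀] with z hz
      exact ⟨hτ.cont.continuousAt (hT.mem_nhds hz), hτ.root z hz, h z hz⟩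
    refine ⟨sel, fun z₀ hz₀ => ?_⟩
    by_cases h : ∃ i, z₀.re = (a i).re
    · obtain ⟨i, hi⟩ := h
      have hW := mem_Ws_of_re ha hi
      rcases lt_trichotomy (a i).im z₀.im with h1 | h1 | h1
      · refine fin (open_As a i) (hα i) (fun z hz => ⟨1, Γ.one_mem, ?_⟩) z₀ ⟨hW, h1⟩
        rw [c.act_one (As_off a i z hz) ((hα i).root z hz)]
        rcases lt_trichotomy z.re (a i).re with h2 | h2 | h2
        · have h3 := mem_Vs_left a hz.1 h2
          rw [selV _ i.2 z h3, hασ i _ (Vs_sub_left a i) z ⟨hz, h3⟩]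
        · rw [selW i z h2, if_pos (show (a i).im < z.im from hz.2)]
        · have h3 := mem_Vs_right a hz.1 h2
          rw [selV _ i.2.le z h3, hασ i _ (Vs_sub_right a i) z ⟨hz, h3⟩]
      · exact absurd ⟨i, Complex.ext hi.symm h1⟩ hz₀
      · refine fin (open_Bs a i) (hβ i) (fun z hz => ?_) z₀ ⟨hW, h1⟩
        have h0 := c.act_one (Bs_off a i z hz) ((hβ i).root z hz)
        rcases lt_trichotomy z.re (a i).re with h2 | h2 | h2
        · have h3 := mem_Vs_left a hz.1 h2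
          exact ⟨1, Γ.one_mem, by rw [h0, selV _ i.2 z h3, hβσ i z ⟨h3, hz⟩]⟩
        · exact ⟨1, Γ.one_mem, by
            rw [h0, selW i z h2, if_neg (not_lt.2 (le_of_lt (show z.im < (a i).im from hz.2)))]⟩
        · have h3 := mem_Vs_right a hz.1 h2
          refine ⟨(s i)⁻¹, Γ.inv_mem (Subgroup.subset_closure ⟨i, rfl⟩), ?_⟩
          rw [selV _ i.2.le z h3, hs i z ⟨hz, h3⟩,
            c.act_mul _ _ _ _ (Vs_off a i _ h3) ((hσ i).root _ h3), mul_inv_cancel,
            c.act_one (Vs_off a i _ h3) ((hσ i).root _ h3)]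
    · push Not at h
      obtain ⟨j, hj, hz⟩ := ex_Vs ha h
      refine fin (open_Vs a j) (hσ j) (fun z hz => ⟨1, Γ.one_mem, ?_⟩) z₀ hz
      rw [c.act_one (Vs_off a j z hz) ((hσ j).root z hz), selV j hj z hz]

end Crest.Agent.T170.Ret
end
end

-- ▼ part T170/RetG_90
section

/-!
# Row 170, RET (G), assembly (helper90): `GStmt` from the leaves
-/

set_option autoImplicit false

open Polynomial Filter Topology Set

noncomputable section

namespace Crest.Agent.T170.Ret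

section scale

variable {H : Type} [Group H] {Z Z' : Set ℂ} {D : ℕ} {Q : ℂ → ℂ[X]} {act : H → ℂ → ℂ → ℂ}

theorem IsCov.scale (c : IsCov Z D Q act) (μ : ℂ) (hZ : ∀ u, u ∈ Z' ↔ μ * u ∈ Z) :
    IsCov Z' D (fun u => Q (μ * u)) (fun g u t => act g (μ * u) t) where
  pos := c.pos
  monic _ := c.monic _
  deg _ := c.deg _
  cont i := (c.cont i).comp (continuous_const.mul continuous_id)
  nodup _ h := c.nodup _ fun h' => h ((hZ _).2 h')
  act_cont g z t h :=
    ContinuousAt.comp (f := fun p : ℂ × ℂ => (μ * p.1, p.2)) (x := (z, t))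
      (g := fun p : ℂ × ℂ => act g p.1 p.2)
      (c.act_cont g (μ * z) t fun h' => h ((hZ _).2 h')) (by fun_prop)
  act_root g _ t h := c.act_root g _ t fun h' => h ((hZ _).2 h')
  act_mul g g' _ t h := c.act_mul g g' _ t fun h' => h ((hZ _).2 h')
  trans _ t t' h := c.trans _ t t' fun h' => h ((hZ _).2 h')
  free g g' _ t h := c.free g g' _ t fun h' => h ((hZ _).2 h')

omit [Group H] in
theorem Per.unscale {μ : ℂ} (hZ : ∀ u, u ∈ Z' ↔ μ * u ∈ Z) {p p' : ℂ → ℂ}
    (hp : ∀ e, μ * p' e = p e) {g : H}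
    (h : Per Z' (fun u => Q (μ * u)) (fun g u t => act g (μ * u) t) p' g) : Per Z Q act p g := by
  obtain ⟨ρ, τ, h⟩ := h
  refine ⟨ρ, τ, fun w hw => ?_⟩
  obtain ⟨h1, h2, h3, h4⟩ := h w hw
  simp only [hp] at h3 h4
  exact ⟨h1, fun h' => h2 ((hZ _).2 (by rwa [hp])), h3, h4⟩

theorem Sel.unscale {μ : ℂ} (hμ : μ ≠ 0) (hZ : ∀ u, u ∈ Z' ↔ μ * u ∈ Z) {Γ : Subgroup H}
    (h : Sel Z' (fun u => Q (μ * u)) (fun g u t => act g (μ * u) t) Γ) : Sel Z Q act Γ := by
  obtain ⟨sel, h⟩ := h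
  refine ⟨fun z => sel (μ⁻¹ * z), fun z₀ hz₀ => ?_⟩
  obtain ⟨σ, hσ⟩ := h (μ⁻¹ * z₀) fun h' => hz₀ (by
    have := (hZ _).1 h'
    rwa [mul_inv_cancel_left₀ hμ] at this)
  have hc : Continuous fun z : ℂ => μ⁻¹ * z := continuous_const.mul continuous_id
  refine ⟨fun z => σ (μ⁻¹ * z), ?_⟩
  filter_upwards [(hc.tendsto z₀).eventually hσ] with z hz
  obtain ⟨h1, h2, h3⟩ := hz
  simp only [mul_inv_cancel_left₀ hμ] at h2 h3
  exact ⟨ContinuousAt.comp (f := fun z : ℂ => μ⁻¹ * z) h1 hc.continuousAt, h2, h3⟩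

end scale

/-- a rotation which separates the real parts -/
theorem exists_rot (F : Finset ℂ) :
    ∃ l : ℂ, l ≠ 0 ∧ Set.InjOn (fun z => (l * z).re) F := by
  classical
  obtain ⟨t, ht⟩ := Infinite.exists_notMem_finset
    ((F ×ˢ F).image fun p : ℂ × ℂ => (p.1 - p.2).re / (p.1 - p.2).im)
  refine ⟨⟨1, t⟩, fun h => by simpa using congrArg Complex.re h, fun z hz w hw h => ?_⟩
  simp only [Complex.mul_re, one_mul] at h
  by_cases h0 : (z - w).im = 0
  · rw [Complex.sub_im, sub_eq_zero] at h0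
    rw [h0] at h
    exact Complex.ext (by linarith) h0
  · exfalso
    apply ht
    refine Finset.mem_image.2 ⟨(z, w), Finset.mem_product.2 ⟨hz, hw⟩, ?_⟩
    rw [div_eq_iff h0, Complex.sub_re, Complex.sub_im]
    linarith

/-- enumeration by decreasing real parts after a rotation -/
theorem exists_enum (F : Finset ℂ) :
    ∃ (l : ℂ) (a : Fin F.card → ℂ), l ≠ 0 ∧ StrictAnti (fun i => (l * a i).re) ∧
      Set.range a = F := by
  obtain ⟨l, hl, hinj⟩ := exists_rot F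
  have hinj' : Function.Injective fun z : F => -(l * z.1).re := fun z w h =>
    Subtype.ext (hinj z.2 w.2 (neg_injective h))
  letI : LinearOrder F := LinearOrder.lift' _ hinj'
  let e : Fin F.card ≃o F := monoEquivOfFin F (Fintype.card_coe F)
  refine ⟨l, fun i => (e i).1, hl, fun i j hij => ?_, ?_⟩
  · have h : -(l * (e i).1).re < -(l * (e j).1).re := e.strictMono hij
    exact neg_lt_neg_iff.1 h
  · ext z
    constructor
    · rintro ⟨i, rfl⟩
      exact (e i).2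
    · intro hz
      exact ⟨e.symm ⟨z, hz⟩, by simp⟩

/-- **(G)** from the leaves -/
theorem gStmt_of (h1 : ModelStmt) (h2 : CovStmt) (h3 : LocFinStmt) (h4 : LocInfStmt)
    (h5 : GenStmt) : GStmt := by
  intro K N _ _ _ _ _ _ x hx n hn hg S
  classical
  obtain ⟨M⟩ := h1 K N x hx S
  obtain ⟨l, a, hl, ha, hr⟩ := exists_enum M.d.roots.toFinset
  have hZ : ∀ z, z ∈ Set.range a ↔ z ∈ M.Z := fun z => by
    rw [hr, Finset.mem_coe, Multiset.mem_toFinset, mem_roots M.d_ne]; rfl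
  have hZ' : ∀ u, u ∈ Set.range (fun i => l * a i) ↔ l⁻¹ * u ∈ M.Z := fun u => by
    rw [← hZ]
    constructor
    · rintro ⟨i, rfl⟩
      exact ⟨i, by rw [inv_mul_cancel_left₀ hl]⟩
    · rintro ⟨i, hi⟩
      exact ⟨i, by simp only [hi, mul_inv_cancel_left₀ hl]⟩
  obtain ⟨s, hs1, hs2, hs3⟩ := monoStmt (N ≃ₐ[K] N) _ (fun i => l * a i) ha _ _ _
    ((h2 K N x hx S M).scale l⁻¹ hZ')
  refine ⟨_, a, s, fun i j h => ha.injective (by simp only [h]), fun b hb => (hZ b).2 (M.dS b hb),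
    fun i => ?_, ?_, ?_⟩
  · refine h3 K N x hx S M n hn _ (hg _) (a i) l⁻¹ (inv_ne_zero hl) ((hs1 i).unscale hZ' ?_)
    intro e
    rw [mul_add, inv_mul_cancel_left₀ hl]
  · exact h4 K N x hx S M n hn _ (hg _) l⁻¹ (inv_ne_zero hl) (hs2.unscale hZ' fun _ => rfl)
  · exact h5 K N x hx S M _ (hs3.unscale (inv_ne_zero hl) hZ')

end Crest.Agent.T170.Ret
end
end

-- ▼ part T170/RetModel_65

/-!
# Row 170, module C, leaf `ModelStmt` (helper65): existence of plane models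
-/

set_option autoImplicit false

open Polynomial

noncomputable section

namespace Crest.Agent.T170.Ret

section general

variable {R K N : Type} [CommRing R] [IsDomain R] [Field K] [Field N] [Algebra R K]
  [IsFractionRing R K] [Algebra K N] [Algebra R N] [IsScalarTower R K N] [FiniteDimensional K N]

theorem exists_int_prim_65 [Algebra.IsSeparable K N] :
    ∃ θ : N, IsIntegral R θ ∧ IntermediateField.adjoin K {θ} = ⊤ := by
  obtain ⟨α, hα⟩ := Field.exists_primitive_element K N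
  have := IsLocalization.isAlgebraic K (nonZeroDivisors R)
  have := Algebra.IsAlgebraic.trans R K N
  obtain ⟨y, hy, hint⟩ := (Algebra.IsAlgebraic.isAlgebraic (R := R) α).exists_integral_multiple
  refine ⟨y • α, hint, ?_⟩
  rw [eq_top_iff, ← hα, IntermediateField.adjoin_simple_le_iff]
  have hyK : algebraMap R K y ≠ 0 := by
    simpa using hy
  have h1 : α = (algebraMap R K y)⁻¹ • (y • α) := by
    rw [← algebraMap_smul K y α, smul_smul, inv_mul_cancel₀ hyK, one_smul]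
  rw [h1]
  have h2 : y • α ∈ IntermediateField.adjoin K {y • α} :=
    IntermediateField.mem_adjoin_simple_self K _
  have := IntermediateField.smul_mem _ (x := (algebraMap R K y)⁻¹) h2
  rw [← h1] at this ⊢
  exact this

theorem gen_65 {θ : N} (hθ : IntermediateField.adjoin K {θ} = ⊤) (f : N) :
    ∃ B : R, B ≠ 0 ∧ ∃ A' : R[X], algebraMap R N B * f = A'.eval₂ (algebraMap R N) θ := by
  have halg : IsAlgebraic K θ := Algebra.IsAlgebraic.isAlgebraic θ
  have hf : f ∈ (IntermediateField.adjoin K {θ}).toSubalgebra := by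
    rw [hθ]; trivial
  rw [IntermediateField.adjoin_simple_toSubalgebra_of_isAlgebraic halg,
    Algebra.adjoin_singleton_eq_range_aeval] at hf
  obtain ⟨q, hq⟩ := hf
  obtain ⟨b, hb, hbq⟩ := IsLocalization.integerNormalization_spec (nonZeroDivisors R) q
  refine ⟨b, nonZeroDivisors.ne_zero hb, IsLocalization.integerNormalization (nonZeroDivisors R) q,
    ?_⟩
  have h1 := congrArg (aeval θ) hbq
  rw [aeval_map_algebraMap, ← algebraMap_smul K b q, map_smul] at h1
  rw [← aeval_def, h1, Algebra.smul_def, ← IsScalarTower.algebraMap_apply]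
  congr 1
  exact hq.symm

theorem prod_65 [IsGalois K N] {θ : N} (hθ : IntermediateField.adjoin K {θ} = ⊤) :
    (minpoly K θ).map (algebraMap K N) = ∏ g : N ≃ₐ[K] N, (X - C (g θ)) := by
  classical
  have hint : IsIntegral K θ := Algebra.IsIntegral.isIntegral θ
  have hinj : Function.Injective fun g : N ≃ₐ[K] N => g θ := by
    intro g h hgh
    have h1 : (g : N →ₐ[K] N) = (h : N →ₐ[K] N) := by
      have := (Field.primitive_element_iff_algHom_eq_of_eval' K N
        (fun z => IsGalois.splits K z) θ).1 hθ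
      exact this hgh
    exact AlgEquiv.coe_toAlgHom_injective h1
  have hdeg : (minpoly K θ).natDegree = Fintype.card (N ≃ₐ[K] N) := by
    rw [← Nat.card_eq_fintype_card, IsGalois.card_aut_eq_finrank,
      (Field.primitive_element_iff_minpoly_natDegree_eq K θ).1 hθ]
  apply eq_of_monic_of_dvd_of_natDegree_le
  · exact monic_prod_of_monic _ _ fun g _ => monic_X_sub_C _
  · exact (minpoly.monic hint).map _
  · apply Finset.prod_dvd_of_coprime
    · intro g _ h _ hgh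
      exact pairwise_coprime_X_sub_C hinj hgh
    · intro g _
      rw [dvd_iff_isRoot, IsRoot.def, eval_map_algebraMap, aeval_algHom_apply, minpoly.aeval,
        map_zero]
  · rw [natDegree_map, hdeg, natDegree_prod_of_monic _ _ fun g _ => monic_X_sub_C _]
    simp

end general

theorem modelStmt_65 : ModelStmt := by
  intro K N _ _ _ _ _ _ x hx S
  classical
  let : Algebra ℂ[X] K := (Polynomial.aeval x : ℂ[X] →ₐ[ℂ] K).toRingHom.toAlgebra
  have hinjK : Function.Injective (algebraMap ℂ[X] K) :=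
    (transcendental_iff_injective).1 hx.1
  have : FaithfulSMul ℂ[X] K := (faithfulSMul_iff_algebraMap_injective _ _).2 hinjK
  have : IsFractionRing ℂ[X] K := IsFractionRing.of_field _ _ fun z => by
    have hz : z ∈ IntermediateField.adjoin ℂ {x} := by rw [hx.2]; trivial
    obtain ⟨r, s, h⟩ := (IntermediateField.mem_adjoin_simple_iff ℂ z).1 hz
    exact ⟨r, s, h⟩
  let : Algebra ℂ[X] N := (xh N x).toAlgebra
  have : IsScalarTower ℂ[X] K N := IsScalarTower.of_algebraMap_eq fun _ => rfl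
  have hinjN : Function.Injective (algebraMap ℂ[X] N) :=
    (algebraMap K N).injective.comp hinjK
  have : FaithfulSMul ℂ[X] N := (faithfulSMul_iff_algebraMap_injective _ _).2 hinjN
  have hxh : xh N x = algebraMap ℂ[X] N := rfl
  obtain ⟨θ, hint, hθ⟩ := exists_int_prim_65 (R := ℂ[X]) (K := K) (N := N)
  have hgen := gen_65 (R := ℂ[X]) hθ
  have hmin : minpoly K θ = (minpoly ℂ[X] θ).map (algebraMap ℂ[X] K) :=
    minpoly.isIntegrallyClosed_eq_field_fractions' K hint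
  have hker : ∀ B : ℂ[X][X], B.eval₂ (algebraMap ℂ[X] N) θ = 0 → minpoly ℂ[X] θ ∣ B :=
    fun B hB => minpoly.isIntegrallyClosed_dvd hint hB
  have hsep : aeval θ (minpoly ℂ[X] θ).derivative ≠ 0 := by
    have h1 : (minpoly K θ).Separable := Algebra.IsSeparable.isSeparable K θ
    have h2 := h1.aeval_derivative_ne_zero (minpoly.aeval K θ)
    rwa [hmin, derivative_map, aeval_map_algebraMap] at h2
  obtain ⟨B, hB, A', hA'⟩ := hgen (aeval θ (minpoly ℂ[X] θ).derivative)⁻¹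
  choose Bg hBg Ag hAg using fun g : N ≃ₐ[K] N => hgen (g θ)
  have hdvd : minpoly ℂ[X] θ ∣ A' * (minpoly ℂ[X] θ).derivative - C B := by
    apply hker
    rw [eval₂_sub, eval₂_mul, eval₂_C, ← hA', ← aeval_def, mul_assoc, inv_mul_cancel₀ hsep, mul_one,
      sub_self]
  refine ⟨{ θ := θ
            P := minpoly ℂ[X] θ
            d := B * (∏ b ∈ S, (X - C b)) * ∏ g, Bg g
            A := fun g => C (B * (∏ b ∈ S, (X - C b)) * ∏ h ∈ Finset.univ.erase g, Bg h) * Ag g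
            monic := minpoly.monic hint
            d_ne := ?_
            dS := ?_
            prim := hθ
            ker := hker
            prod := ?_
            act_eq := ?_
            simple := ?_
            gen := hgen }⟩
  · refine mul_ne_zero (mul_ne_zero hB ?_) (Finset.prod_ne_zero_iff.2 fun g _ => hBg g)
    exact Finset.prod_ne_zero_iff.2 fun b _ => X_sub_C_ne_zero b
  · intro b hb
    have : eval b (∏ c ∈ S, (X - C c)) = 0 := by
      rw [eval_prod]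
      exact Finset.prod_eq_zero hb (by simp)
    rw [eval_mul, eval_mul, this, mul_zero, zero_mul]
  · rw [← prod_65 hθ, hmin, Polynomial.map_map, hxh, ← IsScalarTower.algebraMap_eq]
  · intro g
    rw [hxh, eval₂_mul, eval₂_C, ← hAg g, ← mul_assoc, ← map_mul,
      ← Finset.prod_erase_mul _ _ (Finset.mem_univ g), mul_assoc (B * _)]
  · intro z t hd hP hP'
    obtain ⟨c, hc⟩ := hdvd
    have h1 := congrArg (evalEval z t) hc
    rw [evalEval_sub, evalEval_mul, evalEval_mul, hP, hP', evalEval_C, mul_zero, zero_mul, zero_sub,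
      neg_eq_zero] at h1
    apply hd
    rw [eval_mul, eval_mul, h1, zero_mul, zero_mul]

end Crest.Agent.T170.Ret
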