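import Crest.Agent.T170.RetGDefs_90
import Crest.Agent.R257.AJ2_387
import Crest.Agent.T170.RetModel_65_Mg
import Crest.Agent.T170.RetApi_81
import Crest.Agent.R235.RSMer2_538
import Crest.Agent.R235.RSPois6_910
import Crest.Agent.R257.RSD_176
import Mathlib
import Crest.Agent.T170.RetDefs_90
import Crest.Agent.R257.Cpt2_419

-- ▼ part T170/RetCov_62
section

/-!
# Row 170, module C: `CovStmt` and `EvStmt` (helper62)

A plane model of a finite Galois extension of `ℂ(x)` is a Galois covering off the bad set, and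
evaluation at a point of the covering is compatible with the action of the Galois group.
-/

set_option autoImplicit false

open Polynomial Filter Topology

noncomputable section

namespace Crest.Agent.T170.Ret

namespace Cov62

theorem cont_evalEval (B : ℂ[X][X]) : Continuous fun p : ℂ × ℂ => B.evalEval p.1 p.2 := by
  induction B using Polynomial.induction_on' with
  | add p q hp hq => simp only [evalEval_add]; exact hp.add hq
  | monomial n a =>
    have : (fun p : ℂ × ℂ => (monomial n a : ℂ[X][X]).evalEval p.1 p.2)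
        = fun p : ℂ × ℂ => a.eval p.1 * p.2 ^ n := by
      funext p
      simp [← C_mul_X_pow_eq_monomial, evalEval_C]
    rw [this]
    exact (a.continuous.comp continuous_fst).mul (continuous_snd.pow n)

theorem evalEval_eq (B : ℂ[X][X]) (z t : ℂ) :
    B.evalEval z t = B.eval₂ (evalRingHom z) t := by
  rw [← eval_map, map_evalRingHom_eval]

variable {K N : Type} [Field K] [Field N] [Algebra ℂ K] [Algebra K N] [FiniteDimensional K N]
  {x : K} {S : Finset ℂ}

theorem Q_eval (M : Model N x S) (z t : ℂ) : (M.Q z).eval t = M.P.evalEval z t := by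
  rw [Model.Q, map_evalRingHom_eval]

theorem d_ne (M : Model N x S) {z : ℂ} (hz : z ∉ M.Z) : M.d.eval z ≠ 0 := hz

/-- equality in `N` implies equality at every point of the covering -/
theorem ev_congr (M : Model N x S) {B B' : ℂ[X][X]}
    (h : B.eval₂ (xh N x) M.θ = B'.eval₂ (xh N x) M.θ) {z t : ℂ} (ht : (M.Q z).eval t = 0) :
    B.evalEval z t = B'.evalEval z t := by
  have h0 : (B - B').eval₂ (xh N x) M.θ = 0 := by rw [eval₂_sub, h, sub_self]
  obtain ⟨c, hc⟩ := M.ker _ h0
  rw [Q_eval] at ht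
  have : (B - B').evalEval z t = 0 := by rw [hc, evalEval_mul, ht, zero_mul]
  rwa [evalEval_sub, sub_eq_zero] at this

omit [FiniteDimensional K N] in
theorem map_xh (h : N ≃ₐ[K] N) (b : ℂ[X]) : h (xh N x b) = xh N x b := by
  simp [xh]

omit [FiniteDimensional K N] in
theorem map_ev (h : N ≃ₐ[K] N) (B : ℂ[X][X]) (θ : N) :
    h (B.eval₂ (xh N x) θ) = B.eval₂ (xh N x) (h θ) := by
  have := Polynomial.hom_eval₂ B (xh N x) (h : N →+* N) θ
  have e : (h : N →+* N).comp (xh N x) = xh N x := RingHom.ext fun b => map_xh h b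
  rw [e] at this
  exact this

theorem d_mul_act (M : Model N x S) (h : N ≃ₐ[K] N) {z : ℂ} (hz : z ∉ M.Z) (t : ℂ) :
    M.d.eval z * M.act h z t = (M.A h).evalEval z t := by
  rw [Model.act, mul_div_cancel₀ _ (d_ne M hz)]

theorem ev_act (M : Model N x S) (h : N ≃ₐ[K] N) {B B' : ℂ[X][X]}
    (hB : h (B.eval₂ (xh N x) M.θ) = B'.eval₂ (xh N x) M.θ) {z t : ℂ} (hz : z ∉ M.Z)
    (ht : (M.Q z).eval t = 0) : B.evalEval z (M.act h z t) = B'.evalEval z t := by
  have h1 : ((B.scaleRoots M.d).comp (M.A h)).eval₂ (xh N x) M.θ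
      = (C (M.d ^ B.natDegree) * B').eval₂ (xh N x) M.θ := by
    rw [eval₂_comp, ← M.act_eq, scaleRoots_eval₂_mul, eval₂_mul, eval₂_C, map_pow, ← hB, map_ev]
  have h2 := ev_congr M h1 ht
  rw [evalEval_mul, evalEval_C, evalEval_eq, eval₂_comp, ← evalEval_eq (M.A h),
    ← d_mul_act M h hz t] at h2
  have h3 := scaleRoots_eval₂_mul (p := B) (evalRingHom z) (M.act h z t) M.d
  rw [coe_evalRingHom] at h3
  rw [h3, eval_pow, ← evalEval_eq] at h2
  exact mul_left_cancel₀ (pow_ne_zero _ (d_ne M hz)) h2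

theorem ev_P (M : Model N x S) : M.P.eval₂ (xh N x) M.θ = 0 := by
  rw [← eval_map, M.prod, eval_prod]
  exact Finset.prod_eq_zero (Finset.mem_univ 1) (by simp)

theorem natDegree_P (M : Model N x S) : M.P.natDegree = Fintype.card (N ≃ₐ[K] N) := by
  rw [← M.monic.natDegree_map (xh N x), M.prod, natDegree_prod_of_monic _ _
    (fun g _ => monic_X_sub_C _)]
  simp

/-- the fibre polynomial splits along the orbit of a root -/
theorem Q_eq (M : Model N x S) {z t : ℂ} (hz : z ∉ M.Z) (ht : (M.Q z).eval t = 0) :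
    M.Q z = ∏ g : N ≃ₐ[K] N, (X - C (M.act g z t)) := by
  apply Polynomial.funext
  intro c
  have h1 : (∏ g : N ≃ₐ[K] N, (C (M.d * C c) - M.A g)).eval₂ (xh N x) M.θ
      = (C (M.d ^ Fintype.card (N ≃ₐ[K] N) * M.P.eval (C c)) : ℂ[X][X]).eval₂ (xh N x) M.θ := by
    rw [eval₂_C, map_mul (xh N x), map_pow (xh N x), ← eval₂_hom, ← eval_map (p := M.P), M.prod, eval_prod, eval₂_finsetProd,
      ← Finset.card_univ, ← Finset.prod_const, ← Finset.prod_mul_distrib]
    refine Finset.prod_congr rfl fun g _ => ?_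
    rw [eval₂_sub, eval₂_C, ← M.act_eq, map_mul (xh N x), eval_sub, eval_X, eval_C, mul_sub]
  have h2 := ev_congr M h1 ht
  rw [evalEval_C, eval_mul, eval_pow, evalEval_prod, ← Finset.card_univ, ← Finset.prod_const]
    at h2
  have h3 : ∏ g : N ≃ₐ[K] N, (C (M.d * C c) - M.A g).evalEval z t
      = (∏ _g : N ≃ₐ[K] N, M.d.eval z) * ∏ g : N ≃ₐ[K] N, (c - M.act g z t) := by
    rw [← Finset.prod_mul_distrib]
    refine Finset.prod_congr rfl fun g _ => ?_
    rw [evalEval_sub, evalEval_C, ← d_mul_act M g hz, eval_mul, eval_C, mul_sub]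
  rw [h3] at h2
  have h4 := mul_left_cancel₀ (Finset.prod_ne_zero_iff.2 fun _ _ => d_ne M hz) h2
  rw [Q_eval, eval_prod]
  simp only [eval_sub, eval_X, eval_C]
  exact h4.symm

theorem nodup (M : Model N x S) {z : ℂ} (hz : z ∉ M.Z) : (M.Q z).roots.Nodup := by
  classical
  rw [Multiset.nodup_iff_count_le_one]
  intro t
  rw [count_roots]
  by_contra hlt
  have hne : M.Q z ≠ 0 := (M.monic.map _).ne_zero
  obtain ⟨h1, h2⟩ := (one_lt_rootMultiplicity_iff_isRoot hne).1 (not_le.1 hlt)
  refine M.simple z t (d_ne M hz) (by rw [← Q_eval]; exact h1) ?_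
  rw [Model.Q, derivative_map, IsRoot, map_evalRingHom_eval] at h2
  exact h2

theorem isCov (M : Model N x S) : IsCov M.Z M.P.natDegree M.Q M.act where
  pos := by rw [natDegree_P]; exact Fintype.card_pos
  monic z := M.monic.map _
  deg z := M.monic.natDegree_map _
  cont i := by
    simp only [Model.Q, coeff_map, coe_evalRingHom]
    exact (M.P.coeff i).continuous
  nodup z hz := nodup M hz
  act_cont g z t hz :=
    (cont_evalEval (M.A g)).continuousAt.div
      (M.d.continuous.comp continuous_fst).continuousAt (d_ne M hz)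
  act_root g z t hz ht := by
    rw [Q_eval, ev_act M g (B' := 0) (by rw [ev_P, map_zero, eval₂_zero]) hz ht, evalEval_zero]
  act_mul g h z t hz ht := by
    have : g ((M.A h).eval₂ (xh N x) M.θ) = (M.A (g * h)).eval₂ (xh N x) M.θ := by
      rw [← M.act_eq, ← M.act_eq, map_mul, map_xh]; rfl
    change (M.A h).evalEval z (M.act g z t) / _ = (M.A (g * h)).evalEval z t / _
    rw [ev_act M g this hz ht]
  trans z t t' hz ht ht' := by
    rw [Q_eq M hz ht, eval_prod, Finset.prod_eq_zero_iff] at ht'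
    obtain ⟨g, -, hg⟩ := ht'
    exact ⟨g, by simpa [sub_eq_zero] using hg⟩
  free g g' z t hz ht hgg := by
    have hn := nodup M hz
    rw [Q_eq M hz ht, Finset.prod_eq_multiset_prod,
      ← Function.comp_def (fun a : ℂ => X - C a) (fun g => M.act g z t), ← Multiset.map_map,
      roots_multiset_prod_X_sub_C] at hn
    exact Multiset.inj_on_of_nodup_map hn g (Finset.mem_univ _) g' (Finset.mem_univ _) hgg

end Cov62

theorem covStmt : CovStmt := fun _ _ _ _ _ _ _ _ _ _ _ M => Cov62.isCov M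

theorem evStmt : EvStmt := fun _ _ _ _ _ _ _ _ _ _ _ M h _ _ hB _ _ hz ht =>
  Cov62.ev_act M h hB hz ht

end Crest.Agent.T170.Ret
end
end

-- ▼ part T170/RetGen_37
section

/-!
# Row 170, module C (helper37): the monodromy group is the Galois group (`GenStmt`)
-/

set_option autoImplicit false

open Polynomial Filter Topology

noncomputable section

namespace Crest.Agent.T170.Ret

/-- polynomial growth on a set -/
def PG (s : Set ℂ) (f : ℂ → ℂ) : Prop :=
  ∃ (c : ℝ) (k : ℕ), 0 ≤ c ∧ ∀ z ∈ s, ‖f z‖ ≤ c * (1 + ‖z‖) ^ k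

theorem one_le_gr (z : ℂ) (k : ℕ) : (1 : ℝ) ≤ (1 + ‖z‖) ^ k :=
  one_le_pow₀ (by linarith [norm_nonneg z])

theorem PG.const (s : Set ℂ) (a : ℂ) : PG s fun _ => a :=
  ⟨‖a‖, 0, norm_nonneg a, fun z _ => by simp⟩

theorem PG.id (s : Set ℂ) : PG s fun z => z :=
  ⟨1, 1, zero_le_one, fun z _ => by simp⟩

theorem PG.add {s : Set ℂ} {f g : ℂ → ℂ} (hf : PG s f) (hg : PG s g) :
    PG s fun z => f z + g z := by
  obtain ⟨c, k, hc, h⟩ := hf
  obtain ⟨c', k', hc', h'⟩ := hg
  refine ⟨c + c', k + k', add_nonneg hc hc', fun z hz => ?_⟩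
  have h1 : (1 + ‖z‖) ^ k ≤ (1 + ‖z‖) ^ (k + k') :=
    pow_le_pow_right₀ (by linarith [norm_nonneg z]) (Nat.le_add_right _ _)
  have h2 : (1 + ‖z‖) ^ k' ≤ (1 + ‖z‖) ^ (k + k') :=
    pow_le_pow_right₀ (by linarith [norm_nonneg z]) (Nat.le_add_left _ _)
  calc ‖f z + g z‖ ≤ ‖f z‖ + ‖g z‖ := norm_add_le _ _
    _ ≤ c * (1 + ‖z‖) ^ k + c' * (1 + ‖z‖) ^ k' := add_le_add (h z hz) (h' z hz)
    _ ≤ c * (1 + ‖z‖) ^ (k + k') + c' * (1 + ‖z‖) ^ (k + k') :=
        add_le_add (mul_le_mul_of_nonneg_left h1 hc) (mul_le_mul_of_nonneg_left h2 hc')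
    _ = _ := by ring

theorem PG.mul {s : Set ℂ} {f g : ℂ → ℂ} (hf : PG s f) (hg : PG s g) :
    PG s fun z => f z * g z := by
  obtain ⟨c, k, hc, h⟩ := hf
  obtain ⟨c', k', hc', h'⟩ := hg
  refine ⟨c * c', k + k', mul_nonneg hc hc', fun z hz => ?_⟩
  calc ‖f z * g z‖ = ‖f z‖ * ‖g z‖ := norm_mul _ _
    _ ≤ (c * (1 + ‖z‖) ^ k) * (c' * (1 + ‖z‖) ^ k') :=
        mul_le_mul (h z hz) (h' z hz) (norm_nonneg _) (by positivity)
    _ = _ := by ring

theorem PG.pow {s : Set ℂ} {f : ℂ → ℂ} (hf : PG s f) (n : ℕ) : PG s fun z => f z ^ n := by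
  induction n with
  | zero => simpa using PG.const s 1
  | succ n ih => simpa [pow_succ] using ih.mul hf

theorem PG.poly (s : Set ℂ) (p : ℂ[X]) : PG s fun z => p.eval z := by
  induction p using Polynomial.induction_on' with
  | add p q hp hq => simpa using hp.add hq
  | monomial n a => simpa using (PG.const s a).mul ((PG.id s).pow n)

theorem PG.evalEval {s : Set ℂ} {σ : ℂ → ℂ} (hσ : PG s σ) (A : ℂ[X][X]) :
    PG s fun z => A.evalEval z (σ z) := by
  induction A using Polynomial.induction_on' with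
  | add p q hp hq => simpa [evalEval_add] using hp.add hq
  | monomial n a =>
    have := (PG.poly s a).mul (hσ.pow n)
    simpa [← C_mul_X_pow_eq_monomial, evalEval_mul, evalEval_pow, evalEval_C, evalEval_X]
      using this

theorem PG.of_norm_le {s : Set ℂ} {f g : ℂ → ℂ} (hg : PG s g) (h : ∀ z ∈ s, ‖f z‖ ≤ ‖g z‖) :
    PG s f := by
  obtain ⟨c, k, hc, h'⟩ := hg
  exact ⟨c, k, hc, fun z hz => (h z hz).trans (h' z hz)⟩

theorem PG.norm {s : Set ℂ} {f : ℂ → ℂ} (hf : PG s f) : PG s fun z => (‖f z‖ : ℂ) :=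
  hf.of_norm_le fun z _ => by simp

theorem PG.sum {s : Set ℂ} {ι : Type*} (t : Finset ι) {f : ι → ℂ → ℂ} (h : ∀ i ∈ t, PG s (f i)) :
    PG s fun z => ∑ i ∈ t, f i z := by
  classical
  induction t using Finset.induction_on with
  | empty => simpa using PG.const s 0
  | insert a t ha ih =>
    simp only [Finset.sum_insert ha]
    exact (h a (Finset.mem_insert_self _ _)).add (ih fun i hi => h i (Finset.mem_insert_of_mem hi))

theorem norm_root_le {p : ℂ[X]} (hp : p.Monic) {t : ℂ} (ht : p.eval t = 0) :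
    ‖t‖ ≤ ∑ i ∈ Finset.range p.natDegree, ‖p.coeff i‖ + 1 := by
  have h := (IsRoot.norm_lt_cauchyBound hp.ne_zero (a := t) ht).le
  have h2 : p.cauchyBound ≤ ∑ i ∈ Finset.range p.natDegree, ‖p.coeff i‖₊ + 1 := by
    rw [cauchyBound, hp.leadingCoeff, nnnorm_one, div_one]
    refine add_le_add_left ?_ _
    exact Finset.sup_le fun i hi =>
      Finset.single_le_sum (f := fun i => ‖p.coeff i‖₊) (fun _ _ => zero_le) hi
  have h3 := h.trans h2
  have h4 : ((‖t‖₊ : NNReal) : ℝ) ≤
      ((∑ i ∈ Finset.range p.natDegree, ‖p.coeff i‖₊ + 1 : NNReal) : ℝ) := by exact_mod_cast h3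
  simpa using h4

theorem PG.root {s : Set ℂ} {P : ℂ[X][X]} (hP : P.Monic) {σ : ℂ → ℂ}
    (h : ∀ z ∈ s, (P.map (evalRingHom z)).eval (σ z) = 0) : PG s σ := by
  have h1 : PG s fun z => ∑ i ∈ Finset.range P.natDegree, (‖(P.coeff i).eval z‖ : ℂ) + 1 :=
    (PG.sum _ fun i _ => (PG.poly s (P.coeff i)).norm).add (PG.const s 1)
  refine h1.of_norm_le fun z hz => ?_
  have h2 := norm_root_le (hP.map (evalRingHom z)) (h z hz)
  rw [hP.natDegree_map] at h2
  refine h2.trans (le_of_eq ?_)
  have : (∑ i ∈ Finset.range P.natDegree, (‖(P.coeff i).eval z‖ : ℂ) + 1) =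
      ((∑ i ∈ Finset.range P.natDegree, ‖(P.coeff i).eval z‖ + 1 : ℝ) : ℂ) := by push_cast; rfl
  rw [this, Complex.norm_real, Real.norm_of_nonneg (by positivity)]
  simp [coeff_map]

/-- an entire function of polynomial growth is a polynomial -/
theorem exists_poly_aux (k : ℕ) : ∀ (G : ℂ → ℂ) (c : ℝ), Differentiable ℂ G → 0 ≤ c →
    (∀ z, ‖G z‖ ≤ c * (1 + ‖z‖) ^ k) → ∃ q : ℂ[X], ∀ z, G z = q.eval z := by
  induction k with
  | zero =>
    intro G c hG _ h
    have hb : Bornology.IsBounded (Set.range G) := by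
      rw [isBounded_iff_forall_norm_le]
      refine ⟨c, ?_⟩
      rintro _ ⟨z, rfl⟩
      simpa using h z
    obtain ⟨a, ha⟩ := hG.exists_const_forall_eq_of_bounded hb
    exact ⟨C a, fun z => by simp [ha z]⟩
  | succ k ih =>
    intro G c hG hc h
    have hG1 : Differentiable ℂ (dslope G 0) := by
      rw [← differentiableOn_univ]
      exact (Complex.differentiableOn_dslope univ_mem).2 hG.differentiableOn
    obtain ⟨c1, hc1⟩ := (isCompact_closedBall (0 : ℂ) 1).exists_bound_of_continuousOn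
      hG1.continuous.continuousOn
    have hc1' : 0 ≤ c1 := (norm_nonneg _).trans (hc1 0 (by simp))
    have hkey : ∀ z, G z = G 0 + z * dslope G 0 z := fun z => by
      have := sub_smul_dslope G 0 z
      simp only [sub_zero, smul_eq_mul] at this
      rw [this]; ring
    obtain ⟨q, hq⟩ := ih (dslope G 0) (4 * c + c1) hG1 (by positivity) fun z => by
      have hg := one_le_gr z k
      rcases le_total ‖z‖ 1 with hz | hz
      · have := hc1 z (by simpa using hz)
        nlinarith
      · have h0 : ‖G 0‖ ≤ c := by simpa using h 0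
        have hz1 := h z
        have e1 : ‖z‖ * ‖dslope G 0 z‖ ≤ ‖G z‖ + ‖G 0‖ := by
          rw [← norm_mul]
          have : z * dslope G 0 z = G z - G 0 := by rw [hkey z]; ring
          rw [this]; exact norm_sub_le _ _
        have e2 : c * (1 + ‖z‖) ^ (k + 1) ≤ ‖z‖ * (2 * c * (1 + ‖z‖) ^ k) := by
          rw [pow_succ]
          have : 0 ≤ c * (1 + ‖z‖) ^ k := by positivity
          nlinarith
        have e3 : c ≤ ‖z‖ * (2 * c * (1 + ‖z‖) ^ k) := by
          have : c ≤ c * (1 + ‖z‖) ^ k := le_mul_of_one_le_right hc hg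
          have h5 : 0 ≤ c * (1 + ‖z‖) ^ k := by positivity
          nlinarith
        have e4 : ‖z‖ * ‖dslope G 0 z‖ ≤ ‖z‖ * (4 * c * (1 + ‖z‖) ^ k) := by nlinarith
        have e5 := le_of_mul_le_mul_left e4 (by linarith)
        have : 0 ≤ c1 * (1 + ‖z‖) ^ k := by positivity
        nlinarith
    refine ⟨C (G 0) + X * q, fun z => ?_⟩
    rw [hkey z, hq z]; simp

/-- removable singularities and Liouville -/
theorem exists_poly {d : ℂ[X]} (hd : d ≠ 0) {F : ℂ → ℂ}
    (hF : ∀ z, d.eval z ≠ 0 → AnalyticAt ℂ F z) (hg : PG {z | d.eval z ≠ 0} F) :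
    ∃ q : ℂ[X], ∀ z, d.eval z * F z = q.eval z := by
  set G : ℂ → ℂ := fun z => d.eval z * F z with hG
  have hfin : {z : ℂ | d.eval z = 0}.Finite := by
    have := Polynomial.finite_setOfPred_isRoot hd
    simpa [IsRoot] using this
  have hdan : ∀ z, AnalyticAt ℂ (fun z => d.eval z) z := fun z =>
    d.differentiable.analyticAt z
  have hGa : ∀ z, d.eval z ≠ 0 → AnalyticAt ℂ G z := fun z hz => (hdan z).mul (hF z hz)
  obtain ⟨c, k, hc, h⟩ := hg
  have hb : ∀ z, ‖G z‖ ≤ ‖d.eval z‖ * (c * (1 + ‖z‖) ^ k) := fun z => by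
    by_cases hz : d.eval z = 0
    · simp [hG, hz]
    · rw [hG]; dsimp only; rw [norm_mul]
      exact mul_le_mul_of_nonneg_left (h z hz) (norm_nonneg _)
  have hdiff : Differentiable ℂ G := by
    intro z
    by_cases hz : d.eval z = 0
    · refine (Complex.analyticAt_of_differentiable_on_punctured_nhds_of_continuousAt ?_
        ?_).differentiableAt
      · have h1 : ∀ᶠ w in 𝓝[≠] z, w ∉ {z : ℂ | d.eval z = 0} := by
          have h2 : ({w : ℂ | d.eval w = 0} \ {z}).Finite := hfin.subset Set.sdiff_subset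
          have h3 : ∀ᶠ w in 𝓝 z, w ∉ ({w : ℂ | d.eval w = 0} \ {z}) :=
            h2.isClosed.isOpen_compl.mem_nhds (by simp)
          filter_upwards [nhdsWithin_le_nhds h3, self_mem_nhdsWithin] with w hw hw' hw''
          exact hw ⟨hw'', hw'⟩
        filter_upwards [h1] with w hw
        exact (hGa w hw).differentiableAt
      · have h0 : G z = 0 := by simp [hG, hz]
        rw [ContinuousAt, h0]
        have hc2 : Continuous fun w : ℂ => ‖d.eval w‖ * (c * (1 + ‖w‖) ^ k) := by
          have := d.continuous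
          fun_prop
        have h2 := hc2.tendsto z
        rw [hz, norm_zero, zero_mul] at h2
        exact squeeze_zero_norm hb h2
    · exact (hGa z hz).differentiableAt
  obtain ⟨c', k', hc', h'⟩ := PG.poly Set.univ d
  refine exists_poly_aux (k' + k) G (c' * c) hdiff (mul_nonneg hc' hc) fun z => (hb z).trans ?_
  calc ‖d.eval z‖ * (c * (1 + ‖z‖) ^ k) ≤ (c' * (1 + ‖z‖) ^ k') * (c * (1 + ‖z‖) ^ k) :=
        mul_le_mul_of_nonneg_right (h' z trivial) (by positivity)
    _ = _ := by ring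

theorem analyticAt_evalEval (A : ℂ[X][X]) {σ : ℂ → ℂ} {z : ℂ} (hσ : AnalyticAt ℂ σ z) :
    AnalyticAt ℂ (fun w => A.evalEval w (σ w)) z := by
  induction A using Polynomial.induction_on' with
  | add p q hp hq => simpa [evalEval_add] using hp.fun_add hq
  | monomial n a =>
    have := (a.differentiable.analyticAt z).fun_mul (hσ.fun_pow n)
    simpa [← C_mul_X_pow_eq_monomial, evalEval_mul, evalEval_pow, evalEval_C, evalEval_X]
      using this

theorem genStmt_of (hcov : CovStmt) (hev : EvStmt) : GenStmt := by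
  intro K N _ _ _ _ _ _ x hx S M Γ hsel
  have hC := hcov K N x hx S M
  obtain ⟨sel, hsel⟩ := hsel
  have hfin : M.Z.Finite := by
    have := Polynomial.finite_setOfPred_isRoot M.d_ne
    simpa [IsRoot, Model.Z] using this
  have hQ : ∀ z t, (M.Q z).eval t = M.P.evalEval z t := fun z t => by
    rw [Model.Q, map_evalRingHom_eval]
  have hroot : ∀ z, z ∉ M.Z → (M.Q z).eval (sel z) = 0 := fun z hz => by
    obtain ⟨σ, hσ⟩ := hsel z hz
    obtain ⟨-, h2, h, -, h3⟩ := hσ.self_of_nhds
    rw [h3]; exact hC.act_root h z _ hz h2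
  have hxh : ∀ B : ℂ[X], B ≠ 0 → Polynomial.aeval x B ≠ 0 := fun B hB h0 => hx.1 ⟨B, hB, h0⟩
  rw [← IntermediateField.fixingSubgroup_fixedField Γ]
  suffices hbot : IntermediateField.fixedField Γ = ⊥ by
    rw [hbot, IntermediateField.fixingSubgroup_bot]
  rw [eq_bot_iff]
  intro f hf
  obtain ⟨B, hB, A, hA⟩ := M.gen f
  have hfix : ∀ h ∈ Γ, h (A.eval₂ (xh N x) M.θ) = A.eval₂ (xh N x) M.θ := fun h hh => by
    rw [← hA, map_mul, (IntermediateField.mem_fixedField_iff Γ f).1 hf h hh]
    congr 1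
    exact h.commutes _
  set F : ℂ → ℂ := fun z => A.evalEval z (sel z) with hF
  have hFan : ∀ z, M.d.eval z ≠ 0 → AnalyticAt ℂ F z := fun z hz => by
    obtain ⟨σ, hσ⟩ := hsel z hz
    have hσ0 := hσ.self_of_nhds
    have hσan : AnalyticAt ℂ σ z := by
      refine R257.AJ387.analyticAt_root (Q := M.Q) (d := M.P.natDegree)
        (Eventually.of_forall fun t => (hC.deg t).le) (fun i => ?_) hσ0.1
        (hσ.mono fun t ht => ht.2.1) ?_
      · simpa [Model.Q, coeff_map] using (M.P.coeff i).differentiable.analyticAt z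
      · have := M.simple z (σ z) hz (by rw [← hQ]; exact hσ0.2.1)
        rwa [Model.Q, derivative_map, map_evalRingHom_eval]
    refine (analyticAt_evalEval A hσan).congr ?_
    have hZ : ∀ᶠ w in 𝓝 z, w ∉ M.Z := hfin.isClosed.isOpen_compl.mem_nhds hz
    filter_upwards [hσ, hZ] with w hw hwZ
    obtain ⟨-, h2, h, hh, h3⟩ := hw
    rw [hF]; dsimp only
    rw [h3, hev K N x hx S M h A A (hfix h hh) w (σ w) hwZ h2]
  have hFg : PG {z | M.d.eval z ≠ 0} F :=
    (PG.root M.monic fun z hz => hroot z hz).evalEval A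
  obtain ⟨q, hq⟩ := exists_poly M.d_ne hFan hFg
  set R : ℂ[X][X] := C M.d * A - C q with hR
  have hR0 : R.eval₂ (xh N x) M.θ = 0 := by
    by_contra hne
    obtain ⟨B₂, hB₂, A₂, hA₂⟩ := M.gen (R.eval₂ (xh N x) M.θ)⁻¹
    have h1 : (A₂ * R - C B₂).eval₂ (xh N x) M.θ = 0 := by
      rw [eval₂_sub, eval₂_mul, eval₂_C, ← hA₂]; field_simp; ring
    obtain ⟨W, hW⟩ := M.ker _ h1
    apply hB₂
    refine Polynomial.eq_zero_of_infinite_isRoot _ (hfin.infinite_compl.mono fun z hz => ?_)
    have h2 := congrArg (evalEval z (sel z)) hW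
    rw [evalEval_mul, ← hQ, hroot z hz, zero_mul, evalEval_sub, evalEval_mul, hR, evalEval_sub,
      evalEval_mul, evalEval_C, evalEval_C, evalEval_C, ← hq z] at h2
    simpa [hF] using h2
  rw [hR, eval₂_sub, eval₂_mul, eval₂_C, eval₂_C, ← hA, sub_eq_zero] at hR0
  refine ⟨Polynomial.aeval x q / (Polynomial.aeval x M.d * Polynomial.aeval x B), ?_⟩
  have h1 : xh N x M.d ≠ 0 := (map_ne_zero (algebraMap K N)).2 (hxh _ M.d_ne)
  have h2 : xh N x B ≠ 0 := (map_ne_zero (algebraMap K N)).2 (hxh _ hB)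
  change algebraMap K N _ = f
  rw [map_div₀, map_mul]
  change xh N x q / (xh N x M.d * xh N x B) = f
  rw [← hR0]; field_simp

end Crest.Agent.T170.Ret
end
end

-- ▼ part T170/GLocA_83
section

/-!
# Row 170, module C (helper83): valuations from meromorphic germs

* `exists_ext`  : extension of a ring homomorphism to a field of quotients;
* `Gm`, `ordG`, `rot` : germs at `0`, their order, the rotation `q ↦ ζ q`;
* `exists_val`  : a Puiseux parametrisation `(X, T)` of a model gives a valuation with `Rot`.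
-/

set_option autoImplicit false

open Polynomial Filter Topology

noncomputable section

namespace Crest.Agent.T170.Ret.Loc83

lemma exists_ext {R N F : Type*} [CommRing R] [Field N] [CommRing F] (φ : R →+* N) (ψ : R →+* F)
    (hker : ∀ r, φ r = 0 → ψ r = 0)
    (hgen : ∀ f, ∃ b a : R, IsUnit (ψ b) ∧ φ b * f = φ a) :
    ∃ ι : N →+* F, ∀ r, ι (φ r) = ψ r := by
  choose b a hb hab using hgen
  let J : N → F := fun f => ((hb f).unit⁻¹ : Fˣ) * ψ (a f)
  have key : ∀ f b' a', φ b' * f = φ a' → ψ b' * J f = ψ a' := by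
    intro f b' a' h
    have h1 : ψ (b' * a f - b f * a') = 0 := by
      apply hker
      rw [map_sub, map_mul, map_mul, ← hab f, ← h]; ring
    rw [map_sub, map_mul, map_mul, sub_eq_zero] at h1
    have h2 : (((hb f).unit⁻¹ : Fˣ) : F) * ψ (b f) = 1 := (hb f).val_inv_mul
    calc ψ b' * J f = (((hb f).unit⁻¹ : Fˣ) : F) * (ψ b' * ψ (a f)) := by simp only [J]; ring
      _ = ((((hb f).unit⁻¹ : Fˣ) : F) * ψ (b f)) * ψ a' := by rw [h1]; ring
      _ = ψ a' := by rw [h2, one_mul]
  have k1 : ∀ r, J (φ r) = ψ r := fun r => by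
    have := key (φ r) 1 r (by simp)
    simpa using this
  refine ⟨{ toFun := J
            map_one' := by simpa using k1 1
            map_zero' := by simpa using k1 0
            map_mul' := fun f f' => ?_
            map_add' := fun f f' => ?_ }, k1⟩
  · have h := key (f * f') (b f * b f') (a f * a f') (by
      rw [map_mul, map_mul, ← hab f, ← hab f']; ring)
    apply ((hb f).mul (hb f')).mul_left_cancel
    rw [← map_mul, h, map_mul, map_mul, ← key f _ _ (hab f), ← key f' _ _ (hab f')]; ring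
  · have h := key (f + f') (b f * b f') (a f * b f' + a f' * b f) (by
      rw [map_add, map_mul, map_mul, map_mul, ← hab f, ← hab f']; ring)
    apply ((hb f).mul (hb f')).mul_left_cancel
    rw [← map_mul, h, map_add, map_mul, map_mul, map_mul, ← key f _ _ (hab f),
      ← key f' _ _ (hab f')]; ring

/-- germs of functions on punctured neighbourhoods of `0` -/
abbrev Gm : Type := Filter.Germ (𝓝[≠] (0 : ℂ)) ℂ

/-- the order of a germ -/
def ordG (γ : Gm) : WithTop ℤ :=
  γ.liftOn (fun F => meromorphicOrderAt F 0) (fun _ _ h => meromorphicOrderAt_congr h)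

@[simp] lemma ordG_coe (F : ℂ → ℂ) : ordG (F : Gm) = meromorphicOrderAt F 0 := rfl

/-- meromorphic germs -/
def IsMer (γ : Gm) : Prop := ∃ F : ℂ → ℂ, MeromorphicAt F 0 ∧ (F : Gm) = γ

lemma tendsto_rot {ζ : ℂ} (hζ : ζ ≠ 0) :
    Tendsto (fun q : ℂ => ζ * q) (𝓝[≠] (0 : ℂ)) (𝓝[≠] (0 : ℂ)) := by
  apply tendsto_nhdsWithin_of_tendsto_nhds_of_eventually_within
  · have : Tendsto (fun q : ℂ => ζ * q) (𝓝 0) (𝓝 (ζ * 0)) :=
      (continuous_const.mul continuous_id).tendsto 0
    rw [mul_zero] at this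
    exact this.mono_left nhdsWithin_le_nhds
  · filter_upwards [self_mem_nhdsWithin] with q hq
    exact mul_ne_zero hζ hq

/-- the rotation of germs -/
def rot {ζ : ℂ} (hζ : ζ ≠ 0) : Gm →+* Gm where
  toFun γ := γ.compTendsto (fun q => ζ * q) (tendsto_rot hζ)
  map_one' := rfl
  map_zero' := rfl
  map_mul' γ γ' := by
    induction γ using Filter.Germ.inductionOn
    induction γ' using Filter.Germ.inductionOn
    rfl
  map_add' γ γ' := by
    induction γ using Filter.Germ.inductionOn
    induction γ' using Filter.Germ.inductionOn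
    rfl

lemma rot_coe {ζ : ℂ} (hζ : ζ ≠ 0) (F : ℂ → ℂ) :
    rot hζ (F : Gm) = ((fun q => F (ζ * q) : ℂ → ℂ) : Gm) := rfl

/-- the valuation of an embedding into meromorphic germs -/
def mkVal {N : Type*} [Field N] (ι : N →+* Gm) (h : ∀ f, IsMer (ι f)) : AV N :=
  AddValuation.of (fun f => ordG (ι f))
    (by
      rw [map_zero]
      change meromorphicOrderAt (fun _ : ℂ => (0 : ℂ)) 0 = ⊤
      rw [meromorphicOrderAt_eq_top_iff]; simp)
    (by
      classical
      rw [map_one]
      change meromorphicOrderAt (fun _ : ℂ => (1 : ℂ)) 0 = 0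
      rw [meromorphicOrderAt_const]; simp)
    (fun f f' => by
      obtain ⟨F, hF, e⟩ := h f
      obtain ⟨F', hF', e'⟩ := h f'
      rw [map_add, ← e, ← e']
      exact meromorphicOrderAt_add hF hF')
    (fun f f' => by
      obtain ⟨F, hF, e⟩ := h f
      obtain ⟨F', hF', e'⟩ := h f'
      rw [map_mul, ← e, ← e']
      exact meromorphicOrderAt_mul hF hF')

lemma mkVal_apply {N : Type*} [Field N] (ι : N →+* Gm) (h : ∀ f, IsMer (ι f)) (f : N) :
    mkVal ι h f = ordG (ι f) := rfl

/-- the rotation acts on the leading term by `ζ ^ k` -/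
lemma lt_ord_rot {ζ : ℂ} (hζ : ζ ≠ 0) {F : ℂ → ℂ} (hF : MeromorphicAt F 0) {k : ℤ}
    (hk : meromorphicOrderAt F 0 = (k : WithTop ℤ)) :
    (k : WithTop ℤ) < meromorphicOrderAt (fun q => F (ζ * q) - ζ ^ k * F q) 0 := by
  obtain ⟨G, hG, -, hFG⟩ := (meromorphicOrderAt_eq_int_iff hF).1 hk
  have hG2 : AnalyticAt ℂ (fun q => G (ζ * q)) 0 := by
    refine AnalyticAt.comp (g := G) (f := fun q : ℂ => ζ * q) ?_ (by fun_prop)
    simpa using hG
  have hH : AnalyticAt ℂ (fun q => ζ ^ k * (G (ζ * q) - G q)) 0 :=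
    analyticAt_const.mul (hG2.sub hG)
  have hpos : 0 < meromorphicOrderAt (fun q => ζ ^ k * (G (ζ * q) - G q)) 0 := by
    rw [← tendsto_zero_iff_meromorphicOrderAt_pos hH.meromorphicAt]
    have := hH.continuousAt.tendsto
    simp only [mul_zero, sub_self] at this
    exact this.mono_left nhdsWithin_le_nhds
  have he : (fun q => F (ζ * q) - ζ ^ k * F q) =ᶠ[𝓝[≠] (0 : ℂ)]
      (fun q : ℂ => (q - 0) ^ k) * fun q => ζ ^ k * (G (ζ * q) - G q) := by
    filter_upwards [hFG, (tendsto_rot hζ).eventually hFG] with q h1 h2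
    simp only [Pi.mul_apply, sub_zero, smul_eq_mul] at h1 h2 ⊢
    rw [h1, h2, mul_zpow]; ring
  have hm : MeromorphicAt (fun q : ℂ => (q - 0) ^ k) 0 := by fun_prop
  rw [meromorphicOrderAt_congr he, meromorphicOrderAt_mul hm hH.meromorphicAt,
    fun_meromorphicOrderAt_zpow_id_sub_const]
  conv_lhs => rw [← add_zero (k : WithTop ℤ)]
  exact WithTop.add_lt_add_left WithTop.coe_ne_top hpos

lemma mer_eval {X : ℂ → ℂ} (hX : MeromorphicAt X 0) (B : ℂ[X]) :
    MeromorphicAt (fun q => B.eval (X q)) 0 := by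
  induction B using Polynomial.induction_on' with
  | add p q hp hq => simp only [eval_add]; exact hp.add hq
  | monomial n a =>
    simp only [eval_monomial]
    exact (MeromorphicAt.const a 0).mul (hX.pow n)

lemma mer_evalEval {X T : ℂ → ℂ} (hX : MeromorphicAt X 0) (hT : MeromorphicAt T 0)
    (B : ℂ[X][X]) : MeromorphicAt (fun q => B.evalEval (X q) (T q)) 0 := by
  induction B using Polynomial.induction_on' with
  | add p q hp hq => simp only [evalEval_add]; exact hp.add hq
  | monomial n a =>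
    simp only [← C_mul_X_pow_eq_monomial, evalEval_mul, evalEval_C, evalEval_pow, evalEval_X]
    exact (mer_eval hX a).mul (hT.pow n)

lemma eventually_eval_ne {X : ℂ → ℂ} (hX : ∀ b, ∀ᶠ q in 𝓝[≠] (0 : ℂ), X q ≠ b) {B : ℂ[X]}
    (hB : B ≠ 0) : ∀ᶠ q in 𝓝[≠] (0 : ℂ), B.eval (X q) ≠ 0 := by
  classical
  have := (Filter.eventually_all_finset B.roots.toFinset).2 fun b _ => hX b
  filter_upwards [this] with q hq h0
  exact hq (X q) (by rw [Multiset.mem_toFinset, mem_roots hB]; exact h0) rfl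

variable {K N : Type} [Field K] [Field N] [Algebra ℂ K] [Algebra K N] [FiniteDimensional K N]
  {x : K} {S : Finset ℂ}

/-- **a Puiseux parametrisation gives a valuation on which `g` acts by the rotation** -/
theorem exists_val (M : Model N x S) (g : N ≃ₐ[K] N) {ζ : ℂ}
    (hζ : ζ ≠ 0) {X T : ℂ → ℂ} (hX : MeromorphicAt X 0) (hT : MeromorphicAt T 0)
    (hXb : ∀ b, ∀ᶠ q in 𝓝[≠] (0 : ℂ), X q ≠ b)
    (hP : ∀ᶠ q in 𝓝[≠] (0 : ℂ), M.P.evalEval (X q) (T q) = 0)
    (hrX : ∀ᶠ q in 𝓝[≠] (0 : ℂ), X (ζ * q) = X q)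
    (hrT : ∀ᶠ q in 𝓝[≠] (0 : ℂ), T (ζ * q) = M.act g (X q) (T q)) :
    ∃ v : AV N, (∀ B : ℂ[X], v (xh N x B) = meromorphicOrderAt (fun q => B.eval (X q)) 0) ∧
      Rot v (algebraMap K N (algebraMap ℂ K ζ)) g := by
  let φ : ℂ[X][X] →+* N := eval₂RingHom (xh N x) M.θ
  let ψ : ℂ[X][X] →+* Gm := (Filter.Germ.coeRingHom (𝓝[≠] (0 : ℂ))).comp
    (RingHom.pi fun q => evalEvalRingHom (X q) (T q))
  have hψ : ∀ B, ψ B = ((fun q => B.evalEval (X q) (T q) : ℂ → ℂ) : Gm) := fun B => rfl
  have hφC : ∀ B : ℂ[X], φ (C B) = xh N x B := fun B => by simp [φ]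
  have hψC : ∀ B : ℂ[X], ψ (C B) = ((fun q => B.eval (X q) : ℂ → ℂ) : Gm) := fun B => by
    rw [hψ]; simp only [evalEval_C]
  have hker : ∀ r, φ r = 0 → ψ r = 0 := by
    intro r hr
    obtain ⟨c, rfl⟩ := M.ker r hr
    rw [hψ]
    apply Filter.Germ.coe_eq.2
    filter_upwards [hP] with q hq
    simp [evalEval_mul, hq]
  have hinv : ∀ B : ℂ[X], B ≠ 0 →
      ((fun q => (B.eval (X q))⁻¹ : ℂ → ℂ) : Gm) * ψ (C B) = 1 := by
    intro B hB
    rw [hψC]
    apply Filter.Germ.coe_eq.2
    filter_upwards [eventually_eval_ne hXb hB] with q hq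
    simp [hq]
  have hgen : ∀ f, ∃ B : ℂ[X], B ≠ 0 ∧ ∃ a, φ (C B) * f = φ a := by
    intro f
    obtain ⟨B, hB, A', h⟩ := M.gen f
    exact ⟨B, hB, A', by rw [hφC]; exact h⟩
  obtain ⟨ι, hι⟩ := exists_ext φ ψ hker (fun f => by
    obtain ⟨B, hB, a, h⟩ := hgen f
    exact ⟨C B, a, IsUnit.of_mul_eq_one_right _ (hinv B hB), h⟩)
  have hrep : ∀ (f : N) (B : ℂ[X]) (a : ℂ[X][X]), B ≠ 0 → φ (C B) * f = φ a →
      ι f = ((fun q => (B.eval (X q))⁻¹ * a.evalEval (X q) (T q) : ℂ → ℂ) : Gm) := by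
    intro f B a hB h
    have h1 := congrArg ι h
    rw [map_mul, hι, hι] at h1
    calc ι f = (((fun q => (B.eval (X q))⁻¹ : ℂ → ℂ) : Gm) * ψ (C B)) * ι f := by
          rw [hinv B hB, one_mul]
      _ = ((fun q => (B.eval (X q))⁻¹ : ℂ → ℂ) : Gm) * ψ a := by rw [mul_assoc, h1]
      _ = _ := by rw [hψ]; rfl
  have hmer : ∀ f, IsMer (ι f) := by
    intro f
    obtain ⟨B, hB, a, h⟩ := hgen f
    exact ⟨_, (mer_eval hX B).inv.mul (mer_evalEval hX hT a), (hrep f B a hB h).symm⟩
  -- `g` is the rotation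
  have hgC : ∀ B : ℂ[X], g (xh N x B) = xh N x B := fun B => g.commutes _
  have hrotφ : ∀ r, ι (g (φ r)) = rot hζ (ι (φ r)) := by
    have h1 : (ι.comp (g : N →+* N)).comp φ = ((rot hζ).comp ι).comp φ := by
      apply Polynomial.ringHom_ext
      · intro B
        simp only [RingHom.comp_apply, RingHom.coe_coe]
        rw [hι, hφC, hgC, ← hφC, hι, hψC, rot_coe]
        apply Filter.Germ.coe_eq.2
        filter_upwards [hrX] with q hq
        rw [hq]
      · simp only [RingHom.comp_apply, RingHom.coe_coe]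
        have h2 : φ Polynomial.X = M.θ := by simp [φ]
        rw [hι, h2, hrep (g M.θ) M.d (M.A g) M.d_ne (by rw [hφC]; exact M.act_eq g), hψ, rot_coe]
        apply Filter.Germ.coe_eq.2
        filter_upwards [hrT] with q hq
        rw [evalEval_X, hq, Model.act, div_eq_inv_mul]
    intro r
    exact congrArg (fun (χ : ℂ[X][X] →+* Gm) => χ r) h1
  have hrot : ∀ f, ι (g f) = rot hζ (ι f) := by
    intro f
    obtain ⟨B, hB, a, h⟩ := hgen f
    have hu : IsUnit (ψ (C B)) := IsUnit.of_mul_eq_one_right _ (hinv B hB)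
    have h1 : ψ (C B) * ι (g f) = ι (g (φ a)) := by
      rw [← h, map_mul, map_mul, hφC, hgC, ← hφC, hι]
    have h2 : rot hζ (ψ (C B)) = ψ (C B) := by
      rw [← hι, ← hrotφ, hφC, hgC]
    have h3 : ψ (C B) * rot hζ (ι f) = ι (g (φ a)) := by
      rw [hrotφ, ← h, map_mul, map_mul, hι, h2]
    exact hu.mul_left_cancel (h1.trans h3.symm)
  refine ⟨mkVal ι hmer, fun B => ?_, fun f k hk => ?_⟩
  · rw [mkVal_apply, ← hφC, hι, hψC, ordG_coe]
  · obtain ⟨F, hF, e⟩ := hmer f
    rw [mkVal_apply, ← e, ordG_coe] at hk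
    have h1 : (algebraMap K N (algebraMap ℂ K ζ)) ^ k = xh N x (C (ζ ^ k)) := by
      rw [← map_zpow₀, ← map_zpow₀]
      simp [xh]
    rw [mkVal_apply, map_sub, map_mul, hrot, h1, ← hφC, hι, hψC, ← e, rot_coe]
    have := lt_ord_rot hζ hF hk
    simp only [eval_C]
    exact this

end Crest.Agent.T170.Ret.Loc83
end
end

-- ▼ part T170/GLocB_83
section

/-!
# Row 170, module C (helper83): the local monodromy is a canonical inertia generator

`locFin_of : CovStmt → LocFinStmt`, `locInf_of : CovStmt → LocInfStmt`.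
-/

set_option autoImplicit false

open Polynomial Filter Topology Function.Periodic

noncomputable section

namespace Crest.Agent.T170.Ret.Loc83

lemma norm_root_le {p : ℂ[X]} (hp : p.Monic) {t : ℂ} (ht : p.eval t = 0) :
    ‖t‖ ≤ 1 + ∑ j ∈ Finset.range p.natDegree, ‖p.coeff j‖ := by
  have h := Polynomial.IsRoot.norm_lt_cauchyBound hp.ne_zero ht
  rw [Polynomial.cauchyBound, hp.leadingCoeff, nnnorm_one, div_one] at h
  have h2 : (Finset.range p.natDegree).sup (fun j => ‖p.coeff j‖₊) ≤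
      ∑ j ∈ Finset.range p.natDegree, ‖p.coeff j‖₊ :=
    Finset.sup_le fun j hj =>
      Finset.single_le_sum (f := fun j => ‖p.coeff j‖₊) (fun _ _ => zero_le) hj
  have h3 : ‖t‖₊ ≤ ∑ j ∈ Finset.range p.natDegree, ‖p.coeff j‖₊ + 1 :=
    h.le.trans (by gcongr)
  have h4 := NNReal.coe_le_coe.2 h3
  simp only [coe_nnnorm, NNReal.coe_add, NNReal.coe_sum, NNReal.coe_one] at h4
  linarith

lemma eventually_tendsto_pow_mul {c : ℂ → ℂ} (hc : MeromorphicAt c 0) :
    ∀ᶠ k : ℕ in atTop, Tendsto (fun q : ℂ => q ^ k * c q) (𝓝[≠] 0) (𝓝 0) := by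
  obtain ⟨n, hn⟩ := hc
  filter_upwards [eventually_gt_atTop n] with k hk
  obtain ⟨j, rfl⟩ := Nat.exists_eq_add_of_lt hk
  have h1 : Tendsto (fun q : ℂ => q ^ (j + 1) * ((q - 0) ^ n • c q)) (𝓝 0)
      (𝓝 ((0 : ℂ) ^ (j + 1) * (((0 : ℂ) - 0) ^ n • c 0))) :=
    ((continuous_pow (j + 1)).tendsto 0).mul hn.continuousAt.tendsto
  rw [zero_pow (Nat.succ_ne_zero j), zero_mul] at h1
  refine (h1.mono_left nhdsWithin_le_nhds).congr fun q => ?_
  simp only [sub_zero, smul_eq_mul]; ring

/-- a holomorphic root of a monic polynomial with meromorphic coefficients is meromorphic -/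
lemma mer_of_root {Q : ℂ → ℂ[X]} {D : ℕ} (hm : ∀ q, (Q q).Monic) (hd : ∀ q, (Q q).natDegree = D)
    (hc : ∀ j, MeromorphicAt (fun q => (Q q).coeff j) 0) {T : ℂ → ℂ}
    (hT : ∀ᶠ q in 𝓝[≠] (0 : ℂ), DifferentiableAt ℂ T q)
    (hr : ∀ᶠ q in 𝓝[≠] (0 : ℂ), (Q q).eval (T q) = 0) : MeromorphicAt T 0 := by
  have h1 : ∀ᶠ k : ℕ in atTop, 0 < k ∧ ∀ j ∈ Finset.range D,
      Tendsto (fun q : ℂ => q ^ k * (Q q).coeff j) (𝓝[≠] 0) (𝓝 0) :=
    (eventually_gt_atTop 0).and
      ((Filter.eventually_all_finset _).2 fun j _ => eventually_tendsto_pow_mul (hc j))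
  obtain ⟨k, hk, hj⟩ := h1.exists
  refine ⟨k, ?_⟩
  apply Complex.analyticAt_of_differentiable_on_punctured_nhds_of_continuousAt
  · filter_upwards [hT] with q hq
    exact (((differentiableAt_id.sub_const 0).pow k)).smul hq
  · rw [continuousAt_iff_punctured_nhds]
    simp only [sub_zero, smul_eq_mul, zero_pow hk.ne', zero_mul]
    have h2 : Tendsto (fun q : ℂ => ‖q ^ k‖ + ∑ j ∈ Finset.range D, ‖q ^ k * (Q q).coeff j‖)
        (𝓝[≠] 0) (𝓝 (‖(0 : ℂ) ^ k‖ + ∑ _j ∈ Finset.range D, ‖(0 : ℂ)‖)) :=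
      ((((continuous_pow k).tendsto 0).mono_left nhdsWithin_le_nhds).norm).add
        (tendsto_finsetSum _ fun j hj' => (hj j hj').norm)
    simp only [zero_pow hk.ne', norm_zero, Finset.sum_const_zero, add_zero] at h2
    refine squeeze_zero_norm' ?_ h2
    filter_upwards [hr] with q hq
    have h3 := norm_root_le (hm q) hq
    rw [hd q] at h3
    rw [norm_mul]
    calc ‖q ^ k‖ * ‖T q‖ ≤ ‖q ^ k‖ * (1 + ∑ j ∈ Finset.range D, ‖(Q q).coeff j‖) := by gcongr
      _ = _ := by simp only [mul_add, mul_one, Finset.mul_sum, norm_mul]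

lemma ee_add_one (w : ℂ) : ee (w + 1) = ee w := by
  rw [ee, ee, mul_add, Complex.exp_add, mul_one, Complex.exp_two_pi_mul_I, mul_one]

lemma qParam_pow {n : ℕ} (hn : 0 < n) (w : ℂ) : qParam (n : ℝ) w ^ n = ee w := by
  rw [qParam, ee, ← Complex.exp_nat_mul]
  congr 1
  have : (n : ℂ) ≠ 0 := Nat.cast_ne_zero.2 hn.ne'
  push_cast
  field_simp

lemma zt_mul_qParam (n : ℕ) (w : ℂ) : zt n * qParam (n : ℝ) w = qParam (n : ℝ) (w + 1) := by
  rw [qParam, qParam, zt, ← Complex.exp_add]
  congr 1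
  push_cast
  ring

lemma zt_pow {n : ℕ} (hn : 0 < n) : zt n ^ n = 1 := by
  rw [zt, ← Complex.exp_nat_mul]
  have : (n : ℂ) ≠ 0 := Nat.cast_ne_zero.2 hn.ne'
  rw [mul_div_cancel₀ _ this, Complex.exp_two_pi_mul_I]

lemma zt_ne (n : ℕ) : zt n ≠ 0 := Complex.exp_ne_zero _

lemma IsCov.act_one {H : Type} [Group H] {Z : Set ℂ} {D : ℕ} {Q : ℂ → ℂ[X]}
    {act : H → ℂ → ℂ → ℂ} (h : IsCov Z D Q act) {z t : ℂ} (hz : z ∉ Z) (ht : (Q z).eval t = 0) :
    act 1 z t = t := by
  obtain ⟨g, hg⟩ := h.trans z t t hz ht ht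
  have h1 : act g z t = act (g * g) z t := by
    rw [← h.act_mul g g z t hz ht, ← hg, ← hg]
  have h2 := h.free _ _ z t hz ht h1
  have h3 : g = 1 := by simpa using h2
  rw [← h3, ← hg]

lemma analyticAt_eval {E : ℂ → ℂ} {w : ℂ} (hE : AnalyticAt ℂ E w) (B : ℂ[X]) :
    AnalyticAt ℂ (fun q => B.eval (E q)) w :=
  AnalyticAt.comp (g := fun z => B.eval z) (B.differentiable.analyticAt _) hE

variable {K N : Type} [Field K] [Field N] [Algebra ℂ K] [Algebra K N] [FiniteDimensional K N]
  {x : K} {S : Finset ℂ}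

/-- the Puiseux parametrisation given by a periodic root -/
theorem exists_val_of_per (M : Model N x S) (hcov : IsCov M.Z M.P.natDegree M.Q M.act)
    {n : ℕ} (hn : 0 < n) {g : N ≃ₐ[K] N} (hg : g ^ n = 1) {p : ℂ → ℂ}
    (hp : ∀ e, e ≠ 0 → AnalyticAt ℂ p e) (hX : MeromorphicAt (fun q => p (q ^ n)) 0)
    (hXb : ∀ b, ∀ᶠ q in 𝓝[≠] (0 : ℂ), p (q ^ n) ≠ b) (hper : Per M.Z M.Q M.act p g) :
    ∃ v : AV N, (∀ B : ℂ[X], v (xh N x B) = meromorphicOrderAt (fun q => B.eval (p (q ^ n))) 0) ∧
      Rot v (algebraMap K N (algebraMap ℂ K (zt n))) g := by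
  classical
  obtain ⟨ρ, τ, h⟩ := hper
  have hnR : (0 : ℝ) < n := Nat.cast_pos.2 hn
  have hQ : ∀ z t, (M.Q z).eval t = M.P.evalEval z t := fun z t => map_evalRingHom_eval z t M.P
  -- iteration
  have hit : ∀ w : ℂ, ρ < w.im → ∀ k : ℕ, ee (w + k) = ee w ∧
      τ (w + k) = M.act (g ^ k) (p (ee w)) (τ w) := by
    intro w hw k
    obtain ⟨-, hZ, hr, -⟩ := h w hw
    induction k with
    | zero => simpa using (IsCov.act_one hcov hZ hr).symm
    | succ k ih =>
      have hw' : ρ < (w + k).im := by simpa using hw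
      obtain ⟨-, -, -, h4⟩ := h (w + k) hw'
      rw [Nat.cast_succ, ← add_assoc, ee_add_one, h4, ih.1, ih.2, hcov.act_mul _ _ _ _ hZ hr,
        pow_succ]
      exact ⟨rfl, rfl⟩
  let τ' : ℂ → ℂ := fun w => if ρ < w.im then τ w else 0
  have hτ' : ∀ w : ℂ, ρ < w.im → τ' w = τ w := fun w hw => if_pos hw
  have hperiod : Function.Periodic τ' ((n : ℝ) : ℂ) := by
    intro w
    have him : (w + ((n : ℝ) : ℂ)).im = w.im := by simp
    by_cases hw : ρ < w.im
    · rw [hτ' w hw, hτ' _ (by rwa [him]), Complex.ofReal_natCast, (hit w hw n).2, hg]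
      exact IsCov.act_one hcov (h w hw).2.1 (h w hw).2.2.1
    · simp only [τ', him, if_neg hw]
  have hopen : ∀ w : ℂ, ρ < w.im → ∀ᶠ w' in 𝓝 w, ρ < w'.im := fun w hw =>
    (isOpen_lt continuous_const Complex.continuous_im).mem_nhds hw
  have hdiff : ∀ w : ℂ, ρ < w.im → DifferentiableAt ℂ τ' w := by
    intro w hw
    have hE : AnalyticAt ℂ (fun w => p (ee w)) w := by
      refine AnalyticAt.comp (g := p) (hp _ (Complex.exp_ne_zero _)) ?_
      unfold ee; fun_prop
    have h1 : AnalyticAt ℂ τ w := by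
      refine R257.AJ387.analyticAt_root (Q := fun w => M.Q (p (ee w))) (d := M.P.natDegree)
        (Eventually.of_forall fun t => (hcov.deg _).le) (fun i => ?_) (h w hw).1 ?_ ?_
      · simp only [Model.Q, coeff_map, coe_evalRingHom]
        exact analyticAt_eval hE _
      · filter_upwards [hopen w hw] with w' hw' using (h w' hw').2.2.1
      · rw [Model.Q, derivative_map, map_evalRingHom_eval]
        exact M.simple _ _ (h w hw).2.1 (by rw [← hQ]; exact (h w hw).2.2.1)
    refine h1.differentiableAt.congr_of_eventuallyEq ?_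
    filter_upwards [hopen w hw] with w' hw' using hτ' w' hw'
  have hinf : ∀ᶠ w in comap Complex.im atTop, ρ < w.im :=
    preimage_mem_comap (Ioi_mem_atTop ρ)
  let T : ℂ → ℂ := cuspFunction (n : ℝ) τ'
  have hq : ∀ᶠ q in 𝓝[≠] (0 : ℂ), ∃ w : ℂ, ρ < w.im ∧ qParam (n : ℝ) w = q := by
    filter_upwards [(invQParam_tendsto hnR).eventually hinf, self_mem_nhdsWithin] with q h1 h2
    exact ⟨_, h1, qParam_right_inv hnR.ne' h2⟩
  have hT : ∀ w : ℂ, ρ < w.im → T (qParam (n : ℝ) w) = τ w := fun w hw => by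
    rw [← hτ' w hw]; exact eq_cuspFunction hnR.ne' hperiod w
  have hroot : ∀ᶠ q in 𝓝[≠] (0 : ℂ), (M.Q (p (q ^ n))).eval (T q) = 0 := by
    filter_upwards [hq] with q ⟨w, hw, e⟩
    rw [← e, hT w hw, qParam_pow hn]
    exact (h w hw).2.2.1
  have hTm : MeromorphicAt T 0 := by
    refine mer_of_root (Q := fun q => M.Q (p (q ^ n))) (D := M.P.natDegree)
      (fun q => hcov.monic _) (fun q => hcov.deg _) (fun j => ?_) ?_ hroot
    · simp only [Model.Q, coeff_map, coe_evalRingHom]
      exact mer_eval hX _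
    · exact eventually_differentiableAt_cuspFunction_nhds_ne_zero hnR hperiod
        (hinf.mono fun w hw => hdiff w hw)
  refine exists_val M g (zt_ne n) (X := fun q => p (q ^ n)) (T := T) hX hTm hXb ?_ ?_ ?_
  · filter_upwards [hroot] with q hq using by rwa [← hQ]
  · exact Eventually.of_forall fun q => by simp only [mul_pow, zt_pow hn, one_mul]
  · filter_upwards [hq] with q ⟨w, hw, e⟩
    rw [← e, zt_mul_qParam, hT _ (by simpa using hw), hT w hw, qParam_pow hn]
    exact (h w hw).2.2.2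

lemma ord_const {c : ℂ} (hc : c ≠ 0) : meromorphicOrderAt (fun _ : ℂ => c) 0 = 0 := by
  classical
  rw [meromorphicOrderAt_const, if_neg hc]

lemma ord_mul_zpow {μ : ℂ} (hμ : μ ≠ 0) (k : ℤ) :
    meromorphicOrderAt (fun q : ℂ => μ * q ^ k) 0 = (k : WithTop ℤ) := by
  have hm : MeromorphicAt (fun q : ℂ => μ * q ^ k) 0 := by fun_prop
  rw [meromorphicOrderAt_eq_int_iff hm]
  exact ⟨fun _ => μ, analyticAt_const, hμ, Eventually.of_forall fun q => by
    simp [mul_comm]⟩

lemma eventually_pow_ne {n : ℕ} (hn : 0 < n) {μ c : ℂ} (h : μ ≠ 0 ∨ c ≠ 0) :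
    ∀ᶠ q in 𝓝[≠] (0 : ℂ), μ * q ^ n ≠ c := by
  by_cases hc : c = 0
  · have hμ : μ ≠ 0 := h.resolve_right (not_not.2 hc)
    filter_upwards [self_mem_nhdsWithin] with q hq
    rw [hc]
    exact mul_ne_zero hμ (pow_ne_zero _ hq)
  · have h1 : Tendsto (fun q : ℂ => μ * q ^ n) (𝓝 0) (𝓝 (μ * 0 ^ n)) :=
      (continuous_const.mul (continuous_pow n)).tendsto 0
    rw [zero_pow hn.ne', mul_zero] at h1
    exact (h1.mono_left nhdsWithin_le_nhds).eventually_ne (Ne.symm hc)

omit [FiniteDimensional K N] in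
lemma xh_C (c : ℂ) : xh N x (C c) = algebraMap K N (algebraMap ℂ K c) := by simp [xh]

omit [FiniteDimensional K N] in
lemma xh_X : xh N x X = algebraMap K N x := by simp [xh]

omit [Algebra ℂ K] [FiniteDimensional K N] in
lemma comap_app (v : AV N) (f : K) : v.comap (algebraMap K N) f = v (algebraMap K N f) := rfl

/-- **local monodromy at a finite point** -/
theorem locFin_of (hcov : CovStmt) : LocFinStmt := by
  intro K N _ _ _ _ _ _ x hx S M n hn g hg a μ hμ hper
  obtain ⟨v, hv, hrot⟩ := exists_val_of_per M (hcov K N x hx S M) hn hg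
    (p := fun e => a + μ * e) (fun e _ => by fun_prop) (by fun_prop) (fun b => by
      filter_upwards [eventually_pow_ne hn (μ := μ) (c := b - a) (Or.inl hμ)] with q hq h
      exact hq (by rw [← h]; ring)) hper
  refine ⟨v.comap (algebraMap K N), ⟨fun c hc => ?_, ?_⟩, v, fun f => rfl, hrot⟩
  · rw [comap_app, ← xh_C (x := x), hv]
    simp only [eval_C]
    exact ord_const hc
  · have : algebraMap K N (x - algebraMap ℂ K a) = xh N x (X - C a) := by
      rw [map_sub, map_sub, xh_X, xh_C]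
    rw [comap_app, this, hv, ← ord_mul_zpow hμ (n : ℤ)]
    congr 1
    funext q
    simp

/-- **local monodromy at infinity** -/
theorem locInf_of (hcov : CovStmt) : LocInfStmt := by
  intro K N _ _ _ _ _ _ x hx S M n hn g hg μ hμ hper
  obtain ⟨v, hv, hrot⟩ := exists_val_of_per M (hcov K N x hx S M) hn hg
    (p := fun e => μ * e⁻¹) (fun e he => analyticAt_const.mul (analyticAt_id.inv he))
    (by fun_prop) (fun b => by
      filter_upwards [eventually_pow_ne hn (μ := b) (c := μ) (Or.inr hμ), self_mem_nhdsWithin]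
        with q hq hq0 h
      have : q ^ n ≠ 0 := pow_ne_zero _ hq0
      exact hq (by rw [← h]; field_simp)) hper
  refine ⟨v.comap (algebraMap K N), ⟨fun c hc => ?_, ?_⟩, v, fun f => rfl, hrot⟩
  · rw [comap_app, ← xh_C (x := x), hv]
    simp only [eval_C]
    exact ord_const hc
  · have h1 : v (algebraMap K N x) = ((-(n : ℤ) : ℤ) : WithTop ℤ) := by
      rw [← xh_X, hv, ← ord_mul_zpow hμ (-(n : ℤ))]
      congr 1
      funext q
      simp
    rw [comap_app, map_inv₀, AddValuation.map_inv, h1, ← WithTop.LinearOrderedAddCommGroup.coe_neg,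
      neg_neg]

end Crest.Agent.T170.Ret.Loc83
end
end

-- ▼ part T170/RetGFin_83
section

/-!
# Row 170, RET (G): the final assembly (helper83)
-/

namespace Crest.Agent.T170.Ret

/-- **(G)** -/
theorem gStmt : GStmt :=
  gStmt_of modelStmt_65 covStmt (Loc83.locFin_of covStmt) (Loc83.locInf_of covStmt)
    (genStmt_of covStmt evStmt)

end Crest.Agent.T170.Ret
end

-- ▼ part T170/RetC_81
section

/-!
# Row 170, module C (RET), the count (helper81)

`retP1_of : GStmt → EStmt → RetP1`.
-/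

set_option autoImplicit false
set_option linter.unusedSectionVars false

namespace Crest.Agent.T170.Ret

open Crest.Agent.T170.RetU Function

/-! ### dropping the apparent singularities -/

theorem prod_filter_map {α Γ : Type*} [Monoid Γ] (P : α → Bool) (g : α → Γ)
    (h : ∀ x, P x = false → g x = 1) (l : List α) :
    ((l.filter P).map g).prod = (l.map g).prod := by
  induction l with
  | nil => rfl
  | cons x l ih =>
    cases hx : P x
    · rw [List.filter_cons_of_neg (by simp [hx]), ih, List.map_cons, List.prod_cons, h x hx,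
        one_mul]
    · rw [List.filter_cons_of_pos (by simp [hx]), List.map_cons, List.prod_cons, ih, List.map_cons,
        List.prod_cons]

theorem exists_sub {β Γ : Type*} [Group Γ] {m m' : ℕ} {a : Fin m → β} {a' : Fin m' → β}
    (ha : Injective a) (ha' : Injective a') (hsub : ∀ i, a i ∈ Set.range a') (g : Fin m' → Γ)
    (hg : ∀ j, a' j ∉ Set.range a → g j = 1) :
    ∃ (σ : Equiv.Perm (Fin m)) (e : Fin m → Fin m'), (∀ i, a' (e i) = a (σ i)) ∧
      (List.ofFn fun i => g (e i)).prod = (List.ofFn g).prod ∧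
      Subgroup.closure (Set.range fun i => g (e i)) = Subgroup.closure (Set.range g) := by
  classical
  set l : List (Fin m') := (List.finRange m').filter fun j => decide (a' j ∈ Set.range a) with hl
  have hmem : ∀ j, j ∈ l ↔ a' j ∈ Set.range a := fun j => by simp [hl]
  have hnd : l.Nodup := (List.nodup_finRange m').filter _
  have hlen : m = l.length := by
    have h1 : (l.map a').toFinset = Finset.univ.image a := by
      ext b
      simp only [List.mem_toFinset, List.mem_map, Finset.mem_image, Finset.mem_univ, true_and]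
      constructor
      · rintro ⟨j, hj, rfl⟩
        exact (hmem j).1 hj
      · rintro ⟨i, rfl⟩
        obtain ⟨j, hj⟩ := hsub i
        exact ⟨j, (hmem j).2 ⟨i, hj.symm⟩, hj⟩
    have h2 := congrArg Finset.card h1
    rw [List.toFinset_card_of_nodup (hnd.map ha'), Finset.card_image_of_injective _ ha,
      List.length_map, Finset.card_univ, Fintype.card_fin] at h2
    exact h2.symm
  let e : Fin m → Fin m' := fun i => l.get (i.cast hlen)
  have he : Injective e := fun i i' h =>
    Fin.cast_injective hlen (List.nodup_iff_injective_get.1 hnd h)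
  have hel : List.ofFn e = l := List.ext_get (by simp [hlen]) (by simp [e])
  have h1 : ∀ i, ∃ k, a k = a' (e i) := fun i => (hmem _).1 (List.get_mem _ _)
  choose s hs using h1
  have hsi : Injective s := fun i i' h => he (ha' (by rw [← hs, ← hs, h]))
  refine ⟨Equiv.ofBijective s hsi.bijective_of_finite, e, fun i => (hs i).symm, ?_, ?_⟩
  · have h2 : (List.ofFn fun i => g (e i)) = l.map g := by
      rw [← hel, List.map_ofFn]
      rfl
    rw [h2, hl, prod_filter_map _ g fun j hj => hg j (by simpa using hj), List.ofFn_eq_map]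
  · refine le_antisymm (Subgroup.closure_mono ?_) ?_
    · rintro _ ⟨i, rfl⟩
      exact ⟨_, rfl⟩
    · rw [Subgroup.closure_le]
      rintro _ ⟨j, rfl⟩
      by_cases hj : a' j ∈ Set.range a
      · have h3 : j ∈ List.ofFn e := by rw [hel]; exact (hmem j).2 hj
        obtain ⟨i, hi⟩ := (List.mem_ofFn' _ _).1 h3
        exact Subgroup.subset_closure ⟨i, by simp only [hi]⟩
      · rw [hg j hj]
        exact one_mem _

theorem zt_prim {n : ℕ} (hn : 0 < n) : IsPrimitiveRoot (zt n) n :=
  Complex.isPrimitiveRoot_exp n hn.ne'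

/-- (G) without the apparent singularities -/
theorem gen_of (hG : GStmt) {K N : Type} [Field K] [Field N] [Algebra ℂ K] [Algebra K N]
    [FiniteDimensional K N] [IsGalois K N] {x : K} (hx : IsRat ℂ K x) {n : ℕ} (hn : 0 < n)
    (hexp : ∀ g : N ≃ₐ[K] N, g ^ n = 1) {m : ℕ} {a : Fin m → ℂ} (ha : Injective a)
    (hun : ∀ b, b ∉ Set.range a → ∀ g : N ≃ₐ[K] N,
      IsGen ℂ (x - algebraMap ℂ K b) (zt n) n g → g = 1) :
    ∃ (σ : Equiv.Perm (Fin m)) (g : Fin m → (N ≃ₐ[K] N)),
      (∀ i, IsGen ℂ (x - algebraMap ℂ K (a (σ i))) (zt n) n (g i)) ∧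
      IsGen ℂ x⁻¹ (zt n) n (List.ofFn g).prod⁻¹ ∧ Subgroup.closure (Set.range g) = ⊤ := by
  classical
  obtain ⟨m', a', g, ha', hS, h1, h2, h3⟩ := hG K N x hx n hn hexp (Finset.univ.image a)
  obtain ⟨σ, e, h4, h5, h6⟩ := exists_sub ha ha'
    (fun i => hS _ (Finset.mem_image_of_mem a (Finset.mem_univ i))) g
    (fun j hj => hun _ hj _ (h1 j))
  refine ⟨σ, fun i => g (e i), fun i => ?_, ?_, h6.trans h3⟩
  · rw [← h4]
    exact h1 _
  · rw [h5]
    exact h2

/-! ### the universal group -/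

/-- the relatively free group on `m` generators for the group `W` -/
def UG (m : ℕ) (W : Type) [Group W] : Subgroup ((Fin m → W) → W) :=
  Subgroup.closure (Set.range fun (i : Fin m) (w : Fin m → W) => w i)

/-- its generators -/
def UG.gen {m : ℕ} (W : Type) [Group W] (i : Fin m) : UG m W :=
  ⟨fun w => w i, Subgroup.subset_closure ⟨i, rfl⟩⟩

theorem UG.closure_gen (m : ℕ) (W : Type) [Group W] :
    Subgroup.closure (Set.range (UG.gen (m := m) W)) = ⊤ := by
  apply Subgroup.map_injective (UG m W).subtype_injective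
  rw [MonoidHom.map_closure, ← Set.range_comp, ← MonoidHom.range_eq_map, Subgroup.range_subtype]
  rfl

/-- evaluation -/
def UG.ev {m : ℕ} {W : Type} [Group W] (w : Fin m → W) : UG m W →* W :=
  (Pi.evalMonoidHom (fun _ : Fin m → W => W) w).comp (UG m W).subtype

theorem UG.ev_injective (m : ℕ) (W : Type) [Group W] : Injective (UG.ev (m := m) (W := W)) :=
  fun _ _ h => funext fun i => DFunLike.congr_fun h (UG.gen W i)

theorem UG.resW (m : ℕ) (W : Type) [Group W] : ResW (UG m W) W :=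
  fun _ h => Subtype.ext (funext fun w => h (UG.ev w))

theorem ResW.of_equiv {Γ Γ' W : Type*} [Group Γ] [Group Γ'] [Group W] (h : ResW Γ' W)
    (e : Γ ≃* Γ') : ResW Γ W := fun γ hγ =>
  e.injective ((h (e γ) fun ρ => hγ (ρ.comp e.toMonoidHom)).trans (map_one e).symm)

theorem ResW.pow_eq_one {Γ W : Type*} [Group Γ] [Group W] (h : ResW Γ W) {n : ℕ}
    (hn : ∀ w : W, w ^ n = 1) (γ : Γ) : γ ^ n = 1 :=
  h _ fun ρ => by rw [map_pow, hn]

theorem ev_injective_of_closure {Γ W ι : Type*} [Group Γ] [Group W] {g : ι → Γ}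
    (h : Subgroup.closure (Set.range g) = ⊤) :
    Injective (fun (ρ : Γ →* W) (i : ι) => ρ (g i)) := fun _ _ hρ =>
  MonoidHom.eq_of_eqOn_dense h (by
    rintro _ ⟨i, rfl⟩
    exact congrFun hρ i)

/-! ### restriction -/

theorem exists_res {K M N : Type*} [Field K] [Field M] [Field N] [Algebra K M] [Algebra K N]
    [Normal K M] [Normal K N] (j : M →ₐ[K] N) :
    ∃ r : (N ≃ₐ[K] N) →* (M ≃ₐ[K] M), Surjective r ∧ ∀ g y, j (r g y) = g (j y) := by
  let _ : Algebra M N := (j : M →+* N).toAlgebra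
  have _ : IsScalarTower K M N := IsScalarTower.of_algebraMap_eq fun c => (j.commutes c).symm
  exact ⟨AlgEquiv.restrictNormalHom M, AlgEquiv.restrictNormalHom_surjective N,
    fun g y => g.restrictNormal_commutes M y⟩

theorem eq_one_of_sup {K Ω : Type*} [Field K] [Field Ω] [Algebra K Ω]
    (N M : IntermediateField K Ω) (g : ↥(N ⊔ M) ≃ₐ[K] ↥(N ⊔ M))
    (h1 : ∀ y : N, g (IntermediateField.inclusion le_sup_left y) =
      IntermediateField.inclusion le_sup_left y)
    (h2 : ∀ y : M, g (IntermediateField.inclusion le_sup_right y) =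
      IntermediateField.inclusion le_sup_right y) : g = 1 := by
  have h0 : ∀ y : ↥(N ⊔ M), g y = y → y ∈ IntermediateField.fixedField (Subgroup.zpowers g) := by
    intro y hy
    rw [IntermediateField.mem_fixedField_iff]
    intro f hf
    exact (Subgroup.zpowers_le (H := MulAction.stabilizer _ y)).2 hy hf
  have h3 : N ⊔ M ≤ IntermediateField.lift (IntermediateField.fixedField (Subgroup.zpowers g)) := by
    refine sup_le (fun y hy => ?_) (fun y hy => ?_)
    · exact (IntermediateField.mem_lift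
        (IntermediateField.inclusion le_sup_left (⟨y, hy⟩ : N))).2 (h0 _ (h1 _))
    · exact (IntermediateField.mem_lift
        (IntermediateField.inclusion le_sup_right (⟨y, hy⟩ : M))).2 (h0 _ (h2 _))
  ext y
  have h4 := (IntermediateField.mem_lift y).1 (h3 y.2)
  rw [IntermediateField.mem_fixedField_iff] at h4
  rw [h4 g (Subgroup.mem_zpowers g), AlgEquiv.one_apply]

/-! ### the complex case -/

theorem retP1_cx (hG : GStmt) (hE : EStmt) {K Ω : Type} [Field K] [Field Ω] [Algebra ℂ K]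
    [Algebra K Ω] [IsAlgClosure K Ω] {x : K} (hx : IsRat ℂ K x) {m : ℕ} {a : Fin m → ℂ}
    (ha : StrictMono fun i => (a i).re) (W : Type) [Group W] [Finite W] {n : ℕ} (hn : 0 < n)
    (hW : ∀ w : W, w ^ n = 1) :
    ∃ M : IntermediateField K Ω,
      FiniteDimensional K M ∧ IsGalois K M ∧ ResW (M ≃ₐ[K] M) W ∧
      (∀ b : ℂ, b ∉ Set.range a → Unr ℂ M (x - algebraMap ℂ K b)) ∧
      (∀ N : IntermediateField K Ω, FiniteDimensional K N → IsGalois K N →
        ResW (N ≃ₐ[K] N) W → (∀ b : ℂ, b ∉ Set.range a → Unr ℂ N (x - algebraMap ℂ K b)) →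
        N ≤ M) ∧
      ∃ (σ : Equiv.Perm (Fin m)) (g : Fin m → (M ≃ₐ[K] M)),
        (∀ i, IsGen ℂ (x - algebraMap ℂ K (a (σ i))) (zt n) n (g i)) ∧
        IsGen ℂ x⁻¹ (zt n) n (List.ofFn g).prod⁻¹ ∧ Subgroup.closure (Set.range g) = ⊤ ∧
        Bijective (fun (ρ : (M ≃ₐ[K] M) →* W) (i : Fin m) => ρ (g i)) := by
  have hai : Injective a := fun i j h => ha.injective (by simp only [h])
  have hz : zt n ^ n = 1 := (zt_prim hn).pow_eq_one
  obtain ⟨N₀, hf₀, hg₀, ⟨φ₀⟩, hu₀⟩ := hE K x hx m a ha (UG m W) (UG.gen W) (UG.closure_gen m W)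
  let e : AlgebraicClosure K ≃ₐ[K] Ω := IsAlgClosure.equiv K _ _
  let M : IntermediateField K Ω := N₀.map (e : AlgebraicClosure K →ₐ[K] Ω)
  let eM : N₀ ≃ₐ[K] M := N₀.equivMap (e : AlgebraicClosure K →ₐ[K] Ω)
  have hfM : FiniteDimensional K M := eM.toLinearEquiv.finiteDimensional
  have hgM : IsGalois K M := IsGalois.of_algEquiv eM
  let φ : (M ≃ₐ[K] M) ≃* UG m W := (AlgEquiv.autCongr eM).symm.trans φ₀
  have hrM : ResW (M ≃ₐ[K] M) W := (UG.resW m W).of_equiv φ
  have huM : ∀ b : ℂ, b ∉ Set.range a → Unr ℂ M (x - algebraMap ℂ K b) :=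
    fun b hb => (hu₀ b hb).comap (eM.symm : M →ₐ[K] N₀)
  have hfin : Finite ((M ≃ₐ[K] M) →* W) := DFunLike.finite _
  have hcard : Nat.card (Fin m → W) ≤ Nat.card ((M ≃ₐ[K] M) →* W) := by
    refine Nat.card_le_card_of_injective (fun w => (UG.ev w).comp φ.toMonoidHom) fun w w' h => ?_
    refine UG.ev_injective m W (MonoidHom.ext fun γ => ?_)
    obtain ⟨γ, rfl⟩ := φ.surjective γ
    exact DFunLike.congr_fun h γ
  refine ⟨M, hfM, hgM, hrM, huM, fun N hfN hgN hrN huN => ?_, ?_⟩
  · have hgL : IsGalois K ↥(N ⊔ M) := {}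
    obtain ⟨rN, -, hrN'⟩ := exists_res (K := K)
      (IntermediateField.inclusion (le_sup_left : N ≤ N ⊔ M))
    obtain ⟨rM, hrM1, hrM'⟩ := exists_res (K := K)
      (IntermediateField.inclusion (le_sup_right : M ≤ N ⊔ M))
    have hone : ∀ g, rN g = 1 → rM g = 1 → g = 1 := fun g h1 h2 =>
      eq_one_of_sup N M g (fun y => by rw [← hrN', h1, AlgEquiv.one_apply])
        (fun y => by rw [← hrM', h2, AlgEquiv.one_apply])
    obtain ⟨σ, g, -, -, h3⟩ := gen_of hG (N := ↥(N ⊔ M)) hx hn
      (fun g => hone _ (by rw [map_pow, hrN.pow_eq_one hW]) (by rw [map_pow, hrM.pow_eq_one hW]))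
      hai (fun b hb g hg => hone g
        ((hg.comap _ (hrN' g)).eq_one (hx.sub b) hn hz (huN b hb))
        ((hg.comap _ (hrM' g)).eq_one (hx.sub b) hn hz (huM b hb)))
    have hfinL : Finite ((↥(N ⊔ M) ≃ₐ[K] ↥(N ⊔ M)) →* W) := DFunLike.finite _
    have h4 : Nat.card ((↥(N ⊔ M) ≃ₐ[K] ↥(N ⊔ M)) →* W) ≤ Nat.card (Fin m → W) :=
      Nat.card_le_card_of_injective _ (ev_injective_of_closure h3)
    have h5 : Injective fun ρ : (M ≃ₐ[K] M) →* W => ρ.comp rM := fun ρ ρ' h =>
      MonoidHom.ext fun γ => by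
        obtain ⟨γ, rfl⟩ := hrM1 γ
        exact DFunLike.congr_fun h γ
    have h6 := (h5.bijective_of_nat_card_le (h4.trans hcard)).2
    intro y hy
    have h7 : IntermediateField.inclusion (le_sup_left : N ≤ N ⊔ M) ⟨y, hy⟩ ∈
        (IntermediateField.inclusion (le_sup_right : M ≤ N ⊔ M)).fieldRange := by
      rw [← IsGalois.fixedField_fixingSubgroup
        (IntermediateField.inclusion (le_sup_right : M ≤ N ⊔ M)).fieldRange,
        IntermediateField.mem_fixedField_iff]
      intro γ hγ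
      have h8 : rM γ = 1 := by
        ext z
        have h9 := (hrM' γ z).trans
          ((IntermediateField.mem_fixingSubgroup_iff _ _).1 hγ _ ⟨z, rfl⟩)
        exact congrArg Subtype.val ((IntermediateField.inclusion _).injective h9)
      have h10 : rN γ = 1 := hrN _ fun ρ => by
        obtain ⟨ρ', hρ'⟩ := h6 (ρ.comp rN)
        have h11 := DFunLike.congr_fun hρ' γ
        simp only [MonoidHom.comp_apply, h8, map_one] at h11
        exact h11.symm
      rw [← hrN', h10, AlgEquiv.one_apply]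
    obtain ⟨z, hz'⟩ := h7
    have h8 : (z : Ω) = y := congrArg Subtype.val hz'
    rw [← h8]
    exact z.2
  · obtain ⟨σ, g, h1, h2, h3⟩ := gen_of hG (N := M) hx hn (hrM.pow_eq_one hW) hai
      (fun b hb g hg => hg.eq_one (hx.sub b) hn hz (huM b hb))
    exact ⟨σ, g, h1, h2, h3, (ev_injective_of_closure h3).bijective_of_nat_card_le hcard⟩

/-! ### change of constants -/

theorem exists_rot81 {m : ℕ} {a : Fin m → ℂ} (ha : Injective a) :
    ∃ l : ℂ, l ≠ 0 ∧ Injective fun i => (l * a i).re := by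
  classical
  obtain ⟨s, hs⟩ := Infinite.exists_notMem_finset (Finset.univ.image
    fun p : Fin m × Fin m => (a p.1 - a p.2).re / (a p.1 - a p.2).im)
  refine ⟨1 + s * Complex.I, fun h => ?_, fun i j h => ?_⟩
  · have h1 := congrArg Complex.re h
    simp at h1
  · by_contra hij
    have h1 : (a i - a j).re = s * (a i - a j).im := by
      simp only [Complex.mul_re, Complex.add_re, Complex.one_re, Complex.ofReal_re, Complex.I_re,
        Complex.ofReal_im, Complex.I_im, Complex.add_im, Complex.one_im, Complex.mul_im] at h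
      simp only [Complex.sub_re, Complex.sub_im]
      linarith
    by_cases h2 : (a i - a j).im = 0
    · rw [h2, mul_zero] at h1
      exact hij (ha (sub_eq_zero.1 (Complex.ext h1 h2)))
    · refine hs (Finset.mem_image.2 ⟨(i, j), Finset.mem_univ _, ?_⟩)
      simp only
      rw [h1, mul_div_cancel_right₀ _ h2]

section change

variable {C C' K N : Type*} [Field C] [Field C'] [Field K] [Field N] [Algebra C K] [Algebra C' K]
  [Algebra K N] (φ : C ≃+* C') (hφ : ∀ c, algebraMap C' K (φ c) = algebraMap C K c)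

include hφ

theorem Ctr.change {u : AV K} {t : K} {n : ℕ} (h : Ctr C' u t n) : Ctr C u t n :=
  ⟨fun c hc => by rw [← hφ]; exact h.1 _ ((map_ne_zero φ).2 hc), h.2⟩

theorem Unr.change {t : K} (h : Unr C' N t) : Unr C N t := by
  obtain ⟨v, hv⟩ := h
  exact ⟨v, hv.change φ hφ⟩

theorem IsGen.change {t : K} {ζ : C} {n : ℕ} {g : N ≃ₐ[K] N} (h : IsGen C' t (φ ζ) n g) :
    IsGen C t ζ n g := by
  obtain ⟨u, hu, hg⟩ := h
  exact ⟨u, hu.change φ hφ, by rwa [hφ] at hg⟩

theorem IsRat.change {x : K} (h : IsRat C K x) : IsRat C' K x := by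
  constructor
  · rintro ⟨p, hp, hpx⟩
    refine h.1 ⟨p.map (φ.symm : C' →+* C), (Polynomial.map_ne_zero_iff φ.symm.injective).2 hp, ?_⟩
    rw [Polynomial.aeval_def, Polynomial.eval₂_map, ← hpx, Polynomial.aeval_def]
    congr 1
    ext c
    simp [← hφ]
  · rw [eq_top_iff]
    intro y _
    have hy : y ∈ IntermediateField.adjoin C {x} := by rw [h.2]; trivial
    induction hy using IntermediateField.adjoin_induction with
    | mem z hz => exact IntermediateField.subset_adjoin _ _ hz
    | algebraMap c => rw [← hφ]; exact IntermediateField.algebraMap_mem _ _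
    | add a b _ _ ha hb => exact add_mem (ha trivial) (hb trivial)
    | inv a _ ha => exact inv_mem (ha trivial)
    | mul a b _ _ ha hb => exact mul_mem (ha trivial) (hb trivial)

end change

/-- **Riemann existence on the line** from the monodromy half and the existence half -/
theorem retP1_of (hG : GStmt) (hE : EStmt) : RetP1 := by
  intro C K Ω _ _ _ _ _ _ _ _ hC x hx m a ha W _ _ n hn hW
  obtain ⟨φ⟩ : Nonempty (C ≃+* ℂ) :=
    IsAlgClosed.ringEquiv_of_equiv_of_charZero (by rw [hC]; exact Cardinal.aleph0_lt_continuum)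
      (Cardinal.eq.1 (hC.trans Cardinal.mk_complex.symm))
  let _ : Algebra ℂ K := ((algebraMap C K).comp (φ.symm : ℂ →+* C)).toAlgebra
  have hφ' : ∀ c, algebraMap C K (φ.symm c) = algebraMap ℂ K c := fun _ => rfl
  have hφ : ∀ c, algebraMap ℂ K (φ c) = algebraMap C K c := fun c => by
    rw [← hφ', φ.symm_apply_apply]
  obtain ⟨l, hl, hinj⟩ := exists_rot81 (a := fun i => φ (a i)) (φ.injective.comp ha)
  let s : Equiv.Perm (Fin m) := Tuple.sort fun i => (l * φ (a i)).re
  have hs : StrictMono fun i => (l * φ (a (s i))).re :=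
    (Tuple.monotone_sort fun i => (l * φ (a i)).re).strictMono_of_injective (hinj.comp s.injective)
  have hx' : IsRat ℂ K (algebraMap ℂ K l * x) := (hx.change φ hφ).const_mul hl
  obtain ⟨M, h1, h2, h3, h4, h5, σ, g, h6, h7, h8⟩ :=
    retP1_cx (Ω := Ω) hG hE hx' (a := fun i => l * φ (a (s i))) hs W hn hW
  have hl' : algebraMap ℂ K l ≠ 0 := (map_ne_zero _).2 hl
  have e1 : ∀ b : C, x - algebraMap C K b =
      algebraMap ℂ K l⁻¹ * (algebraMap ℂ K l * x - algebraMap ℂ K (l * φ b)) := fun b => by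
    rw [map_mul, hφ, map_inv₀]
    field_simp
  have e2 : ∀ b : ℂ, algebraMap ℂ K l * x - algebraMap ℂ K b =
      algebraMap ℂ K l * (x - algebraMap C K (φ.symm (l⁻¹ * b))) := fun b => by
    rw [hφ', map_mul, map_inv₀]
    field_simp
  have e3 : x⁻¹ = algebraMap ℂ K l * (algebraMap ℂ K l * x)⁻¹ := by
    have := hx.ne_zero
    field_simp
  refine ⟨φ.symm (zt n), M, (zt_prim hn).map_of_injective φ.symm.injective, h1, h2, h3,
    fun b hb => ?_, fun N hN1 hN2 hN3 hN4 => h5 N hN1 hN2 hN3 fun b hb => ?_,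
    σ.trans s, g, fun i => ?_, ?_, h8⟩
  · rw [e1]
    refine ((h4 _ ?_).const_mul (inv_ne_zero hl)).change φ hφ
    rintro ⟨i, hi⟩
    exact hb ⟨s i, φ.injective (mul_left_cancel₀ hl hi)⟩
  · rw [e2]
    refine ((hN4 _ ?_).change φ.symm hφ').const_mul hl
    rintro ⟨i, hi⟩
    refine hb ⟨s.symm i, ?_⟩
    simp only [Equiv.apply_symm_apply, hi, RingEquiv.apply_symm_apply]
    field_simp
  · rw [e1]
    refine IsGen.change φ hφ ?_
    rw [φ.apply_symm_apply]
    exact (h6 i).const_mul (inv_ne_zero hl)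
  · rw [e3]
    refine IsGen.change φ hφ ?_
    rw [φ.apply_symm_apply]
    exact h7.const_mul hl

end Crest.Agent.T170.Ret
end

-- ▼ part T170/RetE1_88
section

/-!
# Row 170, RET, existence half (helper88), file 1: a meromorphic one-form with one pole

On a Riemann surface on which the Poisson equation is solvable there is, for every point `p`, a
one-form which is holomorphic off `p` and has a true pole at `p`.
-/

set_option autoImplicit false

open Set Filter Topology Function Metric MeasureTheory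

universe u v

namespace Crest.Agent.T170.RetE

noncomputable section

open Complex (I)
open Crest.Agent.R235.RS Crest.Agent.R235.RS.CAtl

/-- `∂ (F conj G)` for holomorphic `G` -/
theorem dz_mul_conj {F G : ℂ → ℂ} {z : ℂ} (hF : DifferentiableAt ℝ F z)
    (hG : DifferentiableAt ℂ G z) :
    dz (fun w => F w * (starRingEnd ℂ) (G w)) z = dz F z * (starRingEnd ℂ) (G z) := by
  have hd : HasFDerivAt (fun w => (starRingEnd ℂ) (G w))
      ((Complex.conjCLE : ℂ →L[ℝ] ℂ).comp (fderiv ℝ G z)) z :=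
    (Complex.conjCLE : ℂ →L[ℝ] ℂ).hasFDerivAt.comp z (hG.restrictScalars ℝ).hasFDerivAt
  have h1 := hF.hasFDerivAt.mul hd
  have h2 : ∀ v, fderiv ℝ (fun w => F w * (starRingEnd ℂ) (G w)) z v =
      F z * (starRingEnd ℂ) (v * deriv G z) + (starRingEnd ℂ) (G z) * fderiv ℝ F z v := by
    intro v
    have h3 : fderiv ℝ (fun w => F w * (starRingEnd ℂ) (G w)) z =
        F z • ((Complex.conjCLE : ℂ →L[ℝ] ℂ).comp (fderiv ℝ G z)) +
          (starRingEnd ℂ) (G z) • fderiv ℝ F z := h1.fderiv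
    rw [h3, ContinuousLinearMap.add_apply, ContinuousLinearMap.smul_apply,
      ContinuousLinearMap.smul_apply, smul_eq_mul, smul_eq_mul,
      ContinuousLinearMap.comp_apply, fderiv_hol hG]
    rfl
  unfold dz
  rw [h2, h2]
  simp only [map_mul, map_one, Complex.conj_I]
  linear_combination (F z * (starRingEnd ℂ) (deriv G z) / 2) * Complex.I_mul_I

variable {N : Type u} [TopologicalSpace N] {A : CAtl.{u, v} N}

theorem hf_self' {u₁ u₂ : N → ℝ} (h₁ : A.Smooth u₁) (h₂ : A.Smooth u₂) {k : A.ι} {g : ℂ → ℂ}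
    {z : ℂ} (hz : z ∈ (A.c k).target) (hd2 : DifferentiableAt ℝ g z)
    (hl : (A.lapC u₁ k ((A.c k).symm z) : ℂ) + A.lapC u₂ k ((A.c k).symm z) * I = 4 * dz g z) :
    DifferentiableAt ℂ (A.hf u₁ u₂ k g k) z := by
  have hU := UU_smooth h₁ h₂ hz
  have hU2 : ContDiffAt ℝ 2 (A.UU u₁ u₂ k) z := hU.of_le ENat.LEInfty.out
  have hd1 := (fderiv_db hU2).differentiableAt
  have h3 : DifferentiableAt ℂ
      (fun w => (starRingEnd ℂ) ((fun w => db (A.UU u₁ u₂ k) w - g w) w)) z := by
    refine diff_conj (hd1.sub hd2) ?_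
    rw [dz_sub hd1 hd2]
    have h4 : dz (fun w => db (A.UU u₁ u₂ k) w) z = lapX (A.UU u₁ u₂ k) z / 4 := dz_db hU2
    rw [h4]
    have h5 := UU_lap h₁ h₂ ((A.c k).map_target hz)
    rw [(A.c k).right_inv hz] at h5
    rw [h5, hl]
    ring
  refine h3.congr_of_eventuallyEq ?_
  filter_upwards [(A.c k).open_target.mem_nhds hz] with w hw
  show (starRingEnd ℂ) (db (A.UU u₁ u₂ k) w - A.gf k g k w) = _
  rw [gf_self hw]

theorem hf_diff' [T2Space N] {u₁ u₂ : N → ℝ} (h₁ : A.Smooth u₁) (h₂ : A.Smooth u₂) {k : A.ι}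
    {g : ℂ → ℂ} {z0 : ℂ} (hg : ∀ z, z ≠ z0 → DifferentiableAt ℝ g z) (hc : HasCompactSupport g)
    (hs : tsupport g ⊆ (A.c k).target)
    (hl : ∀ z ∈ (A.c k).target, z ≠ z0 →
      (A.lapC u₁ k ((A.c k).symm z) : ℂ) + A.lapC u₂ k ((A.c k).symm z) * I = 4 * dz g z)
    (hl1 : ∀ j, ∀ x ∈ (A.c j).source, x ∉ (A.c k).source → A.lapC u₁ j x = 0)
    (hl2 : ∀ j, ∀ x ∈ (A.c j).source, x ∉ (A.c k).source → A.lapC u₂ j x = 0)
    (j : A.ι) {z : ℂ} (hz : z ∈ (A.c j).target) (hne : (A.c j).symm z ≠ (A.c k).symm z0) :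
    DifferentiableAt ℂ (A.hf u₁ u₂ k g j) z := by
  by_cases hzk : z ∈ A.dom j k
  · have hne' : A.tr j k z ≠ z0 := by
      intro h
      apply hne
      rw [← h, A.symm_tr hzk]
    have h3 := hf_self' h₁ h₂ (A.tr_mem hzk).1 (hg _ hne') (hl _ (A.tr_mem hzk).1 hne')
    have h4 : DifferentiableAt ℂ
        (fun w => A.hf u₁ u₂ k g k (A.tr j k w) * deriv (A.tr j k) w) z := by
      refine DifferentiableAt.mul ?_ (A.tr_analyticAt hzk).deriv.differentiableAt
      exact DifferentiableAt.comp (g := A.hf u₁ u₂ k g k) z h3 (A.tr_diffAt hzk)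
    refine h4.congr_of_eventuallyEq ?_
    filter_upwards [(A.isOpen_dom j k).mem_nhds hzk] with w hw
    exact hf_tr h₁ h₂ hw
  · have hU := UU_smooth h₁ h₂ hz
    have hU2 : ContDiffAt ℝ 2 (A.UU u₁ u₂ j) z := hU.of_le ENat.LEInfty.out
    have hd1 := (fderiv_db hU2).differentiableAt
    have hx : (A.c j).symm z ∉ (A.c k).source := fun h => hzk ⟨hz, h⟩
    have h3 : DifferentiableAt ℂ (fun w => (starRingEnd ℂ) (db (A.UU u₁ u₂ j) w)) z := by
      refine diff_conj hd1 ?_
      rw [dz_db hU2]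
      have h5 := UU_lap h₁ h₂ ((A.c j).map_target hz)
      rw [(A.c j).right_inv hz, hl1 j _ ((A.c j).map_target hz) hx,
        hl2 j _ ((A.c j).map_target hz) hx] at h5
      rw [h5]
      simp
    refine h3.congr_of_eventuallyEq ?_
    filter_upwards [gf_zero hc hs hz hzk] with w hw
    show (starRingEnd ℂ) (db (A.UU u₁ u₂ j) w - A.gf k g j w) = _
    rw [hw, sub_zero]

/-- a cut-off function at `z0` -/
structure Cut (z0 : ℂ) (r : ℝ) (X : ℂ → ℂ) : Prop where
  pos : 0 < r
  sm : ContDiff ℝ (⊤ : ℕ∞) X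
  supp : tsupport X ⊆ closedBall z0 r
  one : ∀ z ∈ ball z0 (r / 2), X =ᶠ[𝓝 z] fun _ => (1 : ℂ)

theorem exists_cut (z0 : ℂ) {r : ℝ} (hr : 0 < r) : ∃ X, Cut z0 r X := by
  let χ : ContDiffBump z0 := ⟨r / 2, r, half_pos hr, half_lt_self hr⟩
  refine ⟨fun z => (χ z : ℂ), hr, Complex.ofRealCLM.contDiff.comp χ.contDiff, ?_, ?_⟩
  · refine (closure_mono ?_).trans χ.tsupport_eq.subset
    intro z hz h
    apply hz
    show (χ z : ℂ) = 0
    have h' : χ z = 0 := h
    rw [h', Complex.ofReal_zero]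
  · intro z hz
    filter_upwards [isOpen_ball.mem_nhds hz] with w hw
    show (χ w : ℂ) = 1
    rw [χ.one_of_mem_closedBall (ball_subset_closedBall hw), Complex.ofReal_one]

/-- the density -/
def rho (X q : ℂ → ℂ) (z : ℂ) : ℂ := 4 * (dz X z * (starRingEnd ℂ) (q z))

namespace Cut

variable {z0 : ℂ} {r : ℝ} {X : ℂ → ℂ} (hX : Cut z0 r X) {q : ℂ → ℂ}
include hX

theorem rho_smooth (hq : ∀ z, z ≠ z0 → AnalyticAt ℂ q z) : ContDiff ℝ (⊤ : ℕ∞) (rho X q) := by
  refine contDiff_iff_contDiffAt.2 fun z => ?_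
  by_cases hz : z = z0
  · subst hz
    refine (contDiffAt_const (c := (0 : ℂ))).congr_of_eventuallyEq ?_
    filter_upwards [isOpen_ball.mem_nhds (mem_ball_self (half_pos hX.pos))] with w hw
    unfold rho
    rw [dz_congr (hX.one w hw)]
    simp [dz]
  · refine contDiffAt_const.mul ((contDiff_dz hX.sm).contDiffAt.mul ?_)
    have h1 : ContDiffAt ℝ (⊤ : ℕ∞) q z := ((hq z hz).contDiffAt (n := (⊤ : ℕ∞))).restrict_scalars ℝ
    exact (Complex.conjCLE : ℂ →L[ℝ] ℂ).contDiff.contDiffAt.comp z h1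

theorem rho_supp : tsupport (rho X q) ⊆ closedBall z0 r := by
  refine Subset.trans ?_ (tsupport_dz.trans hX.supp)
  refine closure_mono fun z hz h => hz ?_
  unfold rho
  rw [h, zero_mul, mul_zero]

theorem rho_cpt : HasCompactSupport (rho X q) :=
  IsCompact.of_isClosed_subset (isCompact_closedBall z0 r) (isClosed_tsupport _) hX.rho_supp

theorem rho_int (hq : ∀ z, z ≠ z0 → AnalyticAt ℂ q z) : Integrable (rho X q) :=
  (hX.rho_smooth hq).continuous.integrable_of_hasCompactSupport hX.rho_cpt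

end Cut

/-- a form with the principal part `-q` -/
theorem exists_form_q [T2Space N] (hP : A.POISSON) (k : A.ι) {z0 : ℂ} {r : ℝ} {X : ℂ → ℂ}
    (hX : Cut z0 r X) (hb : closedBall z0 r ⊆ (A.c k).target) {q : ℂ → ℂ}
    (hq : ∀ z, z ≠ z0 → AnalyticAt ℂ q z) (hint : ∫ z, rho X q z = 0) :
    ∃ (h : A.ι → ℂ → ℂ) (G : ℂ → ℂ),
      (∀ i j, ∀ z ∈ A.dom i j, h i z = h j (A.tr i j z) * deriv (A.tr i j) z) ∧
      (∀ j, ∀ z ∈ (A.c j).target, (A.c j).symm z ≠ (A.c k).symm z0 →
        DifferentiableAt ℂ (h j) z) ∧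
      ContinuousAt G z0 ∧ ∀ᶠ z in 𝓝 z0, h k z = G z - q z := by
  have hρ := hX.rho_smooth hq
  have hρc := hX.rho_cpt (q := q)
  have hρs := (hX.rho_supp (q := q)).trans hb
  have hi := hX.rho_int hq
  have hre : ∫ z, (rho X q z).re = 0 := by
    have h1 := Complex.reCLM.integral_comp_comm hi
    rw [hint, map_zero] at h1
    exact h1
  have him : ∫ z, (rho X q z).im = 0 := by
    have h1 := Complex.imCLM.integral_comp_comm hi
    rw [hint, map_zero] at h1
    exact h1
  have s1 : tsupport (fun z => (rho X q z).re) ⊆ tsupport (rho X q) := by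
    refine closure_mono fun z hz h => hz ?_
    show (rho X q z).re = 0
    rw [h, Complex.zero_re]
  have s2 : tsupport (fun z => (rho X q z).im) ⊆ tsupport (rho X q) := by
    refine closure_mono fun z hz h => hz ?_
    show (rho X q z).im = 0
    rw [h, Complex.zero_im]
  obtain ⟨u₁, h₁, hu1, hu1'⟩ := hP k (fun z => (rho X q z).re)
    (Complex.reCLM.contDiff.comp hρ) (IsCompact.of_isClosed_subset hρc (isClosed_tsupport _) s1)
    (s1.trans hρs) hre
  obtain ⟨u₂, h₂, hu2, hu2'⟩ := hP k (fun z => (rho X q z).im)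
    (Complex.imCLM.contDiff.comp hρ) (IsCompact.of_isClosed_subset hρc (isClosed_tsupport _) s2)
    (s2.trans hρs) him
  set g : ℂ → ℂ := fun z => X z * (starRingEnd ℂ) (q z) with hg
  have hXd : ∀ z, DifferentiableAt ℝ X z := fun z =>
    (hX.sm.differentiable (by simp)).differentiableAt
  have hgd : ∀ z, z ≠ z0 → DifferentiableAt ℝ g z := by
    intro z hz
    refine (hXd z).mul ?_
    exact (Complex.conjCLE : ℂ →L[ℝ] ℂ).differentiableAt.comp z
      ((hq z hz).differentiableAt.restrictScalars ℝ)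
  have hgs : tsupport g ⊆ closedBall z0 r := by
    refine Subset.trans ?_ hX.supp
    refine closure_mono fun z hz h => hz ?_
    show X z * _ = 0
    rw [h, zero_mul]
  have hgc : HasCompactSupport g :=
    IsCompact.of_isClosed_subset (isCompact_closedBall z0 r) (isClosed_tsupport _) hgs
  have hl : ∀ z ∈ (A.c k).target, z ≠ z0 →
      (A.lapC u₁ k ((A.c k).symm z) : ℂ) + A.lapC u₂ k ((A.c k).symm z) * I = 4 * dz g z := by
    intro z hz hne
    rw [hu1 _ ((A.c k).map_target hz), hu2 _ ((A.c k).map_target hz), (A.c k).right_inv hz,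
      Complex.re_add_im, hg, dz_mul_conj (hXd z) (hq z hne).differentiableAt]
    rfl
  have hz0 : z0 ∈ (A.c k).target := hb (mem_closedBall_self hX.pos.le)
  refine ⟨A.hf u₁ u₂ k g, fun z => (starRingEnd ℂ) (db (A.UU u₁ u₂ k) z),
    fun i j w hw => hf_tr h₁ h₂ hw,
    fun j z hz hne => hf_diff' h₁ h₂ hgd hgc (hgs.trans hb) hl hu1' hu2' j hz hne, ?_, ?_⟩
  · have hU2 : ContDiffAt ℝ 2 (A.UU u₁ u₂ k) z0 :=
      (UU_smooth h₁ h₂ hz0).of_le ENat.LEInfty.out
    exact Complex.continuous_conj.continuousAt.comp (fderiv_db hU2).continuousAt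
  · filter_upwards [(A.c k).open_target.mem_nhds hz0,
      hX.one z0 (mem_ball_self (half_pos hX.pos))] with w hw hw1
    show (starRingEnd ℂ) (db (A.UU u₁ u₂ k) w - A.gf k g k w) = _
    rw [gf_self hw, map_sub, hg]
    simp only [hw1, one_mul, Complex.conj_conj]

/-- **a one-form with exactly one pole** -/
theorem exists_form [T2Space N] (hP : A.POISSON) (k : A.ι) {z0 : ℂ}
    (hz0 : z0 ∈ (A.c k).target) :
    ∃ (h : A.ι → ℂ → ℂ) (m : ℕ) (c : ℂ), c ≠ 0 ∧ 0 < m ∧
      (∀ i j, ∀ z ∈ A.dom i j, h i z = h j (A.tr i j z) * deriv (A.tr i j) z) ∧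
      (∀ j, ∀ z ∈ (A.c j).target, (A.c j).symm z ≠ (A.c k).symm z0 →
        DifferentiableAt ℂ (h j) z) ∧
      Tendsto (fun z => (z - z0) ^ m * h k z) (𝓝[≠] z0) (𝓝 c) := by
  obtain ⟨r, hr, hb⟩ := Metric.nhds_basis_closedBall.mem_iff.1 ((A.c k).open_target.mem_nhds hz0)
  obtain ⟨X, hX⟩ := exists_cut z0 hr
  have ha : ∀ z, z ≠ z0 → AnalyticAt ℂ (fun z => (z - z0)⁻¹) z := fun z hz =>
    (analyticAt_id.sub analyticAt_const).inv (sub_ne_zero.2 hz)
  have hz : Tendsto (fun z : ℂ => z - z0) (𝓝[≠] z0) (𝓝 0) := by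
    have : Tendsto (fun z : ℂ => z - z0) (𝓝 z0) (𝓝 (z0 - z0)) :=
      (continuous_id.sub continuous_const).continuousAt
    rw [sub_self] at this
    exact this.mono_left nhdsWithin_le_nhds
  by_cases h1 : ∫ z, rho X (fun z => (z - z0)⁻¹) z = 0
  · obtain ⟨h, G, e1, e2, e3, e4⟩ := exists_form_q hP k hX hb ha h1
    refine ⟨h, 1, -1, by simp, one_pos, e1, e2, ?_⟩
    have h2 : Tendsto (fun z => (z - z0) * G z - 1) (𝓝[≠] z0) (𝓝 (0 * G z0 - 1)) :=
      (hz.mul (e3.tendsto.mono_left nhdsWithin_le_nhds)).sub_const 1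
    rw [zero_mul, zero_sub] at h2
    refine h2.congr' ?_
    filter_upwards [e4.filter_mono nhdsWithin_le_nhds, self_mem_nhdsWithin] with z h3 h4
    have h5 : z - z0 ≠ 0 := sub_ne_zero.2 h4
    rw [h3, pow_one, mul_sub, mul_inv_cancel₀ h5]
  · set I1 := ∫ z, rho X (fun z => (z - z0)⁻¹) z with hI1
    set I2 := ∫ z, rho X (fun z => (z - z0)⁻¹ ^ 2) z with hI2
    set a : ℂ := (starRingEnd ℂ) (-(I2 / I1)) with haa
    have hb2 : ∀ z, z ≠ z0 → AnalyticAt ℂ (fun z => (z - z0)⁻¹ ^ 2) z := fun z hz =>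
      (ha z hz).pow 2
    have hq : ∀ z, z ≠ z0 → AnalyticAt ℂ (fun z => a * (z - z0)⁻¹ + (z - z0)⁻¹ ^ 2) z :=
      fun z hz => (analyticAt_const.mul (ha z hz)).add (hb2 z hz)
    have h0 : ∫ z, rho X (fun z => a * (z - z0)⁻¹ + (z - z0)⁻¹ ^ 2) z = 0 := by
      have e : rho X (fun z => a * (z - z0)⁻¹ + (z - z0)⁻¹ ^ 2) = fun z =>
          (-(I2 / I1)) * rho X (fun z => (z - z0)⁻¹) z + rho X (fun z => (z - z0)⁻¹ ^ 2) z := by
        funext z
        unfold rho
        rw [map_add, map_mul, haa, Complex.conj_conj]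
        ring
      rw [e, integral_add ((hX.rho_int ha).const_mul _) (hX.rho_int hb2), integral_const_mul,
        ← hI1, ← hI2]
      field_simp
      ring
    obtain ⟨h, G, e1, e2, e3, e4⟩ := exists_form_q hP k hX hb hq h0
    refine ⟨h, 2, -1, by simp, two_pos, e1, e2, ?_⟩
    have h2 : Tendsto (fun z => (z - z0) ^ 2 * G z - a * (z - z0) - 1) (𝓝[≠] z0)
        (𝓝 (0 ^ 2 * G z0 - a * 0 - 1)) :=
      (((hz.pow 2).mul (e3.tendsto.mono_left nhdsWithin_le_nhds)).sub
        (hz.const_mul a)).sub_const 1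
    have e : (0 : ℂ) ^ 2 * G z0 - a * 0 - 1 = -1 := by ring
    rw [e] at h2
    refine h2.congr' ?_
    filter_upwards [e4.filter_mono nhdsWithin_le_nhds, self_mem_nhdsWithin] with z h3 h4
    have h5 : z - z0 ≠ 0 := sub_ne_zero.2 h4
    rw [h3]
    field_simp
    ring

end

end Crest.Agent.T170.RetE
end

-- ▼ part T170/RetE2_88
section

/-!
# Row 170, RET, existence half (helper88), file 2: a separating function of moderate growth

`Mod T f` : `f` has moderate growth at the punctures and at infinity;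
`exists_sep` : for every point `x₀` of a connected finite covering of `ℂ ∖ S` there is a holomorphic
function of moderate growth which is nonzero at `x₀` and vanishes at the other points of the fibre.
-/

set_option autoImplicit false

open Set Filter Topology Function Metric Asymptotics

namespace Crest.Agent.T170.RetE

noncomputable section

open Crest.Agent.R235.RS Crest.Agent.R257.RS_176

/-- the function with a simple pole at a centre -/
def big (c : Option ℂ) (w : ℂ) : ℂ :=
  match c with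
  | some a => (w - a)⁻¹
  | none => w

/-- the punctured neighbourhoods of a centre -/
def fl (c : Option ℂ) : Filter ℂ :=
  match c with
  | some a => 𝓝[≠] a
  | none => Bornology.cobounded ℂ

theorem tendsto_big (c : Option ℂ) : Tendsto (fun w => ‖big c w‖) (fl c) atTop := by
  cases c with
  | none => exact tendsto_norm_cobounded_atTop (E := ℂ)
  | some a =>
    have h1 : Tendsto (fun w : ℂ => w - a) (𝓝[≠] a) (𝓝[≠] 0) := by
      refine tendsto_nhdsWithin_iff.2 ⟨?_, ?_⟩
      · have : Tendsto (fun w : ℂ => w - a) (𝓝 a) (𝓝 (a - a)) :=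
          (continuous_id.sub continuous_const).continuousAt
        rw [sub_self] at this
        exact this.mono_left nhdsWithin_le_nhds
      · filter_upwards [self_mem_nhdsWithin] with w hw
        exact sub_ne_zero.2 hw
    exact (tendsto_norm_cobounded_atTop (E := ℂ)).comp (Filter.tendsto_inv₀_nhdsNE_zero.comp h1)

theorem big_endPr (c : Option ℂ) (m : ℕ) (τ : ℂ) : big c (endPr c m τ) = τ⁻¹ ^ m := by
  cases c <;> simp [big, endPr]

theorem meromorphicAt_endPr (c : Option ℂ) (m : ℕ) : MeromorphicAt (endPr c m) 0 := by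
  cases c with
  | none => exact ((MeromorphicAt.id 0).pow m).inv
  | some a => exact (MeromorphicAt.const a 0).add ((MeromorphicAt.id 0).pow m)

theorem isBigO_of_meromorphicAt {f : ℂ → ℂ} (hf : MeromorphicAt f 0) :
    ∃ k : ℕ, f =O[𝓝[≠] 0] fun τ => τ⁻¹ ^ k := by
  obtain ⟨k, hk⟩ := hf
  refine ⟨k, ?_⟩
  have h1 : (fun z : ℂ => (z - 0) ^ k • f z) =O[𝓝[≠] 0] fun _ => (1 : ℂ) :=
    (hk.continuousAt.tendsto.mono_left nhdsWithin_le_nhds).isBigO_one ℂ
  have h2 := h1.mul (isBigO_refl (fun τ : ℂ => τ⁻¹ ^ k) (𝓝[≠] 0))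
  refine h2.congr' ?_ (Eventually.of_forall fun τ => one_mul _)
  filter_upwards [self_mem_nhdsWithin] with τ hτ
  have h3 : τ ≠ 0 := hτ
  rw [sub_zero, smul_eq_mul, mul_right_comm, ← mul_pow, mul_inv_cancel₀ h3, one_pow, one_mul]

variable {X : Type} [TopologicalSpace X] (T : Srf X)

/-- moderate growth -/
def Mod (f : X → ℂ) : Prop :=
  ∀ c : Option ℂ, (∀ a, c = some a → a ∈ T.S) →
    ∃ k : ℕ, f =O[comap T.pr (fl c)] fun x => big c (T.pr x) ^ k

variable {T}

theorem big_pow_mono (c : Option ℂ) {k l : ℕ} (h : k ≤ l) :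
    (fun x => big c (T.pr x) ^ k) =O[comap T.pr (fl c)] fun x => big c (T.pr x) ^ l := by
  refine IsBigO.of_bound' ?_
  filter_upwards [tendsto_comap.eventually ((tendsto_big c).eventually_ge_atTop 1)] with x hx
  rw [norm_pow, norm_pow]
  exact pow_le_pow_right₀ hx h

theorem Mod.const (a : ℂ) : Mod T fun _ => a := fun c _ =>
  ⟨0, by simpa using isBigO_const_one (F := ℂ) a _⟩

theorem Mod.add {f g : X → ℂ} (hf : Mod T f) (hg : Mod T g) : Mod T fun x => f x + g x := by
  intro c hc
  obtain ⟨k, hk⟩ := hf c hc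
  obtain ⟨l, hl⟩ := hg c hc
  exact ⟨max k l, (hk.trans (big_pow_mono c (le_max_left _ _))).add
    (hl.trans (big_pow_mono c (le_max_right _ _)))⟩

theorem Mod.mul {f g : X → ℂ} (hf : Mod T f) (hg : Mod T g) : Mod T fun x => f x * g x := by
  intro c hc
  obtain ⟨k, hk⟩ := hf c hc
  obtain ⟨l, hl⟩ := hg c hc
  exact ⟨k + l, by simpa only [pow_add] using hk.mul hl⟩

theorem Mod.pr : Mod T T.pr := by
  intro c _
  cases c with
  | none => exact ⟨1, by simpa [big] using isBigO_refl _ _⟩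
  | some a =>
    refine ⟨0, ?_⟩
    have h1 : Tendsto T.pr (comap T.pr (fl (some a))) (𝓝 a) :=
      tendsto_comap.mono_right nhdsWithin_le_nhds
    simpa using h1.isBigO_one ℂ

theorem Mod.comp {f : X → ℂ} (hf : Mod T f) {g : X → X} (hg : ∀ x, T.pr (g x) = T.pr x) :
    Mod T fun x => f (g x) := by
  intro c hc
  obtain ⟨k, hk⟩ := hf c hc
  have h1 : Tendsto g (comap T.pr (fl c)) (comap T.pr (fl c)) := by
    rw [tendsto_comap_iff]
    have : T.pr ∘ g = T.pr := funext hg
    rw [this]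
    exact tendsto_comap
  refine ⟨k, (hk.comp_tendsto h1).congr_right fun x => ?_⟩
  simp [hg]

theorem mod_of_ends {f : X → ℂ}
    (h : ∀ i, ∃ k : ℕ, (fun τ => f (T.γ i τ)) =O[𝓝[≠] 0] fun τ => τ⁻¹ ^ k) : Mod T f := by
  classical
  intro c hc
  choose k hk using h
  have h1 : ∀ i, ∃ C : ℝ, 0 ≤ C ∧ ∃ δ : ℝ, 0 < δ ∧ δ ≤ 1 ∧ ∀ τ : ℂ, τ ≠ 0 → ‖τ‖ < δ →
      ‖f (T.γ i τ)‖ ≤ C * ‖τ⁻¹‖ ^ k i := by
    intro i
    obtain ⟨C, hC, h2⟩ := (hk i).exists_nonneg
    have h3 := h2.bound
    rw [eventually_nhdsWithin_iff, Metric.eventually_nhds_iff] at h3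
    obtain ⟨δ, hδ, h4⟩ := h3
    refine ⟨C, hC, min δ 1, lt_min hδ one_pos, min_le_right _ _, fun τ h5 h6 => ?_⟩
    have h7 := h4 (y := τ) (by simpa using h6.trans_le (min_le_left _ _)) h5
    rwa [norm_pow] at h7
  choose C hC δ hδ hδ1 hb using h1
  refine ⟨Finset.univ.sup k, IsBigO.of_bound (∑ i, C i) ?_⟩
  have h2 : ∀ᶠ w in fl c, ∀ x, T.pr x = w →
      ∃ i τ, T.c i = c ∧ 0 < ‖τ‖ ∧ ‖τ‖ < T.ε ∧ T.γ i τ = x := by
    cases c with
    | none =>
      obtain ⟨R, hR⟩ := T.cover_inf
      filter_upwards [(tendsto_norm_cobounded_atTop (E := ℂ)).eventually_gt_atTop R] with w hw x hx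
      exact hR x (by rwa [hx])
    | some a =>
      obtain ⟨η, hη, hR⟩ := T.cover_fin a (hc a rfl)
      filter_upwards [nhdsWithin_le_nhds (ball_mem_nhds a hη)] with w hw x hx
      exact hR x (by rw [hx]; exact mem_ball_iff_norm.1 hw)
  have h3 : ∀ᶠ w in fl c, ∀ i, (δ i)⁻¹ ^ T.m i < ‖big c w‖ := by
    rw [eventually_all]
    exact fun i => (tendsto_big c).eventually_gt_atTop _
  filter_upwards [tendsto_comap.eventually h2, tendsto_comap.eventually h3] with x h4 h5
  obtain ⟨i, τ, e1, e2, e3, rfl⟩ := h4 x rfl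
  have h6 := h5 i
  rw [T.pr_γ i τ e2 e3, e1, big_endPr] at h6 ⊢
  rw [norm_pow] at h6
  have h7 : (δ i)⁻¹ < ‖τ⁻¹‖ := lt_of_pow_lt_pow_left₀ _ (norm_nonneg _) h6
  have h8 : ‖τ‖ < δ i := by
    rw [norm_inv] at h7
    exact (inv_lt_inv₀ (hδ i) e2).1 h7
  have h9 : 1 ≤ ‖τ⁻¹‖ := ((one_le_inv₀ (hδ i)).2 (hδ1 i)).trans h7.le
  refine (hb i τ (norm_pos_iff.1 e2) h8).trans ?_
  rw [norm_pow, norm_pow, ← pow_mul]
  refine mul_le_mul (Finset.single_le_sum (fun j _ => hC j) (Finset.mem_univ i))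
    (pow_le_pow_right₀ h9 ?_) (by positivity) (Finset.sum_nonneg fun j _ => hC j)
  exact (Finset.le_sup (f := k) (Finset.mem_univ i)).trans
    (Nat.le_mul_of_pos_left _ (T.mpos i))

variable [T2Space X]

variable (T) in
/-- the atlas of the compactification -/
def atl : CAtl T.Cp where
  ι := T.SecD ⊕ T.ι
  c := T.ch0
  cover p := T.exists_mem_source p
  hol := T.holo_ch0

theorem tr_sec_sec {s s' : T.SecD} {z : ℂ} (hz : z ∈ (atl T).dom (Sum.inl s) (Sum.inl s')) :
    (atl T).tr (Sum.inl s) (Sum.inl s') z = z := by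
  obtain ⟨h1, ⟨z', h2, h3⟩⟩ := hz
  have h3' : T.jn (s'.s z') = T.jn (s.s z) := h3
  have h4 : z' = z := by
    have := congrArg T.pr (T.jn_injective h3')
    rwa [s'.sec z' h2, s.sec z h1] at this
  change (T.secCh s') (T.jn (s.s z)) = z
  rw [← h3', h4]
  rw [h4] at h2
  exact mkCh_apply h2

theorem tr_end_sec {i : T.ι} {s' : T.SecD} {τ : ℂ}
    (hz : τ ∈ (atl T).dom (Sum.inr i) (Sum.inl s')) (h0 : τ ≠ 0) :
    (atl T).tr (Sum.inr i) (Sum.inl s') τ = endPr (T.c i) (T.m i) τ := by
  obtain ⟨k1, ⟨z', k2, k3⟩⟩ := hz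
  have k3' : T.jn (s'.s z') = T.D i τ := k3
  change (T.secCh s') (T.D i τ) = _
  rw [← k3']
  have k4 : (T.secCh s') (T.jn (s'.s z')) = z' := mkCh_apply k2
  rw [k4]
  have k1' : τ ∈ ball (0 : ℂ) T.ε := k1
  rw [T.D_of_ne i h0] at k3'
  have k6 := congrArg T.pr (T.jn_injective k3')
  rw [mem_ball_zero_iff] at k1'
  rwa [T.pr_γ i τ (norm_pos_iff.2 h0) k1', s'.sec z' k2] at k6

/-- **the separating function** -/
theorem exists_sep [ConnectedSpace X] (x₀ : X) :
    ∃ G : X → ℂ, T.Hol G ∧ Mod T G ∧ G x₀ ≠ 0 ∧ ∀ x, x ≠ x₀ → T.pr x = T.pr x₀ → G x = 0 := by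
  classical
  choose sx hr hw hx using T.exists_secD
  have hmem : ∀ x, T.pr x ∈ ball (sx x).w (sx x).r := fun x => by
    rw [hw x]; exact mem_ball_self (hr x)
  obtain ⟨h, m, c, hc, hm, htr, hd, hlim⟩ :=
    exists_form (A := atl T) (atl T).poisson (Sum.inl (sx x₀)) (z0 := T.pr x₀) (hmem x₀)
  have hp0 : ((atl T).c (Sum.inl (sx x₀))).symm (T.pr x₀) = T.jn x₀ := congrArg T.jn (hx x₀)
  rw [hp0] at hd
  have hss : ∀ s s' : T.SecD, ∀ z ∈ (atl T).dom (Sum.inl s) (Sum.inl s'),
      h (Sum.inl s) z = h (Sum.inl s') z := by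
    intro s s' z hz
    have e : (atl T).tr (Sum.inl s) (Sum.inl s') =ᶠ[𝓝 z] id := by
      filter_upwards [((atl T).isOpen_dom _ _).mem_nhds hz] with y hy using tr_sec_sec hy
    rw [htr _ _ z hz, tr_sec_sec hz, e.deriv_eq, deriv_id, mul_one]
  let F : X → ℂ := fun x => h (Sum.inl (sx x)) (T.pr x)
  have hF : ∀ s : T.SecD, ∀ z ∈ ball s.w s.r, F (s.s z) = h (Sum.inl s) z := by
    intro s z hz
    have e : T.pr (s.s z) = z := s.sec z hz
    show h (Sum.inl (sx (s.s z))) (T.pr (s.s z)) = _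
    rw [e]
    refine (hss s _ z ⟨hz, T.pr (s.s z), hmem _, ?_⟩).symm
    exact congrArg T.jn (hx _)
  have hFe : ∀ i, ∀ τ : ℂ, τ ≠ 0 → ‖τ‖ < T.ε →
      h (Sum.inr i) τ = F (T.γ i τ) * deriv (endPr (T.c i) (T.m i)) τ := by
    intro i τ h0 h1
    have hz : τ ∈ (atl T).dom (Sum.inr i) (Sum.inl (sx (T.γ i τ))) := by
      refine ⟨mem_ball_zero_iff.2 h1, T.pr (T.γ i τ), hmem _, ?_⟩
      show T.jn _ = T.D i τ
      rw [T.D_of_ne i h0, hx]
    have e : (atl T).tr (Sum.inr i) (Sum.inl (sx (T.γ i τ))) =ᶠ[𝓝 τ] endPr (T.c i) (T.m i) := by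
      filter_upwards [((atl T).isOpen_dom _ _).mem_nhds hz, isOpen_ne.mem_nhds h0] with y hy hy0
      exact tr_end_sec hy hy0
    rw [htr _ _ τ hz, e.deriv_eq, tr_end_sec hz h0, ← T.pr_γ i τ (norm_pos_iff.2 h0) h1]
  let G : X → ℂ := fun x => if x = x₀ then c else (T.pr x - T.pr x₀) ^ m * F x
  have hG : ∀ x, x ≠ x₀ → G x = (T.pr x - T.pr x₀) ^ m * F x := fun x hx => if_neg hx
  have hG0 : G x₀ = c := if_pos rfl
  refine ⟨G, ?_, mod_of_ends fun i => isBigO_of_meromorphicAt ?_, by rwa [hG0], ?_⟩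
  · intro w r s h1 h2
    let s' : T.SecD := ⟨w, r, s, h1, h2⟩
    have hoff : ∀ z ∈ ball w r, s z ≠ x₀ → DifferentiableAt ℂ (fun z => G (s z)) z := by
      intro z hz hne
      have h3 : DifferentiableAt ℂ (h (Sum.inl s')) z :=
        hd (Sum.inl s') z hz fun h => hne (T.jn_injective h)
      have h4 : DifferentiableAt ℂ (fun y => (y - T.pr x₀) ^ m * h (Sum.inl s') y) z :=
        ((differentiableAt_id.sub_const _).pow m).mul h3
      refine h4.congr_of_eventuallyEq ?_
      have h5 : ContinuousAt s z := h1.continuousAt (isOpen_ball.mem_nhds hz)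
      filter_upwards [isOpen_ball.mem_nhds hz, h5.eventually_ne hne] with y hy hy0
      rw [hG _ hy0, h2 y hy]
      exact congrArg _ (hF s' y hy)
    intro z hz
    by_cases hne : s z = x₀
    · have hz0 : z = T.pr x₀ := by rw [← hne, h2 z hz]
      have hne' : ∀ y ∈ ball w r, y ≠ z → s y ≠ x₀ := by
        intro y hy hyz h3
        apply hyz
        rw [hz0, ← h3, h2 y hy]
      refine (Complex.analyticAt_of_differentiable_on_punctured_nhds_of_continuousAt ?_
        ?_).differentiableAt.differentiableWithinAt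
      · filter_upwards [nhdsWithin_le_nhds (isOpen_ball.mem_nhds hz), self_mem_nhdsWithin]
          with y hy hyz
        exact hoff y hy (hne' y hy hyz)
      · rw [← continuousWithinAt_compl_self]
        show Tendsto (fun z => G (s z)) (𝓝[≠] z) (𝓝 (G (s z)))
        rw [hne, hG0]
        have hdom : z ∈ (atl T).dom (Sum.inl s') (Sum.inl (sx x₀)) := by
          refine ⟨hz, T.pr x₀, hmem _, ?_⟩
          show T.jn _ = T.jn (s z)
          rw [hx, hne]
        rw [← hz0] at hlim
        refine hlim.congr' ?_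
        filter_upwards [nhdsWithin_le_nhds (((atl T).isOpen_dom _ _).mem_nhds hdom),
          self_mem_nhdsWithin] with y hy hyz
        have hy' : y ∈ ball w r := hy.1
        rw [hG _ (hne' y hy' hyz), h2 y hy', ← hz0, ← hss _ _ y hy]
        exact congrArg _ (hF s' y hy').symm
    · exact (hoff z hz hne).differentiableWithinAt
  · have hD : ∀ᶠ τ in 𝓝 (0 : ℂ), T.D i τ ≠ T.jn x₀ := by
      have h1 : ContinuousAt (T.D i) 0 := (T.map_nhds_D i (mem_ball_self T.εpos)).le
      refine h1.eventually_ne ?_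
      rw [T.D_zero]
      exact (T.jn_ne_en x₀ i).symm
    have ha : AnalyticAt ℂ (h (Sum.inr i)) 0 := by
      refine Complex.analyticAt_iff_eventually_differentiableAt.2 ?_
      filter_upwards [hD, ball_mem_nhds (0 : ℂ) T.εpos] with τ h1 h2
      exact hd (Sum.inr i) τ h2 h1
    have hme := meromorphicAt_endPr (T.c i) (T.m i)
    have h1 : MeromorphicAt (fun τ => (endPr (T.c i) (T.m i) τ - T.pr x₀) ^ m *
        (h (Sum.inr i) τ / deriv (endPr (T.c i) (T.m i)) τ)) 0 :=
      ((hme.sub (MeromorphicAt.const _ _)).pow m).mul (ha.meromorphicAt.div hme.deriv)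
    refine h1.congr ?_
    filter_upwards [nhdsWithin_le_nhds hD, nhdsWithin_le_nhds (ball_mem_nhds (0 : ℂ) T.εpos),
      self_mem_nhdsWithin] with τ h2 h3 h4
    have h4' : τ ≠ 0 := h4
    rw [mem_ball_zero_iff] at h3
    rw [T.D_of_ne i h4'] at h2
    obtain ⟨d, hd0, hder⟩ := hasStrictDerivAt_endPr (T.c i) (T.mpos i) h4'
    rw [hG _ fun h => h2 (congrArg T.jn h), hFe i τ h4' h3, hder.hasDerivAt.deriv,
      mul_div_cancel_right₀ _ hd0, T.pr_γ i τ (norm_pos_iff.2 h4') h3]
  · intro x h1 h2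
    rw [hG x h1, h2, sub_self, zero_pow hm.ne', zero_mul]

end

end Crest.Agent.T170.RetE
private theorem rz_fde97a0b9b : type_of% @_root_.Crest.Agent.T170.RetE.big.eq_1 := @_root_.Crest.Agent.T170.RetE.big.eq_1 -- L24
end

-- ▼ part T170/RetE3_88
section

/-!
# Row 170, RET, existence half (helper88), file 3: the topological covering

`exists_cover`  : principal `H`-covering glued from two charts;
`exists_cover_plane` : a connected principal `H`-covering of the plane minus `m` points, for every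
finite group with `m` generators.
-/

set_option autoImplicit false

open Set Filter Topology

noncomputable section

namespace Crest.Agent.T170.RetE

/-- a connected principal covering with finite group -/
structure PCov (H B Y : Type) [Group H] [TopologicalSpace B] [TopologicalSpace Y]
    [MulAction H Y] (p : Y → B) : Prop where
  cl : IsClosedMap p
  lh : IsLocalHomeomorph p
  fin : ∀ b, (p ⁻¹' {b}).Finite
  cont : ∀ g : H, Continuous fun y : Y => g • y
  ovr : ∀ (g : H) (y : Y), p (g • y) = p y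
  trans : ∀ y y' : Y, p y = p y' → ∃ g : H, g • y = y'
  free : ∀ (g : H) (y : Y), g • y = y → g = 1
  surj : Function.Surjective p

section glue

variable {H B : Type} [Group H] [TopologicalSpace H] [DiscreteTopology H] [TopologicalSpace B]

/-- the gauge -/
def gauge (c : B → H) (i : Bool) (z : B) : H := if i then c z else 1

open Classical in
/-- the bundle -/
def core (U : Bool → Set B) (hU : ∀ i, IsOpen (U i)) (hc : ∀ z, z ∈ U false ∨ z ∈ U true)
    (c : B → H) (hcc : ContinuousOn c (U false ∩ U true)) : FiberBundleCore Bool B H where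
  baseSet := U
  isOpen_baseSet := hU
  indexAt z := if z ∈ U false then false else true
  mem_baseSet_at z := by
    split_ifs with h
    · exact h
    · exact (hc z).resolve_left h
  coordChange i j z h := gauge c j z * (gauge c i z)⁻¹ * h
  coordChange_self i z _ v := by simp
  continuousOn_coordChange i j := by
    have hm : Continuous fun q : H × H => q.1 * q.2 := continuous_of_discreteTopology
    have hi : Continuous fun q : H => q⁻¹ := continuous_of_discreteTopology
    have h1 : ContinuousOn (fun p : B × H => gauge c j p.1 * (gauge c i p.1)⁻¹)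
        ((U i ∩ U j) ×ˢ univ) := by
      cases i <;> cases j
      · simpa [gauge] using continuousOn_const
      · simp only [gauge, if_true, Bool.false_eq_true, if_false, inv_one, mul_one]
        exact hcc.comp continuousOn_fst fun p hp => hp.1
      · simp only [gauge, if_true, Bool.false_eq_true, if_false, one_mul]
        exact hi.comp_continuousOn (hcc.comp continuousOn_fst fun p hp => ⟨hp.1.2, hp.1.1⟩)
      · simpa [gauge] using continuousOn_const
    exact hm.comp_continuousOn (h1.prodMk continuousOn_snd)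
  coordChange_comp i j k z _ v := by group

theorem exists_cover [Finite H] [T2Space B] (U : Bool → Set B) (hU : ∀ i, IsOpen (U i))
    (hc : ∀ z, z ∈ U false ∨ z ∈ U true) (hp : ∀ i, IsPreconnected (U i))
    (c : B → H) (hcc : ContinuousOn c (U false ∩ U true)) {z₀ : B} (h₀ : z₀ ∈ U false ∩ U true)
    (h₁ : c z₀ = 1) (hgen : Subgroup.closure (c '' (U false ∩ U true)) = ⊤) :
    ∃ (Y : Type) (_ : TopologicalSpace Y) (_ : T2Space Y) (_ : ConnectedSpace Y)
      (_ : MulAction H Y) (p : Y → B), PCov H B Y p := by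
  classical
  set Z := core U hU hc c hcc with hZ
  have hcov : IsCoveringMap Z.proj :=
    IsFiberBundle.isCoveringMap (F := H) fun x => ⟨Z.localTrivAt x, Z.mem_localTrivAt_baseSet x⟩
  let mk : B → H → Z.TotalSpace := fun z h => ⟨z, h⟩
  let sn : Z.TotalSpace → H := fun y => y.2
  have hmk : ∀ y : Z.TotalSpace, mk y.1 (sn y) = y := fun _ => rfl
  -- the sections
  let s : Bool → H → B → Z.TotalSpace := fun i h z =>
    (Z.localTriv i).toOpenPartialHomeomorph.symm (z, h)
  have hs : ∀ i h z, s i h z =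
      mk z (gauge c (Z.indexAt z) z * (gauge c i z)⁻¹ * h) := fun _ _ _ => rfl
  have hsc : ∀ i h, ContinuousOn (s i h) (U i) := by
    intro i h
    refine (Z.localTriv i).toOpenPartialHomeomorph.continuousOn_symm.comp
      (continuous_id.prodMk continuous_const).continuousOn fun z hz => ?_
    exact ⟨hz, mem_univ _⟩
  have hsurj : ∀ (i) (y : Z.TotalSpace), ∃ h, s i h y.1 = y := by
    intro i y
    refine ⟨gauge c i y.1 * (gauge c (Z.indexAt y.1) y.1)⁻¹ * sn y, ?_⟩
    rw [hs]
    exact (congrArg (mk y.1) (by group)).trans (hmk y)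
  let act : MulAction H Z.TotalSpace :=
    { smul := fun g y => mk y.1 (sn y * g⁻¹)
      one_smul := fun y => by
        show mk y.1 (sn y * 1⁻¹) = y
        rw [inv_one, mul_one]
      mul_smul := fun g g' y => by
        show mk y.1 (sn y * (g * g')⁻¹) = mk y.1 (sn y * g'⁻¹ * g⁻¹)
        rw [mul_inv_rev, mul_assoc] }
  have hact : ∀ (g : H) (y : Z.TotalSpace), g • y = mk y.1 (sn y * g⁻¹) := fun _ _ => rfl
  have hT2 : T2Space Z.TotalSpace := by
    refine ⟨fun y y' hne => ?_⟩
    by_cases h : Z.proj y = Z.proj y'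
    · exact hcov.isSeparatedMap y y' h hne
    · obtain ⟨u, v, hu, hv, h1, h2, h3⟩ := t2_separation h
      exact ⟨_, _, hu.preimage hcov.continuous, hv.preimage hcov.continuous, h1, h2,
        h3.preimage _⟩
  have hconn : ConnectedSpace Z.TotalSpace := by
    let φ : Bool → H → ConnectedComponents Z.TotalSpace := fun i h =>
      ConnectedComponents.mk (s i h z₀)
    have hz₀ : ∀ i, z₀ ∈ U i := by
      intro i
      cases i
      · exact h₀.1
      · exact h₀.2
    have hφ : ∀ i h, ∀ z ∈ U i, ConnectedComponents.mk (s i h z) = φ i h := by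
      intro i h z hz
      refine ConnectedComponents.coe_eq_coe'.2 ?_
      exact ((hp i).image _ (hsc i h)).subset_connectedComponent ⟨z₀, hz₀ i, rfl⟩ ⟨z, hz, rfl⟩
    have hst : ∀ h z, s false h z = s true (c z * h) z := by
      intro h z
      rw [hs, hs]
      refine congrArg (mk z) ?_
      have e1 : gauge c false z = 1 := rfl
      have e2 : gauge c true z = c z := rfl
      rw [e1, e2]
      group
    have h01 : ∀ h, φ false h = φ true h := by
      intro h
      show ConnectedComponents.mk (s false h z₀) = ConnectedComponents.mk (s true h z₀)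
      rw [hst, h₁, one_mul]
    have hstep : ∀ g : H, ∀ h, φ false (g * h) = φ false h := by
      intro g
      have hg : g ∈ Subgroup.closure (c '' (U false ∩ U true)) := by rw [hgen]; trivial
      induction hg using Subgroup.closure_induction with
      | mem g hg =>
        obtain ⟨z, hz, rfl⟩ := hg
        intro h
        rw [h01, ← hφ true _ z hz.2, ← hst, hφ false _ z hz.1]
      | one => intro h; rw [one_mul]
      | mul g g' _ _ e1 e2 => intro h; rw [mul_assoc, e1, e2]
      | inv g _ e => intro h; rw [← e (g⁻¹ * h), mul_inv_cancel_left]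
    have hall : ∀ y : Z.TotalSpace, ConnectedComponents.mk y = φ false 1 := by
      intro y
      have e : ∀ h, φ false h = φ false 1 := fun h => by
        have := hstep h 1
        rwa [mul_one] at this
      rcases hc y.1 with hy | hy
      · obtain ⟨h, hh⟩ := hsurj false y
        rw [← hh, hφ false h _ hy, e]
      · obtain ⟨h, hh⟩ := hsurj true y
        rw [← hh, hφ true h _ hy, ← h01, e]
    have hpre : PreconnectedSpace Z.TotalSpace := by
      refine ⟨?_⟩
      have : (univ : Set Z.TotalSpace) = connectedComponent (s false 1 z₀) := by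
        refine (eq_univ_of_forall fun y => ?_).symm
        exact ConnectedComponents.coe_eq_coe'.1 (hall y)
      rw [this]
      exact isPreconnected_connectedComponent
    exact { toPreconnectedSpace := hpre, toNonempty := ⟨s false 1 z₀⟩ }
  refine ⟨Z.TotalSpace, inferInstance, hT2, hconn, act, Z.proj, ?_, hcov.isLocalHomeomorph,
    ?_, ?_, fun _ _ => rfl, ?_, ?_, fun z => ⟨mk z 1, rfl⟩⟩
  · intro A hA
    rw [← isOpen_compl_iff, isOpen_iff_mem_nhds]
    intro b hb
    have hi : b ∈ U (Z.indexAt b) := Z.mem_baseSet_at b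
    have h1 : ∀ᶠ z in 𝓝 b, ∀ h : H, s (Z.indexAt b) h z ∉ A := by
      rw [eventually_all]
      intro h
      have h2 : ContinuousAt (s (Z.indexAt b) h) b := (hsc _ h).continuousAt ((hU _).mem_nhds hi)
      refine h2.eventually (hA.isOpen_compl.mem_nhds fun h3 => hb ⟨_, h3, rfl⟩)
    filter_upwards [h1] with z hz
    rintro ⟨y, hy, rfl⟩
    obtain ⟨h, hh⟩ := hsurj (Z.indexAt b) y
    exact hz h (by rw [show s (Z.indexAt b) h (Z.proj y) = y from hh]; exact hy)
  · intro b
    refine (Set.finite_range fun h : H => mk b h).subset ?_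
    rintro ⟨z, h⟩ hz
    obtain rfl : z = b := hz
    exact ⟨h, rfl⟩
  · intro g
    rw [continuous_iff_continuousAt]
    intro y
    have hi : y.1 ∈ U (Z.indexAt y.1) := Z.mem_baseSet_at y.1
    set e := Z.localTriv (Z.indexAt y.1) with he
    have hy : y ∈ e.source := hi
    have h1 : ContinuousAt e y := e.continuousAt hy
    have hm : Continuous fun q : B × H => (q.1, q.2 * g⁻¹) :=
      continuous_fst.prodMk ((continuous_of_discreteTopology (f := fun h : H => h * g⁻¹)).comp
        continuous_snd)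
    have h2 : ContinuousAt e.toOpenPartialHomeomorph.symm ((e y).1, (e y).2 * g⁻¹) :=
      e.toOpenPartialHomeomorph.continuousAt_symm ⟨hi, mem_univ _⟩
    have h3 : ContinuousAt (fun y' => e.toOpenPartialHomeomorph.symm ((e y').1, (e y').2 * g⁻¹))
        y := ContinuousAt.comp (f := fun y' => ((e y').1, (e y').2 * g⁻¹)) h2
          (hm.continuousAt.comp h1)
    refine h3.congr (Eventually.of_forall fun y' => ?_)
    show mk y'.1 (gauge c (Z.indexAt y'.1) y'.1 * (gauge c (Z.indexAt y.1) y'.1)⁻¹ *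
      (gauge c (Z.indexAt y.1) y'.1 * (gauge c (Z.indexAt y'.1) y'.1)⁻¹ * sn y' * g⁻¹)) =
        mk y'.1 (sn y' * g⁻¹)
    exact congrArg (mk y'.1) (by group)
  · intro y y' hz
    have hz' : y.1 = y'.1 := hz
    refine ⟨(sn y')⁻¹ * sn y, ?_⟩
    rw [hact, hz']
    exact (congrArg (mk y'.1) (by group)).trans (hmk y')
  · intro g y hg
    rw [hact] at hg
    have h1 : sn y * g⁻¹ = sn y := congrArg sn hg
    simpa using h1

end glue

section plane

variable {m : ℕ} (a : Fin m → ℂ)

/-- the plane minus the vertical half lines in the direction `ε` -/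
def slit (ε : ℝ) : Set ℂ := {z | ∀ i, z.re = (a i).re → ε * z.im < ε * (a i).im}

theorem isOpen_slit (ε : ℝ) : IsOpen (slit a ε) := by
  have : slit a ε = ⋂ i, ({z : ℂ | z.re ≠ (a i).re} ∪ {z : ℂ | ε * z.im < ε * (a i).im}) := by
    ext z
    simp only [slit, mem_ofPred_eq, mem_iInter, mem_union]
    exact forall_congr' fun i => imp_iff_not_or
  rw [this]
  refine isOpen_iInter_of_finite fun i => IsOpen.union ?_ ?_
  · exact isOpen_ne_fun Complex.continuous_re continuous_const
  · exact isOpen_lt (continuous_const.mul Complex.continuous_im) continuous_const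

theorem isPreconnected_slit {ε : ℝ} (hε : ε * ε = 1) : IsPreconnected (slit a ε) := by
  obtain ⟨R, hR⟩ : ∃ R : ℝ, ∀ i, R ≤ ε * (a i).im := by
    obtain ⟨R, hR⟩ := (Set.finite_range fun i => ε * (a i).im).bddBelow
    exact ⟨R, fun i => hR ⟨i, rfl⟩⟩
  have hlin : IsLinearMap ℝ fun z : ℂ => ε * z.im :=
    ⟨fun x y => by simp [mul_add], fun c x => by simp; ring⟩
  have hlin' : IsLinearMap ℝ fun z : ℂ => z.re := ⟨fun x y => by simp, fun c x => by simp⟩
  have hhalf : Convex ℝ {z : ℂ | ε * z.im < R} := convex_halfSpace_lt hlin R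
  refine isPreconnected_of_forall (⟨0, ε * (R - 1)⟩ : ℂ) fun y hy => ?_
  have hray : Convex ℝ ({z : ℂ | z.re = y.re} ∩ {z : ℂ | ε * z.im ≤ ε * y.im}) :=
    (convex_hyperplane hlin' y.re).inter (convex_halfSpace_le hlin _)
  refine ⟨{z : ℂ | ε * z.im < R} ∪ ({z : ℂ | z.re = y.re} ∩ {z : ℂ | ε * z.im ≤ ε * y.im}),
    ?_, Or.inl ?_, Or.inr ⟨rfl, le_refl (ε * y.im)⟩, ?_⟩
  · rintro z (hz | ⟨h1, h2⟩) i hi
    · exact lt_of_lt_of_le hz (hR i)
    · exact lt_of_le_of_lt h2 (hy i (h1.symm.trans hi))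
  · show ε * (ε * (R - 1)) < R
    rw [← mul_assoc, hε]
    linarith
  · refine IsPreconnected.union (⟨y.re, ε * (min R (ε * y.im) - 1)⟩ : ℂ) ?_ ⟨rfl, ?_⟩
      hhalf.isPreconnected hray.isPreconnected
    · show ε * (ε * (min R (ε * y.im) - 1)) < R
      rw [← mul_assoc, hε]
      have := min_le_left R (ε * y.im)
      linarith
    · show ε * (ε * (min R (ε * y.im) - 1)) ≤ ε * y.im
      rw [← mul_assoc, hε]
      have := min_le_right R (ε * y.im)
      linarith

theorem notMem_of_slit {ε : ℝ} {z : ℂ} (hz : z ∈ slit a ε) : z ∉ Set.range a := by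
  rintro ⟨i, rfl⟩
  exact lt_irrefl _ (hz i rfl)

theorem ne_of_slit {z : ℂ} (h1 : z ∈ slit a 1) (h2 : z ∈ slit a (-1)) (i : Fin m) :
    z.re ≠ (a i).re := by
  intro h
  have e1 := h1 i h
  have e2 := h2 i h
  linarith

theorem mem_slit_of_ne {z : ℂ} (h : ∀ i, z.re ≠ (a i).re) (ε : ℝ) : z ∈ slit a ε :=
  fun i hi => absurd hi (h i)

theorem slit_cover (ha : StrictMono fun i => (a i).re) {z : ℂ} (hz : z ∉ Set.range a) :
    z ∈ slit a 1 ∨ z ∈ slit a (-1) := by
  by_cases h : ∃ i, z.re = (a i).re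
  · obtain ⟨i, hi⟩ := h
    have hu : ∀ j, z.re = (a j).re → j = i := fun j hj => ha.injective (hj.symm.trans hi)
    have hne : z.im ≠ (a i).im := fun h => hz ⟨i, (Complex.ext hi h).symm⟩
    rcases lt_or_gt_of_ne hne with h1 | h1
    · left
      intro j hj
      rw [hu j hj]
      linarith
    · right
      intro j hj
      rw [hu j hj]
      linarith
  · left
    exact mem_slit_of_ne a (fun i hi => h ⟨i, hi⟩) 1

open Classical in
/-- the cocycle as a function of the sign vector -/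
def coc {H : Type} [Group H] (w : Fin m → H) (s : Fin m → Prop) : H :=
  if h : ∃ i, s i ∧ ∀ j, i < j → ¬ s j then w h.choose else 1

/-- **the covering of the punctured plane** -/
theorem exists_cover_plane (ha : StrictMono fun i => (a i).re) (H : Type) [Group H] [Finite H]
    (w : Fin m → H) (hw : Subgroup.closure (Set.range w) = ⊤) (S : Set ℂ) (hS : S = Set.range a) :
    ∃ (Y : Type) (_ : TopologicalSpace Y) (_ : T2Space Y) (_ : ConnectedSpace Y)
      (_ : MulAction H Y) (p : Y → {z : ℂ // z ∉ S}), PCov H {z : ℂ // z ∉ S} Y p := by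
  classical
  subst hS
  let _ : TopologicalSpace H := ⊥
  have : DiscreteTopology H := ⟨rfl⟩
  let U : Bool → Set {z : ℂ // z ∉ Set.range a} := fun i =>
    Subtype.val ⁻¹' slit a (if i then -1 else 1)
  let c : {z : ℂ // z ∉ Set.range a} → H := fun z => coc w fun j => (a j).re < z.1.re
  -- points in the strips
  have hpt : ∀ t : ℝ, (∀ i, t ≠ (a i).re) →
      ∃ z : {z : ℂ // z ∉ Set.range a}, z ∈ U false ∩ U true ∧ z.1.re = t := by
    intro t ht
    have h1 : ∀ ε, (t : ℂ) ∈ slit a ε := mem_slit_of_ne a (by simpa using ht)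
    exact ⟨⟨t, notMem_of_slit a (h1 1)⟩, ⟨h1 _, h1 _⟩, by simp⟩
  obtain ⟨R, hR⟩ : ∃ R : ℝ, ∀ i, R < (a i).re := by
    obtain ⟨R, hR⟩ := (Set.finite_range fun i => (a i).re).bddBelow
    exact ⟨R - 1, fun i => by have := hR ⟨i, rfl⟩; simp only at this; linarith⟩
  obtain ⟨z₀, hz₀, hz₀'⟩ := hpt R fun i => (hR i).ne
  refine exists_cover U (fun i => (isOpen_slit a _).preimage continuous_subtype_val)
    (fun z => slit_cover a ha z.2) (fun i => ?_) c ?_ hz₀ ?_ ?_
  · refine (Topology.IsInducing.subtypeVal.isPreconnected_image).1 ?_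
    have e : Subtype.val '' U i = slit a (if i then -1 else 1) := by
      ext z
      exact ⟨fun ⟨z', h1, h2⟩ => h2 ▸ h1, fun hz => ⟨⟨z, notMem_of_slit a hz⟩, hz, rfl⟩⟩
    have h2 : IsPreconnected (slit a (if i then -1 else 1)) := by
      refine isPreconnected_slit a ?_
      cases i <;> simp
    exact e.symm ▸ h2
  · intro z hz
    have hne := ne_of_slit a hz.1 hz.2
    have h1 : ∀ᶠ z' in 𝓝 z, ∀ j, ((a j).re < z'.1.re ↔ (a j).re < z.1.re) := by
      rw [eventually_all]
      intro j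
      have hc : ContinuousAt (fun z' : {z : ℂ // z ∉ Set.range a} => z'.1.re) z :=
        (Complex.continuous_re.comp continuous_subtype_val).continuousAt
      rcases lt_or_gt_of_ne (hne j) with h | h
      · filter_upwards [hc.eventually (gt_mem_nhds h)] with z' hz'
        exact ⟨fun h' => absurd h' (not_lt.2 hz'.le), fun h' => absurd h' (not_lt.2 h.le)⟩
      · filter_upwards [hc.eventually (lt_mem_nhds h)] with z' hz'
        exact ⟨fun _ => h, fun _ => hz'⟩
    have h2 : c =ᶠ[𝓝 z] fun _ => c z := by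
      filter_upwards [h1] with z' hz'
      exact congrArg (coc w) (funext fun j => propext (hz' j))
    exact (continuousAt_const.congr h2.symm).continuousWithinAt
  · show coc w (fun j => (a j).re < z₀.1.re) = 1
    unfold coc
    rw [dif_neg]
    rintro ⟨i, hi, -⟩
    rw [hz₀'] at hi
    exact lt_asymm hi (hR i)
  · rw [eq_top_iff, ← hw]
    refine Subgroup.closure_mono ?_
    rintro _ ⟨i, rfl⟩
    have h1 : ∀ᶠ t in 𝓝[>] (a i).re, ∀ j, i < j → t < (a j).re := by
      rw [eventually_all]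
      intro j
      by_cases hj : i < j
      · filter_upwards [nhdsWithin_le_nhds (gt_mem_nhds (ha hj))] with t ht _ using ht
      · exact Eventually.of_forall fun t h => absurd h hj
    obtain ⟨t, ht1, ht2⟩ := (h1.and self_mem_nhdsWithin).exists
    have ht2' : (a i).re < t := ht2
    have hne : ∀ j, t ≠ (a j).re := by
      intro j
      rcases lt_or_ge i j with h | h
      · exact (ht1 j h).ne
      · exact (lt_of_le_of_lt (ha.monotone h) ht2').ne'
    obtain ⟨z, hz, hzt⟩ := hpt t hne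
    refine ⟨z, hz, ?_⟩
    show coc w (fun j => (a j).re < z.1.re) = w i
    rw [hzt]
    have hex : ∃ i, (a i).re < t ∧ ∀ j, i < j → ¬ (a j).re < t :=
      ⟨i, ht2', fun j hj => not_lt.2 (ht1 j hj).le⟩
    unfold coc
    rw [dif_pos hex]
    congr 1
    obtain ⟨e1, e2⟩ := hex.choose_spec
    rcases lt_trichotomy hex.choose i with h | h | h
    · exact absurd ht2' (e2 i h)
    · exact h
    · exact absurd e1 (not_lt.2 (ht1 _ h).le)

end plane

end Crest.Agent.T170.RetE
end
end

-- ▼ part T170/RetE4_88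
section

/-!
# Row 170, RET, existence half (helper88), file 4: from a ring with a group action to a Galois
extension of `ℂ(x)`
-/

set_option autoImplicit false

open Polynomial

noncomputable section

namespace Crest.Agent.T170.RetE

open Crest.Agent.T170.Ret

theorem exists_emb {C K L : Type*} [Field C] [Field K] [Field L] [Algebra C K] [Algebra C L]
    {x : K} (hx : IsRat C K x) {z : L} (hz : Transcendental C z) :
    ∃ ι : K →ₐ[C] L, ι x = z := by
  let e1 : RatFunc C ≃ₐ[C] K := (RatFunc.algEquivOfTranscendental x hx.1).trans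
    ((IntermediateField.equivOfEq hx.2).trans IntermediateField.topEquiv)
  have h1 : e1 RatFunc.X = x := RatFunc.algEquivOfTranscendental_X x hx.1
  let e2 : RatFunc C →ₐ[C] L := (IntermediateField.val _).comp
    (RatFunc.algEquivOfTranscendental z hz).toAlgHom
  have h2 : e2 RatFunc.X = z := RatFunc.algEquivOfTranscendental_X z hz
  refine ⟨e2.comp e1.symm.toAlgHom, ?_⟩
  rw [← h2, ← h1]
  simp

theorem alg_step (K : Type) [Field K] [Algebra ℂ K] (x : K) (hx : IsRat ℂ K x)
    (H : Type) [Group H] [Finite H] (R : Type) [CommRing R] [IsDomain R] [Algebra ℂ R]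
    [MulSemiringAction H R] [FaithfulSMul H R]
    (hC : ∀ (g : H) (c : ℂ), g • algebraMap ℂ R c = algebraMap ℂ R c) (z : R)
    (hz : ∀ g : H, g • z = z) (hzt : Transcendental ℂ z)
    (hinv : ∀ f : R, (∀ g : H, g • f = f) →
      ∃ P Q : ℂ[X], Q ≠ 0 ∧ aeval z Q * f = aeval z P)
    (A : Set ℂ)
    (hval : ∀ b, b ∉ A → ∃ v : AddValuation R (WithTop ℤ), (∀ f, f ≠ 0 → v f ≠ ⊤) ∧
      (∀ c : ℂ, c ≠ 0 → v (algebraMap ℂ R c) = 0) ∧ v (z - algebraMap ℂ R b) = 1) :
    ∃ N : IntermediateField K (AlgebraicClosure K), FiniteDimensional K N ∧ IsGalois K N ∧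
      Nonempty ((N ≃ₐ[K] N) ≃* H) ∧ ∀ b : ℂ, b ∉ A → Unr ℂ N (x - algebraMap ℂ K b) := by
  classical
  let L := FractionRing R
  let _ : MulSemiringAction H L := IsFractionRing.mulSemiringAction H R L
  have hinj : Function.Injective (algebraMap R L) := IsFractionRing.injective R L
  have hsm : ∀ (g : H) (r : R), g • algebraMap R L r = algebraMap R L (g • r) := fun g r =>
    (algebraMap.coe_smul' g r L).symm
  let j : R →ₐ[ℂ] L := IsScalarTower.toAlgHom ℂ R L
  have hj : ∀ r, j r = algebraMap R L r := fun _ => rfl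
  have hzt' : Transcendental ℂ (algebraMap R L z) :=
    (transcendental_algebraMap_iff hinj).2 hzt
  obtain ⟨ι, hι⟩ := exists_emb hx hzt'
  have hιp : ∀ P : ℂ[X], ι (aeval x P) = algebraMap R L (aeval z P) := by
    intro P
    rw [← aeval_algHom_apply, hι, ← hj, ← hj, aeval_algHom_apply]
  have hfix : ∀ (g : H) (P : ℂ[X]), g • aeval z P = aeval z P := by
    intro g P
    induction P using Polynomial.induction_on' with
    | add p q e1 e2 => rw [map_add, smul_add, e1, e2]
    | monomial n c => rw [aeval_monomial, smul_mul', smul_pow', hC, hz]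
  let _ : Algebra K L := ι.toRingHom.toAlgebra
  have hKL : ∀ k, algebraMap K L k = ι k := fun _ => rfl
  have hιfix : ∀ (g : H) (k : K), g • ι k = ι k := by
    intro g k
    have hk : k ∈ IntermediateField.adjoin ℂ {x} := by rw [hx.2]; trivial
    obtain ⟨P, Q, rfl⟩ := (IntermediateField.mem_adjoin_simple_iff ℂ k).1 hk
    rw [map_div₀, hιp, hιp, smul_div₀', hsm, hsm, hfix, hfix]
  have hrange : ∀ f : R, (∀ g : H, g • f = f) → ∃ k, ι k = algebraMap R L f := by
    intro f hf
    obtain ⟨P, Q, hQ, e⟩ := hinv f hf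
    have h1 : algebraMap R L (aeval z Q) ≠ 0 := by
      intro h
      exact hzt ⟨Q, hQ, hinj (by rw [h, map_zero])⟩
    refine ⟨aeval x P / aeval x Q, ?_⟩
    rw [map_div₀, hιp, hιp, ← e, map_mul, mul_div_cancel_left₀ _ h1]
  have hG : IsGaloisGroup H K L := by
    refine ⟨IsFractionRing.faithfulSMul H R L, ⟨fun g k u => ?_⟩, ⟨fun u hu => ?_⟩⟩
    · rw [Algebra.smul_def, Algebra.smul_def, smul_mul', hKL, hιfix]
    · have := Fintype.ofFinite H
      obtain ⟨f, d, hd, rfl⟩ := IsFractionRing.div_surjective R u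
      have hd0 : d ≠ 0 := nonZeroDivisors.ne_zero hd
      have hN : ∀ g : H, g • ∏ h : H, h • d = ∏ h : H, h • d := fun g =>
        Finset.smul_prod_perm d g
      have hN0 : ∏ h : H, h • d ≠ 0 := Finset.prod_ne_zero_iff.2 fun h _ => by
        rwa [Ne, smul_eq_zero_iff_eq]
      obtain ⟨e, he⟩ : d ∣ ∏ h : H, h • d := by
        have := Finset.dvd_prod_of_mem (fun h : H => h • d) (Finset.mem_univ 1)
        rwa [one_smul] at this
      have hd1 : algebraMap R L d ≠ 0 := fun h => hd0 (hinj (by rw [h, map_zero]))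
      have hN1 : algebraMap R L (∏ h : H, h • d) ≠ 0 := fun h => hN0 (hinj (by rw [h, map_zero]))
      have e1 : algebraMap R L f / algebraMap R L d * algebraMap R L (∏ h : H, h • d) =
          algebraMap R L (f * e) := by
        rw [he, map_mul, map_mul, ← mul_assoc, div_mul_cancel₀ _ hd1]
      obtain ⟨k1, hk1⟩ := hrange (f * e) fun g => hinj (by
        rw [← hsm, ← e1, smul_mul', hu g, hsm, hN])
      obtain ⟨k2, hk2⟩ := hrange _ hN
      refine ⟨k1 / k2, ?_⟩
      rw [hKL, map_div₀, hk1, hk2, ← e1, mul_div_cancel_right₀ _ hN1]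
  have hfd : FiniteDimensional K L := IsGaloisGroup.finiteDimensional H K L
  have hgal : IsGalois K L := IsGaloisGroup.isGalois H K L
  let φ : L →ₐ[K] AlgebraicClosure K := IsAlgClosed.lift
  let e : L ≃ₐ[K] φ.fieldRange := AlgEquiv.ofInjectiveField φ
  refine ⟨φ.fieldRange, e.toLinearEquiv.finiteDimensional, IsGalois.of_algEquiv e,
    ⟨(AlgEquiv.autCongr e).symm.trans (IsGaloisGroup.mulEquivAlgEquiv H K L).symm⟩, ?_⟩
  intro b hb
  obtain ⟨v, h1, h2, h3⟩ := hval b hb
  have hS : nonZeroDivisors R ≤ (AddValuation.toValuation v).supp.primeCompl := by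
    intro f hf h
    exact h1 f (nonZeroDivisors.ne_zero hf) h
  let v' : AV L := AddValuation.ofValuation
    ((AddValuation.toValuation v).extendToLocalization hS L)
  have hv' : ∀ r, v' (algebraMap R L r) = v r := fun r =>
    congrArg (fun t => OrderDual.ofDual (Multiplicative.toAdd t))
      (Valuation.extendToLocalization_apply_map_apply (AddValuation.toValuation v) hS L r)
  have hcomp : ∀ k : K, ((v'.comap e.symm.toRingEquiv.toRingHom).comap
      (algebraMap K φ.fieldRange)) k = v' (ι k) := by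
    intro k
    show v' (e.symm (algebraMap K _ k)) = _
    rw [e.symm.commutes, hKL]
  refine ⟨v'.comap e.symm.toRingEquiv.toRingHom, fun c hc => ?_, ?_⟩
  · rw [hcomp, ι.commutes, IsScalarTower.algebraMap_apply ℂ R L, hv', h2 c hc]
  · rw [hcomp, map_sub, hι, ι.commutes, IsScalarTower.algebraMap_apply ℂ R L, ← map_sub, hv', h3]
    rfl

end Crest.Agent.T170.RetE
end
end

-- ▼ part T170/RetE5_88

/-!
# Row 170, RET, existence half (helper88), file 5: **`EStmt`**
-/

set_option autoImplicit false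

open Set Filter Topology Function Metric Asymptotics Polynomial

namespace Crest.Agent.T170.RetE

noncomputable section

open Crest.Agent.R257.RS_176 Crest.Agent.T170.Ret

theorem fl_le_cofinite (c : Option ℂ) : fl c ≤ cofinite := by
  cases c with
  | none => exact Bornology.le_cofinite ℂ
  | some a => exact nhdsNE_le_cofinite a

theorem sub_isBigO (c : Option ℂ) (s : ℂ) : (fun z => z - s) =O[fl c] fun w => big c w := by
  have h1 : (fun _ : ℂ => (1 : ℂ)) =O[fl c] fun w => big c w := by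
    refine IsBigO.of_bound' ?_
    filter_upwards [(tendsto_big c).eventually_ge_atTop 1] with x hx
    rwa [norm_one]
  cases c with
  | none => exact (isBigO_refl _ _).sub ((isBigO_const_one ℂ s _).trans h1)
  | some a =>
    have h2 : Tendsto (fun z : ℂ => z - s) (fl (some a)) (𝓝 (a - s)) :=
      ((continuous_id.sub continuous_const).continuousAt (x := a)).tendsto.mono_left
        nhdsWithin_le_nhds
    exact (h2.isBigO_one ℂ).trans h1

/-- entire functions of polynomial growth -/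
theorem poly_of_entire (k : ℕ) : ∀ F : ℂ → ℂ, Differentiable ℂ F →
    (F =O[Bornology.cobounded ℂ] fun z => z ^ k) → ∃ P : ℂ[X], ∀ z, F z = P.eval z := by
  induction k with
  | zero =>
    intro F hF h
    have h1 : Bornology.IsBounded (range F) := by
      rw [hF.continuous.isBounded_range_iff_isBigO, ← Metric.cobounded_eq_cocompact]
      refine h.trans (IsBigO.of_bound' (Eventually.of_forall fun z => ?_))
      simp
    obtain ⟨c, hc⟩ := hF.exists_const_forall_eq_of_bounded h1
    exact ⟨C c, fun z => by rw [hc, eval_C]⟩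
  | succ k ih =>
    intro F hF h
    have h1 : Differentiable ℂ (dslope F 0) := by
      rw [← differentiableOn_univ, Complex.differentiableOn_dslope univ_mem]
      exact hF.differentiableOn
    have hne : ∀ᶠ z : ℂ in Bornology.cobounded ℂ, z ≠ 0 :=
      Bornology.le_cofinite ℂ (eventually_cofinite_ne 0)
    have h2 : (fun _ : ℂ => F 0) =O[Bornology.cobounded ℂ] fun z => z ^ (k + 1) := by
      refine (isBigO_const_one ℂ _ _).trans (IsBigO.of_bound' ?_)
      filter_upwards [(tendsto_norm_cobounded_atTop (E := ℂ)).eventually_ge_atTop 1] with x hx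
      rw [norm_one, norm_pow]
      exact one_le_pow₀ hx
    have h3 := (isBigO_refl (fun z : ℂ => z⁻¹) (Bornology.cobounded ℂ)).mul (h.sub h2)
    have h4 : dslope F 0 =O[Bornology.cobounded ℂ] fun z => z ^ k := by
      refine h3.congr' ?_ ?_
      · filter_upwards [hne] with z hz
        rw [dslope_of_ne _ hz, slope_def_field, sub_zero, div_eq_inv_mul]
      · filter_upwards [hne] with z hz
        rw [pow_succ', ← mul_assoc, inv_mul_cancel₀ hz, one_mul]
    obtain ⟨P, hP⟩ := ih _ h1 h4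
    refine ⟨C (F 0) + X * P, fun z => ?_⟩
    have h5 := sub_smul_dslope F 0 z
    rw [eval_add, eval_C, eval_mul, eval_X, ← hP]
    rw [sub_zero, smul_eq_mul] at h5
    rw [h5]
    ring

/-- functions of moderate growth on the punctured plane are rational -/
theorem rational_of_mod (S : Finset ℂ) : ∀ q : ℂ → ℂ, (∀ z, z ∉ S → DifferentiableAt ℂ q z) →
    (∀ c : Option ℂ, (∀ a, c = some a → a ∈ S) → ∃ k : ℕ, q =O[fl c] fun w => big c w ^ k) →
    ∃ P Q : ℂ[X], Q ≠ 0 ∧ ∀ z, z ∉ S → Q.eval z * q z = P.eval z := by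
  classical
  induction S using Finset.induction_on with
  | empty =>
    intro q hd hm
    obtain ⟨k, hk⟩ := hm none (by simp)
    obtain ⟨P, hP⟩ := poly_of_entire k q (fun z => hd z (by simp)) hk
    exact ⟨P, 1, one_ne_zero, fun z _ => by rw [eval_one, one_mul, hP]⟩
  | insert s S hs ih =>
    intro q hd hm
    obtain ⟨k, hk⟩ := hm (some s) (by simp)
    let q' : ℂ → ℂ := fun z => (z - s) ^ (k + 1) * q z
    have hoff : ∀ z, z ∉ insert s S → DifferentiableAt ℂ q' z := fun z hz =>
      ((differentiableAt_id.sub_const s).pow _).mul (hd z hz)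
    refine (ih q' (fun z hz => ?_) fun c hc => ?_).elim fun P h => ?_
    rotate_left 2
    · obtain ⟨Q, hQ, e⟩ := h
      refine ⟨P, Q * (X - C s) ^ (k + 1), mul_ne_zero hQ (pow_ne_zero _ (X_sub_C_ne_zero s)),
        fun z hz => ?_⟩
      rw [← e z fun h => hz (Finset.mem_insert_of_mem h)]
      simp only [eval_mul, eval_pow, eval_sub, eval_X, eval_C, q']
      ring
    · by_cases hzs : z = s
      · subst hzs
        refine (Complex.analyticAt_of_differentiable_on_punctured_nhds_of_continuousAt ?_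
          ?_).differentiableAt
        · filter_upwards [fl_le_cofinite (some z) (insert z S).finite_toSet.compl_mem_cofinite]
            with y hy
          exact hoff y hy
        · rw [← continuousWithinAt_compl_self]
          have h0 : q' z = 0 := by simp [q']
          show Tendsto q' (𝓝[≠] z) (𝓝 (q' z))
          rw [h0]
          have h1 := (isBigO_refl (fun w : ℂ => (w - z) ^ (k + 1)) (fl (some z))).mul hk
          have h2 : q' =O[𝓝[≠] z] fun w => w - z := by
            refine h1.congr' (Eventually.of_forall fun _ => rfl) ?_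
            filter_upwards [self_mem_nhdsWithin] with w hw
            have h3 : w - z ≠ 0 := sub_ne_zero.2 hw
            show (w - z) ^ (k + 1) * (w - z)⁻¹ ^ k = w - z
            rw [pow_succ', mul_assoc, ← mul_pow, mul_inv_cancel₀ h3, one_pow, mul_one]
          refine h2.trans_tendsto ?_
          have : Tendsto (fun w : ℂ => w - z) (𝓝 z) (𝓝 (z - z)) :=
            (continuous_id.sub continuous_const).continuousAt
          rw [sub_self] at this
          exact this.mono_left nhdsWithin_le_nhds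
      · exact hoff z (by simp [hzs, hz])
    · obtain ⟨l, hl⟩ := hm c fun a ha => Finset.mem_insert_of_mem (hc a ha)
      exact ⟨k + 1 + l, (((sub_isBigO c s).pow (k + 1)).mul hl).congr_right fun w =>
        (pow_add _ _ _).symm⟩

variable {X : Type} [TopologicalSpace X] (T : Srf X)

/-- the ring of holomorphic functions of moderate growth -/
def MR : Subalgebra ℂ (X → ℂ) where
  carrier := {f | T.Hol f ∧ Mod T f}
  mul_mem' hf hg := ⟨hf.1.mul hg.1, hf.2.mul hg.2⟩
  add_mem' hf hg := ⟨hf.1.add hg.1, hf.2.add hg.2⟩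
  algebraMap_mem' c := ⟨Srf.Hol.const T c, Mod.const c⟩

/-- the coordinate -/
def zR : MR T := ⟨T.pr, Srf.Hol.comp_pr (q := id) fun _ _ => differentiableAt_id, Mod.pr⟩

theorem aeval_zR (P : ℂ[X]) (x : X) : (aeval (zR T) P : MR T).1 x = P.eval (T.pr x) := by
  have h := aeval_algHom_apply ((Pi.evalAlgHom ℂ (fun _ : X => ℂ) x).comp (MR T).val) (zR T) P
  rw [← coe_aeval_eq_eval]
  exact h.symm

variable {T}

theorem analyticAt_sec {f : X → ℂ} (hf : T.Hol f) (s : T.SecD) {z : ℂ} (hz : z ∈ ball s.w s.r) :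
    AnalyticAt ℂ (fun z => f (s.s z)) z :=
  (hf _ _ _ s.cont s.sec).analyticAt (isOpen_ball.mem_nhds hz)

theorem eq_zero_of_sec [T2Space X] [PreconnectedSpace X] {f : X → ℂ} (hf : T.Hol f) (s : T.SecD)
    {z : ℂ} (hz : z ∈ ball s.w s.r) (h : ∀ᶠ y in 𝓝[≠] z, f (s.s y) = 0) : f = 0 := by
  have h1 : ∀ᶠ y in 𝓝 z, f (s.s y) = 0 :=
    (analyticAt_sec hf s hz).frequently_zero_iff_eventually_zero.1 h.frequently
  have h2 : ∀ᶠ y in 𝓝 (s.s z), f y = 0 := by
    rw [← T.map_nhds_sec s hz]
    exact h1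
  exact funext (hf.eq_zero h2)

/-- the order at a point -/
def ordV (s : T.SecD) {z : ℂ} (hz : z ∈ ball s.w s.r) : AddValuation (MR T) (WithTop ℤ) :=
  AddValuation.of (fun f => meromorphicOrderAt (fun y => f.1 (s.s y)) z)
    (meromorphicOrderAt_eq_top_iff.2 (Eventually.of_forall fun _ => rfl))
    (by
      classical
      exact (meromorphicOrderAt_const z (1 : ℂ)).trans (if_neg one_ne_zero))
    (fun f g => meromorphicOrderAt_add (analyticAt_sec f.2.1 s hz).meromorphicAt
      (analyticAt_sec g.2.1 s hz).meromorphicAt)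
    (fun f g => meromorphicOrderAt_mul (analyticAt_sec f.2.1 s hz).meromorphicAt
      (analyticAt_sec g.2.1 s hz).meromorphicAt)

theorem ordV_apply (s : T.SecD) {z : ℂ} (hz : z ∈ ball s.w s.r) (f : MR T) :
    ordV s hz f = meromorphicOrderAt (fun y => f.1 (s.s y)) z := rfl

theorem ordV_ne_top [T2Space X] [PreconnectedSpace X] (s : T.SecD) {z : ℂ}
    (hz : z ∈ ball s.w s.r) {f : MR T} (hf : f ≠ 0) : ordV s hz f ≠ ⊤ := fun h =>
  hf (Subtype.ext (eq_zero_of_sec f.2.1 s hz (meromorphicOrderAt_eq_top_iff.1 h)))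

theorem isDomain_MR [T2Space X] [ConnectedSpace X] : IsDomain (MR T) := by
  obtain ⟨x⟩ : Nonempty X := inferInstance
  obtain ⟨s, hr, -, -⟩ := T.exists_secD x
  have hz : s.w ∈ ball s.w s.r := mem_ball_self hr
  have h1 : NoZeroDivisors (MR T) := by
    refine ⟨fun {f g} h => ?_⟩
    by_contra hne
    rw [not_or] at hne
    have h2 := (ordV s hz).map_mul f g
    rw [h, AddValuation.map_zero] at h2
    exact WithTop.add_ne_top.2 ⟨ordV_ne_top s hz hne.1, ordV_ne_top s hz hne.2⟩ h2.symm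
  have h2 : Nontrivial (MR T) := ⟨0, 1, fun h => by
    have := congrFun (congrArg Subtype.val h) x
    simp at this⟩
  exact NoZeroDivisors.to_isDomain _

/-- the action of the deck group -/
@[reducible] def actR {H : Type} [Group H] [MulAction H X]
    (hc : ∀ g : H, Continuous fun y : X => g • y) (ho : ∀ (g : H) (y : X), T.pr (g • y) = T.pr y) :
    MulSemiringAction H (MR T) where
  smul g f := ⟨fun x => f.1 (g⁻¹ • x), fun w r s h1 h2 =>
    f.2.1 w r (fun z => g⁻¹ • s z) ((hc g⁻¹).comp_continuousOn h1)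
      (fun z hz => (ho _ _).trans (h2 z hz)), f.2.2.comp (ho g⁻¹)⟩
  one_smul f := Subtype.ext (funext fun x => by
    show f.1 ((1 : H)⁻¹ • x) = f.1 x
    rw [inv_one, one_smul])
  mul_smul g g' f := Subtype.ext (funext fun x => by
    show f.1 ((g * g')⁻¹ • x) = f.1 (g'⁻¹ • g⁻¹ • x)
    rw [mul_inv_rev, mul_smul])
  smul_zero _ := rfl
  smul_add _ _ _ := rfl
  smul_one _ := rfl
  smul_mul _ _ _ := rfl

/-- **existence half of the Riemann existence theorem** -/
theorem eStmt : EStmt := by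
  classical
  intro K _ _ x hx m a ha H _ _ w hw
  obtain ⟨Y, _, _, _, _, p, hp⟩ := exists_cover_plane a ha H w hw
    ((Finset.univ.image a : Finset ℂ) : Set ℂ) (by simp)
  obtain ⟨T, hT, hS⟩ := Crest.Agent.R257.Cpt1_419.exists_srf
    (S := Finset.univ.image a) (X := Y) ⟨p, hp.cl, hp.lh, hp.fin⟩
  have hT' : ∀ y, T.pr y = (p y).1 := congrFun hT
  have ho : ∀ (g : H) (y : Y), T.pr (g • y) = T.pr y := fun g y => by rw [hT', hT', hp.ovr]
  have htr : ∀ y y', T.pr y = T.pr y' → ∃ g : H, g • y = y' := fun y y' h =>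
    hp.trans y y' (Subtype.ext (by rwa [hT', hT'] at h))
  have hsurj : ∀ z, z ∉ T.S → ∃ y, T.pr y = z := by
    intro z hz
    rw [hS] at hz
    obtain ⟨y, hy⟩ := hp.surj ⟨z, hz⟩
    exact ⟨y, by rw [hT', hy]⟩
  let _ : MulSemiringAction H (MR T) := actR hp.cont ho
  have hsm : ∀ (g : H) (f : MR T) (y : Y), (g • f).1 y = f.1 (g⁻¹ • y) := fun _ _ _ => rfl
  have : IsDomain (MR T) := isDomain_MR
  obtain ⟨y₀⟩ : Nonempty Y := inferInstance
  have : FaithfulSMul H (MR T) := by
    refine ⟨fun {g g'} h => ?_⟩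
    obtain ⟨G, h1, h2, h3, h4⟩ := exists_sep (T := T) y₀
    have h5 := congrFun (congrArg Subtype.val (h ⟨G, h1, h2⟩)) (g • y₀)
    rw [hsm, hsm, inv_smul_smul] at h5
    have h6 : g'⁻¹ • g • y₀ = y₀ := by
      by_contra hne
      exact h3 (h5.trans (h4 _ hne (by rw [ho, ho])))
    rw [← mul_smul] at h6
    exact (inv_mul_eq_one.1 (hp.free _ _ h6)).symm
  refine alg_step K x hx H (MR T) (fun _ _ => rfl) (zR T)
    (fun g => Subtype.ext (funext fun y => ho g⁻¹ y)) ?_ ?_ (range a) ?_
  · rintro ⟨P, hP, h⟩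
    refine hP (P.eq_zero_of_infinite_isRoot (T.S.finite_toSet.infinite_compl.mono ?_))
    intro z hz
    obtain ⟨y, rfl⟩ := hsurj z hz
    show P.eval (T.pr y) = 0
    rw [← aeval_zR, h]
    rfl
  · intro f hf
    choose! sec hsec using hsurj
    have hq : ∀ y, f.1 (sec (T.pr y)) = f.1 y := by
      intro y
      obtain ⟨g, hg⟩ := htr (sec (T.pr y)) y (hsec _ (T.pr_notMem y))
      have h1 := hsm g f y
      rw [hf g, ← hg, inv_smul_smul, hg] at h1
      exact h1.symm
    refine (rational_of_mod T.S (fun z => f.1 (sec z)) (fun z hz => ?_)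
      fun c hc => ?_).elim fun P h => ?_
    rotate_left 2
    · obtain ⟨Q, hQ, e⟩ := h
      refine ⟨P, Q, hQ, Subtype.ext (funext fun y => ?_)⟩
      show (aeval (zR T) Q : MR T).1 y * f.1 y = _
      rw [aeval_zR, aeval_zR, ← e _ (T.pr_notMem y), hq]
    · obtain ⟨s, hr, hw, -⟩ := T.exists_secD (sec z)
      rw [hsec z hz] at hw
      have hz' : z ∈ ball s.w s.r := by rw [hw]; exact mem_ball_self hr
      refine (analyticAt_sec f.2.1 s hz').differentiableAt.congr_of_eventuallyEq ?_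
      filter_upwards [isOpen_ball.mem_nhds hz'] with y hy
      rw [← hq (s.s y), s.sec y hy]
    · obtain ⟨k, hk⟩ := f.2.2 c hc
      have h1 : ∀ᶠ z in fl c, T.pr (sec z) = z := by
        filter_upwards [fl_le_cofinite c T.S.finite_toSet.compl_mem_cofinite] with z hz
        exact hsec z hz
      have h2 : Tendsto sec (fl c) (comap T.pr (fl c)) :=
        tendsto_comap_iff.2 (tendsto_id.congr' (h1.mono fun z hz => hz.symm))
      refine ⟨k, (hk.comp_tendsto h2).congr' (Eventually.of_forall fun _ => rfl) ?_⟩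
      filter_upwards [h1] with z hz
      show big c (T.pr (sec z)) ^ k = _
      rw [hz]
  · intro b hb
    obtain ⟨y, hy⟩ := hsurj b (by rw [hS]; simpa using hb)
    obtain ⟨s, hr, hw, -⟩ := T.exists_secD y
    rw [hy] at hw
    have hz : b ∈ ball s.w s.r := by rw [hw]; exact mem_ball_self hr
    refine ⟨ordV s hz, fun f hf => ordV_ne_top s hz hf, fun c hc => ?_, ?_⟩
    · exact (meromorphicOrderAt_const b c).trans (if_neg hc)
    · rw [ordV_apply]
      refine (meromorphicOrderAt_congr (f₂ := fun y => y - b) ?_).trans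
        meromorphicOrderAt_id_sub_const
      filter_upwards [nhdsWithin_le_nhds (isOpen_ball.mem_nhds hz)] with y hy
      show T.pr (s.s y) - b = y - b
      rw [s.sec y hy]

end

end Crest.Agent.T170.RetE
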